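import Vale.Agent.P277Z.Hir.BSk

/-!
# P277, resolution, global part: the calculus of arrows
-/

open Filter Topology Set Function

noncomputable section

namespace Vale.Agent.P277Z.Hir.Gl

open L (Le IsCo Ass sl)

set_option linter.unusedSectionVars false

section cmp
variable {T T' : Type} {l : Filter T} {f g h : T → ℝ}

theorem Cmp.refl (l : Filter T) (f : T → ℝ) : Cmp l f f :=
  ⟨1, one_pos, Eventually.of_forall fun z => ⟨by simp, by simp⟩⟩

theorem Cmp.of_eq (hf : f =ᶠ[l] g) : Cmp l f g :=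
  ⟨1, one_pos, hf.mono fun z hz => ⟨by simp [hz], by simp [hz]⟩⟩

theorem Cmp.symm (H : Cmp l f g) : Cmp l g f :=
  let ⟨c, hc, H⟩ := H; ⟨c, hc, H.mono fun _ hz => hz.symm⟩

theorem Cmp.trans (H : Cmp l f g) (H' : Cmp l g h) : Cmp l f h := by
  obtain ⟨c, hc, H⟩ := H
  obtain ⟨c', hc', H'⟩ := H'
  refine ⟨c * c', mul_pos hc hc', (H.and H').mono fun z hz => ⟨?_, ?_⟩⟩
  · rw [mul_assoc]; exact hz.1.1.trans (mul_le_mul_of_nonneg_left hz.2.1 hc.le)
  · rw [mul_comm c, mul_assoc]; exact hz.2.2.trans (mul_le_mul_of_nonneg_left hz.1.2 hc'.le)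

theorem Cmp.comp {l' : Filter T'} {φ : T' → T} (H : Cmp l f g) (hφ : Tendsto φ l' l) :
    Cmp l' (fun z => f (φ z)) fun z => g (φ z) :=
  let ⟨c, hc, H⟩ := H; ⟨c, hc, hφ.eventually H⟩

theorem Cmp.mono {l' : Filter T} (H : Cmp l f g) (hl : l' ≤ l) : Cmp l' f g :=
  let ⟨c, hc, H⟩ := H; ⟨c, hc, hl H⟩

theorem Cmp.congr {f' g' : T → ℝ} (H : Cmp l f g) (hf : f =ᶠ[l] f') (hg : g =ᶠ[l] g') :
    Cmp l f' g' :=
  ((Cmp.of_eq hf).symm.trans H).trans (Cmp.of_eq hg)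

theorem Cmp.mul {f' g' : T → ℝ} (H : Cmp l f g) (H' : Cmp l f' g') (hf : ∀ z, 0 ≤ f z)
    (hg : ∀ z, 0 ≤ g z) (hf' : ∀ z, 0 ≤ f' z) (hg' : ∀ z, 0 ≤ g' z) :
    Cmp l (fun z => f z * f' z) fun z => g z * g' z := by
  obtain ⟨c, hc, H⟩ := H
  obtain ⟨c', hc', H'⟩ := H'
  refine ⟨c * c', mul_pos hc hc', (H.and H').mono fun z hz => ⟨?_, ?_⟩⟩
  · calc f z * f' z ≤ (c * g z) * (c' * g' z) :=
          mul_le_mul hz.1.1 hz.2.1 (hf' z) (mul_nonneg hc.le (hg z))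
      _ = _ := by ring
  · calc g z * g' z ≤ (c * f z) * (c' * f' z) :=
          mul_le_mul hz.1.2 hz.2.2 (hg' z) (mul_nonneg hc.le (hf z))
      _ = _ := by ring

theorem Cmp.ev [TopologicalSpace T] {u : T} (H : Cmp (𝓝 u) f g) : ∀ᶠ z in 𝓝 u, Cmp (𝓝 z) f g :=
  let ⟨c, hc, H⟩ := H; H.eventually_nhds.mono fun _ hz => ⟨c, hc, hz⟩

/-- two continuous positive functions are comparable -/
theorem Cmp.of_pos [TopologicalSpace T] {u : T} (hf : ContinuousAt f u) (hg : ContinuousAt g u)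
    (hf0 : 0 < f u) (hg0 : 0 < g u) : Cmp (𝓝 u) f g := by
  have key : ∀ {f g : T → ℝ}, ContinuousAt f u → ContinuousAt g u → 0 < f u → 0 < g u →
      ∀ c, f u / g u < c → ∀ᶠ z in 𝓝 u, f z ≤ c * g z := by
    intro f g hf hg _ hg0 c hc
    have : f u < c * g u := by rwa [div_lt_iff₀ hg0] at hc
    exact (hf.eventually_lt (continuousAt_const.mul hg) this).mono fun z hz => hz.le
  have h1 := div_pos hf0 hg0
  have h2 := div_pos hg0 hf0
  exact ⟨f u / g u + g u / f u, by positivity, (key hf hg hf0 hg0 _ (by linarith)).and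
    (key hg hf hg0 hf0 _ (by linarith))⟩

end cmp

variable {ι X : Type} [Fintype ι] [DecidableEq ι]

section ass
variable {f g h : (ι → ℂ) → ℂ} {q : ι → ℂ}

theorem ass_refl (f : (ι → ℂ) → ℂ) (q : ι → ℂ) : Ass f f q :=
  ⟨fun _ => 1, analyticAt_const, one_ne_zero, Eventually.of_forall fun z => by simp⟩

theorem ass_symm (H : Ass f g q) : Ass g f q := by
  obtain ⟨u, hu, hu0, H⟩ := H
  refine ⟨fun z => (u z)⁻¹, hu.inv hu0, inv_ne_zero hu0, ?_⟩
  filter_upwards [H, hu.continuousAt.eventually_ne hu0] with z hz hz0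
  rw [hz, ← mul_assoc, inv_mul_cancel₀ hz0, one_mul]

theorem ass_trans (H : Ass f g q) (H' : Ass g h q) : Ass f h q := by
  obtain ⟨u, hu, hu0, H⟩ := H
  obtain ⟨v, hv, hv0, H'⟩ := H'
  refine ⟨fun z => u z * v z, hu.mul hv, mul_ne_zero hu0 hv0, ?_⟩
  filter_upwards [H, H'] with z hz hz'
  rw [hz, hz', mul_assoc]

theorem ass_congr {f' g' : (ι → ℂ) → ℂ} (H : Ass f g q) (hf : f =ᶠ[𝓝 q] f') (hg : g =ᶠ[𝓝 q] g') :
    Ass f' g' q := by
  obtain ⟨u, hu, hu0, H⟩ := H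
  refine ⟨u, hu, hu0, ?_⟩
  filter_upwards [H, hf, hg] with z h1 h2 h3
  rw [← h2, h1, h3]

theorem ass_comp {ι' : Type} [Fintype ι'] [DecidableEq ι'] {Φ : (ι' → ℂ) → ι → ℂ} {p : ι' → ℂ}
    (H : Ass f g (Φ p)) (hΦ : AnalyticAt ℂ Φ p) : Ass (fun z => f (Φ z)) (fun z => g (Φ z)) p := by
  obtain ⟨u, hu, hu0, H⟩ := H
  exact ⟨fun z => u (Φ z), hu.comp hΦ, hu0, hΦ.continuousAt.tendsto.eventually H⟩

theorem ass_ev (H : Ass f g q) : ∀ᶠ z in 𝓝 q, Ass f g z := by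
  obtain ⟨u, hu, hu0, H⟩ := H
  filter_upwards [H.eventually_nhds, hu.eventually_analyticAt, hu.continuousAt.eventually_ne hu0]
    with z h1 h2 h3
  exact ⟨u, h2, h3, h1⟩

theorem ass_ne (H : Ass f g q) : f q ≠ 0 ↔ g q ≠ 0 := by
  obtain ⟨u, -, hu0, H⟩ := H
  rw [H.self_of_nhds]
  simp [hu0]

theorem ass_of_ne (hf : AnalyticAt ℂ f q) (hg : AnalyticAt ℂ g q) (hf0 : f q ≠ 0) (hg0 : g q ≠ 0) :
    Ass f g q := by
  refine ⟨fun z => f z / g z, hf.div hg hg0, div_ne_zero hf0 hg0, ?_⟩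
  filter_upwards [hg.continuousAt.eventually_ne hg0] with z hz
  rw [div_mul_cancel₀ _ hz]

theorem ass_cmp (H : Ass f g q) (e : ℝ) :
    Cmp (𝓝 q) (fun z => ‖f z‖ ^ e) fun z => ‖g z‖ ^ e := by
  obtain ⟨u, hu, hu0, H⟩ := H
  have h0 : 0 < ‖u q‖ := norm_pos_iff.2 hu0
  have h1 : Cmp (𝓝 q) (fun z => ‖u z‖ ^ e) fun _ => 1 :=
    Cmp.of_pos (hu.continuousAt.norm.rpow_const (Or.inl h0.ne')) continuousAt_const
      (Real.rpow_pos_of_pos h0 e) one_pos
  have h2 := h1.mul (Cmp.refl (𝓝 q) fun z => ‖g z‖ ^ e)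
    (fun z => by positivity) (fun _ => zero_le_one) (fun z => by positivity) fun z => by positivity
  refine h2.congr (H.mono fun z hz => ?_) (Eventually.of_forall fun z => one_mul _)
  simp only [hz, norm_mul, Real.mul_rpow (norm_nonneg _) (norm_nonneg _)]

end ass

namespace Ch
variable (C : Ch ι X)

theorem s_an (j : ℕ) (z : ι → ℂ) : AnalyticAt ℂ (C.s j) z :=
  Finset.analyticAt_fun_prod _ fun l _ => (ContinuousLinearMap.proj (R := ℂ) l).analyticAt z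

theorem s_of_lab (hl : ∀ l l', C.lab l ≠ 0 → C.lab l' = C.lab l → l' = l) {l : ι}
    (h : C.lab l ≠ 0) : C.s (C.lab l) = fun z => z l := by
  funext z
  have : Finset.univ.filter (fun l' => C.lab l' = C.lab l) = {l} := by
    ext l'
    simp only [Finset.mem_filter, Finset.mem_univ, true_and, Finset.mem_singleton]
    exact ⟨hl l l' h, fun h => h ▸ rfl⟩
  simp [s, this]

theorem s_of_not {j : ℕ} (h : ∀ l, C.lab l ≠ j) : C.s j = fun _ => 1 := by
  funext z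
  simp [s, Finset.filter_eq_empty_iff.2 fun l _ => h l]

theorem s_eq_zero {j : ℕ} {z : ι → ℂ} : C.s j z = 0 ↔ ∃ l, C.lab l = j ∧ z l = 0 := by
  simp [s, Finset.prod_eq_zero_iff]

theorem mem_E {z : ι → ℂ} : z ∈ C.E ↔ ∃ j, j ≠ 0 ∧ C.s j z = 0 := by
  simp only [s_eq_zero, E, mem_ofPred_eq]
  exact ⟨fun ⟨l, h1, h2⟩ => ⟨_, h1, l, rfl, h2⟩, fun ⟨j, h1, l, h2, h3⟩ => ⟨l, h2 ▸ h1, h3⟩⟩

theorem nF_nonneg (z : ι → ℂ) : 0 ≤ C.nF z := Finset.sum_nonneg fun _ _ => norm_nonneg _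

theorem nF_eq_zero {z : ι → ℂ} : C.nF z = 0 ↔ ∀ k, C.F k z = 0 := by
  simp [nF, Finset.sum_eq_zero_iff_of_nonneg]

theorem mon_nonneg (ex : ℕ → ℝ) (z : ι → ℂ) : 0 ≤ C.mon ex z :=
  Finset.prod_nonneg fun _ _ => by positivity

theorem mon_eq (ex : ℕ → ℝ) {J : Finset ℕ} (h0 : 0 ∉ J) (hJ : ∀ l, C.lab l ≠ 0 → C.lab l ∈ J)
    (z : ι → ℂ) : C.mon ex z = ∏ j ∈ J, ‖C.s j z‖ ^ ex j := by
  unfold mon s
  rw [← Finset.prod_fiberwise_of_maps_to (g := C.lab) (t := J)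
    (fun l hl => hJ l (Finset.mem_filter.1 hl).2)]
  refine Finset.prod_congr rfl fun j hj => ?_
  have hj0 : j ≠ 0 := fun h => h0 (h ▸ hj)
  rw [norm_prod, ← Real.finsetProd_rpow _ _ fun _ _ => norm_nonneg _, Finset.filter_filter]
  refine Finset.prod_congr ?_ fun l hl => by rw [(Finset.mem_filter.1 hl).2]
  ext l
  simp only [Finset.mem_filter, Finset.mem_univ, true_and, and_iff_right_iff_imp]
  exact fun h => h ▸ hj0

end Ch

namespace Arr
variable {C C' C'' : Ch ι X} {u u' u'' : ι → ℂ} {Φ Ψ Φ' Ψ' : (ι → ℂ) → ι → ℂ}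

theorem refl (C : Ch ι X) (u : ι → ℂ) : Arr C u C u id id where
  an := analyticAt_id
  an' := analyticAt_id
  val := rfl
  left := Eventually.of_forall fun _ => rfl
  right := Eventually.of_forall fun _ => rfl
  mem := Eventually.of_forall fun _ => Iff.rfl
  pi := Eventually.of_forall fun _ _ => rfl
  div := fun _ _ => ass_refl _ _
  cmp := Cmp.refl _ _

theorem val' (h : Arr C u C' u' Φ Ψ) : Ψ u' = u := h.val ▸ h.left.self_of_nhds

theorem tendsto (h : Arr C u C' u' Φ Ψ) : Tendsto Φ (𝓝 u) (𝓝 u') :=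
  h.val ▸ h.an.continuousAt.tendsto

theorem tendsto' (h : Arr C u C' u' Φ Ψ) : Tendsto Ψ (𝓝 u') (𝓝 u) :=
  h.val' ▸ h.an'.continuousAt.tendsto

theorem symm (h : Arr C u C' u' Φ Ψ) : Arr C' u' C u Ψ Φ where
  an := h.an'
  an' := h.an
  val := h.val'
  left := h.right
  right := h.left
  mem := by
    filter_upwards [h.tendsto'.eventually h.mem, h.right] with z h1 h2
    rw [← h1, h2]
  pi := by
    filter_upwards [h.tendsto'.eventually h.mem, h.tendsto'.eventually h.pi, h.right] with z h1 h2 h3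
      hz
    rw [← h2 (h1.1 (h3.symm ▸ hz)), h3]
  div := fun j hj =>
    ass_congr (ass_symm (ass_comp (Φ := Ψ) (p := u') (h.val'.symm ▸ h.div j hj) h.an'))
      EventuallyEq.rfl (h.right.mono fun z hz => by simp only [hz])
  cmp := (h.cmp.comp h.tendsto').symm.congr EventuallyEq.rfl
    (h.right.mono fun z hz => by simp only [hz])

theorem trans (h : Arr C u C' u' Φ Ψ) (h' : Arr C' u' C'' u'' Φ' Ψ') :
    Arr C u C'' u'' (Φ' ∘ Φ) (Ψ ∘ Ψ') where
  an := AnalyticAt.comp (h.val.symm ▸ h'.an) h.an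
  an' := AnalyticAt.comp (h'.val'.symm ▸ h.an') h'.an'
  val := by rw [comp_apply, h.val, h'.val]
  left := by
    filter_upwards [h.tendsto.eventually h'.left, h.left] with z h1 h2
    simp only [comp_apply, h1, h2]
  right := by
    filter_upwards [h'.tendsto'.eventually h.right, h'.right] with z h1 h2
    simp only [comp_apply, h1, h2]
  mem := by
    filter_upwards [h.tendsto.eventually h'.mem, h.mem] with z h1 h2
    exact h1.trans h2
  pi := by
    filter_upwards [h.tendsto.eventually h'.pi, h.mem, h.pi] with z h1 h2 h3 hz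
    rw [comp_apply, h1 (h2.2 hz), h3 hz]
  div := fun j hj =>
    ass_trans (ass_comp (Φ := Φ) (p := u) (h.val.symm ▸ h'.div j hj) h.an) (h.div j hj)
  cmp := (h'.cmp.comp h.tendsto).trans h.cmp

theorem mem_iff (h : Arr C u C' u' Φ Ψ) : u' ∈ C'.B ↔ u ∈ C.B := h.val ▸ h.mem.self_of_nhds

theorem pi_eq (h : Arr C u C' u' Φ Ψ) (hu : u ∈ C.B) : C'.π u' = C.π u :=
  h.val ▸ h.pi.self_of_nhds hu

theorem map_nhds (h : Arr C u C' u' Φ Ψ) : map Φ (𝓝 u) = 𝓝 u' := by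
  refine le_antisymm h.tendsto fun S hS => ?_
  filter_upwards [h.tendsto'.eventually (show ∀ᶠ z in 𝓝 u, Φ z ∈ S from hS), h.right] with z h1 h2
  rwa [h2] at h1

theorem tendstoW (h : Arr C u C' u' Φ Ψ) : Tendsto Φ (𝓝[C.B] u) (𝓝[C'.B] u') :=
  tendsto_nhdsWithin_iff.2 ⟨h.tendsto.mono_left nhdsWithin_le_nhds, by
    filter_upwards [nhdsWithin_le_nhds h.mem, self_mem_nhdsWithin] with z h1 h2 using h1.2 h2⟩

theorem map_nhdsW (h : Arr C u C' u' Φ Ψ) : map Φ (𝓝[C.B] u) = 𝓝[C'.B] u' := by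
  refine le_antisymm h.tendstoW fun S hS => ?_
  filter_upwards [h.symm.tendstoW.eventually (show ∀ᶠ z in 𝓝[C.B] u, Φ z ∈ S from hS),
    nhdsWithin_le_nhds h.right] with z h1 h2
  rwa [h2] at h1

theorem s_ne (h : Arr C u C' u' Φ Ψ) {j : ℕ} (hj : j ≠ 0) : C'.s j u' ≠ 0 ↔ C.s j u ≠ 0 :=
  h.val ▸ ass_ne (h.div j hj)

theorem E_iff (h : Arr C u C' u' Φ Ψ) : u' ∈ C'.E ↔ u ∈ C.E := by
  simp only [Ch.mem_E]
  exact exists_congr fun j => and_congr_right fun hj => not_iff_not.1 (h.s_ne hj)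

theorem nF_zero (h : Arr C u C' u' Φ Ψ) : (∀ k, C'.F k u' = 0) ↔ ∀ k, C.F k u = 0 := by
  obtain ⟨c, -, H⟩ := h.cmp
  have H := H.self_of_nhds
  simp only [h.val] at H
  rw [← Ch.nF_eq_zero, ← Ch.nF_eq_zero]
  exact ⟨fun h0 => le_antisymm (by simpa [h0] using H.2) (C.nF_nonneg _),
    fun h0 => le_antisymm (by simpa [h0] using H.1) (C'.nF_nonneg _)⟩

/-- the finite set of all labels of two charts -/
theorem exists_labels (C C' : Ch ι X) : ∃ J : Finset ℕ, 0 ∉ J ∧ (∀ l, C.lab l ≠ 0 → C.lab l ∈ J) ∧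
    ∀ l, C'.lab l ≠ 0 → C'.lab l ∈ J :=
  ⟨(Finset.univ.image C.lab ∪ Finset.univ.image C'.lab).erase 0, by simp,
    fun l hl => by simp [hl], fun l hl => by simp [hl]⟩

theorem ev (h : Arr C u C' u' Φ Ψ) : ∀ᶠ z in 𝓝 u, Arr C z C' (Φ z) Φ Ψ := by
  obtain ⟨J, -, hJ, hJ'⟩ := exists_labels C C'
  have hd : ∀ᶠ z in 𝓝 u, ∀ j ∈ J, j ≠ 0 → Ass (fun z => C'.s j (Φ z)) (C.s j) z := by
    refine (eventually_all_finset J).2 fun j _ => ?_
    by_cases hj : j = 0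
    · exact Eventually.of_forall fun z h => absurd hj h
    · exact (ass_ev (h.div j hj)).mono fun z hz _ => hz
  filter_upwards [h.an.eventually_analyticAt, h.tendsto.eventually h.an'.eventually_analyticAt,
    h.left.eventually_nhds, h.tendsto.eventually h.right.eventually_nhds, h.mem.eventually_nhds,
    h.pi.eventually_nhds, hd, h.cmp.ev] with z h1 h2 h3 h4 h5 h6 h7 h8
  refine ⟨h1, h2, rfl, h3, h4, h5, h6, fun j hj => ?_, h8⟩
  by_cases hjJ : j ∈ J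
  · exact h7 j hjJ hj
  · rw [C.s_of_not (j := j) fun l hl => hjJ (hl ▸ hJ l (hl ▸ hj)),
      C'.s_of_not (j := j) fun l hl => hjJ (hl ▸ hJ' l (hl ▸ hj))]
    exact ass_refl _ _

theorem mon (h : Arr C u C' u' Φ Ψ) (ex : ℕ → ℝ) :
    Cmp (𝓝 u) (fun z => C'.mon ex (Φ z)) (C.mon ex) := by
  obtain ⟨J, h0, hJ, hJ'⟩ := exists_labels C C'
  have key : ∀ S : Finset ℕ, 0 ∉ S → Cmp (𝓝 u) (fun z => ∏ j ∈ S, ‖C'.s j (Φ z)‖ ^ ex j)
      fun z => ∏ j ∈ S, ‖C.s j z‖ ^ ex j := by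
    intro S
    induction S using Finset.induction_on with
    | empty => exact fun _ => Cmp.of_eq EventuallyEq.rfl
    | insert j S hj ih =>
      intro hS
      simp only [Finset.prod_insert hj]
      simp only [Finset.mem_insert, not_or] at hS
      exact (ass_cmp (h.div j (Ne.symm hS.1)) (ex j)).mul (ih hS.2) (fun z => by positivity)
        (fun z => by positivity) (fun z => Finset.prod_nonneg fun _ _ => by positivity)
        fun z => Finset.prod_nonneg fun _ _ => by positivity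
  exact (key J h0).congr (Eventually.of_forall fun z => (C'.mon_eq ex h0 hJ' _).symm)
    (Eventually.of_forall fun z => (C.mon_eq ex h0 hJ _).symm)

theorem isCo (h : Arr C u C' u' Φ Ψ) : IsCo Φ u := by
  have h1 : HasFDerivAt Ψ (fderiv ℂ Ψ u') (Φ u) := h.val ▸ h.an'.differentiableAt.hasFDerivAt
  have h2 := h1.comp u h.an.differentiableAt.hasFDerivAt
  have h3 : HasFDerivAt (Ψ ∘ Φ) (ContinuousLinearMap.id ℂ (ι → ℂ)) u :=
    (hasFDerivAt_id u).congr_of_eventuallyEq h.left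
  have h4 := h2.unique h3
  have hi : Injective (fderiv ℂ Φ u) :=
    LeftInverse.injective (g := fderiv ℂ Ψ u') fun v => by
      simpa using congrArg (fun T : (ι → ℂ) →L[ℂ] ι → ℂ => T v) h4
  exact ⟨h.an, hi, (LinearMap.injective_iff_surjective (f := (fderiv ℂ Φ u).toLinearMap)).1 hi⟩

/-- near `(u, u)` the map is injective -/
theorem inj (h : Arr C u C' u' Φ Ψ) : ∀ᶠ p in 𝓝 (u, u), Φ p.1 = Φ p.2 → p.1 = p.2 := by
  filter_upwards [(continuous_fst.tendsto (u, u)).eventually h.left,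
    (continuous_snd.tendsto (u, u)).eventually h.left] with p h1 h2 h3
  rw [← h1, h3, h2]

end Arr

end Vale.Agent.P277Z.Hir.Gl
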