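import Vale.Agent.P277Z.Hir.MSk
import Vale.Agent.P277Z.Hir.BArr

/-!
# P277, resolution: the output
-/

open Filter Topology Set Function

noncomputable section

namespace Vale.Agent.P277Z.Hir

open Gl

namespace MOutH

theorem reidx {r n : ℕ} (lab : Fin n → ℕ) (lb : Fin r → ℕ) (o : Fin r → Option (Fin n))
    (ho : ∀ l i, o l = some i ↔ lab i = lb l) (inj : Injective lb) (h0 : ∀ l, lb l ≠ 0)
    (hs : ∀ i, lab i ≠ 0 → ∃ l, lb l = lab i) (c : ℕ → ℝ) (F : Fin n → ℝ) :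
    ∑ l, c (lb l) * (o l).elim 0 F =
      ∑ i ∈ Finset.univ.filter (fun i => lab i ≠ 0), c (lab i) * F i := by
  have h1 : ∀ l, c (lb l) * (o l).elim 0 F =
      ∑ i, if lab i = lb l then c (lab i) * F i else 0 := fun l => by
    cases e : o l with
    | none =>
      rw [Finset.sum_eq_zero fun i _ => if_neg fun k => by simp [(ho l i).2 k] at e]
      simp
    | some i =>
      rw [Finset.sum_eq_single i (fun j _ hj => if_neg fun k => hj
        (Option.some_injective _ (((ho l j).2 k).symm.trans e))) (by simp), if_pos ((ho l i).1 e),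
        (ho l i).1 e]
      rfl
  rw [Finset.sum_congr rfl fun l _ => h1 l, Finset.sum_comm, Finset.sum_filter]
  refine Finset.sum_congr rfl fun i _ => ?_
  split_ifs with hi
  · obtain ⟨l, hl⟩ := hs i hi
    rw [Finset.sum_eq_single l (fun j _ hj => if_neg fun k => hj (inj (k.symm.trans hl.symm)))
      (by simp), if_pos hl.symm]
  · exact Finset.sum_eq_zero fun l _ => if_neg fun k : lab i = lb l => hi (k ▸ h0 l)

attribute [local instance] Glue.top Glue.t2 Glue.sc Glue.cs Glue.mf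

variable {n : ℕ} {X : Type} [TopologicalSpace X] {β : Gl.Base X} {A : At (Fin n) X}
  (g : Glue β A)

/-- the chart at a point -/
abbrev ch (y : g.Y) : OpenPartialHomeomorph g.Y (Fin n → ℂ) := chartAt (Fin n → ℂ) y

theorem tend (y : g.Y) : Tendsto (ch g y) (𝓝 y) (𝓝 (ch g y y)) :=
  (ch g y).continuousAt (mem_chart_source _ y)

theorem tend' (y : g.Y) : Tendsto (ch g y).symm (𝓝 (ch g y y)) (𝓝 y) :=
  (ch g y).tendsto_symm (mem_chart_source _ y)

theorem ev_src (y : g.Y) : ∀ᶠ p in 𝓝 y, p ∈ (ch g y).source := chart_source_mem_nhds _ y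

theorem ev_tgt (y : g.Y) : ∀ᶠ z in 𝓝 (ch g y y), z ∈ (ch g y).target := chart_target_mem_nhds _ y

theorem pi_self (y : g.Y) : g.π y = (A.C (g.a y)).π (ch g y y) := g.pi y y (mem_chart_source _ y)

theorem pi_symm (y : g.Y) {z : Fin n → ℂ} (hz : z ∈ (ch g y).target) :
    g.π ((ch g y).symm z) = (A.C (g.a y)).π z := by
  rw [g.pi y _ ((ch g y).map_target hz), (ch g y).right_inv hz]

theorem s_iff (y : g.Y) {p : g.Y} (hp : p ∈ (ch g y).source) {j : ℕ} (hj : j ≠ 0) :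
    (A.C (g.a p)).s j (ch g p p) = 0 ↔ (A.C (g.a y)).s j (ch g y p) = 0 := by
  obtain ⟨Φ, Ψ, h⟩ := g.arr y p p hp (mem_chart_source _ p)
  exact not_iff_not.1 (h.s_ne hj)

open Classical in
/-- the coordinate with a given label -/
def lbo (C : Ch (Fin n) X) (j : ℕ) : Option (Fin n) :=
  if h : ∃ i, C.lab i = j then some h.choose else none

theorem lbo_iff {C : Ch (Fin n) X} (hC : C.Ok β) {j : ℕ} (hj : j ≠ 0) (i : Fin n) :
    lbo C j = some i ↔ C.lab i = j := by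
  unfold lbo
  split_ifs with h
  · rw [Option.some_inj]
    exact ⟨fun e => e ▸ h.choose_spec, fun e => hC.lbl _ _ (e ▸ hj) (h.choose_spec.trans e.symm)⟩
  · exact ⟨fun e => by simp at e, fun e => (h ⟨i, e⟩).elim⟩

open Classical in
/-- the section -/
def sg (y : g.Y) (z : X) : g.Y := if h : ∃ p, g.π p = z then h.choose else y

theorem sg_pi (y : g.Y) {p : g.Y} (hp : g.π p ∉ β.Z) : sg g y (g.π p) = p := by
  have h : ∃ q, g.π q = g.π p := ⟨p, rfl⟩
  rw [sg, dif_pos h]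
  exact g.one _ _ hp h.choose_spec

variable (hA : A.Ok β) (hF : A.Full)
include hF

theorem memB (y : g.Y) {z : Fin n → ℂ} (hz : z ∈ (ch g y).target) : z ∈ (A.C (g.a y)).B :=
  (hF _).ge (g.tgt y hz)

theorem selfB (y : g.Y) : ch g y y ∈ (A.C (g.a y)).B := memB g hF y (mem_chart_target _ y)

theorem nhdsB (y : g.Y) : 𝓝[(A.C (g.a y)).B] (ch g y y) = 𝓝 (ch g y y) :=
  nhdsWithin_eq_nhds.2 ((ev_tgt g y).mono fun _ hz => memB g hF y hz)

include hA

theorem dense : Dense {y | g.π y ∉ β.Z} := fun y => by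
  have h := mem_closure_iff_frequently.1 ((hA.ch _).dense _ (selfB g hF y))
  refine mem_closure_iff_frequently.2 ((tend' g y).frequently ?_)
  refine (h.and_eventually (ev_tgt g y)).mono fun z hz => ?_
  change g.π _ ∉ _
  rw [pi_symm g y hz.2]
  exact hz.1.2

theorem hol (y : g.Y) (f : X → ℂ) (hf : β.Hol f (g.π y)) :
    AnalyticAt ℂ (fun z => f (g.π ((ch g y).symm z))) (ch g y y) := by
  obtain ⟨k, h1, h2⟩ := (hA.ch _).hol _ (selfB g hF y) f (pi_self g y ▸ hf)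
  refine h1.congr ?_
  filter_upwards [h2, ev_tgt g y] with z hz hz'
  rw [pi_symm g y hz', hz (memB g hF y hz')]

theorem sec (y : g.Y) (hy : g.π y ∉ β.Z) : ∃ σ : X → g.Y, ContinuousAt σ (g.π y) ∧
    σ (g.π y) = y ∧ (∀ᶠ z in 𝓝 (g.π y), g.π (σ z) = z) ∧
      ∀ i, β.Hol (fun z => ch g y (σ z) i) (g.π y) := by
  have hy' : (A.C (g.a y)).π (ch g y y) ∉ β.Z := pi_self g y ▸ hy
  have h1 : 𝓝 (g.π y) ≤ map g.π (𝓝 y) := by
    have := (hA.ch _).opn _ (selfB g hF y) hy'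
    rw [nhdsB g hF, ← (ch g y).map_nhds_eq (mem_chart_source _ y), map_map, ← pi_self] at this
    exact this.trans (map_congr ((ev_src g y).mono fun p hp => (g.pi y p hp).symm)).le
  have h2 : ∀ᶠ p in 𝓝 y, sg g y (g.π p) = p :=
    (g.cont.continuousAt.eventually (β.isClosed.isOpen_compl.mem_nhds hy)).mono
      fun p hp => sg_pi g y hp
  refine ⟨sg g y, ?_, sg_pi g y hy, h1 (h2.mono fun p hp => congrArg g.π hp), fun i => ?_⟩
  · rw [ContinuousAt, sg_pi g y hy]
    exact (tendsto_map'_iff.2 (tendsto_id.congr' (h2.mono fun p hp => hp.symm))).mono_left h1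
  · rw [pi_self]
    refine (hA.ch _).iso _ (selfB g hF y) hy' _ (fun z => z i)
      ((ContinuousLinearMap.proj (R := ℂ) (φ := fun _ : Fin n => ℂ) i).analyticAt _) ?_
    filter_upwards [(tend' g y).eventually h2, ev_tgt g y] with z h3 h4 _
    rw [← pi_symm g y h4, h3, (ch g y).right_inv h4]

variable {Γ : Type} {XO : Γ → Set X} {nm : Γ → X → ℝ} {ex : ℕ → ℝ} (hU : A.Unit)
  (hT : A.Tot XO nm ex)
include hU hT

theorem cmp_mon (y : g.Y) {γ : Γ} (hγ : g.π y ∈ XO γ) :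
    Cmp (𝓝 (ch g y y)) (fun z => nm γ (g.π ((ch g y).symm z))) ((A.C (g.a y)).mon ex) := by
  have h1 := hT _ _ (selfB g hF y) γ (pi_self g y ▸ hγ)
  rw [nhdsB g hF] at h1
  have h2 : Cmp (𝓝 (ch g y y)) (A.C (g.a y)).nF fun _ => 1 := by
    refine Cmp.of_pos (tendsto_finsetSum _ fun k _ => ((hA.ch _).anF k _
      ((hA.ch _).sub (selfB g hF y))).continuousAt.norm) continuousAt_const ?_ one_pos
    obtain ⟨k, hk⟩ := hU _ _ (selfB g hF y)
    exact ((A.C _).nF_nonneg _).lt_of_ne' fun e => hk ((A.C _).nF_eq_zero.1 e k)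
  refine (h1.trans ((Cmp.refl _ _).mul h2 ((A.C _).mon_nonneg ex) ((A.C _).mon_nonneg ex)
    (A.C _).nF_nonneg fun _ => zero_le_one)).congr ?_ (.of_forall fun z => mul_one _)
  filter_upwards [ev_tgt g y] with z hz
  rw [pi_symm g y hz]

theorem mem_E (y : g.Y) {γ : Γ} (hγ : g.π y ∈ XO γ) (h0 : nm γ (g.π y) = 0) :
    ch g y y ∈ (A.C (g.a y)).E := by
  obtain ⟨c, -, h⟩ := cmp_mon g hA hF hU hT y hγ
  have h1 := h.self_of_nhds.2
  beta_reduce at h1
  rw [(ch g y).left_inv (mem_chart_source _ y), h0, mul_zero] at h1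
  obtain ⟨l, h2, h3⟩ := Finset.prod_eq_zero_iff.1 (le_antisymm h1 ((A.C _).mon_nonneg ex _))
  exact ⟨l, (Finset.mem_filter.1 h2).2,
    norm_eq_zero.1 ((Real.rpow_eq_zero_iff_of_nonneg (norm_nonneg _)).1 h3).1⟩

omit hA hF hU hT

variable (A) in
/-- a bound for the labels -/
def rk : ℕ := (finite_range fun p : A.κ × Fin n => (A.C p.1).lab p.2).bddAbove.choose

omit [TopologicalSpace X] in
theorem rk_spec (a : A.κ) (i : Fin n) (hi : (A.C a).lab i ≠ 0) :
    ∃ l : Fin (rk A), (l : ℕ) + 1 = (A.C a).lab i := by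
  have : (A.C a).lab i ≤ rk A :=
    (finite_range fun p : A.κ × Fin n => (A.C p.1).lab p.2).bddAbove.choose_spec ⟨(a, i), rfl⟩
  exact ⟨⟨(A.C a).lab i - 1, by omega⟩, Nat.sub_add_cancel (by omega)⟩

/-- the divisor with the label `j` -/
def dv (j : ℕ) : Set g.Y := {y | (A.C (g.a y)).s j (ch g y y) = 0}

end MOutH

open MOutH

attribute [local instance] Glue.top Glue.t2 Glue.sc Glue.cs Glue.mf

section out

variable {S : Base} {n : ℕ} {K O : Set S.X} {hO : IsOpen O} {A : At (Fin n) S.X} {ex : ℕ → ℝ}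

theorem MOutH.bad (hA : A.Ok (S.gl O hO)) (hF : A.Full) (hU : A.Unit) (hT : A.Tot S.XO S.nm ex)
    (g : Glue (S.gl O hO) A) (y : g.Y) :
    g.π y ∈ S.Bad ↔ ∃ l : Fin (rk A), y ∈ dv g (l + 1) := by
  constructor
  · intro hy
    obtain ⟨γ, hγ⟩ := S.cover (g.π y)
    obtain ⟨i, h1, h2⟩ := mem_E g hA hF hU hT y hγ
      (Finset.sum_eq_zero fun k _ => by rw [(S.zero γ _ hγ).1 hy k, norm_zero])
    obtain ⟨l, h3⟩ := rk_spec _ i h1
    exact ⟨l, (A.C _).s_eq_zero.2 ⟨i, h3.symm, h2⟩⟩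
  · rintro ⟨l, h1⟩
    rw [pi_self]
    exact (hA.ch _).unt _ (selfB g hF y) ((A.C _).mem_E.2 ⟨_, Nat.succ_ne_zero l, h1⟩)

/-- the output, on the glued manifold -/
def outOf (h : StInt) (hK : K ⊆ O) (hA : A.Ok (S.gl O hO)) (hF : A.Full) (hU : A.Unit)
    (hex : ∀ j, 0 ≤ ex j) (hT : A.Tot S.XO S.nm ex) (hP : A.PosOut (S.gl O hO))
    (g : Glue (S.gl O hO) A) : Out S n K where
  O := O
  isOpen := hO
  sub := hK
  Y := g.Y
  top := g.top
  t2 := g.t2
  sc := g.sc
  cs := g.cs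
  mf := g.mf
  π := g.π
  cont := g.cont
  maps := g.maps
  proper := g.proper
  surj := g.surj
  dense := dense g hA hF
  hol := hol g hA hF
  r := rk A
  G := fun l => dv g (l + 1)
  lab := fun y l => lbo (A.C (g.a y)) (l + 1)
  inj := fun y l l' i h1 h2 => Fin.ext (Nat.succ_injective
    (((lbo_iff (hA.ch _) (Nat.succ_ne_zero l) i).1 h1).symm.trans
      ((lbo_iff (hA.ch _) (Nat.succ_ne_zero l') i).1 h2)))
  snc := fun y l _ hp => ((s_iff g y hp (Nat.succ_ne_zero l)).trans (A.C _).s_eq_zero).trans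
    (exists_congr fun i => and_congr_left' (lbo_iff (hA.ch _) (Nat.succ_ne_zero l) i).symm)
  bad := MOutH.bad hA hF hU hT g
  one := g.one
  sec := sec g hA hF
  prin := fun y γ hγ => by
    obtain ⟨e, h1, h2⟩ := h n _ (fun k z => S.f γ k (g.π ((ch g y).symm z))) (ch g y y) _
      (fun i => ex ((A.C (g.a y)).lab i)) (fun k => hol g hA hF y _ (S.hol γ k _ hγ))
      (fun _ => hex _) (cmp_mon g hA hF hU hT y hγ)
    refine ⟨e, fun i hi => ?_, (Cmp.comp h2 (tend g y)).congr ?_ EventuallyEq.rfl⟩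
    · obtain ⟨l, h3⟩ := rk_spec _ i (Finset.mem_filter.1 (h1 i hi)).2
      exact ⟨l, (lbo_iff (hA.ch _) (Nat.succ_ne_zero l) i).2 h3.symm⟩
    · filter_upwards [ev_src g y] with p hp
      rw [(ch g y).left_inv hp]
  c := fun l => hP.choose (l + 1)
  c0 := fun _ => hP.choose_spec.choose_spec.1 _
  v := fun y => hP.choose_spec.choose (g.π y)
  pos := fun y => by
    obtain ⟨m, k, ε, U, H, h1, h2, h3, h4, h5, h6, h7⟩ := hP.choose_spec.choose_spec.2 _ _
      (selfB g hF y) (pi_self g y ▸ g.maps y)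
    refine ⟨m, k, ε, U, H, pi_self g y ▸ h1, h2, h3, h4, h5, h6, ?_⟩
    filter_upwards [(tend g y).eventually h7, ev_src g y] with p h8 hp h9
    rw [← g.pi y p hp] at h8
    rw [h8 fun hb => let ⟨l, e⟩ := (MOutH.bad hA hF hU hT g p).1 hb; h9 l e]
    exact congrArg (fun t => _ - 2 * t) (reidx _ (fun l : Fin (rk A) => (l : ℕ) + 1) _
      (fun l => lbo_iff (hA.ch (g.a y)) (Nat.succ_ne_zero l))
      (fun _ _ e => Fin.ext (Nat.succ_injective e)) (fun l => Nat.succ_ne_zero l) (rk_spec _)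
      (fun j => (hP.choose j : ℝ)) fun i => Real.log ‖ch g y p i‖).symm

end out

theorem stOut (h : StInt) : StOut := fun _ _ _ _ _ _ _ hK hA hF hU hex hT hP ⟨g⟩ =>
  ⟨outOf h hK hA hF hU hex hT hP g⟩

end Vale.Agent.P277Z.Hir
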