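import Vale.Agent.P277Z.Hir.MStartA
import Vale.Agent.P277Z.Oka.All

/-!
# P277, resolution: the first atlas
-/

open Filter Topology Set Function

set_option linter.unusedSectionVars false

noncomputable section

namespace Vale.Agent.P277Z.Hir

open Gl Gl.ResA
open Vale.Agent.P277 (IsModel)
open Oka (In Van Zs)

namespace MStartH

variable {S : Base} {N k m : ℕ} {V : Set S.X} {Ω U₀ : Set (Fin N → ℂ)}
  {h : Fin k → (Fin N → ℂ) → ℂ} {φ : S.X → Fin N → ℂ} {g : Fin m → (Fin N → ℂ) → ℂ}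

/-- generators of the ideal on an open piece of a model -/
structure Gen (Ω U₀ : Set (Fin N → ℂ)) (h : Fin k → (Fin N → ℂ) → ℂ)
    (g : Fin m → (Fin N → ℂ) → ℂ) : Prop where
  isOpen : IsOpen U₀
  sub : U₀ ⊆ Ω
  an : ∀ l, AnalyticOnNhd ℂ (g l) U₀
  zs : ∀ a ∈ U₀, a ∈ Zs g ↔ a ∈ Zs h
  gen : ∀ a ∈ U₀, ∀ f, AnalyticAt ℂ f a → Van a (Zs h) f → In a g f

theorem exists_gen (hΩ : IsOpen Ω) (hh : ∀ i, ∀ z ∈ Ω, AnalyticAt ℂ (h i) z) {a : Fin N → ℂ}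
    (ha : a ∈ Ω) : ∃ (m : ℕ) (g : Fin m → (Fin N → ℂ) → ℂ) (U₀ : Set (Fin N → ℂ)), a ∈ U₀ ∧
      Gen Ω U₀ h g := by
  obtain ⟨m, g, h1, h2, h3⟩ := Oka.car_all (Fin N → ℂ) (Fin k) a h fun i => hh i a ha
  have h4 : ∀ i, Van a (Zs g) (h i) := fun i =>
    (h3.self_of_nhds _ (hh i a ha) (.of_forall fun y hy => hy i)).van
  obtain ⟨U₀, h5, h6, h7⟩ := eventually_nhds_iff.1 ((hΩ.eventually_mem ha).and
    ((eventually_all.2 fun l => (h1 l).eventually_analyticAt).and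
    ((eventually_all.2 h2).and ((eventually_all.2 h4).and h3))))
  exact ⟨m, g, U₀, h7, h6, fun z hz => (h5 z hz).1, fun l z hz => (h5 z hz).2.1 l,
    fun z hz => ⟨fun e i => (h5 z hz).2.2.2.1 i e, fun e l => (h5 z hz).2.2.1 l e⟩,
    fun z hz => (h5 z hz).2.2.2.2⟩

theorem in_bound {a : Fin N → ℂ} {f : (Fin N → ℂ) → ℂ} (hf : In a g f) :
    ∃ c : ℝ, 0 ≤ c ∧ ∀ᶠ z in 𝓝 a, ‖f z‖ ≤ c * ∑ l, ‖g l z‖ := by
  obtain ⟨c, hc, e⟩ := hf
  have h1 : ContinuousAt (fun z => ∑ l, ‖c l z‖) a :=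
    tendsto_finsetSum _ fun l _ => (hc l).continuousAt.norm
  refine ⟨∑ l, ‖c l a‖ + 1, by positivity, ?_⟩
  filter_upwards [e, h1.eventually (Iio_mem_nhds (lt_add_one _))] with z e1 e2
  rw [e1, Finset.mul_sum]
  refine (norm_sum_le _ _).trans (Finset.sum_le_sum fun l _ => ?_)
  rw [norm_mul]
  exact mul_le_mul_of_nonneg_right ((Finset.single_le_sum (f := fun l => ‖c l z‖)
    (fun _ _ => norm_nonneg _) (Finset.mem_univ l)).trans e2.le) (norm_nonneg _)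

variable {κ : Type} [Fintype κ] [DecidableEq κ] {e : Fin N → κ}

/-- the family of a chart -/
def fam (g : Fin m → (Fin N → ℂ) → ℂ) (e : Fin N → κ) : Fin m ⊕ κ → (κ → ℂ) → ℂ :=
  Sum.elim (fun l z => g l (z ∘ e)) fun l z => (z - ext0 e (z ∘ e)) l

/-- the chart which is given by a model -/
def ch [Nonempty S.X] (V : Set S.X) (φ : S.X → Fin N → ℂ) (U₀ : Set (Fin N → ℂ))
    (g : Fin m → (Fin N → ℂ) → ℂ) (e : Fin N → κ) : Ch κ S.X where
  U := {z | z ∘ e ∈ U₀}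
  B := {z | z ∘ e ∈ U₀ ∧ z ∘ e ∈ Zs g ∧ ext0 e (z ∘ e) = z}
  π z := invFunOn φ V (z ∘ e)
  lab _ := 0
  m := Fintype.card (Fin m ⊕ κ)
  F t := fam g e ((Fintype.equivFin _).symm t)

variable [Nonempty S.X]

theorem nF_ch (z : κ → ℂ) : (ch V φ U₀ g e).nF z =
    ∑ l, ‖g l (z ∘ e)‖ + ∑ l, ‖(z - ext0 e (z ∘ e)) l‖ :=
  ((Fintype.equivFin (Fin m ⊕ κ)).symm.sum_comp fun t => ‖fam g e t z‖).trans
    (Fintype.sum_sum_type _)

theorem cont_model (M : IsModel S.Hol V Ω h φ) {y : S.X} (hy : y ∈ V) : ContinuousAt φ y :=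
  (continuousOn_iff_continuous_domRestrict.2 M.emb.continuous).continuousAt
    (M.isOpen.mem_nhds hy)

theorem inj_model (M : IsModel S.Hol V Ω h φ) : InjOn φ V := fun a ha b hb e =>
  congrArg Subtype.val (M.emb.injective (a₁ := ⟨a, ha⟩) (a₂ := ⟨b, hb⟩) e)

theorem pi_spec (M : IsModel S.Hol V Ω h φ) (G : Gen Ω U₀ h g) {z : κ → ℂ}
    (hz : z ∈ (ch V φ U₀ g e).B) :
    (ch V φ U₀ g e).π z ∈ V ∧ φ ((ch V φ U₀ g e).π z) = z ∘ e := by
  have h1 : z ∘ e ∈ φ '' V := M.image ▸ ⟨G.sub hz.1, (G.zs _ hz.1).1 hz.2.1⟩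
  exact invFunOn_pos h1

theorem sec_spec (M : IsModel S.Hol V Ω h φ) (G : Gen Ω U₀ h g) (he : Injective e) {y : S.X}
    (hy : y ∈ V) (hy' : φ y ∈ U₀) : ext0 e (φ y) ∈ (ch V φ U₀ g e).B ∧
      (ch V φ U₀ g e).π (ext0 e (φ y)) = y := by
  have h1 : φ y ∈ {z ∈ Ω | ∀ i, h i z = 0} := M.image ▸ mem_image_of_mem φ hy
  refine ⟨?_, ?_⟩
  · show ext0 e (φ y) ∘ e ∈ U₀ ∧ ext0 e (φ y) ∘ e ∈ Zs g ∧ ext0 e (ext0 e (φ y) ∘ e) = _
    rw [pr_ext0 he]
    exact ⟨hy', (G.zs _ hy').2 h1.2, rfl⟩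
  · show invFunOn φ V (ext0 e (φ y) ∘ e) = y
    rw [pr_ext0 he]
    exact (inj_model M).leftInvOn_invFunOn hy

theorem pre_ch (M : IsModel S.Hol V Ω h φ) (G : Gen Ω U₀ h g) (he : Injective e) :
    Pre S (ch V φ U₀ g e) := by
  have hU : IsOpen (ch V φ U₀ g e).U := G.isOpen.preimage (cont_pr e)
  have hc : ContinuousOn (ch V φ U₀ g e).π (ch V φ U₀ g e).B := by
    intro u hu P hP
    have h1 := Oka.Csp.push M (pi_spec M G hu).1 (P := fun y => y ∈ P) hP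
    rw [(pi_spec M G hu).2] at h1
    rw [mem_map]
    filter_upwards [nhdsWithin_le_nhds ((cont_pr e).continuousAt.eventually h1),
      self_mem_nhdsWithin] with z e1 e2
    exact e1 _ (pi_spec M G e2).1 (pi_spec M G e2).2
  refine ⟨hU, fun z hz => hz.1, fun t z hz => ?_, hc, fun u hu f hf => ?_, fun _ => rfl,
    fun z hz z' hz' e1 => ?_, fun u hu => ?_, fun u hu l => ?_, fun z hz => ?_,
    fun u hu f hf hv => ?_⟩
  · show AnalyticAt ℂ (fam g e _) z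
    generalize (Fintype.equivFin (Fin m ⊕ κ)).symm t = s
    cases s with
    | inl l => exact (G.an l _ hz).comp_of_eq (an_pr e z) rfl
    | inr l =>
      exact analyticAt_pi_iff.1 (analyticAt_id.sub ((an_ext0 he _).comp_of_eq (an_pr e z) rfl)) l
  · obtain ⟨f₀, h1, h2⟩ := (M.hol _ (pi_spec M G hu).1 f).1 hf
    rw [(pi_spec M G hu).2] at h1
    refine ⟨fun z => f₀ (z ∘ e), h1.comp_of_eq (an_pr e u) rfl, ?_⟩
    filter_upwards [eventually_nhdsWithin_iff.1 ((hc u hu).eventually h2)] with z e1 hz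
    rw [e1 hz, comp_apply, (pi_spec M G hz).2]
  · rw [← hz.2.2, ← hz'.2.2, ← (pi_spec M G hz).2, ← (pi_spec M G hz').2, e1]
  · have h1 := cont_model M (pi_spec M G hu).1
    have h2 : ∀ᶠ y in 𝓝 ((ch V φ U₀ g e).π u), y ∈ V ∧ φ y ∈ U₀ :=
      (M.isOpen.eventually_mem (pi_spec M G hu).1).and
        (h1.eventually (G.isOpen.mem_nhds ((pi_spec M G hu).2.symm ▸ hu.1)))
    refine le_map_of_right_inverse (mba := fun y => ext0 e (φ y))
      (h2.mono fun y hy => (sec_spec M G he hy.1 hy.2).2) (tendsto_nhdsWithin_iff.2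
        ⟨?_, h2.mono fun y hy => (sec_spec M G he hy.1 hy.2).1⟩)
    have h3 := ((cont_ext0 he).continuousAt.comp h1).tendsto
    rwa [comp_apply, (pi_spec M G hu).2, hu.2.2] at h3
  · refine ⟨fun y => ext0 e (φ y) l, (M.hol _ (pi_spec M G hu).1 _).2
      ⟨fun a => ext0 e a l, analyticAt_pi_iff.1 (an_ext0 he _) l, EventuallyEq.rfl⟩,
      .of_forall fun z hz => ?_⟩
    show ext0 e (φ _) l = _
    rw [(pi_spec M G hz).2, hz.2.2]
  · refine Iff.trans ?_ ((Fintype.equivFin (Fin m ⊕ κ)).symm.forall_congr_right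
      (q := fun s => fam g e s z = 0)).symm
    rw [Sum.forall]
    exact ⟨fun hB => ⟨hB.2.1, fun l => congrFun (sub_eq_zero.2 hB.2.2.symm) l⟩,
      fun hB => ⟨hz, hB.1, (sub_eq_zero.1 (funext hB.2)).symm⟩⟩
  · have t1 : Tendsto (ext0 e) (𝓝 (u ∘ e)) (𝓝 u) := by
      have := (cont_ext0 he).tendsto (u ∘ e)
      rwa [hu.2.2] at this
    have t2 : Tendsto (fun z : κ → ℂ => z ∘ e) (𝓝 u) (𝓝 (u ∘ e)) := (cont_pr e).tendsto u
    obtain ⟨c, hc0, h1⟩ := in_bound (G.gen _ hu.1 (fun a => f (ext0 e a))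
      (hf.comp_of_eq (an_ext0 he _) hu.2.2) (by
        filter_upwards [t1.eventually hv, G.isOpen.mem_nhds hu.1] with a e1 e2 ha
        refine e1 ?_
        show ext0 e a ∘ e ∈ U₀ ∧ ext0 e a ∘ e ∈ Zs g ∧ ext0 e (ext0 e a ∘ e) = _
        rw [pr_ext0 he]
        exact ⟨e2, (G.zs _ e2).2 ha, rfl⟩))
    obtain ⟨L, s, hs, hL⟩ := hf.hasStrictFDerivAt.exists_lipschitzOnWith
    refine ⟨c + L, ?_⟩
    filter_upwards [t2.eventually h1, hs, (t1.comp t2).eventually hs] with z e1 e2 e3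
    have h2 := hL.norm_sub_le e2 e3
    have h3 : ‖z - ext0 e (z ∘ e)‖ ≤ ∑ l, ‖(z - ext0 e (z ∘ e)) l‖ :=
      (pi_norm_le_iff_of_nonneg (by positivity)).2 fun l => Finset.single_le_sum
        (f := fun l => ‖(z - ext0 e (z ∘ e)) l‖) (fun _ _ => norm_nonneg _) (Finset.mem_univ l)
    have h4 : 0 ≤ ∑ l, ‖g l (z ∘ e)‖ := by positivity
    have h5 : 0 ≤ ∑ l, ‖(z - ext0 e (z ∘ e)) l‖ := by positivity
    have h6 := norm_le_norm_sub_add (f z) (f (ext0 e (z ∘ e)))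
    have h7 := mul_le_mul_of_nonneg_left h3 L.2
    have h8 := mul_nonneg hc0 h5
    have h9 := mul_nonneg L.2 h4
    rw [nF_ch]
    simp only [comp_apply, NNReal.val_eq_coe] at h2 h7 h9
    nlinarith

omit [Nonempty S.X] in
/-- the local construction -/
theorem exists_chart {n : ℕ} (hS : S.Sp n) (x : S.X) : ∃ (N : ℕ) (W : Set S.X), W ∈ 𝓝 x ∧
    ∀ (κ : Type) [Fintype κ] [DecidableEq κ] (e : Fin N → κ), Injective e →
      ∃ (C : Ch κ S.X) (K : Set (κ → ℂ)), Pre S C ∧ (∀ z ∈ C.B, ∀ l ∉ range e, z l = 0) ∧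
        IsCompact K ∧ K ⊆ C.B ∧ W ⊆ C.π '' K := by
  have : Nonempty S.X := ⟨x⟩
  obtain ⟨N, k, V, Ω, h, φ, hx, M⟩ := hS.model x
  have h0 : φ x ∈ {z ∈ Ω | ∀ i, h i z = 0} := M.image ▸ mem_image_of_mem φ hx
  obtain ⟨m, g, U₀, h1, G⟩ := exists_gen M.isOpen' M.holo h0.1
  obtain ⟨W, h2, h3, h4⟩ := local_compact_nhds (inter_mem (M.isOpen.mem_nhds hx)
    ((cont_model M hx).preimage_mem_nhds (G.isOpen.mem_nhds h1)))
  refine ⟨N, W, h2, fun κ _ _ e he => ⟨ch V φ U₀ g e, (fun y => ext0 e (φ y)) '' W,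
    pre_ch M G he, fun z hz l hl => ?_, h4.image_of_continuousOn fun y hy => ?_, ?_,
    fun y hy => ⟨_, ⟨y, hy, rfl⟩, (sec_spec M G he (h3 hy).1 (h3 hy).2).2⟩⟩⟩
  · rw [← hz.2.2]
    exact ext0_out hl _
  · exact ((cont_ext0 he).continuousAt.comp (cont_model M (h3 hy).1)).continuousWithinAt
  · rintro _ ⟨y, hy, rfl⟩
    exact (sec_spec M G he (h3 hy).1 (h3 hy).2).1

end MStartH

open MStartH in
theorem stStart : StStart := by
  intro S n K hS hK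
  choose N W hW hC using exists_chart hS
  obtain ⟨t, -, ht⟩ := hK.elim_nhds_subcover (fun x => interior (W x))
    fun x _ => interior_mem_nhds.2 (hW x)
  let M := t.sup N + (n + 1)
  have hle : ∀ x : t, N x ≤ M := fun x => (Finset.le_sup x.2).trans (Nat.le_add_right _ _)
  choose C K' h1 h2 h3 h4 h5 using fun x : t => hC x (Fin M ⊕ Fin M)
    (Sum.inl ∘ Fin.castLE (hle x)) (Sum.inl_injective.comp (Fin.castLE_injective _))
  have hb : ∀ x, ∀ z ∈ (C x).B, z ∘ Sum.inr = 0 := fun x z hz =>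
    funext fun l => h2 x z hz _ fun ⟨_, h⟩ => Sum.inl_ne_inr h
  have hO : IsOpen (⋃ x ∈ t, interior (W x)) := isOpen_biUnion fun _ _ => isOpen_interior
  refine ⟨Fin M ⊕ Fin M, inferInstance, inferInstance, ⟨.inl ⟨0, by omega⟩⟩, M + M - n, _, hO,
    { κ := t, C := C, K := K' }, ?_, ht, ⟨fun x => (h1 x).ok hS.dense _ hO, h3, h4,
      fun a b u hu u' hu' => prp (h1 a) (h1 b) (hb a) (hb b) hu hu' _, fun y hy _ => ?_⟩,
    fun x => (h1 x).init _ hO⟩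
  · rw [Fintype.card_sum, Fintype.card_fin]
    omega
  · obtain ⟨x, hx, hy⟩ := mem_iUnion₂.1 hy
    exact ⟨⟨x, hx⟩, h5 ⟨x, hx⟩ (interior_subset hy)⟩

end Vale.Agent.P277Z.Hir
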