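import Vale.Agent.P277Z.Hir.BSk

/-!
# P277, resolution, global part: refinements of good atlases
-/

open Filter Topology Set Function

set_option linter.unusedSectionVars false

noncomputable section

namespace Vale.Agent.P277Z.Hir.Gl

open L (Ass)

namespace Rf

variable {ι X : Type} [Fintype ι] [DecidableEq ι] {C C₀ C₁ : Ch ι X} {z u v : ι → ℂ}
  {h g h' g' : (ι → ℂ) → ι → ℂ}

theorem td (a : Arr C z C₀ u h g) : Tendsto h (𝓝 z) (𝓝 u) := a.val ▸ a.an.continuousAt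

theorem val' (a : Arr C z C₀ u h g) : g u = z := a.val ▸ a.left.self_of_nhds

theorem td' (a : Arr C z C₀ u h g) : Tendsto g (𝓝 u) (𝓝 z) := val' a ▸ a.an'.continuousAt

theorem symm (a : Arr C z C₀ u h g) : Arr C₀ u C z g h where
  an := a.an'
  an' := a.an
  val := val' a
  left := a.right
  right := a.left
  mem := by
    filter_upwards [(td' a).eventually a.mem, a.right] with y h1 h2
    rw [← h1, h2]
  pi := by
    filter_upwards [(td' a).eventually a.mem, (td' a).eventually a.pi, a.right] with y h1 h2 h3 hy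
    rw [← h2 (h1.1 (h3.symm ▸ hy)), h3]
  div j hj := by
    obtain ⟨e, h1, h2, h3⟩ := a.div j hj
    have h4 : AnalyticAt ℂ (fun y => e (g y)) u := (val' a ▸ h1).comp a.an'
    have h5 : e (g u) ≠ 0 := val' a ▸ h2
    refine ⟨fun y => (e (g y))⁻¹, h4.inv h5, inv_ne_zero h5, ?_⟩
    filter_upwards [(td' a).eventually h3, a.right, h4.continuousAt.eventually_ne h5]
      with y k1 k2 k3
    simp only [k2] at k1
    rw [k1, inv_mul_cancel_left₀ k3]
  cmp := by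
    obtain ⟨c, hc, h1⟩ := a.cmp
    refine ⟨c, hc, ?_⟩
    filter_upwards [(td' a).eventually h1, a.right] with y k1 k2
    simp only [k2] at k1
    exact k1.symm

theorem trans (a : Arr C z C₀ u h g) (b : Arr C₀ u C₁ v h' g') :
    Arr C z C₁ v (h' ∘ h) (g ∘ g') where
  an := (a.val ▸ b.an).comp a.an
  an' := (val' b ▸ a.an').comp b.an'
  val := by rw [comp_apply, a.val, b.val]
  left := by
    filter_upwards [(td a).eventually b.left, a.left] with y h1 h2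
    simp only [comp_apply, h1, h2]
  right := by
    filter_upwards [(td' b).eventually a.right, b.right] with y h1 h2
    simp only [comp_apply, h1, h2]
  mem := by
    filter_upwards [(td a).eventually b.mem, a.mem] with y h1 h2 using h1.trans h2
  pi := by
    filter_upwards [(td a).eventually b.pi, a.pi, a.mem] with y h1 h2 h3 hy
      using (h1 (h3.2 hy)).trans (h2 hy)
  div j hj := by
    obtain ⟨e, h1, h2, h3⟩ := a.div j hj
    obtain ⟨e', k1, k2, k3⟩ := b.div j hj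
    refine ⟨fun y => e' (h y) * e y, ((a.val ▸ k1).comp a.an).mul h1,
      mul_ne_zero (a.val ▸ k2) h2, ?_⟩
    filter_upwards [(td a).eventually k3, h3] with y l1 l2
    rw [mul_assoc, ← l2]
    exact l1
  cmp := by
    obtain ⟨c, hc, h1⟩ := a.cmp
    obtain ⟨d, hd, h2⟩ := b.cmp
    refine ⟨c * d, mul_pos hc hd, ?_⟩
    filter_upwards [(td a).eventually h2, h1] with y l1 l2
    exact ⟨l1.1.trans (by nlinarith [l2.1]), l2.2.trans (by
      rw [mul_assoc]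
      exact mul_le_mul_of_nonneg_left l1.2 hc.le)⟩

theorem mem_iff (a : Arr C z C₀ u h g) : u ∈ C₀.B ↔ z ∈ C.B := a.val ▸ a.mem.self_of_nhds

theorem pi_eq (a : Arr C z C₀ u h g) (hz : z ∈ C.B) : C₀.π u = C.π z :=
  a.val ▸ a.pi.self_of_nhds hz

theorem tdW (a : Arr C z C₀ u h g) : Tendsto h (𝓝[C.B] z) (𝓝[C₀.B] u) :=
  tendsto_nhdsWithin_iff.2 ⟨(td a).mono_left nhdsWithin_le_nhds,
    eventually_nhdsWithin_iff.2 (a.mem.mono fun _ e => e.2)⟩

theorem closure_of (a : Arr C z C₀ u h g) (hz : z ∈ closure C.B) : u ∈ closure C₀.B :=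
  mem_closure_iff_frequently.2 ((td a).frequently
    (((mem_closure_iff_frequently.1 hz).and_eventually a.mem).mono fun _ e => e.2.2 e.1))

theorem E_of (a : Arr C z C₀ u h g) (hz : z ∈ C.E) : u ∈ C₀.E := by
  obtain ⟨l, h1, h2⟩ := hz
  obtain ⟨e, -, -, h3⟩ := a.div _ h1
  have h4 : C₀.s (C.lab l) u = 0 := by
    refine a.val ▸ h3.self_of_nhds.trans (mul_eq_zero_of_right _ ?_)
    exact Finset.prod_eq_zero (Finset.mem_filter.2 ⟨Finset.mem_univ l, rfl⟩) h2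
  obtain ⟨l', h5, h6⟩ := Finset.prod_eq_zero_iff.1 h4
  exact ⟨l', (Finset.mem_filter.1 h5).2 ▸ h1, h6⟩

theorem s_eq (hl : ∀ l l', C.lab l ≠ 0 → C.lab l' = C.lab l → l' = l) {l : ι} (h0 : C.lab l ≠ 0)
    (x : ι → ℂ) : C.s (C.lab l) x = x l :=
  Finset.prod_eq_single_of_mem l (by simp) fun l' h1 h2 =>
    absurd (hl l l' h0 (Finset.mem_filter.1 h1).2) h2

variable [TopologicalSpace X] {β : Base X}

theorem cont (a : Arr C z C₀ u h g) (ok : C₀.Ok β) (hz : z ∈ C.B) :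
    ContinuousWithinAt C.π C.B z :=
  (pi_eq a hz ▸ (ok.cont u ((mem_iff a).2 hz)).tendsto.comp (tdW a)).congr'
    (eventually_nhdsWithin_iff.2 a.pi)

theorem hol (a : Arr C z C₀ u h g) (ok : C₀.Ok β) (hz : z ∈ C.B) (f : X → ℂ)
    (hf : β.Hol f (C.π z)) : ∃ G, AnalyticAt ℂ G z ∧ ∀ᶠ x in 𝓝 z, x ∈ C.B → f (C.π x) = G x := by
  obtain ⟨G, h1, h2⟩ := ok.hol u ((mem_iff a).2 hz) f (pi_eq a hz ▸ hf)
  refine ⟨G ∘ h, (a.val ▸ h1).comp a.an, ?_⟩
  filter_upwards [(td a).eventually h2, a.pi, a.mem] with x k1 k2 k3 hx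
  rw [← k2 hx, k1 (k3.2 hx), comp_apply]

theorem opn (a : Arr C z C₀ u h g) (ok : C₀.Ok β) (hz : z ∈ C.B) (hZ : C.π z ∉ β.Z) :
    𝓝 (C.π z) ≤ map C.π (𝓝[C.B] z) := by
  rw [← pi_eq a hz] at hZ ⊢
  refine (ok.opn u ((mem_iff a).2 hz) hZ).trans ?_
  rw [← map_congr (eventually_nhdsWithin_iff.2 (symm a).pi)]
  exact map_mono (m := C.π) (tdW (symm a))

theorem iso (a : Arr C z C₀ u h g) (ok : C₀.Ok β) (hz : z ∈ C.B) (hZ : C.π z ∉ β.Z) (f : X → ℂ)
    (G : (ι → ℂ) → ℂ) (hG : AnalyticAt ℂ G z) (hf : ∀ᶠ x in 𝓝 z, x ∈ C.B → f (C.π x) = G x) :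
    β.Hol f (C.π z) := by
  rw [← pi_eq a hz] at hZ ⊢
  refine ok.iso u ((mem_iff a).2 hz) hZ f (G ∘ g) ((val' a ▸ hG).comp a.an') ?_
  filter_upwards [(td' a).eventually hf, (symm a).pi, (symm a).mem] with x k1 k2 k3 hx
  rw [← k2 hx, k1 (k3.2 hx), comp_apply]

theorem unt (a : Arr C z C₀ u h g) (ok : C₀.Ok β) (hz : z ∈ C.B) (hE : z ∈ C.E) : C.π z ∈ β.Z :=
  pi_eq a hz ▸ ok.unt u ((mem_iff a).2 hz) (E_of a hE)

theorem dense (a : Arr C z C₀ u h g) (ok : C₀.Ok β) (hz : z ∈ C.B) :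
    z ∈ closure {x ∈ C.B | C.π x ∉ β.Z} :=
  mem_closure_iff_frequently.2 ((td' a).frequently
    (((mem_closure_iff_frequently.1 (ok.dense u ((mem_iff a).2 hz))).and_eventually
      ((symm a).mem.and (symm a).pi)).mono fun _ e => ⟨e.2.1.2 e.1.1, e.2.2 e.1.1 ▸ e.1.2⟩))

theorem faith (a : Arr C z C₀ u h g) (ok : C₀.Ok β)
    (hl : ∀ l l', C.lab l ≠ 0 → C.lab l' = C.lab l → l' = l) (hz : z ∈ C.B) :
    ∃ ε : ℝ, 0 < ε ∧ ∀ᶠ p in 𝓝 (z, z), p.1 ∈ C.B → p.2 ∈ C.B → C.π p.1 ∉ β.Z →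
      C.π p.2 = C.π p.1 → (∀ l, C.lab l ≠ 0 → ‖p.2 l - p.1 l‖ ≤ ε * ‖p.1 l‖) → p.2 = p.1 := by
  obtain ⟨ε, hε, h1⟩ := ok.faith u ((mem_iff a).2 hz)
  have f1 : Tendsto Prod.fst (𝓝 (z, z)) (𝓝 z) := continuousAt_fst
  have f2 : Tendsto Prod.snd (𝓝 (z, z)) (𝓝 z) := continuousAt_snd
  have h2 : ∀ᶠ p in 𝓝 (z, z), ∀ l, C₀.lab l ≠ 0 →
      (∀ l, C.lab l ≠ 0 → ‖p.2 l - p.1 l‖ ≤ ε / 4 * ‖p.1 l‖) →
      ‖h p.2 l - h p.1 l‖ ≤ ε * ‖h p.1 l‖ := by
    refine eventually_all.2 fun l => eventually_imp_distrib_left.2 fun h0 => ?_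
    obtain ⟨e, k1, k2, k3⟩ := a.div _ h0
    have c1 := k1.continuousAt.tendsto.comp f1
    have k4 := ((k1.continuousAt.tendsto.comp f2).sub c1).norm.eventually_lt
      (c1.norm.const_mul (min 1 (ε / 2))) (by simpa [k2] using hε)
    filter_upwards [k4, f1.eventually k3, f2.eventually k3] with p l1 l2 l3 l4
    simp only [s_eq ok.lbl h0, comp_apply] at l1 l2 l3
    have l5 : ‖C.s (C₀.lab l) p.2 - C.s (C₀.lab l) p.1‖ ≤ ε / 4 * ‖C.s (C₀.lab l) p.1‖ := by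
      by_cases e' : ∃ l', C.lab l' = C₀.lab l
      · obtain ⟨l', e'⟩ := e'
        rw [← e'] at h0 ⊢
        rw [s_eq hl h0, s_eq hl h0]
        exact l4 l' h0
      · have : Finset.univ.filter (fun l' => C.lab l' = C₀.lab l) = ∅ :=
          Finset.filter_eq_empty_iff.2 fun l' _ e'' => e' ⟨l', e''⟩
        simpa [Ch.s, this] using (by positivity : 0 ≤ ε / 4)
    rw [l2, l3]
    generalize C.s (C₀.lab l) p.1 = x at l5
    generalize C.s (C₀.lab l) p.2 = y at l5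
    have l6 := l1.le.trans (mul_le_mul_of_nonneg_right (min_le_left _ _) (norm_nonneg _))
    have l7 := l1.le.trans (mul_le_mul_of_nonneg_right (min_le_right _ _) (norm_nonneg _))
    have l8 : ‖e p.2‖ ≤ 2 * ‖e p.1‖ := by linarith [norm_le_norm_add_norm_sub' (e p.2) (e p.1)]
    rw [show e p.2 * y - e p.1 * x = e p.2 * (y - x) + (e p.2 - e p.1) * x by ring]
    refine (norm_add_le _ _).trans ?_
    rw [norm_mul, norm_mul, norm_mul]
    nlinarith [mul_le_mul l8 l5 (norm_nonneg _) (by positivity),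
      mul_le_mul_of_nonneg_right l7 (norm_nonneg x)]
  refine ⟨ε / 4, by positivity, ?_⟩
  filter_upwards [(((td a).comp f1).prodMk_nhds ((td a).comp f2)).eventually h1, h2,
    f1.eventually (a.mem.and (a.pi.and a.left)), f2.eventually (a.mem.and (a.pi.and a.left))]
    with p k1 k2 k3 k4 l1 l2 l3 l4 l5
  rw [← k4.2.2, ← k3.2.2]
  exact congrArg g (k1 (k3.1.2 l1) (k4.1.2 l2) ((k3.2.1 l1).symm ▸ l3)
    ((k4.2.1 l2).trans (l4.trans (k3.2.1 l1).symm)) fun l hl => k2 l hl l5)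

theorem prp {D D₀ : Ch ι X} {z' u' : ι → ℂ} (a : Arr C z C₀ u h g) (b : Arr D z' D₀ u' h' g')
    (hp : Prp β C₀ u D₀ u') : Prp β C z D z' := by
  obtain ⟨n, Φ, Ψ, h1, h2⟩ := hp
  refine ⟨n, _, _, fun k => trans (trans a (h1 k)) (symm b), ?_⟩
  have f1 : Tendsto Prod.fst (𝓝 (z, z')) (𝓝 z) := continuousAt_fst
  have f2 : Tendsto Prod.snd (𝓝 (z, z')) (𝓝 z') := continuousAt_snd
  filter_upwards [(((td a).comp f1).prodMk_nhds ((td b).comp f2)).eventually h2,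
    f1.eventually (a.mem.and a.pi), f2.eventually (b.mem.and (b.pi.and b.left))]
    with p k1 k3 k4 l1 l2 l3 l4
  obtain ⟨k, hk⟩ := k1 (k3.1.2 l1) (k4.1.2 l2) ((k3.2 l1).symm ▸ l3)
    ((k4.2.1 l2).trans (l4.trans (k3.2 l1).symm))
  exact ⟨k, (congrArg g' hk).trans k4.2.2⟩

end Rf

open Rf

theorem stRef : StRef := by
  intro ι X _ _ _ β A A' ok r
  choose a h hh using r.arr
  choose hU g ar using hh
  have arB := fun a' z (hz : z ∈ (A'.C a').B) => ar a' z (r.sub a' hz)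
  refine ⟨fun a' => ⟨r.isOpen a', r.sub a', fun z hz hc => (mem_iff (ar a' z hz)).1
      ((ok.ch _).closed _ (hU a' z hz) (closure_of (ar a' z hz) hc)), r.lbl a', r.anF a',
      fun z hz => cont (arB a' z hz) (ok.ch _) hz, fun z hz => hol (arB a' z hz) (ok.ch _) hz,
      fun z hz => opn (arB a' z hz) (ok.ch _) hz, fun z hz => iso (arB a' z hz) (ok.ch _) hz,
      fun z hz => unt (arB a' z hz) (ok.ch _) hz, fun z hz => dense (arB a' z hz) (ok.ch _) hz,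
      fun z hz => faith (arB a' z hz) (ok.ch _) (r.lbl a') hz⟩, r.cpt, r.subK,
    fun a' b' z hz z' hz' => prp (arB a' z hz) (arB b' z' hz')
      (ok.prp _ _ _ ((mem_iff (arB a' z hz)).2 hz) _ ((mem_iff (arB b' z' hz')).2 hz')),
    fun x hx hZ => ?_⟩
  obtain ⟨b, u, hu, rfl⟩ := ok.cov x hx hZ
  obtain ⟨a', z, hz, h', g', k⟩ := r.cov b u hu
  exact ⟨a', z, hz, (pi_eq k (r.subK a' hz)).symm⟩

end Vale.Agent.P277Z.Hir.Gl
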