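import Vale.Agent.P277Z.Hir.LAll
import Vale.Agent.P277Z.Hir.MStart
import Vale.Agent.P277Z.Hir.MOut
import Vale.Agent.P277Z.Pos.Ref

/-!
# P277, resolution of singularities: the theorems
-/

namespace Vale.Agent.P277Z.Hir

open Gl Vale.Agent.P277Z.Pos

/-- resolution of a space and principalisation of a family, over a compact set -/
theorem stMain : StMain :=
  stMain_of stStart stSm pinit (pref (all cmp)) pbl pres (pout (all cmp) rem)
    (stDs_of stDestack stTotD fun _ _ _ _ _ _ _ _ _ _ s h =>
      h.stepsD (pref (all cmp)) pbl stBl stRootA s)
    (stOut stInt)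

/-- principalisation on a manifold with a given boundary -/
theorem stMainL : StMainL := stMainL_of' pinit (pref (all cmp))

end Vale.Agent.P277Z.Hir
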