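import Vale.Agent.P277Z.Hir.Loc
import Vale.Agent.P281.MF.Hol

/-!
# P277Z, resolution: Hadamard's lemma and the growth criterion for the weighted filtration

`IH.hadamard`, `IH.div_pow`: division by a linear form; `IH.isBigO`: growth of the members of the
filtration; `IH.fil_of_gr`: the converse in linear coordinates.
-/

open Filter Topology Set Metric Asymptotics

noncomputable section

namespace Vale.Agent.P277Z.Hir.IH

variable {E : Type} [NormedAddCommGroup E] [NormedSpace ℂ E]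

/-- the projection along `e` to the kernel of `l` -/
def pj (l : E →L[ℂ] ℂ) (e : E) (u : E) : E := u - l u • e

theorem analyticAt_pj (l : E →L[ℂ] ℂ) (e q : E) : AnalyticAt ℂ (pj l e) q :=
  analyticAt_id.sub ((l.analyticAt q).smul analyticAt_const)

theorem pj_of_zero {l : E →L[ℂ] ℂ} (e : E) {q : E} (hq : l q = 0) : pj l e q = q := by
  rw [pj, hq, zero_smul, sub_zero]

theorem pj_add (l : E →L[ℂ] ℂ) (e u : E) : pj l e u + l u • e = u := sub_add_cancel _ _

theorem tendsto_pj {l : E →L[ℂ] ℂ} (e : E) {q : E} (hq : l q = 0) :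
    Tendsto (pj l e) (𝓝 q) (𝓝 q) := by
  have h := (analyticAt_pj l e q).continuousAt.tendsto
  rwa [pj_of_zero e hq] at h

theorem tube {l : E →L[ℂ] ℂ} (e : E) {q : E} (hq : l q = 0) {S : E → Prop} (hS : ∀ᶠ u in 𝓝 q, S u) :
    ∃ R : ℝ, 0 < R ∧ ∀ᶠ u in 𝓝 q, ∀ t : ℂ, ‖t‖ ≤ R → S (pj l e u + t • e) := by
  have h1 : Tendsto (fun z : E × ℂ => pj l e z.1 + z.2 • e) (𝓝 q ×ˢ 𝓝 0) (𝓝 (q + (0 : ℂ) • e)) :=
    ((tendsto_pj e hq).comp tendsto_fst).add (tendsto_snd.smul_const e)
  rw [zero_smul, add_zero] at h1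
  obtain ⟨pa, ha, pb, hb, h⟩ := eventually_prod_iff.1 (h1.eventually hS)
  obtain ⟨R, hR, hb⟩ := nhds_basis_closedBall.eventually_iff.1 hb
  exact ⟨R, hR, ha.mono fun u hu t ht => h hu (hb (mem_closedBall_zero_iff.2 ht))⟩

variable [FiniteDimensional ℂ E]

/-- **Hadamard's lemma.** -/
theorem hadamard {l : E →L[ℂ] ℂ} (e : E) {q : E} (hq : l q = 0) {f : E → ℂ}
    (hf : AnalyticAt ℂ f q) :
    ∃ h : E → ℂ, AnalyticAt ℂ h q ∧ ∀ u, f u - f (pj l e u) = l u * h u := by
  refine ⟨fun u => dslope (fun t : ℂ => f (pj l e u + t • e)) 0 (l u), ?_, fun u => ?_⟩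
  swap
  · have h := sub_smul_dslope (fun t : ℂ => f (pj l e u + t • e)) 0 (l u)
    rw [sub_zero, smul_eq_mul, pj_add, zero_smul, add_zero] at h
    exact h.symm
  obtain ⟨R, hR, hN⟩ := tube e hq hf.eventually_analyticAt
  have h2 : ∀ᶠ u in 𝓝 q, ‖l u‖ < R / 4 :=
    (l.continuous.norm.continuousAt (x := q)).eventually_lt continuousAt_const (by
      rw [hq, norm_zero]; positivity)
  obtain ⟨U, hU, hUo, hqU⟩ := _root_.eventually_nhds_iff.1 (hN.and h2)
  let G : E × ℂ → ℂ := fun z => (z.2 - l z.1)⁻¹ • (z.2⁻¹ • (f (pj l e z.1 + z.2 • e) - f (pj l e z.1)))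
  have hG : DifferentiableOn ℂ G (U ×ˢ {t | R / 4 < ‖t‖ ∧ ‖t‖ < R}) := by
    rintro ⟨u, t⟩ ⟨hu, ht1, ht2⟩
    have h3 : DifferentiableAt ℂ (fun z : E × ℂ => pj l e z.1) (u, t) :=
      DifferentiableAt.comp (g := pj l e) (u, t) (analyticAt_pj l e u).differentiableAt
        differentiableAt_fst
    have h4 : t ≠ 0 := norm_pos_iff.1 (lt_trans (by positivity) ht1)
    have h5 : t - l u ≠ 0 := sub_ne_zero.2 fun h => lt_asymm ht1 (h ▸ (hU u hu).2)
    have h6 := (hU u hu).1 0 (by rw [norm_zero]; exact hR.le)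
    rw [zero_smul, add_zero] at h6
    exact (((differentiableAt_snd.sub (l.differentiableAt.comp (u, t) differentiableAt_fst)).inv
      h5).smul ((differentiableAt_snd.inv h4).smul ((((hU u hu).1 t ht2.le).differentiableAt.comp
        (u, t) (h3.add (differentiableAt_snd.smul_const e))).sub
          (h6.differentiableAt.comp (u, t) h3)))).differentiableWithinAt
  have h7 := P281.MF.differentiableOn_circleIntegral (c := 0) (R := R / 2) (by positivity) hUo
    ((isOpen_lt continuous_const continuous_norm).inter (isOpen_lt continuous_norm continuous_const))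
    (fun t ht => by rw [mem_sphere_zero_iff_norm] at ht; constructor <;> simp only [mem_ofPred_eq] <;>
      linarith) hG
  refine ((P281.MF.analyticAt_of_differentiableOn hUo h7 hqU).const_smul
    (c := (2 * Real.pi * Complex.I : ℂ)⁻¹)).congr ?_
  filter_upwards [hUo.mem_nhds hqU] with u hu
  have h8 : DifferentiableOn ℂ (fun t : ℂ => f (pj l e u + t • e)) (closedBall 0 (R / 2)) :=
    fun t ht => (((hU u hu).1 t (by
      rw [mem_closedBall_zero_iff] at ht; linarith)).differentiableAt.comp t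
        ((differentiableAt_id.smul_const e).const_add _)).differentiableWithinAt
  have h9 := ((Complex.differentiableOn_dslope (closedBall_mem_nhds 0 (by positivity))).2
    h8).circleIntegral_sub_inv_smul (w := l u) (by
      rw [mem_ball_zero_iff]; linarith [(hU u hu).2])
  have h10 : (∮ t in C(0, R / 2), G (u, t)) = ∮ t in C(0, R / 2),
      (t - l u)⁻¹ • dslope (fun t : ℂ => f (pj l e u + t • e)) 0 t :=
    circleIntegral.integral_congr (by positivity) fun t ht => by
      have h4 : t ≠ 0 := norm_pos_iff.1 (by rw [mem_sphere_zero_iff_norm.1 ht]; positivity)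
      simp only [G, dslope_of_ne _ h4, slope, sub_zero, zero_smul, add_zero, vsub_eq_sub]
  rw [Pi.smul_apply, h10, h9, inv_smul_smul₀ Complex.two_pi_I_ne_zero]

/-- Division by a power of a linear form. -/
theorem div_pow {l : E →L[ℂ] ℂ} {e : E} (he : l e = 1) {q : E} (hq : l q = 0) (n : ℕ) :
    ∀ {f : E → ℂ}, AnalyticAt ℂ f q → (∀ᶠ u in 𝓝 q, l u = 0 →
      (fun s : ℂ => f (u + s • e)) =O[𝓝[≠] 0] fun s => s ^ n) →
    ∃ g : E → ℂ, AnalyticAt ℂ g q ∧ ∀ᶠ u in 𝓝 q, f u = l u ^ n * g u := by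
  induction n with
  | zero => exact fun hf _ => ⟨_, hf, Eventually.of_forall fun u => by rw [pow_zero, one_mul]⟩
  | succ n ih =>
    intro f hf h
    have hl : ∀ u, l (pj l e u) = 0 := fun u => by simp [pj, he]
    have hc : ∀ u : E, Tendsto (fun s : ℂ => u + s • e) (𝓝[≠] 0) (𝓝 u) := fun u => by
      have h1 : Tendsto (fun s : ℂ => u + s • e) (𝓝 0) (𝓝 (u + (0 : ℂ) • e)) :=
        (tendsto_id.smul_const e).const_add u
      rw [zero_smul, add_zero] at h1
      exact h1.mono_left nhdsWithin_le_nhds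
    have h0 : ∀ᶠ u in 𝓝 q, l u = 0 → f u = 0 := by
      filter_upwards [h, hf.eventually_analyticAt] with u hu hu' h1
      have h2 : Tendsto (fun s : ℂ => s ^ (n + 1)) (𝓝[≠] 0) (𝓝 0) := by
        have h3 := (continuous_pow (n + 1)).tendsto (0 : ℂ)
        rw [zero_pow n.succ_ne_zero] at h3
        exact h3.mono_left nhdsWithin_le_nhds
      exact tendsto_nhds_unique (hu'.continuousAt.tendsto.comp (hc u)) ((hu h1).trans_tendsto h2)
    obtain ⟨g, hg, hfg⟩ := hadamard e hq hf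
    have h1 : ∀ᶠ u in 𝓝 q, f u = l u * g u :=
      ((tendsto_pj e hq).eventually h0).mono fun u hu => by rw [← hfg, hu (hl u), sub_zero]
    obtain ⟨g', hg', h2⟩ := ih hg (by
      filter_upwards [h, h1.eventually_nhds] with u hu hu' h3
      have h4 := (isBigO_refl (fun s : ℂ => s⁻¹) (𝓝[≠] 0)).mul (hu h3)
      refine h4.congr' ?_ ?_
      · filter_upwards [(hc u).eventually hu', self_mem_nhdsWithin] with s hs hs0
        rw [hs, map_add, h3, map_smul, he, zero_add, smul_eq_mul, mul_one, inv_mul_cancel_left₀ hs0]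
      · filter_upwards [self_mem_nhdsWithin] with s hs0
        rw [pow_succ', inv_mul_cancel_left₀ hs0])
    refine ⟨g', hg', ?_⟩
    filter_upwards [h1, h2] with u hu hu'
    rw [hu, hu', pow_succ', mul_assoc]

omit [FiniteDimensional ℂ E] in
/-- Growth of the members of the filtration. -/
theorem isBigO {k : ℕ} {y : ℕ → E → ℂ} {ω : ℕ → ℚ} {q : E} {α : Type} {L : Filter α} {γ : α → E}
    (hγ : Tendsto γ L (𝓝 q)) {ρ : α → ℝ} (hρ : ∀ᶠ z in L, 0 < ρ z ∧ ρ z ≤ 1) {a : ℝ} (ha : 0 ≤ a)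
    (hy : ∀ i < k, (fun z => y i (γ z)) =O[L] fun z => ρ z ^ (a * ω i)) {c : ℚ} {f : E → ℂ}
    (h : Fil k y ω q c f) : (fun z => f (γ z)) =O[L] fun z => ρ z ^ (a * c) := by
  have hm : ∀ {b b' : ℝ}, b' ≤ b → (fun z => ρ z ^ b) =O[L] fun z => ρ z ^ b' := fun hb =>
    IsBigO.of_bound' (hρ.mono fun z hz => by
      rw [Real.norm_of_nonneg (Real.rpow_nonneg hz.1.le _),
        Real.norm_of_nonneg (Real.rpow_nonneg hz.1.le _)]
      exact Real.rpow_le_rpow_of_exponent_ge hz.1 hz.2 hb)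
  induction h with
  | base hc hf =>
    refine ((hf.continuousAt.tendsto.comp hγ).isBigO_one ℝ).trans
      (IsBigO.congr_left (hm (b := 0) ?_) fun z => Real.rpow_zero _)
    exact mul_nonpos_of_nonneg_of_nonpos ha (by exact_mod_cast hc)
  | zero => exact isBigO_zero _ _
  | mul i hi _ ih =>
    refine ((hy i hi).mul ih).congr' EventuallyEq.rfl (hρ.mono fun z hz => ?_)
    simp only
    rw [← Real.rpow_add hz.1, Rat.cast_add, mul_add, add_comm]
  | add _ _ ih ih' => exact ih.add ih'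
  | mono hc _ ih => exact ih.trans (hm (mul_le_mul_of_nonneg_left (by exact_mod_cast hc) ha))
  | congr hfg _ ih => exact ih.congr' (hγ.eventually hfg) EventuallyEq.rfl

/-- the weighted polydiscs around `q` -/
def box (k : ℕ) (y : ℕ → E → ℂ) (ω : ℕ → ℚ) (q : E) : Filter (E × ℝ) :=
  (𝓝 q ×ˢ 𝓝[>] 0) ⊓ 𝓟 {z | ∀ i < k, ‖y i z.1‖ ≤ z.2 ^ (ω i : ℝ)}

/-- `f` is bounded by `r ^ c` on the weighted polydiscs of radius `r` -/
def Gr (k : ℕ) (y : ℕ → E → ℂ) (ω : ℕ → ℚ) (q : E) (c : ℚ) (f : E → ℂ) : Prop :=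
  (fun z => f z.1) =O[box k y ω q] fun z => z.2 ^ (c : ℝ)

section
omit [FiniteDimensional ℂ E]
variable {k : ℕ} {y : ℕ → E → ℂ} {ω : ℕ → ℚ} {q : E} {c : ℚ} {f : E → ℂ}

omit [NormedSpace ℂ E] in
theorem box_fst : Tendsto Prod.fst (box k y ω q) (𝓝 q) := tendsto_fst.mono_left inf_le_left

omit [NormedSpace ℂ E] in
theorem gr_iff : Gr k y ω q c f ↔ ∃ C : ℝ, ∀ᶠ z in 𝓝 q ×ˢ 𝓝[>] (0 : ℝ),
    (∀ i < k, ‖y i z.1‖ ≤ z.2 ^ (ω i : ℝ)) → ‖f z.1‖ ≤ C * ‖z.2 ^ (c : ℝ)‖ := by
  simp only [Gr, isBigO_iff, box, eventually_inf_principal, mem_ofPred_eq]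

theorem gr_of_fil (h : Fil k y ω q c f) : Gr k y ω q c f := by
  have h1 := isBigO (ρ := Prod.snd) (box_fst (k := k) (y := y) (ω := ω))
    ((tendsto_snd.mono_left inf_le_left).eventually (Ioc_mem_nhdsGT zero_lt_one)) zero_le_one
    (fun i hi => IsBigO.of_bound' (eventually_inf_principal.2 (Eventually.of_forall fun z hz => by
      rw [one_mul]
      exact (hz i hi).trans (le_abs_self _)))) h
  simpa only [one_mul, Gr] using h1

omit [NormedSpace ℂ E] in
theorem Gr.comp {E' : Type} [NormedAddCommGroup E'] {y' : ℕ → E' → ℂ} {q' : E'} {Φ : E' → E}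
    (h : Gr k y ω q c f) (hΦ : Tendsto Φ (𝓝 q') (𝓝 q))
    (hy : ∀ᶠ u in 𝓝 q', ∀ i < k, ‖y i (Φ u)‖ ≤ ‖y' i u‖) : Gr k y' ω q' c fun u => f (Φ u) := by
  have h1 : Tendsto (fun z : E' × ℝ => (Φ z.1, z.2)) (box k y' ω q') (box k y ω q) := by
    refine tendsto_inf.2 ⟨(hΦ.prodMap tendsto_id).mono_left inf_le_left, tendsto_principal.2 ?_⟩
    exact eventually_inf_principal.2 ((tendsto_fst.eventually hy).mono fun z hz h2 i hi =>
      (hz i hi).trans (h2 i hi))
  exact IsBigO.comp_tendsto h h1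

omit [NormedSpace ℂ E] in
theorem Gr.eq_zero (h : Gr k y ω q c f) (hc : 0 < c) :
    ∀ᶠ u in 𝓝 q, (∀ i < k, y i u = 0) → f u = 0 := by
  obtain ⟨C, hC⟩ := gr_iff.1 h
  refine hC.curry.mono fun u hu h0 => norm_le_zero_iff.1 ?_
  have h1 : Tendsto (fun r : ℝ => C * ‖r ^ (c : ℝ)‖) (𝓝[>] 0) (𝓝 (C * ‖(0 : ℝ) ^ (c : ℝ)‖)) :=
    (((Real.continuousAt_rpow_const 0 c (Or.inr (by exact_mod_cast hc.le))).tendsto.norm).const_mul
      C).mono_left nhdsWithin_le_nhds
  rw [Real.zero_rpow (by exact_mod_cast hc.ne'), norm_zero, mul_zero] at h1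
  refine ge_of_tendsto h1 ?_
  filter_upwards [hu, self_mem_nhdsWithin] with r hr hr0
  exact hr fun i hi => by rw [h0 i hi, norm_zero]; exact Real.rpow_nonneg (le_of_lt hr0) _

end

variable {k : ℕ} {l : ℕ → E →L[ℂ] ℂ} {e : ℕ → E} {ω : ℕ → ℚ} {q : E}
  (he : ∀ i < k, ∀ j < k, l i (e j) = if i = j then 1 else 0) (hq : ∀ i < k, l i q = 0)
  (hω : ∀ i < k, 0 < ω i)

omit [FiniteDimensional ℂ E] in
include he in
theorem l_pj {i j : ℕ} (hi : i < k) (hj : j < k) (u : E) (t : ℂ) :
    l i (pj (l j) (e j) u + t • e j) = if i = j then t else l i u := by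
  rw [pj, map_add, map_sub, map_smul, map_smul, he i hi j hj]
  split_ifs with h
  · simp [h]
  · simp

omit [FiniteDimensional ℂ E] in
include he hq hω in
/-- division by a coordinate lowers the growth by the weight -/
theorem Gr.div {j : ℕ} (hj : j < k) {c : ℚ} {h : E → ℂ} (hh : AnalyticAt ℂ h q)
    (H : Gr k (fun i => l i) ω q c fun u => l j u * h u) : Gr k (fun i => l i) ω q (c - ω j) h := by
  obtain ⟨C, hC⟩ := gr_iff.1 H
  obtain ⟨pa, ha, pb, hb, h1⟩ := eventually_prod_iff.1 hC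
  obtain ⟨R, hR, hN⟩ := tube (e j) (hq j hj) (ha.and hh.eventually_analyticAt)
  have hw : (0 : ℝ) < ω j := by exact_mod_cast hω j hj
  have h2 : ∀ᶠ r : ℝ in 𝓝[>] 0, r ^ (ω j : ℝ) ≤ R :=
    ((Real.continuousAt_rpow_const 0 _ (Or.inr hw.le)).eventually_lt continuousAt_const
      (by rwa [Real.zero_rpow hw.ne'])).filter_mono nhdsWithin_le_nhds |>.mono fun _ => le_of_lt
  refine gr_iff.2 ⟨C, ?_⟩
  filter_upwards [hN.prod_mk (hb.and (h2.and self_mem_nhdsWithin))] with z ⟨hz, hr, hrR, hr0⟩ hbox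
  have hr1 : 0 < z.2 ^ (ω j : ℝ) := Real.rpow_pos_of_pos hr0 _
  have h3 : DifferentiableOn ℂ (fun t : ℂ => h (pj (l j) (e j) z.1 + t • e j))
      (closure (ball 0 (z.2 ^ (ω j : ℝ)))) := fun t ht =>
    ((hz t ((mem_closedBall_zero_iff.1 (closure_ball_subset_closedBall ht)).trans
      hrR)).2.differentiableAt.comp t
        ((differentiableAt_id.smul_const _).const_add _)).differentiableWithinAt
  have h4 := Complex.norm_le_of_forall_mem_frontier_norm_le isBounded_ball h3.diffContOnCl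
    (C := C * ‖z.2 ^ ((c - ω j : ℚ) : ℝ)‖) (fun t ht => ?_) (z := l j z.1) (by
      rw [closure_ball _ hr1.ne', mem_closedBall_zero_iff]; exact hbox j hj)
  · rwa [pj_add] at h4
  rw [frontier_ball _ hr1.ne', mem_sphere_zero_iff_norm] at ht
  have h5 := h1 (hz t (ht.le.trans hrR)).1 hr fun i hi => by
    simp only
    rw [l_pj he hi hj]
    split_ifs with h6
    · rw [ht, h6]
    · exact hbox i hi
  simp only at h5
  rw [l_pj he hj hj, if_pos rfl, norm_mul, ht] at h5
  rw [Rat.cast_sub, Real.rpow_sub hr0, norm_div, Real.norm_of_nonneg hr1.le, ← mul_div_assoc,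
    le_div_iff₀' hr1]
  exact h5

include he hq hω in
/-- **The growth criterion.** -/
theorem fil_of_gr {c : ℚ} {f : E → ℂ} (hf : AnalyticAt ℂ f q) (H : Gr k (fun i => l i) ω q c f) :
    Fil k (fun i => l i) ω q c f := by
  obtain ⟨δ, hδ, hδω⟩ : ∃ δ : ℚ, 0 < δ ∧ ∀ i < k, δ ≤ ω i := by
    clear he hq H
    induction k with
    | zero => exact ⟨1, one_pos, fun _ h => absurd h (Nat.not_lt_zero _)⟩
    | succ k ih =>
      obtain ⟨δ, h1, h2⟩ := ih fun i hi => hω i (Nat.lt_succ_of_lt hi)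
      refine ⟨min δ (ω k), lt_min h1 (hω k k.lt_succ_self), fun i hi => ?_⟩
      rcases Nat.lt_succ_iff_lt_or_eq.1 hi with h | rfl
      · exact (min_le_left _ _).trans (h2 i h)
      · exact min_le_right _ _
  obtain ⟨n, hn⟩ : ∃ n : ℕ, c ≤ n * δ := by
    obtain ⟨n, hn⟩ := exists_nat_ge (c / δ)
    exact ⟨n, (div_le_iff₀ hδ).1 hn⟩
  induction n generalizing c f with
  | zero => exact .base (by simpa using hn) hf
  | succ n ih =>
    rcases le_or_gt c 0 with hc | hc
    · exact .base hc hf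
    have key : ∀ j ≤ k, ∀ {f : E → ℂ}, AnalyticAt ℂ f q → Gr k (fun i => l i) ω q c f →
        (∀ᶠ u in 𝓝 q, (∀ i < j, l i u = 0) → f u = 0) → Fil k (fun i => l i) ω q c f := by
      intro j
      induction j with
      | zero =>
        exact fun _ f _ _ h => .congr (h.mono fun u hu =>
          (hu fun _ h => absurd h (Nat.not_lt_zero _)).symm) .zero
      | succ j ihj =>
        intro hj f hf H h0
        have hl : ∀ i < k, ∀ u, l i (pj (l j) (e j) u) = if i = j then 0 else l i u :=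
          fun i hi u => by simpa using l_pj he hi hj u 0
        have hP := tendsto_pj (e j) (hq j hj)
        have h1 : Gr k (fun i => l i) ω q c fun u => f (pj (l j) (e j) u) :=
          H.comp hP (Eventually.of_forall fun u i hi => by
            rw [hl i hi]
            split_ifs <;> simp)
        have h2 := ihj (Nat.le_of_succ_le hj) (((pj_of_zero (e j) (hq j hj)).symm ▸ hf :
          AnalyticAt ℂ f (pj (l j) (e j) q)).comp (analyticAt_pj _ _ _)) h1
          ((hP.eventually h0).mono fun u hu h3 => hu fun i hi => by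
            rw [hl i (lt_of_lt_of_le hi hj)]
            split_ifs with h4
            · rfl
            · exact h3 i (by omega))
        obtain ⟨h, hh, hfh⟩ := hadamard (e j) (hq j hj) hf
        have h3 := Fil.mul j hj (ih hh (Gr.div he hq hω hj hh ((IsBigO.sub H h1).congr_left
          fun z => hfh z.1)) (by have := hδω j hj; push_cast at hn; linarith))
        rw [sub_add_cancel] at h3
        exact .congr (Eventually.of_forall fun u => by
          simp only [Function.comp_apply, ← hfh, add_sub_cancel]) (h2.add h3)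
    exact key k le_rfl hf H (H.eq_zero hc)

end Vale.Agent.P277Z.Hir.IH
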