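import Vale.Agent.P277Z.Hir.MSk

/-!
# P277, resolution with a given boundary: input and output
-/

open Filter Topology Set Function

noncomputable section

namespace Vale.Agent.P277Z.Hir

open Vale.Agent.P277 (IsModel)

attribute [instance] Out.top Out.t2 Out.sc Out.cs Out.mf

/-- The base is a manifold of dimension `n` with `q` divisors `D l` with simple normal crossings,
given by adapted charts. -/
structure Bdy (S : Base) (n q : ℕ) where
  D : Fin q → Set S.X
  V : S.X → Set S.X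
  Ω : S.X → Set (Fin n → ℂ)
  φ : S.X → S.X → Fin n → ℂ
  lab : S.X → Fin q → Option (Fin n)
  mem : ∀ x, x ∈ V x
  model : ∀ x, IsModel S.Hol (V x) (Ω x) (fun (_ : Fin 0) _ => 0) (φ x)
  inj : ∀ x l l' i, lab x l = some i → lab x l' = some i → l = l'
  snc : ∀ x l, ∀ x' ∈ V x, x' ∈ D l ↔ ∃ i, lab x l = some i ∧ φ x x' i = 0

/-- the equation of `D l` on `V x` -/
def Bdy.ζ {S : Base} {n q : ℕ} (B : Bdy S n q) (x : S.X) (l : Fin q) (x' : S.X) : ℂ :=
  (B.lab x l).elim 1 (B.φ x x')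

/-- The output: the strict transforms `old l` of the `D l` have simple normal crossings together
with the new divisors. -/
structure OutL (S : Base) (n : ℕ) (K : Set S.X) {q : ℕ} (B : Bdy S n q) extends Out S n K where
  old : Fin q → Set Y
  labo : Y → Fin q → Option (Fin n)
  injo : ∀ y l l' i, labo y l = some i → labo y l' = some i → l = l'
  disj : ∀ y l k i, labo y l = some i → lab y k ≠ some i
  snco : ∀ y l, ∀ y' ∈ (chartAt (Fin n → ℂ) y).source,
    y' ∈ old l ↔ ∃ i, labo y l = some i ∧ chartAt (Fin n → ℂ) y y' i = 0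
  subo : ∀ l, ∀ y ∈ old l, π y ∈ B.D l
  off : ∀ l y, π y ∉ S.Bad → π y ∈ B.D l → y ∈ old l
  mo : Fin q → Fin r → ℕ
  tot : ∀ y x l, π y ∈ B.V x → ∃ e : (Fin n → ℂ) → ℂ,
    AnalyticAt ℂ e (chartAt (Fin n → ℂ) y y) ∧ e (chartAt (Fin n → ℂ) y y) ≠ 0 ∧
    ∀ᶠ y' in 𝓝 y, B.ζ x l (π y') = e (chartAt (Fin n → ℂ) y y') *
      ((labo y l).elim 1 (chartAt (Fin n → ℂ) y y') *
        ∏ k, (lab y k).elim 1 (chartAt (Fin n → ℂ) y y') ^ mo l k)

/-- **MAINL**: principalization which is compatible with a given boundary -/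
def StMainL : Prop :=
  ∀ (S : Base) (n : ℕ) (K : Set S.X) (q : ℕ) (B : Bdy S n q), 1 ≤ n → Dense S.Badᶜ → IsCompact K →
    Nonempty (OutL S n K B)

end Vale.Agent.P277Z.Hir
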