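import Vale.Agent.P284Z.Defs
import Mathlib.Geometry.Manifold.IsManifold.Basic
import Mathlib.Analysis.SpecialFunctions.Pow.Real

/-!
# P277Z, resolution by weighted blow-ups: the base and the output
-/

open Filter Topology Set Function
open scoped Manifold ContDiff

noncomputable section

namespace Vale.Agent.P277Z.Hir

open Vale.Agent.P284Z (Psh)

/-- `f` and `g` are comparable along the filter `l` -/
def Cpb {T : Type} (l : Filter T) (f g : T → ℝ) : Prop :=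
  ∃ C : ℝ, 0 < C ∧ ∀ᶠ z in l, f z ≤ C * g z ∧ g z ≤ C * f z

/-- the base space, with its holomorphic functions, the bad set and local equations of it -/
structure Base where
  X : Type
  [top : TopologicalSpace X]
  [t2 : T2Space X]
  [lc : LocallyCompactSpace X]
  Hol : (X → ℂ) → X → Prop
  comp : ∀ (x : X) (ι : Type) [Fintype ι] (g : X → ι → ℂ) (G : (ι → ℂ) → ℂ) (f : X → ℂ),
    (∀ l, Hol (fun y => g y l) x) → AnalyticAt ℂ G (g x) → (∀ᶠ y in 𝓝 x, f y = G (g y)) → Hol f x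
  cont : ∀ f x, Hol f x → ContinuousAt f x
  ev : ∀ f x, Hol f x → ∀ᶠ y in 𝓝 x, Hol f y
  Bad : Set X
  closed : IsClosed Bad
  Γ : Type
  XO : Γ → Set X
  isOpen : ∀ γ, IsOpen (XO γ)
  cover : ∀ x, ∃ γ, x ∈ XO γ
  m : Γ → ℕ
  f : ∀ γ, Fin (m γ) → X → ℂ
  hol : ∀ γ k, ∀ x ∈ XO γ, Hol (f γ k) x
  zero : ∀ γ, ∀ x ∈ XO γ, x ∈ Bad ↔ ∀ k, f γ k x = 0
  cpb : ∀ γ γ', ∀ x ∈ XO γ, x ∈ XO γ' →
    Cpb (𝓝 x) (fun y => ∑ k, ‖f γ k y‖) fun y => ∑ k, ‖f γ' k y‖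

attribute [instance] Base.top Base.t2 Base.lc

/-- the output: a manifold `Y` of dimension `n` over a neighbourhood of `K` -/
structure Out (S : Base) (n : ℕ) (K : Set S.X) where
  O : Set S.X
  isOpen : IsOpen O
  sub : K ⊆ O
  Y : Type
  [top : TopologicalSpace Y]
  [t2 : T2Space Y]
  [sc : SecondCountableTopology Y]
  [cs : ChartedSpace (Fin n → ℂ) Y]
  [mf : IsManifold 𝓘(ℂ, Fin n → ℂ) ω Y]
  π : Y → S.X
  cont : Continuous π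
  maps : ∀ y, π y ∈ O
  proper : ∀ L ⊆ O, IsCompact L → IsCompact (π ⁻¹' L)
  surj : ∀ z ∈ O, z ∉ S.Bad → ∃ y, π y = z
  dense : Dense {y | π y ∉ S.Bad}
  hol : ∀ y g, S.Hol g (π y) →
    AnalyticAt ℂ (fun z => g (π ((chartAt (Fin n → ℂ) y).symm z))) (chartAt (Fin n → ℂ) y y)
  r : ℕ
  G : Fin r → Set Y
  lab : Y → Fin r → Option (Fin n)
  inj : ∀ y l l' i, lab y l = some i → lab y l' = some i → l = l'
  snc : ∀ y l, ∀ y' ∈ (chartAt (Fin n → ℂ) y).source,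
    y' ∈ G l ↔ ∃ i, lab y l = some i ∧ chartAt (Fin n → ℂ) y y' i = 0
  bad : ∀ y, π y ∈ S.Bad ↔ ∃ l, y ∈ G l
  one : ∀ y y', π y ∉ S.Bad → π y' = π y → y' = y
  sec : ∀ y, π y ∉ S.Bad → ∃ σ : S.X → Y, ContinuousAt σ (π y) ∧ σ (π y) = y ∧
    (∀ᶠ z in 𝓝 (π y), π (σ z) = z) ∧ ∀ i, S.Hol (fun z => chartAt (Fin n → ℂ) y (σ z) i) (π y)
  prin : ∀ y γ, π y ∈ S.XO γ → ∃ e : Fin n → ℕ, (∀ i, e i ≠ 0 → ∃ l, lab y l = some i) ∧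
    Cpb (𝓝 y) (fun y' => ∑ k, ‖S.f γ k (π y')‖) fun y' => ‖∏ i, chartAt (Fin n → ℂ) y y' i ^ e i‖
  c : Fin r → ℚ
  c0 : ∀ l, 0 < c l
  v : Y → ℝ
  pos : ∀ y, ∃ (m : ℕ) (g : Fin m → S.X → ℂ) (ε : ℝ) (U : Set (Fin n → ℂ)) (h : (Fin n → ℂ) → ℝ),
    (∀ i, S.Hol (g i) (π y)) ∧ 0 < ε ∧ IsOpen U ∧ chartAt (Fin n → ℂ) y y ∈ U ∧ ContinuousOn h U ∧
    Psh (fun z => h z - ε * ∑ i, ‖z i‖ ^ 2) U ∧
    ∀ᶠ y' in 𝓝 y, (∀ l, y' ∉ G l) → h (chartAt (Fin n → ℂ) y y') = v y' + ∑ i, ‖g i (π y')‖ ^ 2 -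
      2 * ∑ l, (c l : ℝ) * (lab y l).elim 0 fun i => Real.log ‖chartAt (Fin n → ℂ) y y' i‖

end Vale.Agent.P277Z.Hir
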