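import Vale.Agent.P277Z.Hir.BSk
import Vale.Agent.P277Z.Hir.Out
import Vale.Agent.P277.Defs

/-!
# P277, resolution: the start, the end of the first phase, the output (statements)
-/

open Filter Topology Set Function

noncomputable section

namespace Vale.Agent.P277Z.Hir

open Gl
open Vale.Agent.P277 (IsModel)
open Vale.Agent.P284Z (Psh)

/-- the base of the atlases -/
def Base.gl (S : Base) (O : Set S.X) (hO : IsOpen O) : Gl.Base S.X :=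
  ⟨S.Hol, O, S.Bad, hO, S.closed⟩

/-- the size of the local equations of the bad set -/
def Base.nm (S : Base) (γ : S.Γ) (y : S.X) : ℝ := ∑ k, ‖S.f γ k y‖

/-- near `x` the base is a manifold of dimension `n` -/
def Base.Reg (S : Base) (n : ℕ) (x : S.X) : Prop :=
  ∃ (V : Set S.X) (Ω : Set (Fin n → ℂ)) (h : Fin 0 → (Fin n → ℂ) → ℂ) (φ : S.X → Fin n → ℂ),
    x ∈ V ∧ IsModel S.Hol V Ω h φ

/-- the base is a complex space, which is a manifold of dimension `n` outside the bad set -/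
structure Base.Sp (S : Base) (n : ℕ) : Prop where
  model : ∀ x, ∃ (N k : ℕ) (V : Set S.X) (Ω : Set (Fin N → ℂ)) (h : Fin k → (Fin N → ℂ) → ℂ)
    (φ : S.X → Fin N → ℂ), x ∈ V ∧ IsModel S.Hol V Ω h φ
  reg : ∀ x ∉ S.Bad, S.Reg n x
  dense : Dense S.Badᶜ

namespace Gl

variable {ι X : Type} [Fintype ι] [DecidableEq ι] [TopologicalSpace X]

/-- a chart of the start: no labels, the coordinates are holomorphic functions on the base, and the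
family generates the ideal of `B` -/
structure Ch.Init (β : Base X) (C : Ch ι X) : Prop where
  lab : ∀ l, C.lab l = 0
  inj : InjOn C.π C.B
  opn : ∀ u ∈ C.B, 𝓝 (C.π u) ≤ map C.π (𝓝[C.B] u)
  crd : ∀ u ∈ C.B, ∀ l, ∃ g, β.Hol g (C.π u) ∧ ∀ᶠ z in 𝓝 u, z ∈ C.B → g (C.π z) = z l
  zero : ∀ z ∈ C.U, z ∈ C.B ↔ ∀ k, C.F k z = 0
  gen : ∀ u ∈ C.B, ∀ f : (ι → ℂ) → ℂ, AnalyticAt ℂ f u → (∀ᶠ z in 𝓝 u, z ∈ C.B → f z = 0) →
    ∃ c : ℝ, ∀ᶠ z in 𝓝 u, ‖f z‖ ≤ c * C.nF z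

/-- positivity of `-∑ c j • {s j = 0}` for a full atlas, chart by chart -/
def At.PosOut (β : Base X) (A : At ι X) : Prop :=
  ∃ (c : ℕ → ℚ) (Ψ : X → ℝ), (∀ j, 0 < c j) ∧ ∀ a, ∀ u ∈ (A.C a).B, (A.C a).π u ∈ β.O →
    ∃ (m : ℕ) (g : Fin m → X → ℂ) (ε : ℝ) (U : Set (ι → ℂ)) (h : (ι → ℂ) → ℝ),
      (∀ i, β.Hol (g i) ((A.C a).π u)) ∧ 0 < ε ∧ IsOpen U ∧ u ∈ U ∧ ContinuousOn h U ∧
      Psh (fun z => h z - ε * ∑ l, ‖z l‖ ^ 2) U ∧
      ∀ᶠ z in 𝓝 u, (A.C a).π z ∉ β.Z → h z = Ψ ((A.C a).π z) + ∑ i, ‖g i ((A.C a).π z)‖ ^ 2 -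
        2 * ∑ l ∈ Finset.univ.filter (fun l => (A.C a).lab l ≠ 0),
          (c ((A.C a).lab l) : ℝ) * Real.log ‖z l‖

end Gl

/-- **START**: the first atlas -/
def StStart : Prop :=
  ∀ (S : Base) (n : ℕ) (K : Set S.X), S.Sp n → IsCompact K →
    ∃ (ι : Type) (_ : Fintype ι) (_ : DecidableEq ι) (_ : Nonempty ι) (c : ℕ) (O : Set S.X)
      (hO : IsOpen O) (A : At ι S.X), Fintype.card ι = n + c ∧ K ⊆ O ∧ A.Ok (S.gl O hO) ∧
      ∀ a, (A.C a).Init (S.gl O hO)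

/-- **SM**: the regular points -/
def StSm : Prop :=
  ∀ (S : Base) (n c : ℕ) (O : Set S.X) (hO : IsOpen O) (ι : Type) [Fintype ι] [DecidableEq ι]
    (C : Ch ι S.X), Fintype.card ι = n + c → C.Ok (S.gl O hO) → C.Init (S.gl O hO) →
    ∀ u ∈ C.B, S.Reg n (C.π u) → C.Sm c u

/-- **TYS**: the type at a regular point -/
def StTys : Prop :=
  ∀ (ι X : Type) [Fintype ι] [DecidableEq ι] [TopologicalSpace X] (β : Gl.Base X) (C : Ch ι X)
    (c : ℕ), C.Ok β → ∀ u ∈ C.B, u ∉ C.E → C.Sm c u → HasTy C.lab C.F u (tyc c)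

/-- **ROUND**: the weighted algorithm -/
def StResolve : Prop :=
  ∀ (ι X : Type) [Fintype ι] [DecidableEq ι] [Nonempty ι] [TopologicalSpace X] (β : Gl.Base X)
    (A : At ι X) (T : Set Ty), IsLowerSet T → A.Ok β → A.Off β (fun C u => C.TyIn T u) →
    ∃ A', Steps β A A' ∧ A'.Ok β ∧ ∀ a, ∀ u ∈ (A'.C a).B, (A'.C a).TyIn T u

/-- **FLAT**: the end of the first phase -/
def StFlat : Prop :=
  ∀ (ι X : Type) [Fintype ι] [DecidableEq ι] [Nonempty ι] [TopologicalSpace X] (β : Gl.Base X)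
    (A : At ι X) (n c : ℕ), Fintype.card ι = n + c → A.Ok β → A.ZB →
    A.Off β (fun C u => C.Sm c u) → (∀ a, ∀ u ∈ (A.C a).B, (A.C a).TyIn (Iic (tyc c)) u) →
    ∃ (A' : At ι X) (e : A'.κ → Fin n → ι), Ref A A' ∧ ∀ a, (A'.C a).Flat (e a)

/-- **INT**: the exponents are integers -/
def StInt : Prop :=
  ∀ (n m : ℕ) (f : Fin m → (Fin n → ℂ) → ℂ) (u : Fin n → ℂ) (T : Finset (Fin n)) (ex : Fin n → ℝ),
    (∀ k, AnalyticAt ℂ (f k) u) → (∀ l, 0 ≤ ex l) →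
    Cpb (𝓝 u) (fun z => ∑ k, ‖f k z‖) (fun z => ∏ l ∈ T, ‖z l‖ ^ ex l) →
    ∃ e : Fin n → ℕ, (∀ l, e l ≠ 0 → l ∈ T) ∧
      Cpb (𝓝 u) (fun z => ∑ k, ‖f k z‖) fun z => ‖∏ l, z l ^ e l‖

/-- **OUT**: the output -/
def StOut : Prop :=
  ∀ (S : Base) (n : ℕ) (K O : Set S.X) (hO : IsOpen O) (A : At (Fin n) S.X) (ex : ℕ → ℝ), K ⊆ O →
    A.Ok (S.gl O hO) → A.Full → A.Unit → (∀ j, 0 ≤ ex j) → A.Tot S.XO S.nm ex →
    A.PosOut (S.gl O hO) → Nonempty (Glue (S.gl O hO) A) → Nonempty (Out S n K)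

/-- **MAIN**: log resolution over a neighbourhood of a compact set -/
def StMain : Prop :=
  ∀ (S : Base) (n : ℕ) (K : Set S.X), 1 ≤ n → S.Sp n → IsCompact K → Nonempty (Out S n K)

end Vale.Agent.P277Z.Hir
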