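import Vale.Agent.P277Z.Hir.AA

/-!
# P277Z, block HIR: the certified centre is admissible (statement A)
-/

open Filter Topology Set

set_option linter.unusedSectionVars false

noncomputable section

namespace Vale.Agent.P277Z.Hir

namespace AH

variable {ι : Type} [Fintype ι] [DecidableEq ι] {nu : ι → ℕ} {U : Set (W ι)} {κ : Type}
  {F : κ → W ι → ℂ} (C : Cert nu U F) {q : W ι}

/-- the weights at the step `i` of the downward induction -/
def wt (ω : ℕ → ℚ) (i : ℕ) : ℕ → ℚ := fun j => if j < i then 1 else ω j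

theorem vf_crd (D : W ι → W ι) (m : ℕ → ι) (j : ℕ) : vf D (crd m j) = fun u => D u (m j) :=
  funext fun u => fderiv_crd (m j) u (D u)

theorem step (hq : q ∈ U) (a : κ) (i : ℕ) (hi : i < C.k)
    (h : ∀ β, Fil C.k (crd C.m) (wt C.ω (i + 1)) q (mark C.ω β (i + 1)) (der C.D β (i + 1) (F a)))
    (β : ℕ → ℕ) : Fil C.k (crd C.m) (wt C.ω i) q (mark C.ω β i) (der C.D β i (F a)) := by
  have hU : ∀ᶠ u in 𝓝 q, u ∈ U := C.isOpen.mem_nhds hq
  have hy : ∀ j < C.k, AnalyticAt ℂ (crd C.m j) q := fun j _ => an_crd (C.m j) q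
  have hwi : wt C.ω i i = C.ω i := if_neg (lt_irrefl i)
  have hpos := C.pos i hi
  obtain ⟨n, hn⟩ := exists_nat_ge (mark C.ω β i / C.ω i)
  refine key hy (C.anD i hi q hq) hi (τ := Function.update (wt C.ω (i + 1)) i 0) ?_
    (by rw [hwi]; exact hpos.le) ?_ ?_ n _ _ (by rw [hwi]; exact (div_le_iff₀ hpos).1 hn)
    (der_an β (C.anF a q hq) i fun j hj => C.anD j (hj.trans hi) q hq) fun j => ?_
  · intro j _
    rcases lt_trichotomy j i with hj | rfl | hj
    · rw [Function.update_of_ne hj.ne, wt, wt, if_pos hj, if_pos (Nat.lt_succ_of_lt hj)]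
    · rw [Function.update_self, hwi]
      exact hpos.le
    · rw [Function.update_of_ne hj.ne', wt, wt, if_neg (by omega), if_neg (by omega)]
  · intro j hjk
    rw [hwi]
    rcases lt_trichotomy j i with hj | rfl | hj
    · right
      rw [vf_crd]
      exact hU.mono fun u hu => C.low i hi j hj u hu
    · left
      rw [Function.update_self]
      exact hpos.le
    · left
      rw [Function.update_of_ne hj.ne', wt, if_neg (by omega)]
      exact le_of_ent hpos (C.pos j hjk) (C.sorted i j hj.le hjk)
  · rw [vf_crd]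
    exact hU.mono fun u hu => C.one i hi u hu
  · rw [hwi, ← der_update, ← mark_update]
    exact fil_split hy i (fun l hl => Function.update_of_ne hl _ _) (h _)

theorem adm (hq : q ∈ U) (hZ : q ∈ C.Z) (a : κ) : Fil C.k (crd C.m) C.ω q 1 (F a) := by
  have hU : ∀ᶠ u in 𝓝 q, u ∈ U := C.isOpen.mem_nhds hq
  have main : ∀ n i, i + n = C.k → ∀ β,
      Fil C.k (crd C.m) (wt C.ω i) q (mark C.ω β i) (der C.D β i (F a)) := by
    intro n
    induction n with
    | zero =>
      intro i hi β
      obtain rfl : i = C.k := hi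
      have han := der_an β (C.anF a q hq) C.k fun j hj => C.anD j hj q hq
      rcases le_or_gt (mark C.ω β C.k) 0 with h0 | h0
      · exact Fil.base h0 han
      · refine fil_of_van C.k le_rfl (fun j hj => ?_) hZ _ han
          (hU.mono fun u hu => C.fin a β h0 u hu)
        rw [wt, if_pos hj]
        exact mark_le β fun l hl => (C.pos l hl).le
    | succ n ih => exact fun i hi => step C hq a i (by omega) (ih (i + 1) (by omega))
  have h := main C.k 0 (zero_add _) fun _ => 0
  have e : wt C.ω 0 = C.ω := funext fun j => if_neg (Nat.not_lt_zero j)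
  rw [e] at h
  simpa [mark, der] using h

/-- the labels of the certified centre -/
def lab (nu : ι → ℕ) (m : ℕ → ι) (i : ℕ) : Option ι := if nu (m i) ≠ 0 then some (m i) else none

theorem lab_some {m : ℕ → ι} {i : ℕ} {l : ι} (h : lab nu m i = some l) : nu l ≠ 0 ∧ m i = l := by
  unfold lab at h
  split_ifs at h with h0
  obtain rfl := Option.some.inj h
  exact ⟨h0, rfl⟩

theorem lab_elim (m : ℕ → ι) (i : ℕ) : (lab nu m i).elim 0 nu = nu (m i) := by
  unfold lab
  split_ifs with h0
  · rfl
  · exact (not_not.1 h0).symm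

/-- the certified centre -/
def cen (hZ : q ∈ C.Z) : Cen nu q where
  k := C.k
  y := crd C.m
  ω := C.ω
  lab := lab nu C.m
  pos := C.pos
  an i _ := an_crd (C.m i) q
  van := hZ
  div i _ l h := ⟨(lab_some h).1, by rw [← (lab_some h).2]; rfl⟩
  inj i hi i' hi' l h h' := C.inj i hi i' hi' ((lab_some h).2.trans (lab_some h').2.symm)
  indep c e hc he h i hi := by
    by_cases h0 : nu (C.m i) = 0
    · have h1 := h (Pi.single (C.m i) 1)
      have h2 : e (C.m i) = 0 := by
        by_contra h2
        exact (he _ h2).1 h0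
      rw [Finset.sum_eq_single i, Finset.sum_eq_single (C.m i), h2, zero_mul, add_zero] at h1
      · have h3 : fderiv ℂ (crd C.m i) q (Pi.single (C.m i) 1) = 1 :=
          (fderiv_crd (C.m i) q _).trans (Pi.single_eq_same _ _)
        rwa [h3, mul_one] at h1
      · intro l _ hl
        rw [Pi.single_eq_of_ne hl, mul_zero]
      · exact fun h => absurd (Finset.mem_univ _) h
      · intro j hj hji
        have h3 : fderiv ℂ (crd C.m j) q (Pi.single (C.m i) 1) = 0 :=
          (fderiv_crd (C.m j) q _).trans (Pi.single_eq_of_ne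
            (fun h => hji (C.inj j (Finset.mem_range.1 hj) i hi h)) _)
        rw [h3, mul_zero]
      · exact fun h => absurd (Finset.mem_range.2 hi) h
    · refine hc i ?_
      rw [lab, if_pos h0]
      exact Option.some_ne_none _
  sorted i i' h h' := by
    rw [lab_elim, lab_elim]
    exact C.sorted i i' h h'

end AH

/-- **A** -/
theorem stA : StA := by
  intro ι _ _ nu _ U κ F C q hq hZ
  refine ⟨AH.adm C hq hZ, fun a => AH.fil_van (y := crd C.m) (fun i hi => hZ i hi) (AH.adm C hq hZ a) one_pos,
    AH.cen C hZ, AH.adm C hq hZ, ?_, rfl, rfl, rfl⟩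
  exact congrArg (mkTy C.k C.ω) (funext fun i => AH.lab_elim C.m i)

end Vale.Agent.P277Z.Hir
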