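import Vale.Agent.P277Z.Hir.Loc
import Vale.Agent.P277.H19.DivL

/-!
# P277Z, block HIR: basic properties of the filtration `Fil`
-/

open Filter Topology Set

set_option linter.unusedSectionVars false

noncomputable section

namespace Vale.Agent.P277Z.Hir.AH

section gen
variable {E : Type} [NormedAddCommGroup E] [NormedSpace ℂ E] {k : ℕ} {y : ℕ → E → ℂ}
  {ω : ℕ → ℚ} {q : E} {c : ℚ} {f g : E → ℂ} {D : E → E}

theorem fil_an (hy : ∀ i < k, AnalyticAt ℂ (y i) q) (h : Fil k y ω q c f) : AnalyticAt ℂ f q := by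
  induction h with
  | base _ hf => exact hf
  | zero => exact analyticAt_const
  | mul i hi _ ih => exact (hy i hi).mul ih
  | add _ _ ih ih' => exact ih.add ih'
  | mono _ _ ih => exact ih
  | congr h _ ih => exact ih.congr h

theorem fil_amul (hg : AnalyticAt ℂ g q) (h : Fil k y ω q c f) :
    Fil k y ω q c fun u => g u * f u := by
  induction h with
  | base hc hf => exact Fil.base hc (hg.mul hf)
  | zero => exact Fil.congr (Eventually.of_forall fun u => (mul_zero _).symm) Fil.zero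
  | mul i hi _ ih =>
    exact Fil.congr (Eventually.of_forall fun u => mul_left_comm _ _ _) (Fil.mul i hi ih)
  | add _ _ ih ih' =>
    exact Fil.congr (Eventually.of_forall fun u => (mul_add _ _ _).symm) (Fil.add ih ih')
  | mono hc _ ih => exact Fil.mono hc ih
  | congr h _ ih => exact Fil.congr (h.mono fun u hu => by simp only [hu]) ih

theorem fil_wmono {ω' : ℕ → ℚ} (hw : ∀ i < k, ω i ≤ ω' i) (h : Fil k y ω q c f) :
    Fil k y ω' q c f := by
  induction h with
  | base hc hf => exact Fil.base hc hf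
  | zero => exact Fil.zero
  | mul i hi _ ih => exact Fil.mono (by linarith [hw i hi]) (Fil.mul i hi ih)
  | add _ _ ih ih' => exact Fil.add ih ih'
  | mono hc _ ih => exact Fil.mono hc ih
  | congr h _ ih => exact Fil.congr h ih

theorem fil_van (hy : ∀ i < k, y i q = 0) (h : Fil k y ω q c f) (hc : 0 < c) : f q = 0 := by
  induction h with
  | base hc' _ => exact absurd hc (not_lt.2 hc')
  | zero => rfl
  | mul i hi _ _ => simp only [hy i hi, zero_mul]
  | add _ _ ih ih' => simp only [ih hc, ih' hc, add_zero]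
  | mono hc' _ ih => exact ih (hc.trans_le hc')
  | congr h _ ih => rw [← h.eq_of_nhds, ih hc]

theorem vf_an (hD : AnalyticAt ℂ D q) (hf : AnalyticAt ℂ f q) : AnalyticAt ℂ (vf D f) q :=
  ((ContinuousLinearMap.id ℂ (E →L[ℂ] ℂ)).analyticAt_bilinear (fderiv ℂ f q, D q)).comp₂
    hf.fderiv hD

theorem vf_congr (h : f =ᶠ[𝓝 q] g) : vf D f =ᶠ[𝓝 q] vf D g :=
  (h.fderiv (𝕜 := ℂ)).mono fun u hu => by simp only [vf, hu]

theorem vf_add (hf : AnalyticAt ℂ f q) (hg : AnalyticAt ℂ g q) :
    vf D (fun u => f u + g u) =ᶠ[𝓝 q] fun u => vf D f u + vf D g u := by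
  filter_upwards [hf.eventually_analyticAt, hg.eventually_analyticAt] with u h1 h2
  simp only [vf]
  rw [fderiv_fun_add h1.differentiableAt h2.differentiableAt]
  rfl

theorem vf_mul (hf : AnalyticAt ℂ f q) (hg : AnalyticAt ℂ g q) :
    vf D (fun u => f u * g u) =ᶠ[𝓝 q] fun u => f u * vf D g u + vf D f u * g u := by
  filter_upwards [hf.eventually_analyticAt, hg.eventually_analyticAt] with u h1 h2
  simp only [vf]
  rw [fderiv_fun_mul h1.differentiableAt h2.differentiableAt]
  simp only [add_apply, smul_apply, smul_eq_mul]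
  ring

theorem vf_const (a : ℂ) : vf D (fun _ => a) = fun _ => 0 := by
  funext u
  simp [vf]

theorem iter_an (hD : AnalyticAt ℂ D q) (hf : AnalyticAt ℂ f q) (j : ℕ) :
    AnalyticAt ℂ ((vf D)^[j] f) q := by
  induction j with
  | zero => exact hf
  | succ j ih => rw [Function.iterate_succ_apply']; exact vf_an hD ih

/-- a vector field lowers the weight by at most `w` -/
theorem fil_vf (hy : ∀ i < k, AnalyticAt ℂ (y i) q) (hD : AnalyticAt ℂ D q) {w : ℚ} (hw : 0 ≤ w)
    (hlow : ∀ i < k, ω i ≤ w ∨ vf D (y i) =ᶠ[𝓝 q] fun _ => 0) (h : Fil k y ω q c f) :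
    Fil k y ω q (c - w) (vf D f) := by
  induction h with
  | base hc hf => exact Fil.base (by linarith) (vf_an hD hf)
  | zero => rw [vf_const]; exact Fil.zero
  | @mul c f i hi hf ih =>
    refine Fil.congr (vf_mul (hy i hi) (fil_an hy hf)).symm (Fil.add ?_ ?_)
    · exact Fil.mono (by linarith) (Fil.mul i hi ih)
    · rcases hlow i hi with h | h
      · exact Fil.mono (by linarith) (fil_amul (vf_an hD (hy i hi)) hf)
      · exact Fil.congr (h.mono fun u hu => by simp only [hu, zero_mul]) Fil.zero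
  | add hf hg ih ih' => exact Fil.congr (vf_add (fil_an hy hf) (fil_an hy hg)).symm (Fil.add ih ih')
  | mono hc _ ih => exact Fil.mono (by linarith) ih
  | congr h _ ih => exact Fil.congr (vf_congr h) ih

theorem fil_iter (hy : ∀ i < k, AnalyticAt ℂ (y i) q) (hD : AnalyticAt ℂ D q) {w : ℚ} (hw : 0 ≤ w)
    (hlow : ∀ i < k, ω i ≤ w ∨ vf D (y i) =ᶠ[𝓝 q] fun _ => 0) (h : Fil k y ω q c f) (j : ℕ) :
    Fil k y ω q (c - j * w) ((vf D)^[j] f) := by
  induction j with
  | zero => simpa using h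
  | succ j ih =>
    rw [Function.iterate_succ_apply']
    exact Fil.mono (by push_cast; linarith) (fil_vf hy hD hw hlow ih)

/-- `f` is in `Fil c + (x)` -/
def Q (k : ℕ) (y : ℕ → E → ℂ) (ω : ℕ → ℚ) (q : E) (x : E → ℂ) (c : ℚ) (f : E → ℂ) : Prop :=
  ∃ g h : E → ℂ, Fil k y ω q c g ∧ AnalyticAt ℂ h q ∧ f =ᶠ[𝓝 q] fun u => g u + x u * h u

/-- splitting off the multiples of `y i` -/
theorem fil_split (hy : ∀ i < k, AnalyticAt ℂ (y i) q) (i : ℕ) {τ : ℕ → ℚ}
    (hτ : ∀ j, j ≠ i → τ j = ω j) (h : Fil k y ω q c f) : Q k y τ q (y i) c f := by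
  induction h with
  | @base c f hc hf =>
    exact ⟨f, fun _ => 0, Fil.base hc hf, analyticAt_const, Eventually.of_forall fun u => by simp⟩
  | zero =>
    exact ⟨fun _ => 0, fun _ => 0, Fil.zero, analyticAt_const,
      Eventually.of_forall fun u => by simp⟩
  | @mul c f j hj hf ih =>
    by_cases hji : j = i
    · subst hji
      exact ⟨fun _ => 0, f, Fil.zero, fil_an hy hf, Eventually.of_forall fun u => by simp⟩
    · obtain ⟨g, h, h1, h2, h3⟩ := ih
      refine ⟨fun u => y j u * g u, fun u => y j u * h u, ?_, (hy j hj).mul h2,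
        h3.mono fun u hu => ?_⟩
      · rw [← hτ j hji]
        exact Fil.mul j hj h1
      · simp only [hu]
        ring
  | add _ _ ih ih' =>
    obtain ⟨g, h, h1, h2, h3⟩ := ih
    obtain ⟨g', h', h1', h2', h3'⟩ := ih'
    refine ⟨fun u => g u + g' u, fun u => h u + h' u, Fil.add h1 h1', h2.add h2', ?_⟩
    filter_upwards [h3, h3'] with u hu hu'
    rw [hu, hu']
    ring
  | mono hc _ ih =>
    obtain ⟨g, h, h1, h2, h3⟩ := ih
    exact ⟨g, h, Fil.mono hc h1, h2, h3⟩
  | congr he _ ih =>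
    obtain ⟨g, h, h1, h2, h3⟩ := ih
    exact ⟨g, h, h1, h2, he.symm.trans h3⟩

theorem iter_formula {x h : E → ℂ} (hD : AnalyticAt ℂ D q) (hx : AnalyticAt ℂ x q)
    (hDx : vf D x =ᶠ[𝓝 q] fun _ => 1) (hg : AnalyticAt ℂ g q) (hh : AnalyticAt ℂ h q)
    (hf : f =ᶠ[𝓝 q] fun u => g u + x u * h u) (j : ℕ) :
    (vf D)^[j + 1] f =ᶠ[𝓝 q] fun u => (vf D)^[j + 1] g u + x u * (vf D)^[j + 1] h u +
      ((j : ℂ) + 1) * (vf D)^[j] h u := by
  induction j with
  | zero =>
    filter_upwards [vf_congr (D := D) hf, vf_add (D := D) hg (hx.mul hh), vf_mul (D := D) hx hh,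
      hDx] with u h1 h2 h3 h4
    simp only [zero_add, Function.iterate_one, Function.iterate_zero_apply, Nat.cast_zero]
    rw [h1]
    refine h2.trans ?_
    change vf D g u + vf D (fun u => x u * h u) u = _
    rw [h3, h4]
    ring
  | succ j ih =>
    have a1 := iter_an hD hg (j + 1)
    have a2 := iter_an hD hh (j + 1)
    have a3 := iter_an hD hh j
    have a4 : AnalyticAt ℂ (fun u => x u * (vf D)^[j + 1] h u) q := hx.mul a2
    have a5 : AnalyticAt ℂ (fun u => (vf D)^[j + 1] g u + x u * (vf D)^[j + 1] h u) q := a1.add a4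
    have a6 : AnalyticAt ℂ (fun u => ((j : ℂ) + 1) * (vf D)^[j] h u) q := analyticAt_const.mul a3
    filter_upwards [vf_congr (D := D) ih, vf_add (D := D) a5 a6, vf_add (D := D) a1 a4,
      vf_mul (D := D) hx a2, vf_mul (D := D) (analyticAt_const (v := (j : ℂ) + 1)) a3,
      hDx] with u h1 h2 h3 h4 h5 h6
    rw [Function.iterate_succ_apply' (vf D) (j + 1) f, Function.iterate_succ_apply' (vf D) (j + 1) g,
      Function.iterate_succ_apply' (vf D) (j + 1) h, h1, h2, h3, h4, h5, h6, vf_const,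
      ← Function.iterate_succ_apply' (vf D) j h]
    push_cast
    ring

/-- the key lemma -/
theorem key (hy : ∀ i < k, AnalyticAt ℂ (y i) q) (hD : AnalyticAt ℂ D q) {i : ℕ} (hi : i < k)
    {τ : ℕ → ℚ} (hτ : ∀ j < k, τ j ≤ ω j) (hw : 0 ≤ ω i)
    (hlow : ∀ j < k, τ j ≤ ω i ∨ vf D (y j) =ᶠ[𝓝 q] fun _ => 0)
    (hone : vf D (y i) =ᶠ[𝓝 q] fun _ => 1) (n : ℕ) :
    ∀ (d : ℚ) (f : E → ℂ), d ≤ n * ω i → AnalyticAt ℂ f q →
      (∀ j : ℕ, Q k y τ q (y i) (d - j * ω i) ((vf D)^[j] f)) → Fil k y ω q d f := by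
  induction n with
  | zero => exact fun d f hd hf _ => Fil.base (by simpa using hd) hf
  | succ n ih =>
    intro d f hd _ hQ
    obtain ⟨g, h, h1, h2, h3⟩ := hQ 0
    simp only [Nat.cast_zero, zero_mul, sub_zero, Function.iterate_zero_apply] at h1 h3
    have hh : Fil k y ω q (d - ω i) h := by
      refine ih _ h (by push_cast at hd; linarith) h2 fun j => ?_
      obtain ⟨g', h', h1', h2', h3'⟩ := hQ (j + 1)
      have e := iter_formula hD (hy i hi) hone (fil_an hy h1) h2 h3 j
      have hj : (j : ℂ) + 1 ≠ 0 := Nat.cast_add_one_ne_zero j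
      have f1 := fil_iter hy hD hw hlow h1 (j + 1)
      refine ⟨fun u => ((j : ℂ) + 1)⁻¹ * g' u + (-((j : ℂ) + 1)⁻¹) * (vf D)^[j + 1] g u,
        fun u => ((j : ℂ) + 1)⁻¹ * (h' u - (vf D)^[j + 1] h u), ?_,
        analyticAt_const.mul (h2'.sub (iter_an hD h2 _)), ?_⟩
      · exact Fil.mono (by push_cast; linarith)
          (Fil.add (fil_amul analyticAt_const h1') (fil_amul analyticAt_const f1))
      · filter_upwards [e, h3'] with u hu hu'
        rw [hu'] at hu
        field_simp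
        linear_combination -hu
    refine Fil.congr h3.symm (Fil.add (fil_wmono hτ h1) ?_)
    exact Fil.mono (by linarith) (Fil.mul i hi hh)

theorem der_an {D : ℕ → E → E} (β : ℕ → ℕ) (hf : AnalyticAt ℂ f q) :
    ∀ n, (∀ j < n, AnalyticAt ℂ (D j) q) → AnalyticAt ℂ (der D β n f) q
  | 0, _ => hf
  | n + 1, h => iter_an (h n (Nat.lt_succ_self n))
      (der_an β hf n fun j hj => h j (Nat.lt_succ_of_lt hj)) _

theorem der_congr {D : ℕ → E → E} {β β' : ℕ → ℕ} :
    ∀ n, (∀ j < n, β j = β' j) → der D β n f = der D β' n f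
  | 0, _ => rfl
  | n + 1, h => by
    rw [der, der, h n (Nat.lt_succ_self n), der_congr n fun j hj => h j (Nat.lt_succ_of_lt hj)]

theorem der_update (D : ℕ → E → E) (β : ℕ → ℕ) (i j : ℕ) (f : E → ℂ) :
    der D (Function.update β i j) (i + 1) f = (vf (D i))^[j] (der D β i f) := by
  rw [der, Function.update_self,
    der_congr i fun l hl => Function.update_of_ne (ne_of_lt hl) j β]

end gen

theorem mark_update (ω : ℕ → ℚ) (β : ℕ → ℕ) (i j : ℕ) :
    mark ω (Function.update β i j) (i + 1) = mark ω β i - j * ω i := by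
  rw [mark, mark, Finset.sum_range_succ, Function.update_self,
    Finset.sum_congr rfl fun l hl => by
      rw [Function.update_of_ne (ne_of_lt (Finset.mem_range.1 hl)) j β]]
  ring

theorem mark_le {ω : ℕ → ℚ} (β : ℕ → ℕ) {n : ℕ} (h : ∀ j < n, 0 ≤ ω j) : mark ω β n ≤ 1 :=
  sub_le_self _ (Finset.sum_nonneg fun j hj =>
    mul_nonneg (Nat.cast_nonneg _) (h j (Finset.mem_range.1 hj)))

theorem le_of_ent {w w' : ℚ} {n n' : ℕ} (hw : 0 < w) (hw' : 0 < w') (h : ent w n ≤ ent w' n') :
    w' ≤ w :=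
  (inv_le_inv₀ hw hw').1 (Prod.Lex.monotone_fst _ _ (WithTop.coe_le_coe.1 h))

variable {ι : Type} [Fintype ι] [DecidableEq ι]

theorem an_crd (l : ι) (q : W ι) : AnalyticAt ℂ (fun u : W ι => u l) q :=
  (ContinuousLinearMap.proj (R := ℂ) (φ := fun _ : ι => ℂ) l).analyticAt q

theorem fderiv_crd (l : ι) (u v : W ι) : fderiv ℂ (fun u : W ι => u l) u v = v l := by
  have h : HasFDerivAt (fun u : W ι => u l)
      (ContinuousLinearMap.proj (R := ℂ) (φ := fun _ : ι => ℂ) l) u :=
    (ContinuousLinearMap.proj (R := ℂ) (φ := fun _ : ι => ℂ) l).hasFDerivAt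
  rw [h.fderiv]
  rfl

/-- division by a coordinate -/
theorem exists_div {f : W ι → ℂ} {q : W ι} (l : ι) (hf : AnalyticAt ℂ f q) (h0 : q l = 0)
    (hz : ∀ᶠ u in 𝓝 q, u l = 0 → f u = 0) :
    ∃ g : W ι → ℂ, AnalyticAt ℂ g q ∧ ∀ᶠ u in 𝓝 q, f u = u l * g u := by
  obtain ⟨n, hn⟩ : ∃ n, Fintype.card ι = n + 1 :=
    Nat.exists_eq_succ_of_ne_zero (Fintype.card_pos_iff.2 ⟨l⟩).ne'
  obtain ⟨e, he⟩ : ∃ e : ι ≃ Fin (n + 1), e l = 0 :=
    ⟨(Fintype.equivFinOfCardEq hn).trans (Equiv.swap (Fintype.equivFinOfCardEq hn l) 0), by simp⟩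
  have hl : e.symm 0 = l := by rw [← he, e.symm_apply_apply]
  let T : (Fin (n + 1) → ℂ) → W ι := fun w i => w (e i)
  let S : W ι → Fin (n + 1) → ℂ := fun u j => u (e.symm j)
  have hTS : ∀ u, T (S u) = u := fun u => funext fun i => by simp [T, S]
  have hT : AnalyticAt ℂ T (S q) := AnalyticAt.pi fun i => an_crd (e i) _
  have hS : AnalyticAt ℂ S q := AnalyticAt.pi fun j => an_crd (e.symm j) _
  have hT' : Tendsto T (𝓝 (S q)) (𝓝 q) := by
    have := hT.continuousAt.tendsto
    rwa [hTS] at this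
  obtain ⟨g, hg, hg'⟩ := Vale.Agent.P277.H19.exists_div (f := fun w => f (T w)) (w₁ := S q)
    (AnalyticAt.comp (g := f) (by rw [hTS]; exact hf) hT) (by simp only [S, hl, h0])
    ((hT'.eventually hz).mono fun w hw hw0 => hw (by simp only [T, he, hw0]))
  refine ⟨fun u => g (S u), hg.comp hS, (hS.continuousAt.tendsto.eventually hg').mono fun u hu => ?_⟩
  rw [hTS] at hu
  simpa only [S, hl] using hu

/-- functions vanishing on a coordinate subspace -/
theorem fil_of_van {K : ℕ} {m : ℕ → ι} {ω : ℕ → ℚ} {q : W ι} {c : ℚ} :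
    ∀ k, k ≤ K → (∀ j < k, c ≤ ω j) → (∀ j < k, q (m j) = 0) → ∀ f : W ι → ℂ, AnalyticAt ℂ f q →
      (∀ᶠ u in 𝓝 q, (∀ j < k, u (m j) = 0) → f u = 0) → Fil K (crd m) ω q c f
  | 0, _, _, _, f, _, hz =>
    Fil.congr (hz.mono fun u hu => (hu fun j hj => absurd hj (Nat.not_lt_zero j)).symm) Fil.zero
  | k + 1, hk, hc, hq, f, hf, hz => by
    let π : W ι → W ι := fun u => Function.update u (m k) 0
    have hπ : ∀ u, u (m k) = 0 → π u = u := fun u hu => by
      simp only [π]
      rw [← hu, Function.update_eq_self]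
    have hπa : AnalyticAt ℂ π q := AnalyticAt.pi fun i => by
      by_cases hi : i = m k
      · subst hi
        simp only [Function.update_self]
        exact analyticAt_const
      · simp only [Function.update_of_ne hi]
        exact an_crd i q
    have hπq := hπ q (hq k (Nat.lt_succ_self k))
    have hπ' : Tendsto π (𝓝 q) (𝓝 q) := by
      have := hπa.continuousAt.tendsto
      rwa [hπq] at this
    have hfπ : AnalyticAt ℂ (fun u => f (π u)) q :=
      AnalyticAt.comp (g := f) (by rw [hπq]; exact hf) hπa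
    have h1 := fil_of_van (K := K) (m := m) (ω := ω) (q := q) (c := c) k (Nat.le_of_succ_le hk)
      (fun j hj => hc j (Nat.lt_succ_of_lt hj)) (fun j hj => hq j (Nat.lt_succ_of_lt hj)) _ hfπ
      ((hπ'.eventually hz).mono fun u hu h0 => hu fun j hj => by
        by_cases hjk : m j = m k
        · simp only [π, hjk, Function.update_self]
        · simp only [π, Function.update_of_ne hjk]
          exact h0 j (lt_of_le_of_ne (Nat.lt_succ_iff.1 hj) fun h => hjk (by rw [h])))
    obtain ⟨g, hg, hg'⟩ := exists_div (f := fun u => f u - f (π u)) (m k) (hf.sub hfπ)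
      (hq k (Nat.lt_succ_self k)) (Eventually.of_forall fun u hu => by rw [hπ u hu, sub_self])
    have h2 : Fil K (crd m) ω q c fun u => crd m k u * g u :=
      Fil.mono (by linarith [hc k (Nat.lt_succ_self k)]) (Fil.mul k hk (Fil.base le_rfl hg))
    refine Fil.congr (hg'.mono fun u hu => ?_) (Fil.add h1 h2)
    change f (π u) + u (m k) * g u = f u
    rw [← hu]
    ring

end Vale.Agent.P277Z.Hir.AH
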