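import Vale.Agent.P277Z.Hir.BSk

/-!
# P277, resolution, global part: the charts of the blow-up
-/

open Filter Topology Set Function

set_option linter.unusedSectionVars false

noncomputable section

namespace Vale.Agent.P277Z.Hir.Gl

open L (Le IsCo Ass sl)

namespace BlC

variable {ι X : Type} [Fintype ι] [DecidableEq ι]

theorem an_crd (l : ι) (z : ι → ℂ) : AnalyticAt ℂ (fun u : ι → ℂ => u l) z :=
  (ContinuousLinearMap.proj (R := ℂ) (φ := fun _ : ι => ℂ) l).analyticAt z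

theorem an_σo (w : ι → ℕ) (o : Option ι) (z : ι → ℂ) : AnalyticAt ℂ (σo w o) z := by
  cases o with
  | none => exact analyticAt_id
  | some i =>
    refine AnalyticAt.pi fun m => ?_
    by_cases h : m = i
    · simp only [σo, sl, if_pos h]
      exact (an_crd i z).pow _
    · simp only [σo, sl, if_neg h]
      exact ((an_crd i z).pow _).mul (an_crd m z)

theorem cont_σo (w : ι → ℕ) (o : Option ι) : Continuous (σo w o) :=
  continuous_iff_continuousAt.2 fun z => (an_σo w o z).continuousAt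

theorem mem_Zc {w : ι → ℕ} {o : Option ι} (hu : Use w o) {z : ι → ℂ} (hz : so o z = 0) :
    σo w o z ∈ Zc w := by
  cases o with
  | none => exact absurd hz one_ne_zero
  | some i =>
    have hz' : z i = 0 := hz
    refine ⟨fun h => hu (congrFun h i), fun l hl => ?_⟩
    change sl w i z l = 0
    by_cases h : l = i
    · subst h
      rw [sl, if_pos rfl, hz', zero_pow hl]
    · rw [sl, if_neg h, hz', zero_pow hl, zero_mul]

theorem arr_tendsto {C C' : Ch ι X} {u u' : ι → ℂ} {Φ Ψ : (ι → ℂ) → ι → ℂ}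
    (h : Arr C u C' u' Φ Ψ) : Tendsto Ψ (𝓝 u') (𝓝 u) := by
  have h1 := h.an'.continuousAt.tendsto
  have h2 : Ψ u' = u := by rw [← h.val]; exact h.left.self_of_nhds
  rwa [h2] at h1

theorem arr_mem {C C' : Ch ι X} {u u' : ι → ℂ} {Φ Ψ : (ι → ℂ) → ι → ℂ}
    (h : Arr C u C' u' Φ Ψ) : ∀ᶠ v in 𝓝 u', Φ (Ψ v) = v ∧ (v ∈ C'.B → Ψ v ∈ C.B) := by
  filter_upwards [h.right, (arr_tendsto h).eventually h.mem] with v h1 h2
  exact ⟨h1, fun hv => h2.1 (by rwa [h1])⟩

theorem exists_eps (w : ι → ℕ) {n : ℕ} (hn : n ≠ 0) {δ : ℝ} (hδ : 0 < δ) :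
    ∃ ε : ℝ, 0 < ε ∧ ∀ r : ℂ, ‖r - 1‖ ≤ ε → (∀ l, ‖r ^ w l - 1‖ ≤ δ) ∧ (r ^ n = 1 → r = 1) := by
  have h1 : ∀ᶠ r in 𝓝 (1 : ℂ), ∀ l, ‖r ^ w l - 1‖ < δ := eventually_all.2 fun l =>
    (show ContinuousAt (fun r : ℂ => ‖r ^ w l - 1‖) 1 by fun_prop).eventually
      (gt_mem_nhds (by simpa using hδ))
  have h2 : ∀ᶠ r in 𝓝 (1 : ℂ), ∑ k ∈ Finset.range n, r ^ k ≠ 0 :=
    (show ContinuousAt (fun r : ℂ => ∑ k ∈ Finset.range n, r ^ k) 1 by fun_prop).eventually_ne
      (by simpa using hn)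
  obtain ⟨ε, hε, h⟩ := Metric.eventually_nhds_iff.1 (h1.and h2)
  refine ⟨ε / 2, half_pos hε, fun r hr => ?_⟩
  obtain ⟨h3, h4⟩ := h (y := r) (by rw [dist_eq_norm]; linarith)
  refine ⟨fun l => (h3 l).le, fun h5 => ?_⟩
  have h6 := geom_sum_mul r n
  rw [h5, sub_self, mul_eq_zero] at h6
  exact sub_eq_zero.1 (h6.resolve_left h4)

theorem ratio {w : ι → ℕ} {i : ι} (hi : w i ≠ 0) {ε₀ : ℝ} (h₀ : 0 < ε₀) :
    ∃ ε : ℝ, 0 < ε ∧ ∀ z z' : ι → ℂ, z i ≠ 0 → ‖z' i - z i‖ ≤ ε * ‖z i‖ →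
      (∀ l, (l ≠ i → ‖z' l - z l‖ ≤ ε * ‖z l‖) →
        ‖sl w i z' l - sl w i z l‖ ≤ ε₀ * ‖sl w i z l‖) ∧ (sl w i z' = sl w i z → z' = z) := by
  obtain ⟨ε, hε, h⟩ := exists_eps w hi (δ := ε₀ / 4) (by positivity)
  refine ⟨min ε (min 1 (ε₀ / 2)), by positivity, fun z z' hz hc => ?_⟩
  obtain ⟨r, hr⟩ : ∃ r, z' i = r * z i := ⟨z' i / z i, (div_mul_cancel₀ _ hz).symm⟩
  have hr1 : ‖r - 1‖ ≤ ε := by
    rw [hr, ← sub_one_mul, norm_mul] at hc
    exact (le_of_mul_le_mul_right hc (norm_pos_iff.2 hz)).trans (min_le_left _ _)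
  obtain ⟨h1, h2⟩ := h r hr1
  refine ⟨fun l hl => ?_, fun he => ?_⟩
  · by_cases hli : l = i
    · subst hli
      rw [sl, sl, if_pos rfl, if_pos rfl, hr, mul_pow, ← sub_one_mul, norm_mul]
      exact mul_le_mul_of_nonneg_right ((h1 l).trans (by linarith)) (norm_nonneg _)
    · have h3 := hl hli
      have h4 : ‖z' l - z l‖ ≤ 1 * ‖z l‖ := h3.trans (mul_le_mul_of_nonneg_right
        ((min_le_right _ _).trans (min_le_left _ _)) (norm_nonneg _))
      have h5 : ‖z' l - z l‖ ≤ ε₀ / 2 * ‖z l‖ := h3.trans (mul_le_mul_of_nonneg_right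
        ((min_le_right _ _).trans (min_le_right _ _)) (norm_nonneg _))
      have h6 : ‖z' l‖ ≤ 2 * ‖z l‖ := by linarith [norm_sub_norm_le (z' l) (z l)]
      have h7 : (r * z i) ^ w l * z' l - z i ^ w l * z l =
          z i ^ w l * ((r ^ w l - 1) * z' l + (z' l - z l)) := by ring
      have h8 : ‖(r ^ w l - 1) * z' l + (z' l - z l)‖ ≤ ε₀ * ‖z l‖ := by
        refine (norm_add_le _ _).trans ?_
        rw [norm_mul]
        have := mul_le_mul (h1 l) h6 (norm_nonneg _) (by positivity)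
        linarith
      rw [sl, sl, if_neg hli, if_neg hli, hr, h7, norm_mul, norm_mul, mul_left_comm]
      exact mul_le_mul_of_nonneg_left h8 (norm_nonneg _)
  · have h3 := congrFun he i
    rw [sl, sl, if_pos rfl, if_pos rfl, hr, mul_pow] at h3
    have h4 : r = 1 := h2 (mul_right_cancel₀ (pow_ne_zero _ hz) (h3.trans (one_mul _).symm))
    rw [h4, one_mul] at hr
    funext l
    by_cases hli : l = i
    · rw [hli, hr]
    · have h5 := congrFun he l
      rw [sl, sl, if_neg hli, if_neg hli, hr] at h5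
      exact mul_left_cancel₀ (pow_ne_zero _ hz) h5

variable [TopologicalSpace X] {β : Base X} {C : Ch ι X} {w : ι → ℕ} {N : ℕ} {o : Option ι}
  {G : Fin C.m → (ι → ℂ) → ℂ}

theorem mem_B (hC : C.Ok β) {z : ι → ℂ} (hz : z ∈ (C.bl w N o G).B) : σo w o z ∈ C.B :=
  hC.closed _ hz.1 (map_mem_closure (cont_σo w o) hz.2 fun _ h => h.1)

theorem ok (hC : C.Ok β) (hu : Use w o) (hN : N ≠ 0) (hnew : ∀ l, C.lab l ≠ N)
    (hG : ∀ k, AnalyticOnNhd ℂ (G k) (σo w o ⁻¹' C.U)) (hov : ∀ u ∈ C.B, u ∈ Zc w → C.π u ∈ β.Z)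
    (hS : ∀ z ∈ (C.bl w N o G).U, so o z ≠ 0 → ∃ g, Arr (C.bl w N o G) z C (σo w o z) (σo w o) g) :
    (C.bl w N o G).Ok β := by
  have hs : ∀ z ∈ (C.bl w N o G).B, (C.bl w N o G).π z ∉ β.Z → so o z ≠ 0 := fun z hz h h0 =>
    h (hov _ (mem_B hC hz) (mem_Zc hu h0))
  have hUo : IsOpen (σo w o ⁻¹' C.U) := hC.isOpen.preimage (cont_σo w o)
  refine ⟨hUo, inter_subset_left, fun u hu h => ⟨hu, ?_⟩, ?_, hG,
    hC.cont.comp (cont_σo w o).continuousOn fun z hz => mem_B hC hz, fun u hu f hf => ?_,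
    fun u hu hZ => ?_, fun u hu hZ f g hg he => ?_, fun u hu hE => ?_, fun u hu => ?_,
    fun u hu' => ?_⟩
  · exact closure_minimal inter_subset_right isClosed_closure h
  · cases o with
    | none => exact hC.lbl
    | some i =>
      intro l l' h1 h2
      change update C.lab i N l ≠ 0 at h1
      change update C.lab i N l' = update C.lab i N l at h2
      by_cases hl : l = i
      · by_contra hl'
        rw [hl, update_self, update_of_ne (hl ▸ hl')] at h2
        exact hnew l' h2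
      · by_cases hl' : l' = i
        · rw [hl', update_self, update_of_ne hl] at h2
          exact absurd h2.symm (hnew l)
        · rw [update_of_ne hl] at h1 h2
          rw [update_of_ne hl'] at h2
          exact hC.lbl l l' h1 h2
  · obtain ⟨g, hg, he⟩ := hC.hol _ (mem_B hC hu) f hf
    refine ⟨fun z => g (σo w o z), hg.comp (an_σo w o u), ?_⟩
    filter_upwards [(cont_σo w o).continuousAt.eventually he] with z hz hzB
    exact hz (mem_B hC hzB)
  · obtain ⟨g, ha⟩ := hS u hu.1 (hs u hu hZ)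
    refine (hC.opn _ (mem_B hC hu) hZ).trans ?_
    have h1 : Tendsto g (𝓝[C.B] (σo w o u)) (𝓝[(C.bl w N o G).B] u) :=
      tendsto_nhdsWithin_iff.2 ⟨(arr_tendsto ha).mono_left nhdsWithin_le_nhds, by
        filter_upwards [nhdsWithin_le_nhds (arr_mem ha), self_mem_nhdsWithin] with v h1 h2
        exact h1.2 h2⟩
    have h2 : C.π =ᶠ[𝓝[C.B] (σo w o u)] (C.bl w N o G).π ∘ g := by
      filter_upwards [nhdsWithin_le_nhds (arr_mem ha)] with v h1
      exact congrArg C.π h1.1.symm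
    rw [map_congr h2, ← map_map]
    exact map_mono h1
  · obtain ⟨Ψ, ha⟩ := hS u hu.1 (hs u hu hZ)
    have h2 : Ψ (σo w o u) = u := ha.left.self_of_nhds
    refine hC.iso _ (mem_B hC hu) hZ f (fun v => g (Ψ v))
      (AnalyticAt.comp (g := g) (by rwa [h2]) ha.an') ?_
    filter_upwards [arr_mem ha, (arr_tendsto ha).eventually he] with v h3 h4 hv
    rw [← h4 (h3.2 hv)]
    exact congrArg (fun x => f (C.π x)) h3.1.symm
  · by_contra hZ
    have h0 := hs u hu hZ
    obtain ⟨l, h1, h2⟩ := hE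
    refine hZ (hC.unt _ (mem_B hC hu) ⟨l, ?_⟩)
    cases o with
    | none => exact ⟨h1, h2⟩
    | some i =>
      have hl : l ≠ i := fun h => h0 (h ▸ h2)
      change update C.lab i N l ≠ 0 at h1
      rw [update_of_ne hl] at h1
      refine ⟨h1, ?_⟩
      change sl w i u l = 0
      rw [sl, if_neg hl, h2, mul_zero]
  · refine closure_minimal (fun z hz => ?_) isClosed_closure (hUo.inter_closure hu)
    obtain ⟨Ψ, ha⟩ := hS z hz.1 hz.2.2
    refine mem_closure_iff_frequently.2 ((arr_tendsto ha).frequently ?_)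
    refine ((mem_closure_iff_frequently.1 (hC.dense _ hz.2.1)).and_eventually (arr_mem ha)).mono
      fun v hv => ⟨hv.2.2 hv.1.1, ?_⟩
    change C.π (σo w o (Ψ v)) ∉ β.Z
    rw [hv.2.1]
    exact hv.1.2
  · obtain ⟨ε₀, h₀, he⟩ := hC.faith _ (mem_B hC hu')
    have ht : Tendsto (fun p : (ι → ℂ) × (ι → ℂ) => (σo w o p.1, σo w o p.2)) (𝓝 (u, u))
        (𝓝 (σo w o u, σo w o u)) := ((cont_σo w o).prodMap (cont_σo w o)).continuousAt
    cases o with
    | none =>
      refine ⟨ε₀, h₀, ?_⟩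
      filter_upwards [ht.eventually he] with p hp h1 h2 h3 h4 h5
      exact hp (mem_B hC h1) (mem_B hC h2) h3 h4 h5
    | some i =>
      obtain ⟨ε, hε, hr⟩ := ratio (w := w) (i := i) hu h₀
      refine ⟨ε, hε, ?_⟩
      filter_upwards [ht.eventually he] with p hp h1 h2 h3 h4 h5
      obtain ⟨h6, h7⟩ := hr p.1 p.2 (hs _ h1 h3) (h5 i (by
        change update C.lab i N i ≠ 0
        rwa [update_self]))
      refine h7 (hp (mem_B hC h1) (mem_B hC h2) h3 h4 fun l hl => h6 l fun hli => h5 l ?_)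
      change update C.lab i N l ≠ 0
      rwa [update_of_ne hli]

end BlC

/-- **BLC** -/
theorem stBlC (hS : StSig) : StBlC := fun ι X _ _ _ β A W hA p =>
  BlC.ok (hA.ch p.1.1) p.2 W.pos (W.new p.1.1) (W.anG p.1.1 p.1.2 p.2) (W.ovr p.1.1)
    (hS ι X β A W hA p)

end Vale.Agent.P277Z.Hir.Gl
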