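import Vale.Agent.P277Z.Hir.BSk
import Vale.Agent.P277Z.Hir.IA

/-!
# P277, resolution, global part: division on a slice
-/

open Filter Topology Set Function Asymptotics

noncomputable section

namespace Vale.Agent.P277Z.Hir.Gl

open L (Le sl)

namespace DivH

variable {ι : Type} [Fintype ι] [DecidableEq ι]

omit [DecidableEq ι] in
theorem an_crd (l : ι) (q : ι → ℂ) : AnalyticAt ℂ (fun z : ι → ℂ => z l) q :=
  (ContinuousLinearMap.proj (R := ℂ) (φ := fun _ : ι => ℂ) l).analyticAt q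

theorem an_sl (w : ι → ℕ) (i : ι) (z : ι → ℂ) : AnalyticAt ℂ (sl w i) z := by
  refine analyticAt_pi_iff.2 fun m => ?_
  by_cases h : m = i
  · simp only [sl, if_pos h]
    exact (an_crd i z).fun_pow _
  · simp only [sl, if_neg h]
    exact ((an_crd i z).fun_pow _).fun_mul (an_crd m z)

theorem norm_sl_le {w : ι → ℕ} {i l : ι} (hl : w l ≠ 0) {p : ι → ℂ} {M : ℝ} (h1 : 1 ≤ M)
    (h2 : ‖p‖ ≤ M) : ‖sl w i p l‖ ≤ (M * ‖p i‖) ^ w l := by
  rw [mul_pow, mul_comm]
  by_cases h : l = i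
  · simp only [sl, h, if_true, norm_pow]
    exact le_mul_of_one_le_right (by positivity) (one_le_pow₀ h1)
  · simp only [sl, if_neg h, norm_mul, norm_pow]
    exact mul_le_mul_of_nonneg_left (((norm_le_pi_norm p l).trans h2).trans
      (le_self_pow₀ h1 hl)) (by positivity)

end DivH

open DivH

theorem stDivS : StDivS := by
  intro ι _ _ w i z f b _ hz hf ⟨C, hC⟩
  have hM : 1 ≤ ‖z‖ + 1 := le_add_of_nonneg_left (norm_nonneg _)
  have h1 : ∀ᶠ p : ι → ℂ in 𝓝 z, ‖p‖ < ‖z‖ + 1 :=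
    continuous_norm.continuousAt.eventually (gt_mem_nhds (lt_add_one _))
  have h2 : ∀ᶠ p : ι → ℂ in 𝓝 z, (‖z‖ + 1) * ‖p i‖ < 1 :=
    (continuousAt_const.mul (an_crd i z).continuousAt.norm).eventually
      (gt_mem_nhds (by simp [hz]))
  have h3 : ∀ᶠ p in 𝓝 z, p i ≠ 0 → ‖f (sl w i p)‖ ≤ C * (‖z‖ + 1) ^ b * ‖p i ^ b‖ := by
    filter_upwards [h1, h2, (an_sl w i z).continuousAt.eventually hC] with p e1 e2 e3 e4
    have h4 := e3 _ (mul_pos (one_pos.trans_le hM) (norm_pos_iff.2 e4)) e2.le fun l hl => by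
      rw [Rat.cast_natCast, Real.rpow_natCast]
      exact norm_sl_le (fun e => hl (by rw [e, Nat.cast_zero])) hM e1.le
    rwa [Rat.cast_natCast, Real.rpow_natCast, mul_pow, ← mul_assoc, ← norm_pow] at h4
  refine IH.div_pow (l := ContinuousLinearMap.proj i) (e := Pi.single i 1) (by simp) hz b
    (hf.fun_comp (an_sl w i z)) ?_
  filter_upwards [h3.eventually_nhds] with u hu (h0 : u i = 0)
  have h4 : Tendsto (fun s : ℂ => u + s • (Pi.single i 1 : ι → ℂ)) (𝓝 0) (𝓝 u) := by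
    simpa using ((tendsto_id (x := 𝓝 (0 : ℂ))).smul_const (Pi.single i 1 : ι → ℂ)).const_add u
  refine IsBigO.of_bound (C * (‖z‖ + 1) ^ b) ?_
  filter_upwards [(h4.mono_left nhdsWithin_le_nhds).eventually hu, self_mem_nhdsWithin]
    with s e1 (e2 : s ≠ 0)
  have h5 : (u + s • (Pi.single i 1 : ι → ℂ)) i = s := by simp [h0]
  rw [h5] at e1
  exact e1 e2

end Vale.Agent.P277Z.Hir.Gl
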