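import Vale.Agent.P277Z.Hir.BSk

/-!
# P277, resolution, global part: the lifts of a local isomorphism to the slices
-/

open Filter Topology Set Function

noncomputable section

namespace Vale.Agent.P277Z.Hir.Gl

open L (Le IsCo Ass sl)

namespace LiftA

variable {ι : Type} [Fintype ι] [DecidableEq ι] {w w' : ι → ℕ} {i j : ι} {z z' : ι → ℂ}
  {Φ Ψ Φ' Ψ' : (ι → ℂ) → ι → ℂ} {e e' : (ι → ℂ) → ℂ}

omit [Fintype ι] in
theorem sl_eq (w : ι → ℕ) (i : ι) (p : ι → ℂ) (l : ι) : sl w i p l = p i ^ w l * update p i 1 l := by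
  by_cases h : l = i
  · subst h
    simp [sl]
  · simp [sl, h]

omit [Fintype ι] in
theorem cont_upd (i l : ι) : Continuous fun p : ι → ℂ => update p i 1 l :=
  (continuous_apply l).comp (continuous_id.update i continuous_const)

omit [Fintype ι] in
theorem cont_sl (w : ι → ℕ) (i : ι) : Continuous (sl w i) :=
  continuous_pi fun l => by
    simp only [sl_eq]
    exact ((continuous_apply i).pow _).mul (cont_upd i l)

omit [Fintype ι] [DecidableEq ι] in
theorem freq (i : ι) (p : ι → ℂ) : ∃ᶠ x in 𝓝 p, x i ≠ 0 :=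
  mem_closure_iff_frequently.1 ((dense_compl_singleton (0 : ℂ)).preimage (isOpenMap_eval i) p)

omit [Fintype ι] [DecidableEq ι] in
theorem eq_of_dense {T : Type} [TopologicalSpace T] [T2Space T] {f g : (ι → ℂ) → T} (i : ι)
    (hf : ContinuousAt f z) (hg : ContinuousAt g z) (h : ∀ᶠ p in 𝓝 z, p i ≠ 0 → f p = g p) :
    f z = g z :=
  tendsto_nhds_unique_of_frequently_eq hf hg (((freq i z).and_eventually h).mono fun _ k => k.2 k.1)

omit [Fintype ι] in
theorem near_one (hw : w i ≠ 0) : ∀ᶠ x in 𝓝 (1 : ℂ), ∀ a b : ι → ℂ, sl w i a = sl w i b →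
    b i ≠ 0 → a i = x * b i → a = b := by
  have h1 : ContinuousAt (fun x : ℂ => ∑ k ∈ Finset.range (w i), x ^ k) 1 := by fun_prop
  filter_upwards [h1.eventually_ne (y := 0) (by simpa using hw)] with x hx a b hab hb ha
  have h2 := congrFun hab i
  simp only [sl, if_true, ha, mul_pow] at h2
  have h3 : x ^ w i = 1 := mul_right_cancel₀ (pow_ne_zero (w i) hb) (by rw [h2, one_mul])
  have h4 : x = 1 := by
    have := geom_sum_mul x (w i)
    rw [h3, sub_self] at this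
    exact sub_eq_zero.1 ((mul_eq_zero.1 this).resolve_left hx)
  rw [h4, one_mul] at ha
  funext l
  by_cases h : l = i
  · rw [h, ha]
  · have h5 := congrFun hab l
    simp only [sl, if_neg h, ha] at h5
    exact mul_left_cancel₀ (pow_ne_zero _ hb) h5

/-- one half of a lift -/
structure Hf (w : ι → ℕ) (i : ι) (z : ι → ℂ) (w' : ι → ℕ) (j : ι) (z' : ι → ℂ)
    (Φ Φ' : (ι → ℂ) → ι → ℂ) (e : (ι → ℂ) → ℂ) : Prop where
  an : AnalyticAt ℂ Φ' z
  ane : AnalyticAt ℂ e z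
  val : Φ' z = z'
  comm : ∀ᶠ p in 𝓝 z, sl w' j (Φ' p) = Φ (sl w i p)
  exc : ∀ p, Φ' p j = e p * p i

theorem Hf.tendsto (h : Hf w i z w' j z' Φ Φ' e) : Tendsto Φ' (𝓝 z) (𝓝 z') :=
  h.val ▸ h.an.continuousAt.tendsto

theorem cons (hw' : w' j ≠ 0) (hz : z i = 0) (hz' : z' j = 0) {Y : ι → (ι → ℂ) → ℂ}
    (hY : ∀ l, AnalyticAt ℂ (Y l) z) (hΦ : ∀ l, ∀ᶠ p in 𝓝 z, Φ (sl w i p) l = p i ^ w' l * Y l p)
    {τ : ℂ} (hτ : τ ≠ 0) (h : ∀ l, τ ^ w' l * update z' j 1 l = Y l z) :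
    ∃ Φ' e, Hf w i z w' j z' Φ Φ' e ∧ e z = τ := by
  have h0 : τ ^ w' j = Y j z := by simpa using h j
  have h1 : Y j z ≠ 0 := h0 ▸ pow_ne_zero _ hτ
  let e : (ι → ℂ) → ℂ := fun p => τ * (Y j p / Y j z) ^ ((w' j : ℂ)⁻¹)
  have he : AnalyticAt ℂ e z := analyticAt_const.mul
    (((hY j).div analyticAt_const h1).cpow analyticAt_const (by simp [div_self h1]))
  have he0 : e z = τ := by simp [e, div_self h1]
  have he1 : ∀ p, e p ^ w' j = Y j p := fun p => by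
    rw [mul_pow, Complex.cpow_nat_inv_pow _ hw', h0, mul_div_cancel₀ _ h1]
  refine ⟨fun p l => if l = j then e p * p i else Y l p / e p ^ w' l, e,
    ⟨analyticAt_pi_iff.2 fun l => ?_, he, funext fun l => ?_, ?_, fun p => if_pos rfl⟩, he0⟩
  · split_ifs
    · exact he.mul ((ContinuousLinearMap.proj i : (ι → ℂ) →L[ℂ] ℂ).analyticAt z)
    · exact (hY l).div (he.pow _) (pow_ne_zero _ (he0 ▸ hτ))
  · split_ifs with hl
    · rw [hl, hz, hz', mul_zero]
    · rw [← h l, he0, update_of_ne hl, mul_div_cancel_left₀ _ (pow_ne_zero _ hτ)]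
  · filter_upwards [eventually_all.2 hΦ, he.continuousAt.eventually_ne (he0 ▸ hτ)] with p hp hp0
    funext l
    rw [hp l]
    by_cases hl : l = j
    · subst hl
      simp only [sl, if_true]
      rw [mul_pow, he1, mul_comm]
    · simp only [sl, if_true, if_neg hl]
      rw [mul_pow]
      field_simp

theorem Hf.root (h : Hf w i z w' j z' Φ Φ' e) (hl : ∀ᶠ u in 𝓝 (sl w i z), Ψ (Φ u) = u)
    {Y : ι → (ι → ℂ) → ℂ} (hY : ∀ l, AnalyticAt ℂ (Y l) z')
    (hΨ : ∀ l, ∀ᶠ q in 𝓝 z', Ψ (sl w' j q) l = q j ^ w l * Y l q) (l : ι) :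
    e z ^ w l * Y l z' = update z i 1 l := by
  have h1 : ContinuousAt (fun p => Y l (Φ' p)) z :=
    ContinuousAt.comp (f := Φ') (h.val ▸ (hY l).continuousAt) h.an.continuousAt
  have := eq_of_dense i ((h.ane.continuousAt.pow (w l)).mul h1) (cont_upd i l).continuousAt (by
    filter_upwards [h.tendsto.eventually (hΨ l), h.comm, ((cont_sl w i).tendsto z).eventually hl]
      with p h2 h3 h4 hp
    rw [h3, h4, sl_eq, h.exc, mul_pow] at h2
    refine mul_left_cancel₀ (pow_ne_zero (w l) hp) ?_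
    rw [h2]
    simp only [Pi.mul_apply, Pi.pow_apply]
    ring)
  simpa only [Pi.mul_apply, Pi.pow_apply, h.val] using this

theorem Hf.left (h : Hf w i z w' j z' Φ Φ' e) (h' : Hf w' j z' w i z Ψ Ψ' e') (hw : w i ≠ 0)
    (he : e' z' * e z = 1) (hl : ∀ᶠ u in 𝓝 (sl w i z), Ψ (Φ u) = u) :
    ∀ᶠ p in 𝓝 z, Ψ' (Φ' p) = p := by
  have h1 : Tendsto (fun p => e' (Φ' p) * e p) (𝓝 z) (𝓝 1) :=
    he ▸ (h'.ane.continuousAt.tendsto.comp h.tendsto).mul h.ane.continuousAt.tendsto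
  have h2 : ∀ᶠ p in 𝓝 z, p i ≠ 0 → Ψ' (Φ' p) = p := by
    filter_upwards [h1.eventually (near_one hw), h.tendsto.eventually h'.comm, h.comm,
      ((cont_sl w i).tendsto z).eventually hl] with p k1 k2 k3 k4 hp
    exact k1 _ _ (by rw [k2, k3, k4]) hp (by rw [h'.exc, h.exc, mul_assoc])
  filter_upwards [h2.eventually_nhds, (h'.an.comp_of_eq h.an h.val).eventually_analyticAt]
    with p k1 k2
  exact eq_of_dense (g := id) i k2.continuousAt continuousAt_id k1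

end LiftA

open LiftA

theorem stLiftA : StLiftA := by
  intro ι _ _ w w' i j z z' Φ Ψ hw hw' hz hz' _ _ _ hl hr hY hY'
  choose Y hY hΦ using hY
  choose Y' hY' hΨ using hY'
  let T : Set ℂ := {τ | τ ≠ 0 ∧ ∀ l, τ ^ w' l * update z' j 1 l = Y l z}
  have hT : T.Finite := (Polynomial.nthRoots (w' j) (Y j z)).toFinset.finite_toSet.subset
    fun τ hτ => by simpa [Polynomial.mem_nthRoots (Nat.pos_of_ne_zero hw')] using hτ.2 j
  have key : ∀ τ : T, ∃ Φ' Ψ' e, Lf w i z w' j z' Φ Φ' Ψ' ∧ Hf w i z w' j z' Φ Φ' e ∧ e z = τ := by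
    rintro ⟨τ, hτ, hτ'⟩
    obtain ⟨Φ', e, h, he⟩ := cons hw' hz hz' hY hΦ hτ hτ'
    obtain ⟨Ψ', e', h', he'⟩ := cons hw hz' hz hY' hΨ (inv_ne_zero hτ) fun l => by
      rw [← h.root hl hY' hΨ l, he, ← mul_assoc, ← mul_pow, inv_mul_cancel₀ hτ, one_pow, one_mul]
    exact ⟨Φ', Ψ', e, ⟨h.an, h'.an, h.val, h.left h' hw (by rw [he, he', inv_mul_cancel₀ hτ]) hl,
      h'.left h hw' (by rw [he, he', mul_inv_cancel₀ hτ]) hr, h.comm,
      e, h.ane, he ▸ hτ, .of_forall h.exc⟩, h, he⟩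
  choose Φ' Ψ' e hL hH he using key
  have := hT.to_subtype
  obtain ⟨n, ⟨σ⟩⟩ := Finite.exists_equiv_fin T
  refine ⟨n, fun k => Φ' (σ.symm k), fun k => Ψ' (σ.symm k), fun k => hL _, ?_⟩
  refine mem_iff_ultrafilter.2 fun 𝒰 h𝒰 => ?_
  change ∀ᶠ p in (𝒰 : Filter ((ι → ℂ) × (ι → ℂ))), _
  refine Ultrafilter.eventually_imp.2 fun k1 => Ultrafilter.eventually_imp.2 fun k2 =>
    Ultrafilter.eventually_imp.2 fun k3 => ?_
  have t1 : Tendsto Prod.fst (𝒰 : Filter ((ι → ℂ) × (ι → ℂ))) (𝓝 z) := (continuous_fst.tendsto _).mono_left h𝒰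
  have t2 : Tendsto Prod.snd (𝒰 : Filter ((ι → ℂ) × (ι → ℂ))) (𝓝 z') := (continuous_snd.tendsto _).mono_left h𝒰
  let t : (ι → ℂ) × (ι → ℂ) → ℂ := fun p => p.2 j / p.1 i
  have e1 : ∀ l, ∀ᶠ p in (𝒰 : Filter ((ι → ℂ) × (ι → ℂ))), t p ^ w' l * update p.2 j 1 l = Y l p.1 := by
    intro l
    filter_upwards [k1, k3, t1.eventually (hΦ l)] with p a1 a3 a4
    rw [← a3, sl_eq] at a4
    rw [div_pow, div_mul_eq_mul_div, a4, mul_div_cancel_left₀ _ (pow_ne_zero _ a1)]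
  have e2 : ∀ᶠ p in (𝒰 : Filter ((ι → ℂ) × (ι → ℂ))), t p ^ w i * Y' i p.2 = 1 := by
    filter_upwards [k1, k3, t2.eventually (hΨ i),
      t1.eventually (((cont_sl w i).tendsto z).eventually hl)] with p a1 a3 a4 a5
    rw [a3, a5] at a4
    simp only [sl, if_true] at a4
    rw [div_pow, div_mul_eq_mul_div, ← a4, div_self (pow_ne_zero _ a1)]
  obtain ⟨τ, -, hτ⟩ := (isCompact_closedBall (0 : ℂ) (‖Y j z‖ + 1)).ultrafilter_le_nhds (𝒰.map t) (by
    rw [Ultrafilter.coe_map, le_principal_iff, mem_map]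
    filter_upwards [e1 j, (((hY j).continuousAt.tendsto.comp t1).norm).eventually
      (eventually_le_nhds (lt_add_one ‖Y j z‖))] with p a1 a2
    rw [update_self, mul_one] at a1
    rw [mem_preimage, mem_closedBall_zero_iff]
    by_cases h1 : ‖t p‖ ≤ 1
    · exact h1.trans (le_add_of_nonneg_left (norm_nonneg _))
    · refine (le_self_pow₀ (not_le.1 h1).le hw').trans ?_
      rw [← norm_pow, a1]
      exact a2)
  have t3 : Tendsto t (𝒰 : Filter ((ι → ℂ) × (ι → ℂ))) (𝓝 τ) := hτ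
  have hτT : τ ∈ T := by
    refine ⟨?_, fun l => tendsto_nhds_unique_of_eventuallyEq
      ((t3.pow _).mul (((cont_upd j l).tendsto z').comp t2))
      ((hY l).continuousAt.tendsto.comp t1) (e1 l)⟩
    rintro rfl
    have := tendsto_nhds_unique_of_eventuallyEq
      ((t3.pow (w i)).mul ((hY' i).continuousAt.tendsto.comp t2)) tendsto_const_nhds e2
    simp [hw] at this
  have t4 : Tendsto (fun p => e ⟨τ, hτT⟩ p.1 / t p) (𝒰 : Filter ((ι → ℂ) × (ι → ℂ))) (𝓝 1) := by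
    have := (((hH ⟨τ, hτT⟩).ane.continuousAt.tendsto.comp t1).div t3 hτT.1)
    rwa [he, div_self hτT.1] at this
  filter_upwards [k1, k2, k3, t4.eventually (near_one hw'), t1.eventually (hH ⟨τ, hτT⟩).comm]
    with p a1 a2 a3 a4 a5
  refine ⟨σ ⟨τ, hτT⟩, ?_⟩
  rw [σ.symm_apply_apply]
  refine a4 _ _ (a5.trans a3.symm) a2 ?_
  rw [(hH _).exc]
  simp only [t]
  field_simp

end Vale.Agent.P277Z.Hir.Gl
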