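import Vale.Agent.P277Z.Hir.BSk

/-!
# P277, resolution, global part: the lift of an arrow is an arrow
-/

open Filter Topology Set Function

noncomputable section

namespace Vale.Agent.P277Z.Hir.Gl

open L (Le IsCo Ass sl)

namespace LiftB

theorem clos {E Y : Type} [TopologicalSpace E] [TopologicalSpace Y] {f : E → Y} {z : E} {S : Set E}
    {S' : Set Y} (hf : ∀ᶠ p in 𝓝 z, ContinuousAt f p) (h : ∀ᶠ p in 𝓝 z, p ∈ S → f p ∈ S') :
    ∀ᶠ p in 𝓝 z, p ∈ closure S → f p ∈ closure S' := by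
  filter_upwards [hf, h.eventually_nhds] with p h1 h2 h3
  exact mem_closure_of_frequently_of_tendsto ((mem_closure_iff_frequently.1 h3).mp h2) h1

theorem cmp_unit {T : Type} {l : Filter T} {n f g : T → ℝ} {r : ℝ} (hr : 0 < r)
    (hn : Tendsto n l (𝓝 r)) (hf : ∀ p, 0 ≤ f p) (hg : ∀ p, 0 ≤ g p)
    (h : Cmp l (fun p => n p * f p) g) : Cmp l f g := by
  obtain ⟨c, hc, h⟩ := h
  refine ⟨c * (2 / r + 2 * r), by positivity, ?_⟩
  filter_upwards [h, hn.eventually (lt_mem_nhds (half_lt_self hr)),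
    hn.eventually (gt_mem_nhds (show r < 2 * r by linarith))] with p h1 h2 h3
  have a1 := hf p
  have a2 := hg p
  constructor
  · have a3 : f p = 2 / r * (r / 2 * f p) := by field_simp
    calc f p = 2 / r * (r / 2 * f p) := a3
      _ ≤ 2 / r * (c * g p) := mul_le_mul_of_nonneg_left
        ((mul_le_mul_of_nonneg_right h2.le a1).trans h1.1) (by positivity)
      _ = c * (2 / r) * g p := by ring
      _ ≤ c * (2 / r + 2 * r) * g p := by gcongr; linarith
  · calc g p ≤ c * (n p * f p) := h1.2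
      _ ≤ c * ((2 / r + 2 * r) * f p) := by
        gcongr
        have : 0 < 2 / r := by positivity
        linarith
      _ = _ := by ring

variable {ι X : Type} [Fintype ι] [DecidableEq ι]

omit [Fintype ι] [DecidableEq ι] in
theorem dens {Y : Type} [TopologicalSpace Y] {f : (ι → ℂ) → Y} {z : ι → ℂ} (i : ι) {T : Set Y}
    (hT : IsClosed T) (hf : ∀ᶠ p in 𝓝 z, ContinuousAt f p)
    (h : ∀ᶠ p in 𝓝 z, p i ≠ 0 → f p ∈ T) : ∀ᶠ p in 𝓝 z, f p ∈ T := by
  filter_upwards [clos (S := {p : ι → ℂ | p i ≠ 0}) hf h] with p hp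
  exact hT.closure_subset (hp ((dense_compl_singleton (0 : ℂ)).preimage (isOpenMap_eval i) p))

theorem an_sl (w : ι → ℕ) (i : ι) (z : ι → ℂ) : AnalyticAt ℂ (sl w i) z := by
  refine analyticAt_pi_iff.2 fun m => ?_
  have h : ∀ l, AnalyticAt ℂ (fun x : ι → ℂ => x l) z := fun l =>
    (ContinuousLinearMap.proj (R := ℂ) (φ := fun _ : ι => ℂ) l).analyticAt z
  unfold sl
  split_ifs
  exacts [(h i).pow _, ((h i).pow _).mul (h m)]

theorem cont_sl (w : ι → ℕ) (i : ι) : Continuous (sl w i) :=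
  continuous_iff_continuousAt.2 fun z => (an_sl w i z).continuousAt

omit [DecidableEq ι] in
theorem cont_s (C : Ch ι X) (j : ℕ) : Continuous (C.s j) := by
  unfold Ch.s
  fun_prop

variable (C : Ch ι X) (w : ι → ℕ) {N : ℕ} (i : ι) (G : Fin C.m → (ι → ℂ) → ℂ)

theorem s_new (h : ∀ l, C.lab l ≠ N) (p : ι → ℂ) : (C.bl w N (some i) G).s N p = p i := by
  have h1 : update C.lab i N i = N := update_self i N C.lab
  refine Finset.prod_eq_single_of_mem i (Finset.mem_filter.2 ⟨Finset.mem_univ _, h1⟩)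
    fun l hl e => ?_
  have h2 : update C.lab i N l = N := (Finset.mem_filter.1 hl).2
  exact absurd ((update_of_ne e N C.lab).symm.trans h2) (h l)

theorem s_old {j : ℕ} (h : j ≠ N) (p : ι → ℂ) :
    C.s j (sl w i p) = p i ^ (∑ l ∈ Finset.univ.filter (fun l => C.lab l = j), w l) *
      (C.bl w N (some i) G).s j p := by
  rw [← Finset.prod_pow_eq_pow_sum, Ch.s, Ch.s, Finset.prod_filter, Finset.prod_filter,
    Finset.prod_filter, ← Finset.prod_mul_distrib]
  refine Finset.prod_congr rfl fun l _ => ?_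
  by_cases e : l = i
  · simp [Ch.bl, labo, sl, e, h.symm]
  · by_cases e' : C.lab l = j <;> simp [Ch.bl, labo, sl, e, e']

omit [Fintype ι] in
theorem nF_sl {d : ℕ} {p : ι → ℂ} (h : ∀ k, C.F k (sl w i p) = p i ^ d * G k p) :
    C.nF (sl w i p) = ‖p i‖ ^ d * (C.bl w N (some i) G).nF p := by
  rw [Ch.nF, Ch.nF, Finset.mul_sum]
  exact Finset.sum_congr rfl fun k _ => by rw [h, norm_mul, norm_pow]; rfl

omit [Fintype ι] [DecidableEq ι] in
theorem nF_nonneg (p : ι → ℂ) : 0 ≤ C.nF p := Finset.sum_nonneg fun _ _ => norm_nonneg _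

omit [DecidableEq ι] in
theorem cont_nF {p : ι → ℂ} (h : ∀ k, AnalyticAt ℂ (C.F k) p) : ContinuousAt C.nF p :=
  tendsto_finsetSum _ fun k _ => (h k).continuousAt.norm

end LiftB

open LiftB

theorem stLiftB : StLiftB := by
  intro ι X _ _ _ β A W hA a b i j hi hj z z' Φ Ψ Φ' Ψ' hU hU' hr hl
  have t1 : Tendsto (sl (W.w a) i) (𝓝 z) (𝓝 (sl (W.w a) i z)) := (cont_sl _ i).continuousAt
  have t2 : Tendsto Φ' (𝓝 z) (𝓝 z') := hl.val ▸ hl.an.continuousAt
  have t3 : Tendsto Ψ' (𝓝 z') (𝓝 z) := by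
    have := hl.an'.continuousAt.tendsto
    rwa [show Ψ' z' = z from hl.val ▸ hl.left.self_of_nhds] at this
  have c1 : ∀ᶠ p in 𝓝 z, ContinuousAt Φ' p := hl.an.eventually_analyticAt.mono fun _ h =>
    h.continuousAt
  have e1 : ∀ᶠ p in 𝓝 z, sl (W.w a) i p ∈ (A.C a).U := t1 ((hA.ch a).isOpen.mem_nhds hU)
  have e2 : ∀ᶠ p in 𝓝 z, sl (W.w b) j (Φ' p) ∈ (A.C b).U :=
    ((cont_sl _ j).continuousAt.tendsto.comp t2) ((hA.ch b).isOpen.mem_nhds hU')
  obtain ⟨u, u1, u2, u3⟩ := hl.exc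
  have u4 : ∀ᶠ p in 𝓝 z, u p ≠ 0 := u1.continuousAt.eventually_ne u2
  have u5 : ∀ᶠ p in 𝓝 z, ContinuousAt u p := u1.eventually_analyticAt.mono fun _ h =>
    h.continuousAt
  have e5 : ∀ᶠ p in 𝓝 z, (Φ' p ∈ {q | sl (W.w b) j q ∈ (A.C b).B ∧ q j ≠ 0} ↔
      p ∈ {q | sl (W.w a) i q ∈ (A.C a).B ∧ q i ≠ 0}) := by
    filter_upwards [hl.comm, u3, u4, t1.eventually hr.mem] with p h1 h2 h3 h4
    rw [h1, h4, h2, mul_ne_zero_iff, and_iff_right h3]
  refine ⟨hl.an, hl.an', hl.val, hl.left, hl.right, ?_, ?_, fun n hn => ?_, ?_⟩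
  · have a1 := clos c1 (e5.mono fun _ h => h.2)
    have a2 := clos (f := Ψ') (hl.an'.eventually_analyticAt.mono fun _ h => h.continuousAt)
      (((t3.eventually e5).and hl.right).mono fun q h h' => h.1.1 (h.2.symm ▸ h'))
    filter_upwards [a1, t2.eventually a2, hl.left, e1, e2] with p h1 h2 h3 h4 h5
    exact ⟨fun h => ⟨h4, h3 ▸ h2 h.2⟩, fun h => ⟨h5, h1 h.2⟩⟩
  · filter_upwards [hl.comm, t1.eventually hr.pi] with p h1 h2 h
    exact (congrArg (A.C b).π h1).trans (h2 ((hA.ch a).closed _ h.1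
      (map_mem_closure (cont_sl _ i) h.2 fun _ h => h.1)))
  · by_cases e : n = W.N
    · refine ⟨u, u1, u2, u3.mono fun p h => ?_⟩
      rw [e]
      exact (s_new _ _ j _ (W.new b) _).trans (h.trans (congrArg (u p * ·)
        (s_new _ _ i _ (W.new a) _).symm))
    obtain ⟨v, v1, v2, v3⟩ := hr.div n hn
    have v4 : AnalyticAt ℂ (fun p => v (sl (W.w a) i p) / u p ^ W.m n) z :=
      (v1.comp (an_sl _ i z)).div (u1.pow _) (pow_ne_zero _ u2)
    refine ⟨_, v4, div_ne_zero v2 (pow_ne_zero _ u2), ?_⟩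
    refine (dens (f := fun p => ((W.bl.C ⟨(b, some j), hj⟩).s n (Φ' p),
      v (sl (W.w a) i p) / u p ^ W.m n * (W.bl.C ⟨(a, some i), hi⟩).s n p)) i
      isClosed_diagonal ?_ ?_).mono fun _ h => h
    · filter_upwards [c1, v4.eventually_analyticAt] with p h1 h2
      exact ((cont_s _ n).continuousAt.comp h1).prodMk
        (h2.continuousAt.mul (cont_s _ n).continuousAt)
    · filter_upwards [hl.comm, u3, u4, t1.eventually v3] with p h1 h2 h3 h4 h5
      rw [← h1, s_old _ _ i (W.G a (some i)) e, s_old _ _ j (W.G b (some j)) e,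
        W.hm a (fun h => hi (congrFun h i)) n hn, W.hm b (fun h => hj (congrFun h j)) n hn,
        h2, mul_pow] at h4
      refine mul_left_cancel₀ (mul_ne_zero (pow_ne_zero (W.m n) h3) (pow_ne_zero (W.m n) h5))
        (h4.trans ?_)
      show _ = _ * (_ / _ * (Ch.bl _ _ _ _ _).s n p)
      field_simp
  · refine cmp_unit (n := fun p => ‖u p‖ ^ W.d) (pow_pos (norm_pos_iff.2 u2) W.d)
      (u1.continuousAt.norm.pow _) (fun _ => nF_nonneg _ _) (nF_nonneg _) ?_
    obtain ⟨c, hc, h⟩ := hr.cmp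
    refine ⟨c, hc, (dens (f := fun p => (‖u p‖ ^ W.d * (W.bl.C ⟨(b, some j), hj⟩).nF (Φ' p),
      (W.bl.C ⟨(a, some i), hi⟩).nF p)) i (T := {x | x.1 ≤ c * x.2} ∩ {x | x.2 ≤ c * x.1})
      ((isClosed_le (by fun_prop) (by fun_prop)).inter (isClosed_le (by fun_prop) (by fun_prop)))
      ?_ ?_).mono fun _ h => h⟩
    · filter_upwards [c1, u5, e1, e2] with p h1 h2 h3 h4
      exact ((h2.norm.pow _).mul ((cont_nF (W.bl.C ⟨(b, some j), hj⟩) fun k =>
        W.anG b (some j) hj k _ h4).comp h1)).prodMk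
        (cont_nF (W.bl.C ⟨(a, some i), hi⟩) fun k => W.anG a (some i) hi k _ h3)
    · filter_upwards [hl.comm, u3, e1, e2, t1.eventually h] with p h1 h2 h3 h4 h5 h6
      rw [← h1, nF_sl (N := W.N) _ _ i _ fun k => W.eqG a (some i) hi k p h3,
        nF_sl (N := W.N) _ _ j _ fun k => W.eqG b (some j) hj k _ h4, h2, norm_mul, mul_pow,
        mul_comm (‖u p‖ ^ W.d), mul_assoc, mul_left_comm c, mul_left_comm c] at h5
      have h7 := pow_pos (norm_pos_iff.2 h6) W.d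
      exact ⟨le_of_mul_le_mul_left h5.1 h7, le_of_mul_le_mul_left h5.2 h7⟩

end Vale.Agent.P277Z.Hir.Gl
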