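import Vale.Agent.P277Z.Hir.LDefs
import Vale.Agent.P281.H511.Gen.Local

/-!
# P277, resolution, local part: basic rules for the growth filtration
-/

open Filter Topology Set Function Metric

noncomputable section

namespace Vale.Agent.P277Z.Hir.L

variable {ι : Type} [Fintype ι] [DecidableEq ι]
variable {y y' : (ι → ℂ) → ι → ℂ} {w w' : ι → ℚ} {f g : (ι → ℂ) → ℂ} {b b' : ℚ} {q : ι → ℂ}

set_option linter.unusedSectionVars false

theorem Le.nonneg (h : Le y w f b q) : ∃ C : ℝ, 0 ≤ C ∧ ∀ᶠ z in 𝓝 q, ∀ t : ℝ, 0 < t → t ≤ 1 →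
    (∀ i, w i ≠ 0 → ‖y z i‖ ≤ t ^ (w i : ℝ)) → ‖f z‖ ≤ C * t ^ (b : ℝ) := by
  obtain ⟨C, hC⟩ := h
  refine ⟨max C 0, le_max_right _ _, ?_⟩
  filter_upwards [hC] with z hz t h0 h1 h2
  exact (hz t h0 h1 h2).trans
    (mul_le_mul_of_nonneg_right (le_max_left _ _) (Real.rpow_nonneg h0.le _))

theorem Le.dom (h : Le y w f b q) {K : ℝ} (hg : ∀ᶠ z in 𝓝 q, ‖g z‖ ≤ K * ‖f z‖) :
    Le y w g b q := by
  obtain ⟨C, hC⟩ := h
  refine ⟨max K 0 * C, ?_⟩
  filter_upwards [hC, hg] with z hz hg t h0 h1 h2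
  calc ‖g z‖ ≤ K * ‖f z‖ := hg
    _ ≤ max K 0 * ‖f z‖ := mul_le_mul_of_nonneg_right (le_max_left _ _) (norm_nonneg _)
    _ ≤ max K 0 * (C * t ^ (b : ℝ)) :=
        mul_le_mul_of_nonneg_left (hz t h0 h1 h2) (le_max_right _ _)
    _ = _ := by ring

theorem Le.congr (h : Le y w f b q) (hg : f =ᶠ[𝓝 q] g) : Le y w g b q :=
  h.dom (K := 1) (by filter_upwards [hg] with z hz; rw [hz, one_mul])

theorem Le.congr_co (h : Le y w f b q) (hy : ∀ i, w i ≠ 0 → ∀ᶠ z in 𝓝 q, y z i = y' z i) :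
    Le y' w f b q := by
  obtain ⟨C, hC⟩ := h
  refine ⟨C, ?_⟩
  have h1 : ∀ᶠ z in 𝓝 q, ∀ i, w i ≠ 0 → y z i = y' z i := by
    rw [eventually_all]
    intro i
    by_cases hi : w i = 0
    · exact Eventually.of_forall fun z h => (h hi).elim
    · filter_upwards [hy i hi] with z hz _ using hz
  filter_upwards [hC, h1] with z hz h1 t h0 ht h2
  exact hz t h0 ht fun i hi => by rw [h1 i hi]; exact h2 i hi

theorem Le.mono (h : Le y w f b q) (hb : b' ≤ b) : Le y w f b' q := by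
  obtain ⟨C, hC0, hC⟩ := h.nonneg
  refine ⟨C, ?_⟩
  filter_upwards [hC] with z hz t h0 h1 h2
  refine (hz t h0 h1 h2).trans (mul_le_mul_of_nonneg_left ?_ hC0)
  exact Real.rpow_le_rpow_of_exponent_ge h0 h1 (by exact_mod_cast hb)

theorem Le.zero : Le y w (fun _ => 0) b q :=
  ⟨0, Eventually.of_forall fun z t _ _ _ => by simp⟩

theorem Le.add (h : Le y w f b q) (h' : Le y w g b q) : Le y w (fun z => f z + g z) b q := by
  obtain ⟨C, hC⟩ := h
  obtain ⟨C', hC'⟩ := h'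
  refine ⟨C + C', ?_⟩
  filter_upwards [hC, hC'] with z hz hz' t h0 h1 h2
  have := norm_add_le (f z) (g z)
  have := hz t h0 h1 h2
  have := hz' t h0 h1 h2
  rw [add_mul]
  linarith

theorem Le.neg (h : Le y w f b q) : Le y w (fun z => - f z) b q :=
  h.dom (K := 1) (Eventually.of_forall fun z => by simp)

theorem Le.sub (h : Le y w f b q) (h' : Le y w g b q) : Le y w (fun z => f z - g z) b q := by
  simpa only [sub_eq_add_neg] using h.add h'.neg

theorem Le.sum {κ : Type*} (s : Finset κ) {F : κ → (ι → ℂ) → ℂ} (h : ∀ k ∈ s, Le y w (F k) b q) :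
    Le y w (fun z => ∑ k ∈ s, F k z) b q := by
  classical
  induction s using Finset.induction_on with
  | empty => simpa using Le.zero
  | insert a s ha ih =>
    simp only [Finset.sum_insert ha]
    exact (h a (Finset.mem_insert_self _ _)).add
      (ih fun k hk => h k (Finset.mem_insert_of_mem hk))

/-- domination by a finite family -/
theorem Le.dom_sum {κ : Type*} (s : Finset κ) {F : κ → (ι → ℂ) → ℂ}
    (h : ∀ k ∈ s, Le y w (F k) b q) {K : ℝ} (hg : ∀ᶠ z in 𝓝 q, ‖g z‖ ≤ K * ∑ k ∈ s, ‖F k z‖) :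
    Le y w g b q := by
  have h1 : Le y w (fun z => ∑ k ∈ s, ((‖F k z‖ : ℝ) : ℂ)) b q :=
    Le.sum s fun k hk => (h k hk).dom (K := 1) (Eventually.of_forall fun z => by simp)
  refine h1.dom (K := K) ?_
  filter_upwards [hg] with z hz
  rw [← Complex.ofReal_sum, Complex.norm_real, Real.norm_of_nonneg
    (Finset.sum_nonneg fun _ _ => norm_nonneg _)]
  exact hz

theorem Le.mul (h : Le y w f b q) (h' : Le y w g b' q) :
    Le y w (fun z => f z * g z) (b + b') q := by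
  obtain ⟨C, hC0, hC⟩ := h.nonneg
  obtain ⟨C', hC'⟩ := h'
  refine ⟨C * C', ?_⟩
  filter_upwards [hC, hC'] with z hz hz' t h0 h1 h2
  rw [norm_mul, Rat.cast_add, Real.rpow_add h0]
  calc ‖f z‖ * ‖g z‖ ≤ (C * t ^ (b : ℝ)) * (C' * t ^ (b' : ℝ)) :=
        mul_le_mul (hz t h0 h1 h2) (hz' t h0 h1 h2) (norm_nonneg _)
          (mul_nonneg hC0 (Real.rpow_nonneg h0.le _))
    _ = _ := by ring

theorem ev_bdd {E : Type*} [SeminormedAddCommGroup E] {f : (ι → ℂ) → E} (hf : ContinuousAt f q) :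
    ∀ᶠ z in 𝓝 q, ‖f z‖ ≤ ‖f q‖ + 1 :=
  (hf.norm.eventually (gt_mem_nhds (lt_add_one ‖f q‖))).mono fun _ h => h.le

theorem Le.of_cont (hf : ContinuousAt f q) (hb : b ≤ 0) : Le y w f b q := by
  have h : Le y w f 0 q := by
    refine ⟨‖f q‖ + 1, ?_⟩
    filter_upwards [ev_bdd hf] with z hz t _ _ _
    simpa using hz
  exact h.mono hb

/-- multiplication by a bounded function -/
theorem Le.cmul (h : Le y w f b q) (hg : ContinuousAt g q) : Le y w (fun z => g z * f z) b q := by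
  simpa using (Le.of_cont (y := y) (w := w) hg le_rfl).mul h

theorem Le.pow (h : Le y w f b q) (n : ℕ) : Le y w (fun z => f z ^ n) (n * b) q := by
  induction n with
  | zero => exact Le.of_cont (by simpa using continuousAt_const) (by simp)
  | succ n ih =>
    have := ih.mul h
    simp only [← pow_succ] at this
    convert this using 1
    push_cast
    ring

theorem Le.coord {i : ι} (hi : w i ≠ 0) : Le y w (fun z => y z i) (w i) q :=
  ⟨1, Eventually.of_forall fun z t _ _ h => by simpa using h i hi⟩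

/-- only small values of `t` matter -/
theorem Le.of_small (hf : ContinuousAt f q) {ε C : ℝ} (hε : 0 < ε)
    (h : ∀ᶠ z in 𝓝 q, ∀ t : ℝ, 0 < t → t ≤ 1 → t ≤ ε →
      (∀ i, w i ≠ 0 → ‖y z i‖ ≤ t ^ (w i : ℝ)) → ‖f z‖ ≤ C * t ^ (b : ℝ)) : Le y w f b q := by
  by_cases hb : b ≤ 0
  · exact Le.of_cont hf hb
  have hb' : (0 : ℝ) ≤ b := by exact_mod_cast (not_le.1 hb).le
  have hp : 0 < ε ^ (b : ℝ) := Real.rpow_pos_of_pos hε _
  refine ⟨max C ((‖f q‖ + 1) / ε ^ (b : ℝ)), ?_⟩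
  filter_upwards [h, ev_bdd hf] with z hz hz' t h0 h1 h2
  have ht : 0 ≤ t ^ (b : ℝ) := Real.rpow_nonneg h0.le _
  by_cases hte : t ≤ ε
  · exact (hz t h0 h1 hte h2).trans (mul_le_mul_of_nonneg_right (le_max_left _ _) ht)
  · refine le_trans ?_ (mul_le_mul_of_nonneg_right (le_max_right _ _) ht)
    have h3 : ε ^ (b : ℝ) ≤ t ^ (b : ℝ) := Real.rpow_le_rpow hε.le (not_le.1 hte).le hb'
    have h4 : 0 ≤ ‖f q‖ + 1 := by positivity
    calc ‖f z‖ ≤ (‖f q‖ + 1) / ε ^ (b : ℝ) * ε ^ (b : ℝ) := by rwa [div_mul_cancel₀ _ hp.ne']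
      _ ≤ _ := mul_le_mul_of_nonneg_left h3 (div_nonneg h4 hp.le)

theorem exists_scale (w : ι → ℚ) (hw : ∀ i, 0 ≤ w i) (C : ι → ℝ) :
    ∃ K : ℝ, 1 ≤ K ∧ ∀ i, w i ≠ 0 → C i ≤ K ^ (w i : ℝ) := by
  have h : ∀ᶠ K : ℝ in atTop, 1 ≤ K ∧ ∀ i, w i ≠ 0 → C i ≤ K ^ (w i : ℝ) := by
    refine (eventually_ge_atTop 1).and (eventually_all.2 fun i => ?_)
    by_cases hi : w i = 0
    · exact Eventually.of_forall fun _ h => (h hi).elim
    · have h1 : (0 : ℝ) < w i := by exact_mod_cast lt_of_le_of_ne (hw i) (Ne.symm hi)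
      filter_upwards [(tendsto_rpow_atTop h1).eventually (eventually_ge_atTop (C i))] with K hK _
        using hK
  exact h.exists

/-- comparison of two filtrations -/
theorem Le.trans (h : Le y' w' f b q) (hf : ContinuousAt f q) (hw : ∀ m, 0 ≤ w' m)
    (hy : ∀ m, w' m ≠ 0 → Le y w (fun z => y' z m) (w' m) q) : Le y w f b q := by
  obtain ⟨C, hC⟩ := h
  have h1 : ∀ m, ∃ c : ℝ, w' m ≠ 0 → ∀ᶠ z in 𝓝 q, ∀ t : ℝ, 0 < t → t ≤ 1 →
      (∀ i, w i ≠ 0 → ‖y z i‖ ≤ t ^ (w i : ℝ)) → ‖y' z m‖ ≤ c * t ^ (w' m : ℝ) := by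
    intro m
    by_cases hm : w' m = 0
    · exact ⟨0, fun h => (h hm).elim⟩
    · obtain ⟨c, hc⟩ := hy m hm
      exact ⟨c, fun _ => hc⟩
  choose c hc using h1
  obtain ⟨K, hK1, hK⟩ := exists_scale w' hw c
  have hK0 : 0 < K := lt_of_lt_of_le one_pos hK1
  have h2 : ∀ᶠ z in 𝓝 q, ∀ m, w' m ≠ 0 → ∀ t : ℝ, 0 < t → t ≤ 1 →
      (∀ i, w i ≠ 0 → ‖y z i‖ ≤ t ^ (w i : ℝ)) → ‖y' z m‖ ≤ c m * t ^ (w' m : ℝ) := by
    rw [eventually_all]
    intro m
    by_cases hm : w' m = 0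
    · exact Eventually.of_forall fun _ h => (h hm).elim
    · filter_upwards [hc m hm] with z hz _ using hz
  refine Le.of_small hf (ε := K⁻¹) (C := C * K ^ (b : ℝ)) (inv_pos.2 hK0) ?_
  filter_upwards [hC, h2] with z hz h2 t h0 h1 hε h3
  have h4 : K * t ≤ 1 := by
    calc K * t ≤ K * K⁻¹ := mul_le_mul_of_nonneg_left hε hK0.le
      _ = 1 := mul_inv_cancel₀ hK0.ne'
  have h5 := hz (K * t) (mul_pos hK0 h0) h4 fun m hm => by
    rw [Real.mul_rpow hK0.le h0.le]
    exact (h2 m hm t h0 h1 h3).trans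
      (mul_le_mul_of_nonneg_right (hK m hm) (Real.rpow_nonneg h0.le _))
  rw [Real.mul_rpow hK0.le h0.le] at h5
  linarith [mul_assoc C (K ^ (b : ℝ)) (t ^ (b : ℝ))]

/-- positive order at a point of the centre forces vanishing -/
theorem Le.eq_zero (h : Le y w f b q) (hb : 0 < b) (hq : ∀ j, w j ≠ 0 → y q j = 0) : f q = 0 := by
  obtain ⟨C, hC⟩ := h
  have h1 := hC.self_of_nhds
  have hb' : (0 : ℝ) < b := by exact_mod_cast hb
  have h2 : Tendsto (fun t : ℝ => C * t ^ (b : ℝ)) (𝓝[>] 0) (𝓝 0) := by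
    have h3 : ContinuousAt (fun t : ℝ => C * t ^ (b : ℝ)) 0 :=
      continuousAt_const.mul (Real.continuousAt_rpow_const 0 _ (Or.inr hb'.le))
    have h4 := h3.tendsto
    rw [Real.zero_rpow hb'.ne', mul_zero] at h4
    exact h4.mono_left nhdsWithin_le_nhds
  have h5 : ‖f q‖ ≤ 0 := by
    refine ge_of_tendsto h2 ?_
    filter_upwards [Ioc_mem_nhdsGT (zero_lt_one' ℝ)] with t ht
    refine h1 t ht.1 ht.2 fun i hi => ?_
    rw [hq i hi, norm_zero]
    exact Real.rpow_nonneg ht.1.le _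
  exact norm_le_zero_iff.1 h5

theorem Le.comp {κ : Type} [Fintype κ] {Φ : (κ → ℂ) → ι → ℂ} {q' : κ → ℂ}
    (h : Le y w f b (Φ q')) (hΦ : ContinuousAt Φ q') :
    ∃ C : ℝ, ∀ᶠ z in 𝓝 q', ∀ t : ℝ, 0 < t → t ≤ 1 →
      (∀ i, w i ≠ 0 → ‖y (Φ z) i‖ ≤ t ^ (w i : ℝ)) → ‖f (Φ z)‖ ≤ C * t ^ (b : ℝ) := by
  obtain ⟨C, hC⟩ := h
  exact ⟨C, hΦ.eventually hC⟩

theorem Le.comp' {Φ : (ι → ℂ) → ι → ℂ} {q' : ι → ℂ} (h : Le y w f b (Φ q'))
    (hΦ : ContinuousAt Φ q') : Le (fun z => y (Φ z)) w (fun z => f (Φ z)) b q' :=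
  h.comp hΦ

theorem Le.eventually (h : Le y w f b q) : ∀ᶠ q' in 𝓝 q, Le y w f b q' := by
  obtain ⟨C, hC⟩ := h
  filter_upwards [hC.eventually_nhds] with q' hq' using ⟨C, hq'⟩

/-- off the centre the condition is empty -/
theorem Le.of_ne (hf : ContinuousAt f q) {i : ι} (hy : ContinuousAt (fun z => y z i) q)
    (hi : 0 < w i) (hq : y q i ≠ 0) : Le y w f b q := by
  have hi' : (0 : ℝ) < w i := by exact_mod_cast hi
  have hp : 0 < ‖y q i‖ / 2 := half_pos (norm_pos_iff.2 hq)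
  refine Le.of_small hf (ε := (‖y q i‖ / 2) ^ ((w i : ℝ)⁻¹)) (C := 0)
    (Real.rpow_pos_of_pos hp _) ?_
  filter_upwards [hy.norm.eventually (lt_mem_nhds (half_lt_self (norm_pos_iff.2 hq)))] with z hz
    t h0 _ hε h3
  exfalso
  have h4 := Real.rpow_le_rpow h0.le hε hi'.le
  rw [← Real.rpow_mul hp.le, inv_mul_cancel₀ hi'.ne', Real.rpow_one] at h4
  linarith [h3 i hi.ne']

theorem an_pd (i : ι) (hf : AnalyticAt ℂ f q) : AnalyticAt ℂ (pd i f) q :=
  ((ContinuousLinearMap.apply ℂ ℂ (Pi.single i 1 : ι → ℂ)).analyticAt _).comp hf.fderiv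

theorem an_pd_iter (i : ι) (hf : AnalyticAt ℂ f q) (j : ℕ) : AnalyticAt ℂ ((pd i)^[j] f) q := by
  induction j with
  | zero => exact hf
  | succ j ih => rw [iterate_succ_apply']; exact an_pd i ih

theorem an_der {X : (ι → ℂ) → ι → ℂ} (hf : AnalyticAt ℂ f q) (hX : AnalyticAt ℂ X q) :
    AnalyticAt ℂ (fun z => fderiv ℂ f z (X z)) q :=
  (ContinuousLinearMap.id ℂ ((ι → ℂ) →L[ℂ] ℂ)).analyticAt_bilinear (fderiv ℂ f q, X q) |>.comp
    (f := fun z => (fderiv ℂ f z, X z)) (hf.fderiv.prod hX)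

theorem Der.an {S : Set ι} {e : ℕ} (h : Der S q f e g) (hf : AnalyticAt ℂ f q) :
    AnalyticAt ℂ g q := by
  induction h with
  | base => exact hf
  | step X g' _ hX _ he ih => exact (an_der ih hX).congr he.symm

/-- the projection to the hyperplane `z i = 0` -/
def pr (i : ι) : (ι → ℂ) →L[ℂ] (ι → ℂ) :=
  ContinuousLinearMap.pi fun m => if m = i then 0 else ContinuousLinearMap.proj m

theorem pr_apply (i : ι) (v : ι → ℂ) : pr i v = update v i 0 := by
  funext m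
  by_cases h : m = i
  · subst h
    simp [pr]
  · simp [pr, h]

theorem norm_pr_le (i : ι) : ‖pr i‖ ≤ 1 := by
  refine ContinuousLinearMap.opNorm_le_bound _ zero_le_one fun v => ?_
  rw [one_mul, pr_apply]
  refine (pi_norm_le_iff_of_nonneg (norm_nonneg _)).2 fun m => ?_
  by_cases h : m = i
  · subst h
    simp
  · rw [update_of_ne h]
    exact norm_le_pi_norm v m

theorem an_update (i : ι) (q : ι → ℂ) : AnalyticAt ℂ (fun z : ι → ℂ => update z i 0) q := by
  have : (fun z : ι → ℂ => update z i 0) = fun z => pr i z := funext fun z => (pr_apply i z).symm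
  rw [this]
  exact (pr i).analyticAt q

theorem update_self_of {i : ι} (hq : q i = 0) : update q i 0 = q := by
  rw [← hq, update_eq_self]

theorem tendsto_update {i : ι} (hq : q i = 0) :
    Tendsto (fun z : ι → ℂ => update z i 0) (𝓝 q) (𝓝 q) := by
  have := (an_update i q).continuousAt.tendsto
  rwa [update_self_of hq] at this

theorem an_res {E : Type*} [NormedAddCommGroup E] [NormedSpace ℂ E] {f : (ι → ℂ) → E} {i : ι}
    (hq : q i = 0) (hf : AnalyticAt ℂ f q) : AnalyticAt ℂ (fun z => f (update z i 0)) q :=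
  AnalyticAt.comp (g := f) (f := fun z : ι → ℂ => update z i 0)
    (by rwa [update_self_of hq]) (an_update i q)

theorem Fam.An.next {F : Fam ι} (hF : F.An q) {i : ι} (hq : q i = 0) (c : ℚ) :
    (next F i c).An q := by
  rintro _ ⟨f, d, j, hf, -, rfl⟩
  exact an_res hq (an_pd_iter i (hF _ hf) j)

/-- Hadamard division by a coordinate -/
theorem exists_div {i : ι} (hq : q i = 0) (hf : AnalyticAt ℂ f q) :
    ∃ h : (ι → ℂ) → ℂ, AnalyticAt ℂ h q ∧ f =ᶠ[𝓝 q] fun z => res i f z + z i * h z := by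
  obtain ⟨Q, hQ, he⟩ := Vale.Agent.P281.H511.Gen.exists_division (pr i) (norm_pr_le i) hf
  refine ⟨fun v => Q v (Pi.single i 1), ?_, ?_⟩
  · exact ((ContinuousLinearMap.apply ℂ ℂ (Pi.single i 1 : ι → ℂ)).analyticAt _).comp hQ
  · filter_upwards [he] with v hv
    have e0 : q + pr i (v - q) = update v i 0 := by
      funext m
      by_cases hm : m = i
      · subst hm
        simp [pr_apply, hq]
      · simp [pr_apply, update_of_ne hm]
    have e1 : v - update v i 0 = v i • (Pi.single i 1 : ι → ℂ) := by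
      funext m
      by_cases hm : m = i
      · subst hm
        simp
      · simp [update_of_ne hm, Pi.single_eq_of_ne hm]
    rw [e0, e1, map_smul, smul_eq_mul] at hv
    simp only [res]
    rw [← hv]
    ring

/-- the derivative rule in the standard coordinates -/
theorem Le.pd (h : Le id w f b q) (hw : ∀ m, 0 ≤ w m) (hf : AnalyticAt ℂ f q) (j : ι) :
    Le id w (pd j f) (b - w j) q := by
  obtain ⟨C, hC0, hC⟩ := h.nonneg
  obtain ⟨K, hK1, hK⟩ := exists_scale w hw fun _ => 2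
  have hK0 : 0 < K := lt_of_lt_of_le one_pos hK1
  obtain ⟨δ, hδ, hb⟩ := Metric.eventually_nhds_iff_ball.1 (hC.and hf.eventually_analyticAt)
  set δ' := min (δ / 2) 1 with hδ'
  have hδ0 : 0 < δ' := lt_min (half_pos hδ) one_pos
  refine Le.of_small (an_pd j hf).continuousAt (ε := K⁻¹) (C := C * K ^ (b : ℝ) / δ')
    (inv_pos.2 hK0) ?_
  filter_upwards [ball_mem_nhds q (half_pos hδ)] with z hz t h0 h1 hε h3
  have h4 : K * t ≤ 1 := by
    calc K * t ≤ K * K⁻¹ := mul_le_mul_of_nonneg_left hε hK0.le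
      _ = 1 := mul_inv_cancel₀ hK0.ne'
  have hwj : (0 : ℝ) ≤ w j := by exact_mod_cast hw j
  have ht0 : 0 < t ^ (w j : ℝ) := Real.rpow_pos_of_pos h0 _
  have ht1 : t ^ (w j : ℝ) ≤ 1 := Real.rpow_le_one h0.le h1 hwj
  set R := δ' * t ^ (w j : ℝ) with hR
  have hR0 : 0 < R := mul_pos hδ0 ht0
  have hR1 : R ≤ δ / 2 := (mul_le_of_le_one_right hδ0.le ht1).trans (min_le_left _ _)
  have hR2 : R ≤ t ^ (w j : ℝ) := mul_le_of_le_one_left ht0.le (min_le_right _ _)
  let γ : ℂ → ι → ℂ := fun ζ => z + ζ • (Pi.single j 1 : ι → ℂ)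
  have hγ : ∀ ζ, HasDerivAt γ (Pi.single j 1 : ι → ℂ) ζ := fun ζ => by
    simpa [γ] using ((hasDerivAt_id ζ).smul_const (Pi.single j 1 : ι → ℂ)).const_add z
  have hmem : ∀ ζ ∈ closedBall (0 : ℂ) R, γ ζ ∈ ball q δ := by
    intro ζ hζ
    rw [mem_closedBall_zero_iff] at hζ
    rw [mem_ball_iff_norm] at hz ⊢
    have e : γ ζ - q = (z - q) + ζ • (Pi.single j 1 : ι → ℂ) := by simp only [γ]; abel
    rw [e]
    refine lt_of_le_of_lt (norm_add_le _ _) ?_
    rw [norm_smul, Pi.norm_single, norm_one, mul_one]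
    linarith
  have hd : DiffContOnCl ℂ (fun ζ => f (γ ζ)) (ball 0 R) := by
    refine DifferentiableOn.diffContOnCl ?_
    rw [closure_ball _ hR0.ne']
    intro ζ hζ
    exact ((hb _ (hmem ζ hζ)).2.differentiableAt.comp ζ
      (hγ ζ).differentiableAt).differentiableWithinAt
  have hs : ∀ ζ ∈ sphere (0 : ℂ) R, ‖f (γ ζ)‖ ≤ C * (K * t) ^ (b : ℝ) := by
    intro ζ hζ
    refine (hb _ (hmem ζ (sphere_subset_closedBall hζ))).1 (K * t) (mul_pos hK0 h0) h4 ?_
    intro i hi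
    rw [Real.mul_rpow hK0.le h0.le]
    have h5 := hK i hi
    have h6 := h3 i hi
    have h7 : 0 < t ^ (w i : ℝ) := Real.rpow_pos_of_pos h0 _
    simp only [id] at h6 ⊢
    have h8 : ‖γ ζ i‖ ≤ 2 * t ^ (w i : ℝ) := by
      by_cases hij : i = j
      · subst hij
        have e : γ ζ i = z i + ζ := by simp [γ]
        rw [e]
        have := norm_add_le (z i) ζ
        rw [mem_sphere_zero_iff_norm] at hζ
        linarith
      · have e : γ ζ i = z i := by simp [γ, Pi.single_eq_of_ne hij]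
        rw [e]
        linarith
    exact h8.trans (mul_le_mul_of_nonneg_right h5 h7.le)
  have h9 := Complex.norm_deriv_le_of_forall_mem_sphere_norm_le hR0 hd hs
  have h10 : deriv (fun ζ => f (γ ζ)) 0 = L.pd j f z := by
    have e : γ 0 = z := by simp [γ]
    have h11 : HasFDerivAt f (fderiv ℂ f z) (γ 0) := by
      rw [e]
      exact (hb z (ball_subset_ball (half_le_self hδ.le) hz)).2.differentiableAt.hasFDerivAt
    exact (h11.comp_hasDerivAt 0 (hγ 0)).deriv
  rw [h10] at h9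
  refine h9.trans (le_of_eq ?_)
  rw [Real.mul_rpow hK0.le h0.le, Rat.cast_sub, Real.rpow_sub h0, hR]
  field_simp

theorem fderiv_eq_sum (f : (ι → ℂ) → ℂ) (z X : ι → ℂ) :
    fderiv ℂ f z X = ∑ j, X j * pd j f z := by
  conv_lhs => rw [← Finset.univ_sum_single X, map_sum]
  refine Finset.sum_congr rfl fun j _ => ?_
  have : (Pi.single j (X j) : ι → ℂ) = X j • (Pi.single j 1 : ι → ℂ) := by
    rw [← Pi.single_smul, smul_eq_mul, mul_one]
  rw [this, map_smul, smul_eq_mul, pd]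

theorem isCo_id : IsCo (id : (ι → ℂ) → ι → ℂ) q :=
  ⟨analyticAt_id, by rw [fderiv_id]; exact bijective_id⟩

theorem IsCo.comp {x : (ι → ℂ) → ι → ℂ} (hx : IsCo x (y q)) (hy : IsCo y q) :
    IsCo (fun z => x (y z)) q := by
  refine ⟨hx.1.comp hy.1, ?_⟩
  have := fderiv_comp q hx.1.differentiableAt hy.1.differentiableAt
  rw [show (fun z => x (y z)) = x ∘ y from rfl, this]
  exact hx.2.comp hy.2

theorem IsCo.congr (hy : IsCo y q) (h : y =ᶠ[𝓝 q] y') : IsCo y' q :=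
  ⟨hy.1.congr h, by rw [← h.fderiv_eq]; exact hy.2⟩

/-- the local inverse of a coordinate system -/
theorem IsCo.exists_inv (hy : IsCo y q) : ∃ x : (ι → ℂ) → ι → ℂ, IsCo x (y q) ∧ x (y q) = q ∧
    (∀ᶠ z in 𝓝 q, x (y z) = z) ∧ ∀ᶠ u in 𝓝 (y q), y (x u) = u := by
  let e : (ι → ℂ) ≃L[ℂ] (ι → ℂ) :=
    (LinearEquiv.ofBijective (fderiv ℂ y q).toLinearMap hy.2).toContinuousLinearEquiv
  have he : (e : (ι → ℂ) →L[ℂ] (ι → ℂ)) = fderiv ℂ y q := by ext; rfl
  have h1 : ContDiffAt ℂ ⊤ y q := hy.1.contDiffAt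
  have h2 : HasFDerivAt y (e : (ι → ℂ) →L[ℂ] (ι → ℂ)) q := by
    rw [he]; exact hy.1.differentiableAt.hasFDerivAt
  have h3 := h1.hasStrictFDerivAt' h2 (by simp)
  refine ⟨h1.localInverse h2 (by simp), ⟨?_, ?_⟩, h1.localInverse_apply_image h2 _,
    h3.eventually_left_inverse, h3.eventually_right_inverse⟩
  · exact (h1.to_localInverse h2 (by simp)).analyticAt
  · have h4 : HasFDerivAt (h1.localInverse h2 (by simp))
        (e.symm : (ι → ℂ) →L[ℂ] (ι → ℂ)) (y q) := h3.to_localInverse.hasFDerivAt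
    rw [h4.fderiv]
    exact e.symm.bijective

theorem IsCo.eventually (hy : IsCo y q) : ∀ᶠ z in 𝓝 q, IsCo y z := by
  obtain ⟨x, hx, -, h1, -⟩ := hy.exists_inv
  filter_upwards [hy.1.eventually_analyticAt, h1.eventually_nhds,
    hy.1.continuousAt.eventually hx.1.eventually_analyticAt] with z hz h1 h2
  refine ⟨hz, ?_⟩
  have h3 := fderiv_comp z h2.differentiableAt hz.differentiableAt
  have h4 : (x ∘ y) =ᶠ[𝓝 z] id := h1
  rw [h4.fderiv_eq, fderiv_id] at h3
  have h5 : Injective (fderiv ℂ y z) := by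
    intro a b hab
    have ha := congrArg (fun T : (ι → ℂ) →L[ℂ] (ι → ℂ) => T a) h3
    have hb := congrArg (fun T : (ι → ℂ) →L[ℂ] (ι → ℂ) => T b) h3
    simp only [ContinuousLinearMap.id_apply, ContinuousLinearMap.comp_apply] at ha hb
    rw [ha, hb, hab]
  exact ⟨h5, LinearMap.injective_iff_surjective.1
    (show Injective (fderiv ℂ y z).toLinearMap from h5)⟩

/-- the derivative rule: a vector field which kills the coordinates of weight `> W` lowers the order
by at most `W` -/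
theorem Le.der (h : Le y w f b q) (hy : IsCo y q) (hw : ∀ m, 0 ≤ w m) (hf : AnalyticAt ℂ f q)
    {X : (ι → ℂ) → ι → ℂ} (hX : ContinuousAt X q) {W : ℚ}
    (hW : ∀ j, W < w j → ∀ᶠ z in 𝓝 q, fderiv ℂ y z (X z) j = 0) :
    Le y w (fun z => fderiv ℂ f z (X z)) (b - W) q := by
  obtain ⟨x, hx, hxq, h1, h2⟩ := hy.exists_inv
  have hf' : AnalyticAt ℂ (fun u => f (x u)) (y q) :=
    AnalyticAt.comp (g := f) (f := x) (by rwa [hxq]) hx.1
  have h3 : Le id w (fun u => f (x u)) b (y q) := by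
    rw [← hxq] at h
    refine (h.comp' hx.1.continuousAt).congr_co fun i _ => ?_
    filter_upwards [h2] with u hu
    rw [hu, id]
  have h4 : ∀ j, Le y w (fun z => L.pd j (fun u => f (x u)) (y z)) (b - w j) q := fun j =>
    (h3.pd hw hf' j).comp' hy.1.continuousAt
  have hc : ∀ j, ContinuousAt (fun z => fderiv ℂ y z (X z) j) q := fun j =>
    (continuous_apply j).continuousAt.comp
      (hy.1.fderiv.continuousAt.clm_apply hX)
  have h5 : Le y w (fun z => ∑ j, fderiv ℂ y z (X z) j * L.pd j (fun u => f (x u)) (y z))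
      (b - W) q := by
    refine Le.sum _ fun j _ => ?_
    by_cases hj : W < w j
    · refine Le.zero.congr ?_
      filter_upwards [hW j hj] with z hz
      rw [hz, zero_mul]
    · exact ((h4 j).mono (by linarith [not_lt.1 hj])).cmul (hc j)
  refine h5.congr ?_
  filter_upwards [h1.eventually_nhds, hy.1.eventually_analyticAt,
    hy.1.continuousAt.eventually hf'.eventually_analyticAt] with z hz h6 h7
  have h8 : f =ᶠ[𝓝 z] (fun u => f (x u)) ∘ y := by
    filter_upwards [hz] with z' hz'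
    simp [hz']
  rw [← fderiv_eq_sum, h8.fderiv_eq, fderiv_comp z h7.differentiableAt h6.differentiableAt]
  rfl

theorem Der.le {S : Set ι} {e : ℕ} (h : Der S q f e g) (hf : AnalyticAt ℂ f q) (hy : IsCo y q)
    (hw : ∀ m, 0 ≤ w m) {W : ℚ} (hW : ∀ j, w j ≤ W) (hle : Le y w f b q) :
    Le y w g (b - e * W) q := by
  induction h with
  | base => simpa using hle
  | step X g' hD hX _ he ih =>
    have := (ih.der hy hw (hD.an hf) hX.continuousAt (W := W)
      fun j hj => absurd hj (not_lt.2 (hW j))).congr he.symm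
    convert this using 1
    push_cast
    ring

end Vale.Agent.P277Z.Hir.L
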