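import Vale.Agent.P277Z.Hir.BSk
import Vale.Agent.P277Z.Hir.LB

/-!
# P277, resolution, global part: the blow-up map outside the new divisor, the cores
-/

open Filter Topology Set Function

noncomputable section

namespace Vale.Agent.P277Z.Hir.Gl

open L (Le IsCo Ass sl)

namespace Sig

variable {ι : Type} [Fintype ι] [DecidableEq ι]

omit [DecidableEq ι] in
theorem an_crd (l : ι) (z : ι → ℂ) : AnalyticAt ℂ (fun p : ι → ℂ => p l) z :=
  (ContinuousLinearMap.proj l : (ι → ℂ) →L[ℂ] ℂ).analyticAt z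

theorem an_sl (w : ι → ℕ) (i : ι) (z : ι → ℂ) : AnalyticAt ℂ (sl w i) z := by
  refine analyticAt_pi_iff.2 fun l => ?_
  by_cases h : l = i
  · simp only [sl, h, if_true]
    exact (an_crd i z).pow _
  · simp only [sl, h, if_false]
    exact ((an_crd i z).pow _).mul (an_crd l z)

theorem an_σo (w : ι → ℕ) (o : Option ι) (z : ι → ℂ) : AnalyticAt ℂ (σo w o) z := by
  cases o with
  | none => exact analyticAt_id
  | some i => exact an_sl w i z

theorem cont_σo (w : ι → ℕ) (o : Option ι) : Continuous (σo w o) :=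
  continuous_iff_continuousAt.2 fun z => (an_σo w o z).continuousAt

omit [DecidableEq ι] in
theorem an_so (o : Option ι) (z : ι → ℂ) : AnalyticAt ℂ (so o) z := by
  cases o with
  | none => exact analyticAt_const
  | some i => exact an_crd i z

omit [Fintype ι] [DecidableEq ι] in
theorem dense_so (o : Option ι) : Dense {z : ι → ℂ | so o z ≠ 0} := by
  cases o with
  | none => exact dense_univ.mono fun _ _ => one_ne_zero
  | some i => exact (dense_compl_singleton (0 : ℂ)).preimage (isOpenMap_eval i)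

theorem isCo_sl {w : ι → ℕ} {i : ι} (hi : w i ≠ 0) {z : ι → ℂ} (hz : z i ≠ 0) :
    IsCo (sl w i) z := by
  refine ⟨an_sl w i z, ?_⟩
  have h0 : ∀ l, HasFDerivAt (fun p : ι → ℂ => p l)
      (ContinuousLinearMap.proj l : (ι → ℂ) →L[ℂ] ℂ) z := fun l => hasFDerivAt_apply l z
  have h1 := fun l => hasFDerivAt_pi'.1 (an_sl w i z).differentiableAt.hasFDerivAt l
  have h5 : Injective (fderiv ℂ (sl w i) z) := by
    rw [injective_iff_map_eq_zero]
    intro v hv
    have e1 : (fun p : ι → ℂ => sl w i p i) = fun p => p i ^ w i := by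
      funext p
      simp only [sl, if_true]
    have h2 := h1 i
    rw [e1] at h2
    have h3 := congrArg (fun T : (ι → ℂ) →L[ℂ] ℂ => T v) (h2.unique ((h0 i).pow (w i)))
    have hvi : v i = 0 := by simpa [hv, hi, hz] using h3
    funext l
    by_cases hl : l = i
    · rw [hl]
      exact hvi
    · have e2 : (fun p : ι → ℂ => sl w i p l) = fun p => p i ^ w l * p l := by
        funext p
        simp only [sl, hl, if_false]
      have h4 := h1 l
      rw [e2] at h4
      have h6 := congrArg (fun T : (ι → ℂ) →L[ℂ] ℂ => T v)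
        (h4.unique (((h0 i).pow (w l)).mul (h0 l)))
      simpa [hv, hvi, hz] using h6
  exact ⟨h5, LinearMap.injective_iff_surjective.1
    (show Injective (fderiv ℂ (sl w i) z).toLinearMap from h5)⟩

theorem isCo_σo {w : ι → ℕ} {o : Option ι} (h : Use w o) {z : ι → ℂ} (hz : so o z ≠ 0) :
    IsCo (σo w o) z := by
  cases o with
  | none => exact L.isCo_id
  | some i => exact isCo_sl h hz

omit [DecidableEq ι] in
theorem ass_refl (f : (ι → ℂ) → ℂ) (q : ι → ℂ) : Ass f f q :=
  ⟨fun _ => 1, analyticAt_const, one_ne_zero, .of_forall fun _ => (one_mul _).symm⟩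

omit [DecidableEq ι] in
theorem ass_unit {f g : (ι → ℂ) → ℂ} {q : ι → ℂ} (hf : AnalyticAt ℂ f q) (hf' : f q ≠ 0)
    (hg : AnalyticAt ℂ g q) (hg' : g q ≠ 0) : Ass f g q :=
  ⟨fun z => f z / g z, hf.div hg hg', div_ne_zero hf' hg',
    (hg.continuousAt.eventually_ne hg').mono fun _ h => (div_mul_cancel₀ _ h).symm⟩

omit [DecidableEq ι] in
theorem ass_prod {κ : Type} [Fintype κ] {f g : κ → (ι → ℂ) → ℂ} {q : ι → ℂ}
    (h : ∀ l, Ass (f l) (g l) q) : Ass (fun z => ∏ l, f l z) (fun z => ∏ l, g l z) q := by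
  choose u h1 h2 h3 using h
  refine ⟨fun z => ∏ l, u l z, Finset.analyticAt_fun_prod _ fun l _ => h1 l,
    Finset.prod_ne_zero_iff.2 fun l _ => h2 l, ?_⟩
  filter_upwards [eventually_all.2 h3] with z hz
  rw [← Finset.prod_mul_distrib]
  exact Finset.prod_congr rfl fun l _ => hz l

theorem ass_σo {X : Type} (C : Ch ι X) (w : ι → ℕ) (N : ℕ) (o : Option ι)
    (G : Fin C.m → (ι → ℂ) → ℂ) {z : ι → ℂ} (hz : so o z ≠ 0) (j : ℕ) :
    Ass (fun p => C.s j (σo w o p)) ((C.bl w N o G).s j) z := by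
  cases o with
  | none => exact ass_refl _ _
  | some i =>
    have hz' : z i ≠ 0 := hz
    have h := ass_prod (q := z) (f := fun l p => if C.lab l = j then sl w i p l else 1)
      (g := fun l p => if update C.lab i N l = j then p l else 1) fun l => by
        by_cases hl : l = i
        · subst hl
          refine ass_unit ?_ ?_ ?_ ?_
          · split_ifs
            · exact analyticAt_pi_iff.1 (an_sl w l z) l
            · exact analyticAt_const
          · split_ifs
            · simp only [sl, if_true]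
              exact pow_ne_zero _ hz'
            · exact one_ne_zero
          · split_ifs
            · exact an_crd l z
            · exact analyticAt_const
          · split_ifs
            · exact hz'
            · exact one_ne_zero
        · rw [update_of_ne hl]
          by_cases hj : C.lab l = j
          · simp only [hj, if_true, sl, hl, if_false]
            exact ⟨fun p => p i ^ w l, (an_crd i z).pow _, pow_ne_zero _ hz',
              .of_forall fun _ => rfl⟩
          · simp only [hj, if_false]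
            exact ass_refl _ _
    have e1 : (fun p => C.s j (σo w (some i) p)) =
        fun p => ∏ l, if C.lab l = j then sl w i p l else 1 := by
      funext p
      exact Finset.prod_filter _ _
    have e2 : (C.bl w N (some i) G).s j =
        fun p => ∏ l, if update C.lab i N l = j then p l else 1 := by
      funext p
      exact Finset.prod_filter _ _
    rw [e1, e2]
    exact h

omit [Fintype ι] [DecidableEq ι] in
theorem cmp_unit {T : Type} [TopologicalSpace T] {z : T} {c f g : T → ℝ} (hc : ContinuousAt c z)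
    (h0 : 0 < c z) (hg : ∀ p, 0 ≤ g p) (h : ∀ᶠ p in 𝓝 z, f p = c p * g p) : Cmp (𝓝 z) f g := by
  have h1 : 0 < c z / 2 := half_pos h0
  refine ⟨c z + 1 + (c z / 2)⁻¹, by positivity, ?_⟩
  filter_upwards [h, hc.eventually (Ioo_mem_nhds (half_lt_self h0) (lt_add_one _))] with p hp hp'
  rw [hp, ← mul_assoc]
  have h2 : 0 < (c z / 2)⁻¹ := inv_pos.2 h1
  refine ⟨mul_le_mul_of_nonneg_right (by linarith [hp'.2]) (hg p),
    le_mul_of_one_le_left (hg p) ?_⟩
  have h3 : 1 ≤ (c z / 2)⁻¹ * c p := by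
    rw [← div_eq_inv_mul, one_le_div h1]
    exact hp'.1.le
  have h4 : 0 ≤ (c z + 1) * c p := mul_nonneg (by linarith) (h1.trans hp'.1).le
  linarith

omit [Fintype ι] in
/-- a point outside the centre has a preimage in a box -/
theorem exists_lift {w : ι → ℕ} [Finite ι] {u : ι → ℂ} (hu : u ∉ Zc w) :
    ∃ o z, Use w o ∧ σo w o z = u ∧ so o z ≠ 0 ∧ z ∈ box w o := by
  by_cases hw : w = 0
  · exact ⟨none, u, hw, rfl, one_ne_zero, fun l hl => absurd (by rw [hw]; rfl) hl⟩
  have h1 : ∃ l, w l ≠ 0 ∧ u l ≠ 0 := by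
    by_contra h
    exact hu ⟨hw, fun l hl => by_contra fun h' => h ⟨l, hl, h'⟩⟩
  obtain ⟨l₀, h2, h3⟩ := h1
  have h4 : ∀ l, ∃ ζ : ℂ, w l ≠ 0 → ζ ^ w l = u l := fun l => by
    by_cases hl : w l = 0
    · exact ⟨0, fun h => absurd hl h⟩
    · obtain ⟨ζ, h⟩ := IsAlgClosed.exists_pow_nat_eq (u l) (Nat.pos_of_ne_zero hl)
      exact ⟨ζ, fun _ => h⟩
  choose ζ hζ using h4
  obtain ⟨i, hi, hm⟩ := Set.exists_max_image {l | w l ≠ 0} (fun l => ‖ζ l‖) (toFinite _) ⟨l₀, h2⟩
  have h5 : ζ i ≠ 0 := fun h => h3 (by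
    have := hm l₀ h2
    rw [h, norm_zero, norm_le_zero_iff] at this
    rw [← hζ l₀ h2, this, zero_pow h2])
  refine ⟨some i, fun l => if l = i then ζ i else u l / ζ i ^ w l, hi, ?_, ?_, fun l hl hli => ?_⟩
  · funext l
    by_cases hl : l = i
    · simp only [σo, sl, hl, if_true]
      exact hζ i hi
    · simp only [σo, sl, hl, if_true, if_false]
      exact mul_div_cancel₀ _ (pow_ne_zero _ h5)
  · simpa only [so, if_true] using h5
  · have hl' : l ≠ i := fun h => hli (by rw [h])
    simp only [hl', if_false]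
    rw [norm_div, div_le_one (norm_pos_iff.2 (pow_ne_zero _ h5)), ← hζ l hl, norm_pow, norm_pow]
    exact pow_le_pow_left₀ (norm_nonneg _) (hm l hl) _

omit [Fintype ι] [DecidableEq ι] in
theorem isClosed_box (w : ι → ℕ) (o : Option ι) : IsClosed (box w o) := by
  simp only [box, Set.ofPred_forall]
  exact isClosed_iInter fun l => isClosed_iInter fun _ => isClosed_iInter fun _ =>
    isClosed_le (continuous_apply l).norm continuous_const

theorem norm_le {w : ι → ℕ} {o : Option ι} (h : Use w o) {z : ι → ℂ} (hz : z ∈ box w o) {R : ℝ}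
    (hR : 1 ≤ R) (h1 : ‖σo w o z‖ ≤ R) : ‖z‖ ≤ R := by
  cases o with
  | none => exact h1
  | some i =>
    refine (pi_norm_le_iff_of_nonneg (zero_le_one.trans hR)).2 fun l => ?_
    have h2 := (norm_le_pi_norm _ l).trans h1
    by_cases hl : l = i
    · subst hl
      simp only [σo, sl, if_true, norm_pow] at h2
      rcases le_total ‖z l‖ 1 with h3 | h3
      · exact h3.trans hR
      · exact (le_self_pow₀ h3 h).trans h2
    · by_cases hw : w l = 0
      · simpa only [σo, sl, hl, if_false, hw, pow_zero, one_mul] using h2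
      · exact (hz l hw fun h => hl (Option.some.inj h).symm).trans hR

end Sig

open Sig

theorem stSig : StSig := by
  rintro ι X _ _ _ β A W hA ⟨⟨a, o⟩, h⟩ z hz hs
  obtain ⟨g, hg, -, h1, h2⟩ := (isCo_σo h hs).exists_inv
  have hU : ∀ᶠ p in 𝓝 z, σo (W.w a) o p ∈ (A.C a).U :=
    (cont_σo _ o).continuousAt.eventually ((hA.ch a).isOpen.mem_nhds hz)
  have hS : ∀ᶠ p in 𝓝 z, so o p ≠ 0 := (an_so o z).continuousAt.eventually_ne hs
  refine ⟨g, an_σo _ o z, hg.1, rfl, h1, h2, ?_, .of_forall fun _ _ => rfl,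
    fun j _ => ass_σo _ _ _ _ _ hs j, ?_⟩
  · filter_upwards [hU, hS] with p hp hp'
    refine ⟨fun hB => ⟨hp, subset_closure ⟨hB, hp'⟩⟩, fun hB => (hA.ch a).closed _ hp ?_⟩
    exact map_mem_closure (cont_σo _ o) hB.2 fun _ hq => hq.1
  · refine cmp_unit (c := fun p => ‖so o p ^ W.d‖) ((an_so o z).continuousAt.pow _).norm
      (norm_pos_iff.2 (pow_ne_zero _ hs)) (fun p => Finset.sum_nonneg fun _ _ => norm_nonneg _) ?_
    filter_upwards [hU] with p hp
    refine Eq.trans (Finset.sum_congr rfl fun k _ => ?_) (Finset.mul_sum _ _ _).symm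
    rw [W.eqG a o h k p hp, norm_mul]
    rfl

theorem stBlK : StBlK := by
  intro ι X _ _ _ β A W hA
  refine ⟨?_, fun x hx hZ => ?_, fun hF => ?_⟩
  · rintro ⟨⟨a, o⟩, h⟩
    obtain ⟨R, hR⟩ := (hA.cpt a).isBounded.exists_norm_le
    have e : W.bl.K ⟨(a, o), h⟩ = closure {z | σo (W.w a) o z ∈ (A.C a).B ∧ so o z ≠ 0} ∩
        σo (W.w a) o ⁻¹' A.K a ∩ box (W.w a) o :=
      Set.ext fun z => ⟨fun hz => ⟨⟨hz.1.1.2, hz.1.2⟩, hz.2⟩,
        fun hz => ⟨⟨⟨(hA.ch a).sub (hA.sub a hz.1.2), hz.1.1⟩, hz.1.2⟩, hz.2⟩⟩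
    rw [e]
    refine Metric.isCompact_of_isClosed_isBounded ((isClosed_closure.inter
      ((hA.cpt a).isClosed.preimage (cont_σo _ o))).inter (isClosed_box _ o)) ?_
    exact isBounded_iff_forall_norm_le.2 ⟨max 1 R, fun z hz =>
      norm_le h hz.2 (le_max_left _ _) ((hR _ hz.1.2).trans (le_max_right _ _))⟩
  · obtain ⟨a, u, hu, rfl⟩ := hA.cov x hx hZ
    obtain ⟨o, z, h, rfl, h1, h2⟩ := exists_lift fun h => hZ (W.ovr a u (hA.sub a hu) h)
    exact ⟨⟨(a, o), h⟩, z, ⟨⟨⟨(hA.ch a).sub (hA.sub a hu), subset_closure ⟨hA.sub a hu, h1⟩⟩,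
      hu⟩, h2⟩, rfl⟩
  · rintro ⟨⟨a, o⟩, h⟩
    refine inter_eq_left.2 ?_
    rw [hF a]
    exact (dense_so o).open_subset_closure_inter ((hA.ch a).isOpen.preimage (cont_σo _ o))

end Vale.Agent.P277Z.Hir.Gl
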