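import Vale.Agent.P277Z.Hir.BArr
import Vale.Agent.P277Z.Hir.BRef
import Vale.Agent.P277Z.Hir.BSig
import Vale.Agent.P277Z.Hir.BBlC
import Vale.Agent.P277Z.Hir.BDiv
import Vale.Agent.P277Z.Hir.BLiftA
import Vale.Agent.P277Z.Hir.BLiftB

/-!
# P277, resolution, global part: the blow-up of a good atlas is good
-/

open Filter Topology Set Function

noncomputable section

namespace Vale.Agent.P277Z.Hir.Gl

open L (Le IsCo Ass sl)

variable {ι X : Type} [Fintype ι] [DecidableEq ι] [TopologicalSpace X] {β : Base X}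

omit [DecidableEq ι] in
theorem prp_of_finite {C C' : Ch ι X} {u u' : ι → ℂ} (T : Type) [Finite T]
    (Φ Ψ : T → (ι → ℂ) → ι → ℂ) (h : ∀ k, Arr C u C' u' (Φ k) (Ψ k))
    (H : ∀ᶠ p in 𝓝 (u, u'), p.1 ∈ C.B → p.2 ∈ C'.B → C.π p.1 ∉ β.Z → C'.π p.2 = C.π p.1 →
      ∃ k, Φ k p.1 = p.2) : Prp β C u C' u' := by
  obtain ⟨n, ⟨e⟩⟩ := Finite.exists_equiv_fin T
  refine ⟨n, fun k => Φ (e.symm k), fun k => Ψ (e.symm k), fun k => h _, H.mono ?_⟩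
  intro p hp h1 h2 h3 h4
  obtain ⟨k, hk⟩ := hp h1 h2 h3 h4
  exact ⟨e k, by simpa using hk⟩

omit [Fintype ι] in
theorem so_zero {w : ι → ℕ} {o : Option ι} (hu : Use w o) {z : ι → ℂ} (hz : σo w o z ∈ Zc w) :
    so o z = 0 := by
  cases o with
  | none => exact absurd hu hz.1
  | some i =>
    have := hz.2 i hu
    simp only [σo, sl, if_true] at this
    exact pow_eq_zero_iff hu |>.1 this

theorem bl_prp (hD : StDivS) (hLA : StLiftA) (hLB : StLiftB) {A : At ι X} (W : Wt β A)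
    (hA : A.Ok β) (p p' : W.bl.κ) (z : ι → ℂ) (hz : z ∈ (W.bl.C p).B) (z' : ι → ℂ)
    (hz' : z' ∈ (W.bl.C p').B) : Prp β (W.bl.C p) z (W.bl.C p') z' := by
  obtain ⟨⟨a, o⟩, ho⟩ := p
  obtain ⟨⟨b, o'⟩, ho'⟩ := p'
  have hu : σo (W.w a) o z ∈ (A.C a).B := BlC.mem_B (hA.ch a) hz
  have hu' : σo (W.w b) o' z' ∈ (A.C b).B := BlC.mem_B (hA.ch b) hz'
  have old := hA.prp a b _ hu _ hu'
  by_cases h0 : so o z ≠ 0 ∧ so o' z' ≠ 0
  · obtain ⟨g, hg⟩ := stSig ι X β A W hA ⟨(a, o), ho⟩ z hz.1 h0.1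
    obtain ⟨g', hg'⟩ := stSig ι X β A W hA ⟨(b, o'), ho'⟩ z' hz'.1 h0.2
    exact Rf.prp hg hg' old
  obtain ⟨n, Φ, Ψ, har, H⟩ := old
  have hc : Continuous fun q : (ι → ℂ) × (ι → ℂ) => (σo (W.w a) o q.1, σo (W.w b) o' q.2) :=
    ((BlC.cont_σo _ _).comp continuous_fst).prodMk ((BlC.cont_σo _ _).comp continuous_snd)
  have H' : ∀ᶠ q in 𝓝 (z, z'), q.1 ∈ (W.bl.C ⟨(a, o), ho⟩).B → q.2 ∈ (W.bl.C ⟨(b, o'), ho'⟩).B →
      (W.bl.C ⟨(a, o), ho⟩).π q.1 ∉ β.Z →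
      (W.bl.C ⟨(b, o'), ho'⟩).π q.2 = (W.bl.C ⟨(a, o), ho⟩).π q.1 →
      ∃ k, Φ k (σo (W.w a) o q.1) = σo (W.w b) o' q.2 :=
    ((hc.tendsto (z, z')).eventually H).mono fun q hq h1 h2 h3 h4 =>
      hq (BlC.mem_B (hA.ch a) h1) (BlC.mem_B (hA.ch b) h2) h3 h4
  rcases isEmpty_or_nonempty (Fin n) with hn | ⟨⟨k₀⟩⟩
  · refine prp_of_finite Empty Empty.elim Empty.elim (fun k => k.elim) (H'.mono ?_)
    intro q hq h1 h2 h3 h4
    obtain ⟨k, -⟩ := hq h1 h2 h3 h4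
    exact hn.elim k
  have hZ : σo (W.w a) o z ∈ Zc (W.w a) ∧ σo (W.w b) o' z' ∈ Zc (W.w b) := by
    by_cases h1 : so o z = 0
    · exact ⟨BlC.mem_Zc ho h1,
        (W.fil a b _ hu (BlC.mem_Zc ho h1) _ _ _ ((hA.ch b).sub hu') (har k₀)).1⟩
    · have h2 : so o' z' = 0 := by
        by_contra h2
        exact h0 ⟨h1, h2⟩
      exact ⟨(W.fil b a _ hu' (BlC.mem_Zc ho' h2) _ _ _ ((hA.ch a).sub hu) (har k₀).symm).1,
        BlC.mem_Zc ho' h2⟩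
  have h1 := so_zero ho hZ.1
  have h2 := so_zero ho' hZ.2
  obtain _ | i := o
  · exact absurd h1 one_ne_zero
  obtain _ | j := o'
  · exact absurd h2 one_ne_zero
  have key := fun k => hLA ι (W.w a) (W.w b) i j z z' (Φ k) (Ψ k) ho ho' h1 h2 (har k).val
    (har k).an.continuousAt (har k).an'.continuousAt (har k).left (har k).right
    (fun l => hD ι (W.w a) i z (fun u => Φ k u l) (W.w b l) ho h1
      (analyticAt_pi_iff.1 (har k).an l)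
      ((W.fil a b _ hu hZ.1 _ _ _ ((hA.ch b).sub hu') (har k)).2 l))
    (fun l => hD ι (W.w b) j z' (fun u => Ψ k u l) (W.w a l) ho' h2
      (analyticAt_pi_iff.1 (har k).an' l)
      ((W.fil b a _ hu' hZ.2 _ _ _ ((hA.ch a).sub hu) (har k).symm).2 l))
  choose m Φ' Ψ' hL hE using key
  refine prp_of_finite (Σ k, Fin (m k)) (fun t => Φ' t.1 t.2) (fun t => Ψ' t.1 t.2)
    (fun t => hLB ι X β A W hA a b i j ho ho' z z' _ _ _ _ ((hA.ch a).sub hu) ((hA.ch b).sub hu')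
      (har t.1) (hL t.1 t.2)) ?_
  filter_upwards [H', eventually_all.2 hE] with q hq hq' h3 h4 h5 h6
  obtain ⟨k, hk⟩ := hq h3 h4 h5 h6
  have h7 : q.1 i ≠ 0 := fun h =>
    h5 (W.ovr a _ (BlC.mem_B (hA.ch a) h3) (BlC.mem_Zc (o := some i) ho h))
  have h8 : q.2 j ≠ 0 := fun h =>
    h5 (h6 ▸ W.ovr b _ (BlC.mem_B (hA.ch b) h4) (BlC.mem_Zc (o := some j) ho' h))
  obtain ⟨t, ht⟩ := hq' k h7 h8 hk.symm
  exact ⟨⟨k, t⟩, ht⟩

theorem stBl_of (hD : StDivS) (hLA : StLiftA) (hLB : StLiftB) : StBl := fun ι X _ _ _ β A W hA =>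
  ⟨stBlC stSig ι X β A W hA, (stBlK ι X β A W hA).1, fun _ _ h => h.1.1, bl_prp hD hLA hLB W hA,
    (stBlK ι X β A W hA).2.1⟩

theorem stBl : StBl := stBl_of stDivS stLiftA stLiftB

theorem Steps.ok {A A' : At ι X} (h : Steps β A A') (hA : A.Ok β) : A'.Ok β := by
  induction h with
  | refl => exact hA
  | tail _ h ih =>
    rcases h.2 with h | W
    · exact stRef ι X β _ _ ih h
    · exact stBl ι X β _ W ih

end Vale.Agent.P277Z.Hir.Gl
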