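import Mathlib.Analysis.Analytic.Basic
import Mathlib.Analysis.Calculus.FDeriv.Analytic
import Mathlib.Analysis.Calculus.InverseFunctionTheorem.Analytic
import Mathlib.Analysis.SpecialFunctions.Pow.Real
import Mathlib.Analysis.Complex.Basic
import Mathlib.Order.PiLex
import Mathlib.Data.Prod.Lex
import Mathlib.Order.WellFoundedSet
import Mathlib.Topology.Algebra.Module.Determinant

/-!
# P277Z, resolution by weighted blow-ups: the local theory (definitions and statements)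

The coordinates `l` of `W ι` with `nu l ≠ 0` are the divisorial ones (`nu l` is the label).
A centre `(y i ^ (1 / ω i))` has weights `ω i`.
-/

open Filter Topology Set

noncomputable section

namespace Vale.Agent.P277Z.Hir

/-- coordinate space -/
abbrev W (ι : Type) : Type := ι → ℂ

section gen
variable {E : Type} [NormedAddCommGroup E] [NormedSpace ℂ E]

/-- derivative of `f` along the vector field `D` -/
def vf (D : E → E) (f : E → ℂ) : E → ℂ := fun u => fderiv ℂ f u (D u)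

/-- `Fil k y ω q c f`: the germ of `f` at `q` is in the ideal generated by the monomials in
`y 0, …, y (k - 1)` of weight `≥ c`. -/
inductive Fil (k : ℕ) (y : ℕ → E → ℂ) (ω : ℕ → ℚ) (q : E) : ℚ → (E → ℂ) → Prop
  | base {c : ℚ} {f : E → ℂ} : c ≤ 0 → AnalyticAt ℂ f q → Fil k y ω q c f
  | zero {c : ℚ} : Fil k y ω q c fun _ => 0
  | mul {c : ℚ} {f : E → ℂ} (i : ℕ) : i < k → Fil k y ω q c f →
      Fil k y ω q (c + ω i) fun u => y i u * f u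
  | add {c : ℚ} {f g : E → ℂ} : Fil k y ω q c f → Fil k y ω q c g →
      Fil k y ω q c fun u => f u + g u
  | mono {c c' : ℚ} {f : E → ℂ} : c' ≤ c → Fil k y ω q c f → Fil k y ω q c' f
  | congr {c : ℚ} {f g : E → ℂ} : f =ᶠ[𝓝 q] g → Fil k y ω q c f → Fil k y ω q c g

/-- `D (n-1) ^ β (n-1) ⋯ D 0 ^ β 0 f` -/
def der (D : ℕ → E → E) (β : ℕ → ℕ) : ℕ → (E → ℂ) → E → ℂ
  | 0, f => f
  | n + 1, f => (vf (D n))^[β n] (der D β n f)

/-- the sum of the norms of a finite family -/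
def nrm {κ : Type} [Fintype κ] (F : κ → E → ℂ) (u : E) : ℝ := ∑ a, ‖F a u‖

end gen

/-- the mark of `der D β n f` -/
def mark (ω : ℕ → ℚ) (β : ℕ → ℕ) (n : ℕ) : ℚ := 1 - ∑ j ∈ Finset.range n, (β j : ℚ) * ω j

/-- entries of a type: exponent and label -/
abbrev Ent : Type := WithTop (ℚ ×ₗ ℕ)

/-- types of centres -/
abbrev Ty : Type := Lex (ℕ → Ent)

/-- the entry with weight `w` and label `n` -/
def ent (w : ℚ) (n : ℕ) : Ent := ((toLex (w⁻¹, n) : ℚ ×ₗ ℕ) : Ent)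

/-- the type with weights `ω` and labels `lb` -/
def mkTy (k : ℕ) (ω : ℕ → ℚ) (lb : ℕ → ℕ) : Ty := toLex fun i => if i < k then ent (ω i) (lb i) else ⊤

/-- the type `(1, …, 1)` of a submanifold of codimension `c` transversal to the divisors -/
def tyc (c : ℕ) : Ty := mkTy c (fun _ => 1) fun _ => 0

/-- the possible types of length `≤ n` -/
def Gam (n : ℕ) : Set Ty :=
  {τ | ∃ (k : ℕ) (ω : ℕ → ℚ) (lb : ℕ → ℕ), k ≤ n ∧ τ = mkTy k ω lb ∧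
    ∀ i < k, 0 < ω i ∧ ∃ (β : ℕ → ℕ) (e : ℕ), 1 ≤ e ∧ (e : ℚ) * ω i = mark ω β i}

variable {ι : Type} [Fintype ι] [DecidableEq ι]

/-- the labels are distinct -/
def Lbl (nu : ι → ℕ) : Prop := ∀ l l', nu l ≠ 0 → nu l' = nu l → l' = l

/-- the coordinate functions `u (m i)` -/
def crd (m : ℕ → ι) : ℕ → W ι → ℂ := fun i u => u (m i)

/-- a centre at `q`, compatible with the divisorial coordinates -/
structure Cen (nu : ι → ℕ) (q : W ι) where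
  k : ℕ
  y : ℕ → W ι → ℂ
  ω : ℕ → ℚ
  lab : ℕ → Option ι
  pos : ∀ i < k, 0 < ω i
  an : ∀ i < k, AnalyticAt ℂ (y i) q
  van : ∀ i < k, y i q = 0
  div : ∀ i < k, ∀ l, lab i = some l → nu l ≠ 0 ∧ y i = fun u => u l
  inj : ∀ i < k, ∀ i' < k, ∀ l, lab i = some l → lab i' = some l → i = i'
  indep : ∀ (c : ℕ → ℂ) (e : ι → ℂ), (∀ i, lab i ≠ none → c i = 0) →
    (∀ l, e l ≠ 0 → nu l ≠ 0 ∧ q l = 0) →
    (∀ v : W ι, ∑ i ∈ Finset.range k, c i * fderiv ℂ (y i) q v + ∑ l, e l * v l = 0) →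
    ∀ i < k, c i = 0
  sorted : ∀ i i', i ≤ i' → i' < k →
    ent (ω i) ((lab i).elim 0 nu) ≤ ent (ω i') ((lab i').elim 0 nu)

/-- the type of a centre -/
def Cen.ty {nu : ι → ℕ} {q : W ι} (J : Cen nu q) : Ty := mkTy J.k J.ω fun i => (J.lab i).elim 0 nu

/-- the centre is admissible for the family `F` -/
def Cen.Adm {nu : ι → ℕ} {q : W ι} (J : Cen nu q) {κ : Type} (F : κ → W ι → ℂ) : Prop :=
  ∀ a, Fil J.k J.y J.ω q 1 (F a)

/-- `τ` is the largest type of an admissible centre at `q` -/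
def HasTy (nu : ι → ℕ) {κ : Type} (F : κ → W ι → ℂ) (q : W ι) (τ : Ty) : Prop :=
  (∃ J : Cen nu q, J.Adm F ∧ J.ty = τ) ∧ ∀ J : Cen nu q, J.Adm F → J.ty ≤ τ

/-- a certificate, on the open set `U`, for the centre given by the coordinates `m i` -/
structure Cert (nu : ι → ℕ) (U : Set (W ι)) {κ : Type} (F : κ → W ι → ℂ) where
  k : ℕ
  m : ℕ → ι
  ω : ℕ → ℚ
  D : ℕ → W ι → W ι
  isOpen : IsOpen U
  anF : ∀ a, AnalyticOnNhd ℂ (F a) U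
  inj : ∀ i < k, ∀ i' < k, m i = m i' → i = i'
  pos : ∀ i < k, 0 < ω i
  sorted : ∀ i i', i ≤ i' → i' < k → ent (ω i) (nu (m i)) ≤ ent (ω i') (nu (m i'))
  anD : ∀ i < k, AnalyticOnNhd ℂ (D i) U
  one : ∀ i < k, ∀ u ∈ U, D i u (m i) = 1
  low : ∀ i < k, ∀ j < i, ∀ u ∈ U, D i u (m j) = 0
  tan : ∀ i < k, ∀ l, nu l ≠ 0 → l ≠ m i → ∀ u ∈ U, D i u l = 0
  wit : ∀ i < k, ∃ (a : κ) (β : ℕ → ℕ) (L : List (W ι → W ι)),
    (∀ δ ∈ L, AnalyticOnNhd ℂ δ U ∧ ∀ j < i, ∀ u ∈ U, δ u (m j) = 0) ∧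
    ((L.length : ℚ) + 1) * ω i = mark ω β i ∧
    ∀ u ∈ U, (∀ j < i, u (m j) = 0) →
      vf (D i) (L.foldr vf (der D β i (F a))) u ≠ 0 ∧
      (nu (m i) = 0 → L.foldr vf (der D β i (F a)) u = u (m i))
  fin : ∀ (a : κ) (β : ℕ → ℕ), 0 < mark ω β k → ∀ u ∈ U, (∀ j < k, u (m j) = 0) →
    der D β k (F a) u = 0

section
variable {nu : ι → ℕ} {U : Set (W ι)} {κ : Type} {F : κ → W ι → ℂ}

/-- the type of a certificate -/
def Cert.ty (C : Cert nu U F) : Ty := mkTy C.k C.ω fun i => nu (C.m i)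

/-- the support of the centre -/
def Cert.Z (C : Cert nu U F) : Set (W ι) := {u | ∀ i < C.k, u (C.m i) = 0}

/-- `w` are the integral weights of the centre, for the multiplier `ℓ` -/
def Cert.Wt (C : Cert nu U F) (ℓ : ℕ) (w : ι → ℕ) : Prop :=
  (∀ i < C.k, (w (C.m i) : ℚ) = ℓ * C.ω i) ∧ ∀ l, (∀ i < C.k, C.m i ≠ l) → w l = 0

end

/-- the chart of the cobordant blow-up: `u l = s ^ w l * u' l`, `s = u' none` -/
def pr (w : ι → ℕ) (u : W (Option ι)) : W ι := fun l => u none ^ w l * u (some l)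

/-- the labels after the blow-up -/
def nuO (nu : ι → ℕ) (N : ℕ) : Option ι → ℕ := fun l => l.elim N nu

/-- `Φ` is a local isomorphism at `q` which preserves the divisorial hyperplanes -/
structure LIso (nu nu₁ : ι → ℕ) (Φ : W ι → W ι) (q : W ι) : Prop where
  an : AnalyticAt ℂ Φ q
  det : (fderiv ℂ Φ q).det ≠ 0
  div : ∀ l l₁, nu l ≠ 0 → nu₁ l₁ = nu l →
    ∃ e : W ι → ℂ, AnalyticAt ℂ e q ∧ e q ≠ 0 ∧ ∀ᶠ u in 𝓝 q, Φ u l₁ = e u * u l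
  mt : ∀ l, nu l ≠ 0 → q l = 0 → ∃ l₁, nu₁ l₁ = nu l
  mt' : ∀ l₁, nu₁ l₁ ≠ 0 → Φ q l₁ = 0 → ∃ l, nu l = nu₁ l₁

/-- a family of such local isomorphisms, near the parameter `t` -/
structure PIso {ρ : Type} [Fintype ρ] (nu nu₁ : ι → ℕ) (Φ : W ρ × W ι → W ι) (t : W ρ) (q : W ι) :
    Prop where
  an : AnalyticAt ℂ Φ (t, q)
  det : (fderiv ℂ (fun u => Φ (t, u)) q).det ≠ 0
  div : ∀ l l₁, nu l ≠ 0 → nu₁ l₁ = nu l → ∃ e : W ρ × W ι → ℂ, AnalyticAt ℂ e (t, q) ∧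
    e (t, q) ≠ 0 ∧ ∀ᶠ z in 𝓝 (t, q), Φ z l₁ = e z * z.2 l
  mt : ∀ l, nu l ≠ 0 → q l = 0 → ∃ l₁, nu₁ l₁ = nu l
  mt' : ∀ l₁, nu₁ l₁ ≠ 0 → Φ (t, q) l₁ = 0 → ∃ l, nu l = nu₁ l₁

/-- `f` and `g` are comparable along the filter `l` -/
def Cmp {T : Type} (l : Filter T) (f g : T → ℝ) : Prop :=
  ∃ C : ℝ, 0 < C ∧ ∀ᶠ z in l, f z ≤ C * g z ∧ g z ≤ C * f z

/-- a change of coordinates which fixes the divisorial coordinates -/
structure IsChg (nu : ι → ℕ) (ψ : OpenPartialHomeomorph (W ι) (W ι)) : Prop where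
  an : AnalyticOnNhd ℂ ψ ψ.source
  an' : AnalyticOnNhd ℂ ψ.symm ψ.target
  div : ∀ u ∈ ψ.source, ∀ l, nu l ≠ 0 → ψ u l = u l

/-! ### statements -/

/-- **U**: maximality and uniqueness -/
def StU : Prop :=
  ∀ (ι : Type) [Fintype ι] [DecidableEq ι] (nu : ι → ℕ) (_ : Lbl nu) (U : Set (W ι)) (κ : Type)
    (F : κ → W ι → ℂ) (C : Cert nu U F) (q : W ι) (_ : q ∈ U) (J : Cen nu q) (_ : J.Adm F),
    J.ty ≤ C.ty ∧ (J.ty = C.ty → q ∈ C.Z ∧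
      ∀ c f, Fil J.k J.y J.ω q c f ↔ Fil C.k (crd C.m) C.ω q c f)

/-- **A**: the certified centre is admissible at the points of its support -/
def StA : Prop :=
  ∀ (ι : Type) [Fintype ι] [DecidableEq ι] (nu : ι → ℕ) (_ : Lbl nu) (U : Set (W ι)) (κ : Type)
    (F : κ → W ι → ℂ) (C : Cert nu U F) (q : W ι) (_ : q ∈ U) (_ : q ∈ C.Z),
    (∀ a, Fil C.k (crd C.m) C.ω q 1 (F a)) ∧ (∀ a, F a q = 0) ∧
    ∃ J : Cen nu q, J.Adm F ∧ J.ty = C.ty ∧ J.k = C.k ∧ J.ω = C.ω ∧ J.y = crd C.m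

/-- **E**: existence of certificates -/
def StE : Prop :=
  ∀ (ι : Type) [Fintype ι] [DecidableEq ι] [Nonempty ι] (nu : ι → ℕ) (_ : Lbl nu) (κ : Type) [Fintype κ]
    (F : κ → W ι → ℂ) (p : W ι) (_ : ∀ l, nu l ≠ 0 → p l = 0) (_ : ∀ a, AnalyticAt ℂ (F a) p)
    (_ : ∀ a, F a p = 0) (N : Set (W ι)) (_ : N ∈ 𝓝 p),
    ∃ ψ : OpenPartialHomeomorph (W ι) (W ι), IsChg nu ψ ∧ p ∈ ψ.source ∧ ψ.source ⊆ N ∧
      ∃ C : Cert nu ψ.target fun a u => F a (ψ.symm u), ψ p ∈ C.Z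

/-- **W**: the types are well ordered -/
def StW : Prop := ∀ n, (Gam n).IsWF

/-- **T**: certificates lift to the cobordant blow-up (`ℓ = 0`: to the product with a line) -/
def StT : Prop :=
  ∀ (ι : Type) [Fintype ι] [DecidableEq ι] (nu : ι → ℕ) (U : Set (W ι)) (κ : Type)
    (F : κ → W ι → ℂ) (C : Cert nu U F) (ℓ : ℕ) (w : ι → ℕ) (_ : C.Wt ℓ w) (N : ℕ)
    (U' : Set (W (Option ι))) (_ : IsOpen U') (_ : ∀ u ∈ U', pr w u ∈ U)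
    (F' : κ → W (Option ι) → ℂ) (_ : ∀ a, AnalyticOnNhd ℂ (F' a) U')
    (_ : ∀ a, ∀ u ∈ U', u none ^ ℓ * F' a u = F a (pr w u)),
    ∃ C' : Cert (nuO nu N) U' F', C'.k = C.k ∧ C'.ω = C.ω ∧ C'.m = fun i => some (C.m i)

/-- **I**: admissibility depends only on the integral closure -/
def StI : Prop :=
  ∀ (ι : Type) [Fintype ι] [DecidableEq ι] (nu : ι → ℕ) (q : W ι) (J : Cen nu q) (κ : Type)
    [Fintype κ] (F : κ → W ι → ℂ) (_ : J.Adm F) (f : W ι → ℂ) (_ : AnalyticAt ℂ f q) (C : ℝ)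
    (_ : ∀ᶠ u in 𝓝 q, ‖f u‖ ≤ C * nrm F u), Fil J.k J.y J.ω q 1 f

/-- **C**: pull back of centres by local isomorphisms -/
def StC : Prop :=
  ∀ (ι : Type) [Fintype ι] [DecidableEq ι] (nu nu₁ : ι → ℕ) (_ : Lbl nu) (_ : Lbl nu₁)
    (Φ : W ι → W ι) (q : W ι) (_ : LIso nu nu₁ Φ q) (J : Cen nu₁ (Φ q)),
    ∃ J' : Cen nu q, J'.ty = J.ty ∧
      ∀ c f, Fil J.k J.y J.ω (Φ q) c f → Fil J'.k J'.y J'.ω q c fun u => f (Φ u)

/-- **L**: division by `s ^ n` after the blow-up, with parameters -/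
def StL : Prop :=
  ∀ (ι ρ : Type) [Fintype ι] [DecidableEq ι] [Fintype ρ] (k : ℕ) (m : ℕ → ι) (ω : ℕ → ℚ)
    (_ : ∀ i < k, ∀ i' < k, m i = m i' → i = i') (_ : ∀ i < k, 0 < ω i) (ℓ : ℕ) (w : ι → ℕ)
    (_ : ∀ i < k, (w (m i) : ℚ) = ℓ * ω i) (c : ℚ) (n : ℕ) (_ : (n : ℚ) ≤ ℓ * c)
    (G : W ρ × W ι → ℂ) (t : W ρ) (q' : W (Option ι)) (_ : ∀ i < k, pr w q' (m i) = 0)
    (_ : AnalyticAt ℂ G (t, pr w q'))
    (_ : ∀ᶠ z in 𝓝 (t, pr w q'), (∀ i < k, z.2 (m i) = 0) →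
      Fil k (crd m) ω z.2 c fun u => G (z.1, u)),
    ∃ G' : W ρ × W (Option ι) → ℂ, AnalyticAt ℂ G' (t, q') ∧
      ∀ᶠ z in 𝓝 (t, q'), G (z.1, pr w z.2) = z.2 none ^ n * G' z

/-- **INV**: the type is invariant under local isomorphisms -/
def StInv : Prop :=
  ∀ (ι : Type) [Fintype ι] [DecidableEq ι] (nu nu₁ : ι → ℕ) (_ : Lbl nu) (_ : Lbl nu₁)
    (Φ : W ι → W ι) (q : W ι) (_ : LIso nu nu₁ Φ q) (κ κ' : Type) [Fintype κ] [Fintype κ'] (F : κ → W ι → ℂ)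
    (F' : κ' → W ι → ℂ) (_ : ∀ a, AnalyticAt ℂ (F a) q) (_ : ∀ a, AnalyticAt ℂ (F' a) (Φ q))
    (_ : Cmp (𝓝 q) (fun u => nrm F' (Φ u)) (nrm F)) (τ : Ty),
    HasTy nu₁ F' (Φ q) τ ↔ HasTy nu F q τ

/-- **NZ**: outside the exceptional divisor the type does not change -/
def StNz : Prop :=
  ∀ (ι : Type) [Fintype ι] [DecidableEq ι] (nu : ι → ℕ) (_ : Lbl nu) (N : ℕ) (_ : ∀ l, nu l < N)
    (κ : Type) [Fintype κ] (F : κ → W ι → ℂ) (ℓ : ℕ) (w : ι → ℕ) (q' : W (Option ι))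
    (_ : q' none ≠ 0) (_ : ∀ a, AnalyticAt ℂ (F a) (pr w q')) (F' : κ → W (Option ι) → ℂ)
    (_ : ∀ a, ∀ᶠ u in 𝓝 q', u none ^ ℓ * F' a u = F a (pr w u)) (τ : Ty),
    HasTy (nuO nu N) F' q' τ ↔ HasTy nu F (pr w q') τ

/-- **REG**: the type of a submanifold (no divisorial coordinates) -/
def StReg : Prop :=
  ∀ (ι : Type) [Fintype ι] [DecidableEq ι] (κ : Type) [Fintype κ] (F : κ → W ι → ℂ) (q : W ι)
    (_ : ∀ a, AnalyticAt ℂ (F a) q) (c : ℕ) (h : Fin c → W ι → ℂ) (_ : ∀ i, AnalyticAt ℂ (h i) q)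
    (_ : ∀ i, h i q = 0) (_ : LinearIndependent ℂ fun i => fderiv ℂ (h i) q)
    (_ : Cmp (𝓝 q) (nrm F) (nrm h)), HasTy (fun _ : ι => 0) F q (tyc c)

/-- **LF**: local isomorphisms lift to the blow-ups of the maximal centres -/
def StLF : Prop :=
  ∀ (ι ρ : Type) [Fintype ι] [DecidableEq ι] [Fintype ρ] (nu nu₁ : ι → ℕ) (_ : Lbl nu)
    (_ : Lbl nu₁) (U U₁ : Set (W ι)) (κ κ₁ : Type) [Fintype κ] [Fintype κ₁] (F : κ → W ι → ℂ)
    (F₁ : κ₁ → W ι → ℂ) (C : Cert nu U F) (C₁ : Cert nu₁ U₁ F₁) (_ : C₁.ty = C.ty) (ℓ : ℕ)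
    (w w₁ : ι → ℕ) (_ : C.Wt ℓ w) (_ : C₁.Wt ℓ w₁) (Φ : W ρ × W ι → W ι) (t : W ρ)
    (q' : W (Option ι)) (_ : pr w q' ∈ U) (_ : pr w q' ∈ C.Z) (_ : Φ (t, pr w q') ∈ U₁)
    (_ : PIso nu nu₁ Φ t (pr w q'))
    (_ : Cmp (𝓝 (t, pr w q')) (fun z => nrm F₁ (Φ z)) fun z => nrm F z.2),
    (∀ᶠ z in 𝓝 (t, pr w q'), z.2 ∈ C.Z ↔ Φ z ∈ C₁.Z) ∧ ∑ l, w₁ l = ∑ l, w l ∧
    ∃ G' : W ρ × W (Option ι) → W ι, AnalyticAt ℂ G' (t, q') ∧
      ∀ᶠ z in 𝓝 (t, q'), ∀ l, Φ (z.1, pr w z.2) l = z.2 none ^ w₁ l * G' z l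

end Vale.Agent.P277Z.Hir
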