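import Vale.Agent.P277Z.Hir.LDefs
import Vale.Agent.P277Z.Hir.Loc

/-!
# P277, resolution, global part: charts, arrows, atlases and the elementary operations
-/

open Filter Topology Set Function
open scoped Manifold ContDiff

noncomputable section

namespace Vale.Agent.P277Z.Hir.Gl

open L (Le IsCo Ass sl)

/-- A chart: the closed subset `B` of the open set `U`, the map `π` to the base, the labels of the
coordinates (`0` = free coordinate) and a finite family of functions. -/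
structure Ch (ι X : Type) where
  /-- the ambient open set -/
  U : Set (ι → ℂ)
  /-- the closed subset -/
  B : Set (ι → ℂ)
  /-- the map to the base -/
  π : (ι → ℂ) → X
  /-- the labels -/
  lab : ι → ℕ
  /-- the number of functions -/
  m : ℕ
  /-- the functions -/
  F : Fin m → (ι → ℂ) → ℂ

variable {ι X : Type} [Fintype ι] [DecidableEq ι]

/-- `f` and `g` are comparable along the filter `l`. -/
def Cmp {T : Type} (l : Filter T) (f g : T → ℝ) : Prop :=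
  ∃ c : ℝ, 0 < c ∧ ∀ᶠ z in l, f z ≤ c * g z ∧ g z ≤ c * f z

namespace Ch

variable (C : Ch ι X)

/-- the equation of the divisor with label `j` (the constant `1` if the label does not occur) -/
def s (j : ℕ) (z : ι → ℂ) : ℂ := ∏ l ∈ Finset.univ.filter (fun l => C.lab l = j), z l

/-- the divisor -/
def E : Set (ι → ℂ) := {z | ∃ l, C.lab l ≠ 0 ∧ z l = 0}

/-- the size of the family -/
def nF (z : ι → ℂ) : ℝ := ∑ a, ‖C.F a z‖

/-- all admissible centres at `u` have their type in `T` -/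
def TyIn (T : Set Hir.Ty) (u : ι → ℂ) : Prop := ∀ J : Hir.Cen C.lab u, J.Adm C.F → J.ty ∈ T

end Ch

/-- `Φ` is a local isomorphism from `(C, u)` to `(C', u')` with the local inverse `Ψ`. -/
structure Arr (C : Ch ι X) (u : ι → ℂ) (C' : Ch ι X) (u' : ι → ℂ) (Φ Ψ : (ι → ℂ) → ι → ℂ) :
    Prop where
  an : AnalyticAt ℂ Φ u
  an' : AnalyticAt ℂ Ψ u'
  val : Φ u = u'
  left : ∀ᶠ z in 𝓝 u, Ψ (Φ z) = z
  right : ∀ᶠ z in 𝓝 u', Φ (Ψ z) = z
  mem : ∀ᶠ z in 𝓝 u, (Φ z ∈ C'.B ↔ z ∈ C.B)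
  pi : ∀ᶠ z in 𝓝 u, z ∈ C.B → C'.π (Φ z) = C.π z
  div : ∀ j, j ≠ 0 → Ass (fun z => C'.s j (Φ z)) (C.s j) u
  cmp : Cmp (𝓝 u) (fun z => C'.nF (Φ z)) C.nF

/-- Atlases: finitely many charts with compact cores. -/
structure At (ι X : Type) : Type 1 where
  /-- the index set -/
  κ : Type
  [fin : Finite κ]
  /-- the charts -/
  C : κ → Ch ι X
  /-- the cores -/
  K : κ → Set (ι → ℂ)

attribute [instance] At.fin

/-- The base: a space with its holomorphic germs, the open set `O` over which the atlas is proper,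
and the closed set `Z` outside of which nothing is changed. -/
structure Base (X : Type) [TopologicalSpace X] where
  /-- holomorphic germs -/
  Hol : (X → ℂ) → X → Prop
  /-- the open set -/
  O : Set X
  /-- the closed set -/
  Z : Set X
  isOpen : IsOpen O
  isClosed : IsClosed Z

variable [TopologicalSpace X]

/-- the conditions on one chart -/
structure Ch.Ok (β : Base X) (C : Ch ι X) : Prop where
  isOpen : IsOpen C.U
  sub : C.B ⊆ C.U
  closed : ∀ u ∈ C.U, u ∈ closure C.B → u ∈ C.B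
  lbl : ∀ l l', C.lab l ≠ 0 → C.lab l' = C.lab l → l' = l
  anF : ∀ a, AnalyticOnNhd ℂ (C.F a) C.U
  cont : ContinuousOn C.π C.B
  hol : ∀ u ∈ C.B, ∀ f, β.Hol f (C.π u) →
    ∃ g, AnalyticAt ℂ g u ∧ ∀ᶠ z in 𝓝 u, z ∈ C.B → f (C.π z) = g z
  opn : ∀ u ∈ C.B, C.π u ∉ β.Z → 𝓝 (C.π u) ≤ map C.π (𝓝[C.B] u)
  iso : ∀ u ∈ C.B, C.π u ∉ β.Z → ∀ (f : X → ℂ) g, AnalyticAt ℂ g u →
    (∀ᶠ z in 𝓝 u, z ∈ C.B → f (C.π z) = g z) → β.Hol f (C.π u)
  unt : ∀ u ∈ C.B, u ∈ C.E → C.π u ∈ β.Z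
  dense : ∀ u ∈ C.B, u ∈ closure {z ∈ C.B | C.π z ∉ β.Z}
  faith : ∀ u ∈ C.B, ∃ ε : ℝ, 0 < ε ∧ ∀ᶠ p in 𝓝 (u, u), p.1 ∈ C.B → p.2 ∈ C.B →
    C.π p.1 ∉ β.Z → C.π p.2 = C.π p.1 →
    (∀ l, C.lab l ≠ 0 → ‖p.2 l - p.1 l‖ ≤ ε * ‖p.1 l‖) → p.2 = p.1

/-- finitely many arrows describe all the identifications near `(u, u')` -/
def Prp (β : Base X) (C : Ch ι X) (u : ι → ℂ) (C' : Ch ι X) (u' : ι → ℂ) : Prop :=
  ∃ (n : ℕ) (Φ Ψ : Fin n → (ι → ℂ) → ι → ℂ), (∀ k, Arr C u C' u' (Φ k) (Ψ k)) ∧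
    ∀ᶠ p in 𝓝 (u, u'), p.1 ∈ C.B → p.2 ∈ C'.B → C.π p.1 ∉ β.Z → C'.π p.2 = C.π p.1 →
      ∃ k, Φ k p.1 = p.2

/-- the conditions on an atlas -/
structure At.Ok (β : Base X) (A : At ι X) : Prop where
  ch : ∀ a, (A.C a).Ok β
  cpt : ∀ a, IsCompact (A.K a)
  sub : ∀ a, A.K a ⊆ (A.C a).B
  prp : ∀ a b, ∀ u ∈ (A.C a).B, ∀ u' ∈ (A.C b).B, Prp β (A.C a) u (A.C b) u'
  cov : ∀ x ∈ β.O, x ∉ β.Z → ∃ a, ∃ u ∈ A.K a, (A.C a).π u = x

/-! ### refinement -/

/-- The charts of `A'` are open pieces of the charts of `A` in new coordinates, and the cores of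
`A'` cover the cores of `A`. -/
structure Ref (A A' : At ι X) : Prop where
  isOpen : ∀ a', IsOpen (A'.C a').U
  sub : ∀ a', (A'.C a').B ⊆ (A'.C a').U
  lbl : ∀ a' l l', (A'.C a').lab l ≠ 0 → (A'.C a').lab l' = (A'.C a').lab l → l' = l
  anF : ∀ a' k, AnalyticOnNhd ℂ ((A'.C a').F k) (A'.C a').U
  cpt : ∀ a', IsCompact (A'.K a')
  subK : ∀ a', A'.K a' ⊆ (A'.C a').B
  arr : ∀ a', ∃ a h, ∀ z ∈ (A'.C a').U, h z ∈ (A.C a).U ∧ ∃ g, Arr (A'.C a') z (A.C a) (h z) h g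
  cov : ∀ a, ∀ u ∈ A.K a, ∃ a', ∃ z ∈ A'.K a', ∃ h g, Arr (A'.C a') z (A.C a) u h g

/-! ### weighted blow-up -/

/-- the slice charts; `none` is used for the charts which are not changed -/
def σo (w : ι → ℕ) : Option ι → (ι → ℂ) → ι → ℂ
  | some i => sl w i
  | none => id

/-- the equation of the new divisor -/
def so : Option ι → (ι → ℂ) → ℂ
  | some i => fun z => z i
  | none => fun _ => 1

/-- the labels after the blow-up -/
def labo (lab : ι → ℕ) (N : ℕ) : Option ι → ι → ℕ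
  | some i => update lab i N
  | none => lab

/-- the slices which are used -/
def Use (w : ι → ℕ) : Option ι → Prop
  | some i => w i ≠ 0
  | none => w = 0

/-- the centre -/
def Zc (w : ι → ℕ) : Set (ι → ℂ) := {u | w ≠ 0 ∧ ∀ l, w l ≠ 0 → u l = 0}

/-- the box in a slice -/
def box (w : ι → ℕ) (o : Option ι) : Set (ι → ℂ) := {z | ∀ l, w l ≠ 0 → o ≠ some l → ‖z l‖ ≤ 1}

/-- the slice chart with the new family `G` -/
def Ch.bl (C : Ch ι X) (w : ι → ℕ) (N : ℕ) (o : Option ι) (G : Fin C.m → (ι → ℂ) → ℂ) :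
    Ch ι X where
  U := σo w o ⁻¹' C.U
  B := σo w o ⁻¹' C.U ∩ closure {z | σo w o z ∈ C.B ∧ so o z ≠ 0}
  π := C.π ∘ σo w o
  lab := labo C.lab N o
  m := C.m
  F := G

/-- The data of a weighted blow-up: weights `w`, the exponent `d`, the new label `N`, the weak
transforms `G`; the weight of the old label `j` is the number `m j`. -/
structure Wt (β : Base X) (A : At ι X) where
  /-- the weights -/
  w : A.κ → ι → ℕ
  /-- the exponent -/
  d : ℕ
  /-- the new label -/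
  N : ℕ
  /-- the weights of the old labels -/
  m : ℕ → ℕ
  /-- the weak transforms -/
  G : ∀ a, Option ι → Fin (A.C a).m → (ι → ℂ) → ℂ
  pos : N ≠ 0
  new : ∀ a l, (A.C a).lab l ≠ N
  hm : ∀ a, w a ≠ 0 → ∀ j, j ≠ 0 →
    ∑ l ∈ Finset.univ.filter (fun l => (A.C a).lab l = j), w a l = m j
  anG : ∀ a o, Use (w a) o → ∀ k, AnalyticOnNhd ℂ (G a o k) (σo (w a) o ⁻¹' (A.C a).U)
  eqG : ∀ a o, Use (w a) o → ∀ k z, σo (w a) o z ∈ (A.C a).U →
    (A.C a).F k (σo (w a) o z) = so o z ^ d * G a o k z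
  ovr : ∀ a, ∀ u ∈ (A.C a).B, u ∈ Zc (w a) → (A.C a).π u ∈ β.Z
  fil : ∀ a b, ∀ u ∈ (A.C a).B, u ∈ Zc (w a) → ∀ u' Φ Ψ, u' ∈ (A.C b).U →
    Arr (A.C a) u (A.C b) u' Φ Ψ → u' ∈ Zc (w b) ∧
      ∀ l, Le id (fun m => (w a m : ℚ)) (fun z => Φ z l) (w b l) u

/-- the blow-up -/
def Wt.bl {β : Base X} {A : At ι X} (W : Wt β A) : At ι X where
  κ := {p : A.κ × Option ι // Use (W.w p.1) p.2}
  C p := (A.C p.1.1).bl (W.w p.1.1) W.N p.1.2 (W.G p.1.1 p.1.2)
  K p := ((A.C p.1.1).bl (W.w p.1.1) W.N p.1.2 (W.G p.1.1 p.1.2)).B ∩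
    σo (W.w p.1.1) p.1.2 ⁻¹' A.K p.1.1 ∩ box (W.w p.1.1) p.1.2

/-- one step of the weighted algorithm -/
inductive Step (β : Base X) : At ι X → At ι X → Prop
  | ref {A A' : At ι X} : Ref A A' → Step β A A'
  | bl {A : At ι X} (W : Wt β A) : Step β A W.bl

/-- finitely many steps, through good atlases -/
def Steps (β : Base X) : At ι X → At ι X → Prop :=
  Relation.ReflTransGen fun A A' => A.Ok β ∧ Step β A A'

/-! ### change of the family, restriction to a coordinate subspace -/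

/-- the same chart with another family -/
def Ch.withF (C : Ch ι X) (m : ℕ) (F : Fin m → (ι → ℂ) → ℂ) : Ch ι X := { C with m := m, F := F }

/-- the same atlas with other families -/
def At.withF (A : At ι X) (m : A.κ → ℕ) (F : ∀ a, Fin (m a) → (ι → ℂ) → ℂ) : At ι X :=
  { A with C := fun a => (A.C a).withF (m a) (F a) }

/-- extension by zero -/
def ext0 {ι' : Type} (e : ι' → ι) (z : ι' → ℂ) : ι → ℂ := extend e z 0

/-- the restriction of a chart to the coordinate subspace given by `e`; the family is `1` -/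
def Ch.res {ι' : Type} (C : Ch ι X) (e : ι' → ι) : Ch ι' X where
  U := ext0 e ⁻¹' C.U
  B := ext0 e ⁻¹' C.U
  π := C.π ∘ ext0 e
  lab := C.lab ∘ e
  m := 1
  F := fun _ _ => 1

/-- the restriction of an atlas -/
def At.res {ι' : Type} (A : At ι X) (e : A.κ → ι' → ι) : At ι' X where
  κ := A.κ
  C a := (A.C a).res (e a)
  K a := ext0 (e a) ⁻¹' A.K a

/-- `B` is the coordinate subspace given by `e`, which contains all the labelled coordinates -/
structure Ch.Flat {ι' : Type} (C : Ch ι X) (e : ι' → ι) : Prop where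
  inj : Injective e
  mem : ∀ z ∈ C.U, z ∈ C.B ↔ ∀ l, l ∉ range e → z l = 0
  lab : ∀ l, C.lab l ≠ 0 → l ∈ range e

/-- the charts are open sets -/
def At.Full (A : At ι X) : Prop := ∀ a, (A.C a).B = (A.C a).U

/-- no identifications inside a chart, locally -/
def At.Free (β : Base X) (A : At ι X) : Prop :=
  ∀ a, ∀ u ∈ (A.C a).B, ∀ᶠ p in 𝓝 (u, u), p.1 ∈ (A.C a).B → p.2 ∈ (A.C a).B →
    (A.C a).π p.1 ∉ β.Z → (A.C a).π p.2 = (A.C a).π p.1 → p.2 = p.1

/-! ### invariants -/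

/-- outside the divisor, `B` is the set of zeros of the family -/
def At.ZB (A : At ι X) : Prop :=
  ∀ a, ∀ z ∈ (A.C a).U, z ∉ (A.C a).E → (z ∈ (A.C a).B ↔ ∀ k, (A.C a).F k z = 0)

/-- `B` is a submanifold of codimension `c` at `u` and the family is comparable with its
equations -/
def Ch.Sm (C : Ch ι X) (c : ℕ) (u : ι → ℂ) : Prop :=
  ∃ (y : (ι → ℂ) → ι → ℂ) (S : Finset ι), IsCo y u ∧ S.card = c ∧
    Cmp (𝓝 u) C.nF (fun z => ∑ l ∈ S, ‖y z l‖) ∧ ∀ᶠ z in 𝓝 u, (z ∈ C.B ↔ ∀ l ∈ S, y z l = 0)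

/-- a property of the points which do not lie over `Z` -/
def At.Off (β : Base X) (A : At ι X) (P : Ch ι X → (ι → ℂ) → Prop) : Prop :=
  ∀ a, ∀ u ∈ (A.C a).B, (A.C a).π u ∉ β.Z → P (A.C a) u

/-- the monomial in the labelled coordinates with the exponents `ex` -/
def Ch.mon (C : Ch ι X) (ex : ℕ → ℝ) (z : ι → ℂ) : ℝ :=
  ∏ l ∈ Finset.univ.filter (fun l => C.lab l ≠ 0), ‖z l‖ ^ ex (C.lab l)

/-- the size functions `nm γ` on the base become monomials times the size of the family -/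
def At.Tot (A : At ι X) {Γ : Type} (XO : Γ → Set X) (nm : Γ → X → ℝ) (ex : ℕ → ℝ) : Prop :=
  ∀ a, ∀ u ∈ (A.C a).B, ∀ γ, (A.C a).π u ∈ XO γ →
    Cmp (𝓝[(A.C a).B] u) (fun z => nm γ ((A.C a).π z)) fun z => (A.C a).mon ex z * (A.C a).nF z

/-- the families have no common zero on `B` -/
def At.Unit (A : At ι X) : Prop := ∀ a, ∀ u ∈ (A.C a).B, ∃ k, (A.C a).F k u ≠ 0

/-! ### the glued manifold -/

/-- the manifold which is obtained from an atlas without identifications inside the charts -/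
structure Glue {n : ℕ} (β : Base X) (A : At (Fin n) X) where
  /-- the manifold -/
  Y : Type
  [top : TopologicalSpace Y]
  [t2 : T2Space Y]
  [sc : SecondCountableTopology Y]
  [cs : ChartedSpace (Fin n → ℂ) Y]
  [mf : IsManifold 𝓘(ℂ, Fin n → ℂ) ω Y]
  /-- the map to the base -/
  π : Y → X
  /-- the chart of the atlas which is used at a point -/
  a : Y → A.κ
  cont : Continuous π
  maps : ∀ y, π y ∈ β.O
  proper : ∀ L ⊆ β.O, IsCompact L → IsCompact (π ⁻¹' L)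
  surj : ∀ x ∈ β.O, x ∉ β.Z → ∃ y, π y = x
  one : ∀ y y', π y ∉ β.Z → π y' = π y → y' = y
  tgt : ∀ y, (chartAt (Fin n → ℂ) y).target ⊆ (A.C (a y)).U
  pi : ∀ y, ∀ p ∈ (chartAt (Fin n → ℂ) y).source,
    π p = (A.C (a y)).π (chartAt (Fin n → ℂ) y p)
  arr : ∀ y y', ∀ p ∈ (chartAt (Fin n → ℂ) y).source, p ∈ (chartAt (Fin n → ℂ) y').source →
    ∃ Φ Ψ, Arr (A.C (a y)) (chartAt (Fin n → ℂ) y p) (A.C (a y')) (chartAt (Fin n → ℂ) y' p) Φ Ψ

end Vale.Agent.P277Z.Hir.Gl
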