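import Vale.Agent.P277Z.Hir.BArr

/-!
# P277, resolution, global part: the glued manifold
-/

open Filter Topology Set Function
open scoped Manifold ContDiff

set_option linter.all false

noncomputable section

namespace Vale.Agent.P277Z.Hir.Gl

namespace GlA

section rel

variable {ι X : Type} [Fintype ι] [DecidableEq ι]

/-- two points are joined by an arrow -/
def R (C : Ch ι X) (u : ι → ℂ) (C' : Ch ι X) (u' : ι → ℂ) : Prop := ∃ Φ Ψ, Arr C u C' u' Φ Ψ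

variable {C C' C'' : Ch ι X} {u u' u'' : ι → ℂ} {Φ Ψ : (ι → ℂ) → ι → ℂ}

theorem R_refl (C : Ch ι X) (u : ι → ℂ) : R C u C u := ⟨_, _, Arr.refl C u⟩

theorem R_symm (h : R C u C' u') : R C' u' C u := let ⟨_, _, h⟩ := h; ⟨_, _, h.symm⟩

theorem R_trans (h : R C u C' u') (h' : R C' u' C'' u'') : R C u C'' u'' :=
  let ⟨_, _, h⟩ := h; let ⟨_, _, h'⟩ := h'; ⟨_, _, h.trans h'⟩

theorem R_ev (h : Arr C u C' u' Φ Ψ) : ∀ᶠ z in 𝓝 u, R C z C' (Φ z) :=
  h.ev.mono fun _ hz => ⟨_, _, hz⟩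

theorem tend (h : Arr C u C' u' Φ Ψ) : Tendsto Φ (𝓝 u) (𝓝 u') := h.val ▸ h.an.continuousAt

theorem R_pi (h : R C u C' u') (hu : u ∈ C.B) : C'.π u' = C.π u := by
  obtain ⟨Φ, Ψ, h⟩ := h
  exact h.val ▸ h.pi.self_of_nhds hu

variable [TopologicalSpace X] {β : Base X}

theorem freq (hC : C.Ok β) (hu : u ∈ C.B) : ∃ᶠ w in 𝓝 u, w ∈ C.B ∧ C.π w ∉ β.Z :=
  mem_closure_iff_frequently.1 (hC.dense u hu)

/-- a property of the pairs with the same image passes to the graphs of the arrows -/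
theorem graph (hC : C.Ok β) {Q : (ι → ℂ) × (ι → ℂ) → Prop}
    (h : ∀ᶠ p in 𝓝 (u, u'), p.1 ∈ C.B → p.2 ∈ C'.B → C.π p.1 ∉ β.Z → C'.π p.2 = C.π p.1 → Q p) :
    ∀ᶠ p in 𝓝 (u, u'), p.1 ∈ C.B → ∀ Φ Ψ, Arr C p.1 C' p.2 Φ Ψ → ∃ᶠ w in 𝓝 p.1, Q (w, Φ w) := by
  filter_upwards [eventually_eventually_nhds.2 h] with p hp h1 Φ Ψ ha
  have ht : Tendsto (fun w => (w, Φ w)) (𝓝 p.1) (𝓝 p) := tendsto_id.prodMk_nhds (tend ha)
  refine ((freq hC h1).and_eventually ((ht.eventually hp).and (ha.mem.and ha.pi))).mono ?_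
  rintro w ⟨⟨h2, h3⟩, h4, h5, h6⟩
  exact h4 h2 (h5.2 h2) h3 (h6 h2)

theorem R_of_eq (h : Prp β C u C' u') (hu : u ∈ C.B) (hu' : u' ∈ C'.B) (hZ : C.π u ∉ β.Z)
    (he : C'.π u' = C.π u) : R C u C' u' := by
  obtain ⟨n, Φ, Ψ, h1, h2⟩ := h
  obtain ⟨k, -⟩ := h2.self_of_nhds hu hu' hZ he
  exact ⟨_, _, h1 k⟩

theorem sep (h : Prp β C u C' u') (hn : ¬ R C u C' u') :
    ∀ᶠ p in 𝓝 (u, u'), p.1 ∈ C.B → p.2 ∈ C'.B → C.π p.1 ∉ β.Z → C'.π p.2 = C.π p.1 → False := by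
  obtain ⟨n, Φ, Ψ, h1, h2⟩ := h
  filter_upwards [h2] with p hp a b c d
  obtain ⟨k, -⟩ := hp a b c d
  exact hn ⟨_, _, h1 k⟩

theorem R_closed (hC : C.Ok β) (h : Prp β C u C' u')
    (hf : ∃ᶠ p in 𝓝 (u, u'), p.1 ∈ C.B ∧ R C p.1 C' p.2) : R C u C' u' := by
  by_contra hn
  obtain ⟨p, ⟨h1, Φ, Ψ, h2⟩, h3⟩ := (hf.and_eventually (graph hC (sep h hn))).exists
  exact (h3 h1 Φ Ψ h2).exists.elim fun _ => id

theorem R_inj (hC : C.Ok β)
    (h : ∀ᶠ p in 𝓝 (u, u), p.1 ∈ C.B → p.2 ∈ C.B → C.π p.1 ∉ β.Z → C.π p.2 = C.π p.1 →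
      p.2 = p.1) : ∀ᶠ p in 𝓝 (u, u), p.1 ∈ C.B → R C p.1 C p.2 → p.2 = p.1 := by
  filter_upwards [graph hC h] with p hp h1 ⟨Φ, Ψ, h2⟩
  exact tendsto_nhds_unique_of_frequently_eq (tend h2) tendsto_id (hp h1 Φ Ψ h2)

end rel

variable {n : ℕ} {X : Type} [TopologicalSpace X] (β : Base X) (A : At (Fin n) X)

/-- the part of a chart over the open set -/
def V (a : A.κ) : Set (Fin n → ℂ) := (A.C a).U ∩ (A.C a).π ⁻¹' β.O

/-- the disjoint union of the charts -/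
abbrev T : Type := Σ a : A.κ, V β A a

/-- the glued space -/
def Y : Type := Quot fun p p' : T β A => R (A.C p.1) p.2 (A.C p'.1) p'.2

instance : TopologicalSpace (Y β A) := inferInstanceAs (TopologicalSpace (Quot _))

variable {β A}

/-- the quotient map -/
def mk : T β A → Y β A := Quot.mk _

theorem mk_quot : IsQuotientMap (mk : T β A → Y β A) := isQuotientMap_quot_mk

theorem mk_eq {p p' : T β A} : mk p = mk p' ↔ R (A.C p.1) p.2 (A.C p'.1) p'.2 :=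
  Quot.eq.trans (Equivalence.eqvGen_iff ⟨fun _ => R_refl _ _, R_symm, R_trans⟩)

theorem mk_out (y : Y β A) : mk y.out = y := Quot.out_eq y

/-- the map to the base -/
def pr (y : Y β A) : X := (A.C y.out.1).π y.out.2

theorem memB (hF : A.Full) (p : T β A) : (p.2 : Fin n → ℂ) ∈ (A.C p.1).B := hF p.1 ▸ p.2.2.1

theorem pr_mk (hF : A.Full) (p : T β A) : pr (mk p) = (A.C p.1).π p.2 :=
  R_pi (mk_eq.1 (mk_out (mk p)).symm) (memB hF p)

theorem V_open (hA : A.Ok β) (hF : A.Full) (a : A.κ) : IsOpen (V β A a) :=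
  (hF a ▸ (hA.ch a).cont).isOpen_inter_preimage (hA.ch a).isOpen β.isOpen

theorem mk_open (hA : A.Ok β) (hF : A.Full) : IsOpenMap (mk : T β A → Y β A) := by
  intro S hS
  rw [← mk_quot.isOpen_preimage, isOpen_sigma_iff]
  intro b
  rw [isOpen_iff_mem_nhds]
  rintro u' ⟨⟨a, u⟩, hu, he⟩
  obtain ⟨Φ, Ψ, h⟩ := mk_eq.1 he.symm
  obtain ⟨S', h1, h2⟩ := isOpen_induced_iff.1 (isOpen_sigma_iff.1 hS a)
  have h3 : (u : Fin n → ℂ) ∈ S' := by
    have : u ∈ Subtype.val ⁻¹' S' := h2 ▸ hu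
    exact this
  have h4 := (R_ev h).and (((tend h).eventually (h1.mem_nhds h3)).and
    ((tend h).eventually ((V_open hA hF a).mem_nhds u.2)))
  filter_upwards [(continuous_subtype_val.tendsto u').eventually h4] with w ⟨h5, h6, h7⟩
  refine ⟨⟨a, Φ w, h7⟩, ?_, (mk_eq.2 h5).symm⟩
  have : (⟨Φ w, h7⟩ : V β A a) ∈ Subtype.val ⁻¹' S' := h6
  rwa [h2] at this

theorem t2 (hA : A.Ok β) (hF : A.Full) : T2Space (Y β A) := by
  rw [t2Space_iff_of_isOpenQuotientMap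
    ⟨mk_quot.surjective, mk_quot.continuous, mk_open hA hF⟩, isClosed_iff_frequently]
  rintro ⟨⟨a, u⟩, b, u'⟩ hf
  rw [nhds_prod_eq, Sigma.nhds_mk, Sigma.nhds_mk, prod_map_map_eq, frequently_map,
    ← nhds_prod_eq] at hf
  refine mk_eq.2 (R_closed (hA.ch a) (hA.prp a b _ (memB hF ⟨a, u⟩) _ (memB hF ⟨b, u'⟩)) ?_)
  have ht : Tendsto (Prod.map Subtype.val Subtype.val) (𝓝 (u, u'))
      (𝓝 ((u : Fin n → ℂ), (u' : Fin n → ℂ))) :=
    (continuous_subtype_val.prodMap continuous_subtype_val).tendsto (u, u')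
  exact ht.frequently (hf.mono fun p hp => ⟨memB hF ⟨a, p.1⟩, mk_eq.1 hp⟩)

theorem sc (hA : A.Ok β) (hF : A.Full) : SecondCountableTopology (Y β A) :=
  mk_quot.secondCountableTopology (mk_open hA hF)

theorem pr_cont (hA : A.Ok β) (hF : A.Full) : Continuous (pr : Y β A → X) := by
  rw [mk_quot.continuous_iff]
  refine continuous_sigma fun a => ?_
  have h1 : ContinuousOn (A.C a).π (V β A a) :=
    (hA.ch a).cont.mono fun u hu => memB hF ⟨a, u, hu⟩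
  exact (continuousOn_iff_continuous_domRestrict.1 h1).congr fun u => (pr_mk hF ⟨a, u⟩).symm

/-- every point comes from a core -/
theorem core (hA : A.Ok β) (hF : A.Full) (y : Y β A) :
    ∃ p : T β A, (p.2 : Fin n → ℂ) ∈ A.K p.1 ∧ mk p = y := by
  obtain ⟨⟨b, u⟩, rfl⟩ := mk_quot.surjective y
  have hu := memB hF ⟨b, u⟩
  have h1 : ∃ a, ∃ k ∈ A.K a, R (A.C b) u (A.C a) k := by
    by_contra hn
    push Not at hn
    have h2 := eventually_all.2 fun a => (hA.cpt a).eventually_forall_of_forall_eventually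
      (x₀ := (u : Fin n → ℂ)) (P := fun w k => w ∈ (A.C b).B → k ∈ (A.C a).B →
        (A.C b).π w ∉ β.Z → (A.C a).π k = (A.C b).π w → False)
      fun k hk => sep (hA.prp b a _ hu _ (hA.sub a hk)) (hn a k hk)
    obtain ⟨w, ⟨h3, h4⟩, h5, h6⟩ := ((freq (hA.ch b) hu).and_eventually
      (h2.and ((V_open hA hF b).mem_nhds u.2))).exists
    obtain ⟨a, k, hk, h7⟩ := hA.cov _ h6.2 h4
    exact h5 a k hk h3 (hA.sub a hk) h4 h7
  obtain ⟨a, k, hk, h⟩ := h1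
  refine ⟨⟨a, k, hF a ▸ hA.sub a hk, ?_⟩, hk, (mk_eq.2 h).symm⟩
  show (A.C a).π k ∈ β.O
  rw [R_pi h hu]
  exact u.2.2

open Classical in
/-- the parametrisation by a chart -/
def Q (y : Y β A) (a : A.κ) (z : Fin n → ℂ) : Y β A := if h : z ∈ V β A a then mk ⟨a, z, h⟩ else y

theorem Q_of (y : Y β A) {a : A.κ} {z : Fin n → ℂ} (h : z ∈ V β A a) : Q y a z = mk ⟨a, z, h⟩ :=
  dif_pos h

theorem Q_cont (y : Y β A) (a : A.κ) : ContinuousOn (Q y a) (V β A a) :=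
  continuousOn_iff_continuous_domRestrict.2
    ((mk_quot.continuous.comp continuous_sigmaMk).congr fun u => (Q_of y u.2).symm)

theorem proper [T2Space X] (hA : A.Ok β) (hF : A.Full) {L : Set X} (hL : L ⊆ β.O)
    (hc : IsCompact L) : IsCompact (pr ⁻¹' L : Set (Y β A)) := by
  rcases isEmpty_or_nonempty (Y β A) with h | ⟨⟨y₀⟩⟩
  · exact (Set.toFinite _).isCompact
  have h0 : ∀ a, A.K a ∩ (A.C a).π ⁻¹' L ⊆ V β A a := fun a u hu =>
    ⟨hF a ▸ hA.sub a hu.1, hL hu.2⟩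
  have h1 : (pr ⁻¹' L : Set (Y β A)) = ⋃ a, Q y₀ a '' (A.K a ∩ (A.C a).π ⁻¹' L) := by
    ext y
    rw [mem_iUnion]
    constructor
    · intro hy
      obtain ⟨⟨a, u⟩, h2, rfl⟩ := core hA hF y
      refine ⟨a, u, ⟨h2, ?_⟩, Q_of y₀ u.2⟩
      rwa [mem_preimage, pr_mk hF] at hy
    · rintro ⟨a, u, hu, rfl⟩
      rw [mem_preimage, Q_of y₀ (h0 a hu), pr_mk hF]
      exact hu.2
  rw [h1]
  refine isCompact_iUnion fun a => IsCompact.image_of_continuousOn ?_ ((Q_cont y₀ a).mono (h0 a))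
  exact (hA.cpt a).of_isClosed_subset (((hA.ch a).cont.mono (hA.sub a)).preimage_isClosed_of_isClosed
    (hA.cpt a).isClosed hc.isClosed) inter_subset_left

theorem exists_chart (hA : A.Ok β) (hF : A.Full) (hr : A.Free β) (y : Y β A) :
    ∃ e : OpenPartialHomeomorph (Y β A) (Fin n → ℂ), y ∈ e.source ∧
      ∀ z ∈ e.target, ∃ h : z ∈ V β A y.out.1, e.symm z = mk ⟨y.out.1, z, h⟩ := by
  have hu := memB hF y.out
  have h1 := R_inj (hA.ch _) (hr _ _ hu)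
  rw [nhds_prod_eq] at h1
  obtain ⟨t, ht, h2⟩ := mem_prod_self_iff.1 h1
  obtain ⟨W, h3, hW, h4⟩ := mem_nhds_iff.1 (inter_mem ht ((V_open hA hF _).mem_nhds y.out.2.2))
  have hV : W ⊆ V β A y.out.1 := fun z hz => (h3 hz).2
  have hi : InjOn (Q y y.out.1) W := by
    intro z hz z' hz' he
    rw [Q_of y (hV hz), Q_of y (hV hz')] at he
    exact (h2 (mk_mem_prod (h3 hz).1 (h3 hz').1) (memB hF ⟨_, z, hV hz⟩) (mk_eq.1 he)).symm
  have ho : IsOpenMap (W.domRestrict (Q y y.out.1)) := by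
    have h5 : IsOpenMap (Set.inclusion hV) :=
      (IsOpenEmbedding.inclusion hV (hW.preimage continuous_subtype_val)).isOpenMap
    have h6 := (mk_open hA hF).comp (isOpenMap_sigmaMk.comp h5)
    have h7 : W.domRestrict (Q y y.out.1) = mk ∘ Sigma.mk y.out.1 ∘ Set.inclusion hV :=
      funext fun z => Q_of y (hV z.2)
    rwa [h7]
  refine ⟨(OpenPartialHomeomorph.ofContinuousOpenRestrict (hi.toPartialEquiv _ _)
    ((Q_cont y _).mono hV) ho hW).symm, ⟨y.out.2, h4, ?_⟩, fun z hz => ⟨hV hz, Q_of y (hV hz)⟩⟩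
  rw [Q_of y y.out.2.2]
  exact mk_out y

theorem trans_an {e e' : OpenPartialHomeomorph (Y β A) (Fin n → ℂ)} {a b : A.κ}
    (h : ∀ z ∈ e.target, ∃ h : z ∈ V β A a, e.symm z = mk ⟨a, z, h⟩)
    (h' : ∀ z ∈ e'.target, ∃ h : z ∈ V β A b, e'.symm z = mk ⟨b, z, h⟩) {z : Fin n → ℂ}
    (hz : z ∈ e.target) (hz' : e.symm z ∈ e'.source) :
    AnalyticAt ℂ (fun w => e' (e.symm w)) z := by
  obtain ⟨h1, h2⟩ := h z hz
  obtain ⟨h3, h4⟩ := h' _ (e'.map_source hz')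
  rw [e'.left_inv hz'] at h4
  obtain ⟨Φ, Ψ, ha⟩ := mk_eq.1 (h2.symm.trans h4)
  refine ha.an.congr ?_
  have h5 := e'.map_source hz'
  filter_upwards [R_ev ha, e.open_target.mem_nhds hz,
    (tend ha).eventually (e'.open_target.mem_nhds h5)] with w h6 h7 h8
  obtain ⟨h9, h10⟩ := h w h7
  obtain ⟨h11, h12⟩ := h' _ h8
  rw [h10, (mk_eq (p := ⟨a, w, h9⟩) (p' := ⟨b, Φ w, h11⟩)).2 h6, ← h12, e'.right_inv h8]

end GlA

open GlA in
theorem stGlue : StGlue := by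
  intro n X _ _ β A hA hF hr
  choose e he1 he2 using exists_chart hA hF hr
  letI cs : ChartedSpace (Fin n → ℂ) (Y β A) :=
    { atlas := range e
      chartAt := e
      mem_chart_source := he1
      chart_mem_atlas := fun y => mem_range_self y }
  have hm : ∀ y, ∀ p ∈ (e y).source, ∃ h, p = mk ⟨y.out.1, e y p, h⟩ := fun y p hp => by
    obtain ⟨h1, h2⟩ := he2 y _ ((e y).map_source hp)
    exact ⟨h1, ((e y).left_inv hp).symm.trans h2⟩
  haveI := t2 hA hF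
  haveI := sc hA hF
  haveI : IsManifold 𝓘(ℂ, Fin n → ℂ) ω (Y β A) := by
    refine isManifold_of_contDiffOn _ _ _ ?_
    rintro _ _ ⟨y, rfl⟩ ⟨y', rfl⟩ z ⟨hz, -⟩
    exact (trans_an (he2 y) (he2 y') hz.1 hz.2).contDiffAt.contDiffWithinAt
  refine ⟨{ Y := Y β A
            π := GlA.pr
            a := fun y => y.out.1
            cont := pr_cont hA hF
            maps := fun y => y.out.2.2.2
            proper := fun L hL hc => proper hA hF hL hc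
            surj := fun x hx hZ => ?_
            one := fun y y' hZ he => ?_
            tgt := fun y z hz => (he2 y z hz).1.1
            pi := fun y p hp => ?_
            arr := fun y y' p hp hp' => ?_ }⟩
  · obtain ⟨a, u, hu, rfl⟩ := hA.cov x hx hZ
    exact ⟨mk ⟨a, u, hF a ▸ hA.sub a hu, hx⟩, pr_mk hF _⟩
  · rw [← mk_out y, ← mk_out y']
    exact (mk_eq.2 (R_of_eq (hA.prp _ _ _ (memB hF y.out) _ (memB hF y'.out)) (memB hF _)
      (memB hF _) hZ he)).symm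
  · obtain ⟨h1, h2⟩ := hm y p hp
    exact (congrArg GlA.pr h2).trans (pr_mk hF _)
  · obtain ⟨h1, h2⟩ := hm y p hp
    obtain ⟨h3, h4⟩ := hm y' p hp'
    exact mk_eq.1 (h2.symm.trans h4)

end Vale.Agent.P277Z.Hir.Gl
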