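import Vale.Agent.P277Z.Hir.BSk

/-!
# P277, resolution, global part: invariants of the steps and total transforms
-/

set_option linter.unusedSectionVars false

open Filter Topology Set Function

noncomputable section

namespace Vale.Agent.P277Z.Hir.Gl

open L (Le IsCo Ass sl)

namespace InvH

/-! ### comparable functions -/

section cmp

variable {T : Type} {l : Filter T} {f g k f' g' : T → ℝ}

theorem cmp_symm (h : Cmp l f g) : Cmp l g f :=
  h.imp fun _ h => ⟨h.1, h.2.mono fun _ h => h.symm⟩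

theorem cmp_trans (h : Cmp l f g) (h' : Cmp l g k) : Cmp l f k := by
  obtain ⟨c, hc, h⟩ := h
  obtain ⟨c', hc', h'⟩ := h'
  refine ⟨c * c', mul_pos hc hc', ?_⟩
  filter_upwards [h, h'] with z h h'
  constructor
  · rw [mul_assoc]
    exact h.1.trans (mul_le_mul_of_nonneg_left h'.1 hc.le)
  · rw [mul_comm c, mul_assoc]
    exact h'.2.trans (mul_le_mul_of_nonneg_left h.2 hc'.le)

theorem cmp_of_eq (h : ∀ᶠ z in l, f z = g z) : Cmp l f g :=
  ⟨1, one_pos, h.mono fun z h => by simp [h]⟩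

theorem cmp_comp {T' : Type} {l' : Filter T'} {φ : T' → T} (h : Cmp l f g) (hφ : Tendsto φ l' l) :
    Cmp l' (fun z => f (φ z)) fun z => g (φ z) :=
  h.imp fun _ h => ⟨h.1, hφ.eventually h.2⟩

theorem cmp_mul (h : Cmp l f g) (h' : Cmp l f' g') (hf : ∀ z, 0 ≤ f z) (hg : ∀ z, 0 ≤ g z)
    (hf' : ∀ z, 0 ≤ f' z) (hg' : ∀ z, 0 ≤ g' z) :
    Cmp l (fun z => f z * f' z) fun z => g z * g' z := by
  obtain ⟨c, hc, h⟩ := h
  obtain ⟨c', hc', h'⟩ := h'
  refine ⟨c * c', mul_pos hc hc', ?_⟩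
  filter_upwards [h, h'] with z h h'
  rw [mul_mul_mul_comm, mul_mul_mul_comm c c' (f z)]
  exact ⟨mul_le_mul h.1 h'.1 (hf' z) (mul_nonneg hc.le (hg z)),
    mul_le_mul h.2 h'.2 (hg' z) (mul_nonneg hc.le (hf z))⟩

theorem cmp_prod {J : Type} (S : Finset J) {a b : J → T → ℝ} (h : ∀ j ∈ S, Cmp l (a j) (b j))
    (ha : ∀ j z, 0 ≤ a j z) (hb : ∀ j z, 0 ≤ b j z) :
    Cmp l (fun z => ∏ j ∈ S, a j z) fun z => ∏ j ∈ S, b j z := by
  classical
  induction S using Finset.induction_on with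
  | empty => exact cmp_of_eq (.of_forall fun _ => rfl)
  | insert j S hj ih =>
    simp only [Finset.prod_insert hj]
    exact cmp_mul (h j (Finset.mem_insert_self _ _))
      (ih fun i hi => h i (Finset.mem_insert_of_mem hi)) (ha j) (hb j)
      (fun z => Finset.prod_nonneg fun i _ => ha i z) fun z => Finset.prod_nonneg fun i _ => hb i z

theorem cmp_unit {c : ℝ} (hc : 0 < c) (hk : Tendsto k l (𝓝 c)) (hg : ∀ z, 0 ≤ g z)
    (h : ∀ᶠ z in l, f z = k z * g z) : Cmp l f g := by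
  refine ⟨c + 1 + 2 / c, by positivity, ?_⟩
  filter_upwards [h, hk.eventually (gt_mem_nhds (lt_add_one c)),
    hk.eventually (lt_mem_nhds (half_lt_self hc))] with z h h1 h2
  have h3 : 0 < 2 / c := by positivity
  have h4 : 1 ≤ 2 / c * k z := by
    rw [div_mul_eq_mul_div, le_div_iff₀ hc]
    linarith
  have h5 : 0 ≤ (c + 1) * k z := mul_nonneg (by linarith) (by linarith)
  rw [h, ← mul_assoc]
  exact ⟨mul_le_mul_of_nonneg_right (by linarith) (hg z),
    le_mul_of_one_le_left (hg z) (by linarith [add_mul (c + 1) (2 / c) (k z)])⟩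

end cmp

variable {ι X : Type} [Fintype ι] [DecidableEq ι]

/-! ### transport along arrows -/

section arr

variable {C C' : Ch ι X} {u u' : ι → ℂ} {Φ Ψ : (ι → ℂ) → ι → ℂ}

theorem nF_nonneg (C : Ch ι X) (z : ι → ℂ) : 0 ≤ C.nF z :=
  Finset.sum_nonneg fun _ _ => norm_nonneg _

theorem mon_nonneg (C : Ch ι X) (ex : ℕ → ℝ) (z : ι → ℂ) : 0 ≤ C.mon ex z :=
  Finset.prod_nonneg fun _ _ => Real.rpow_nonneg (norm_nonneg _) _

theorem nF_le (C : Ch ι X) (z : ι → ℂ) : C.nF z ≤ 0 ↔ ∀ k, C.F k z = 0 := by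
  rw [(nF_nonneg C z).ge_iff_eq', Ch.nF, Finset.sum_eq_zero_iff_of_nonneg fun _ _ => norm_nonneg _]
  simp

theorem mem_E (C : Ch ι X) (z : ι → ℂ) : z ∈ C.E ↔ ∃ j, j ≠ 0 ∧ C.s j z = 0 := by
  simp only [Ch.s, Finset.prod_eq_zero_iff, Finset.mem_filter, Finset.mem_univ, true_and]
  exact ⟨fun ⟨l, h1, h2⟩ => ⟨_, h1, l, rfl, h2⟩, fun ⟨j, h1, l, h2, h3⟩ => ⟨l, h2 ▸ h1, h3⟩⟩

theorem mon_eq (C : Ch ι X) (ex : ℕ → ℝ) {J : Finset ℕ} (h0 : 0 ∉ J)
    (hJ : ∀ l, C.lab l ≠ 0 → C.lab l ∈ J) (z : ι → ℂ) :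
    C.mon ex z = ∏ j ∈ J, ‖C.s j z‖ ^ ex j := by
  rw [Ch.mon, ← Finset.prod_fiberwise_of_maps_to (g := C.lab) (t := J)
    fun l hl => hJ l (Finset.mem_filter.1 hl).2]
  refine Finset.prod_congr rfl fun j hj => ?_
  rw [Ch.s, norm_prod, ← Real.finsetProd_rpow _ _ fun _ _ => norm_nonneg _, Finset.filter_filter]
  refine Finset.prod_congr (Finset.filter_congr fun l _ => ?_) fun l hl => ?_
  · exact ⟨fun h => h.2, fun h => ⟨fun e => h0 (e ▸ h ▸ hj), h⟩⟩
  · rw [(Finset.mem_filter.1 hl).2]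

variable (h : Arr C u C' u' Φ Ψ)
include h

theorem tend : Tendsto Φ (𝓝 u) (𝓝 u') := h.val ▸ h.an.continuousAt.tendsto

theorem mem_iff : u' ∈ C'.B ↔ u ∈ C.B := h.val ▸ h.mem.self_of_nhds

theorem pi_eq (hu : u ∈ C.B) : C'.π u' = C.π u := h.val ▸ h.pi.self_of_nhds hu

theorem E_iff : u' ∈ C'.E ↔ u ∈ C.E := by
  rw [mem_E, mem_E]
  refine exists_congr fun j => and_congr_right fun hj => ?_
  obtain ⟨v, -, h1, h2⟩ := h.div j hj
  have h3 : C'.s j (Φ u) = v u * C.s j u := h2.self_of_nhds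
  rw [← h.val, h3, mul_eq_zero, or_iff_right h1]

theorem zero_iff : (∀ k, C'.F k u' = 0) ↔ ∀ k, C.F k u = 0 := by
  obtain ⟨c, hc, h1⟩ := h.cmp
  have h2 : C'.nF (Φ u) ≤ c * C.nF u ∧ C.nF u ≤ c * C'.nF (Φ u) := h1.self_of_nhds
  rw [← nF_le, ← nF_le, ← h.val]
  exact ⟨fun h3 => h2.2.trans (mul_nonpos_of_nonneg_of_nonpos hc.le h3),
    fun h3 => h2.1.trans (mul_nonpos_of_nonneg_of_nonpos hc.le h3)⟩

theorem unit_of (h1 : ∃ k, C'.F k u' ≠ 0) : ∃ k, C.F k u ≠ 0 :=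
  not_forall.1 (mt (zero_iff h).2 (not_forall.2 h1))

theorem sm_of {c : ℕ} (h1 : C'.Sm c u') : C.Sm c u := by
  obtain ⟨y, S, hy, hS, h2, h3⟩ := h1
  have hd : Injective (fderiv ℂ Φ u) := by
    have h4 := fderiv_comp u (h.val ▸ h.an'.differentiableAt : DifferentiableAt ℂ Ψ (Φ u))
      h.an.differentiableAt
    have h5 : Ψ ∘ Φ =ᶠ[𝓝 u] id := h.left
    rw [h5.fderiv_eq, fderiv_id] at h4
    exact LeftInverse.injective (g := fderiv ℂ Ψ (Φ u)) fun a =>
      (congrArg (fun T : (ι → ℂ) →L[ℂ] (ι → ℂ) => T a) h4).symm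
  rw [← h.val] at hy
  refine ⟨y ∘ Φ, S, ⟨hy.1.comp h.an, ?_⟩, hS, cmp_trans (cmp_symm h.cmp) (cmp_comp h2 (tend h)), ?_⟩
  · rw [fderiv_comp u hy.1.differentiableAt h.an.differentiableAt]
    exact hy.2.comp ⟨hd, LinearMap.injective_iff_surjective.1
      (show Injective (fderiv ℂ Φ u).toLinearMap from hd)⟩
  · filter_upwards [h.mem, (tend h).eventually h3] with z h4 h5
    exact h4.symm.trans h5

theorem mon_cmp (ex : ℕ → ℝ) : Cmp (𝓝 u) (fun z => C'.mon ex (Φ z)) (C.mon ex) := by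
  let J : Finset ℕ := (Finset.univ.image C.lab ∪ Finset.univ.image C'.lab).erase 0
  have h0 : 0 ∉ J := Finset.notMem_erase _ _
  rw [funext (mon_eq C ex h0 fun l hl => by simp [J, hl])]
  simp only [mon_eq C' ex h0 fun l hl => by simp [J, hl]]
  refine cmp_prod J (fun j hj => ?_) (fun _ _ => Real.rpow_nonneg (norm_nonneg _) _)
    fun _ _ => Real.rpow_nonneg (norm_nonneg _) _
  obtain ⟨v, h1, h2, h3⟩ := h.div j (Finset.ne_of_mem_erase hj)
  refine cmp_unit (k := fun z => ‖v z‖ ^ ex j) (Real.rpow_pos_of_pos (norm_pos_iff.2 h2) _)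
    (h1.continuousAt.norm.rpow_const (Or.inl (norm_ne_zero_iff.2 h2)))
    (fun _ => Real.rpow_nonneg (norm_nonneg _) _) ?_
  filter_upwards [h3] with z hz
  rw [hz, norm_mul, Real.mul_rpow (norm_nonneg _) (norm_nonneg _)]

theorem tot_of {n : X → ℝ} {ex : ℕ → ℝ}
    (h1 : Cmp (𝓝[C'.B] u') (fun z => n (C'.π z)) fun z => C'.mon ex z * C'.nF z) :
    Cmp (𝓝[C.B] u) (fun z => n (C.π z)) fun z => C.mon ex z * C.nF z := by
  have h2 : Tendsto Φ (𝓝[C.B] u) (𝓝[C'.B] u') :=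
    tendsto_nhdsWithin_iff.2 ⟨(tend h).mono_left nhdsWithin_le_nhds,
      eventually_nhdsWithin_iff.2 (h.mem.mono fun _ h => h.2)⟩
  refine cmp_trans (cmp_of_eq ?_) (cmp_trans (cmp_comp h1 h2) (cmp_comp (φ := id)
    (cmp_mul (mon_cmp h ex) h.cmp (fun _ => mon_nonneg _ _ _) (mon_nonneg _ _)
      (fun _ => nF_nonneg _ _) (nF_nonneg _)) nhdsWithin_le_nhds))
  exact eventually_nhdsWithin_iff.2 (h.pi.mono fun z h hz => by rw [h hz])

end arr

/-! ### the blow-up -/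

theorem cont_σ (w : ι → ℕ) : ∀ o : Option ι, Continuous (σo w o)
  | none => continuous_id
  | some i => continuous_pi fun m => by
    simp only [σo, sl]
    split_ifs <;> fun_prop

theorem dense_so : ∀ o : Option ι, Dense {z : ι → ℂ | so o z ≠ 0}
  | none => by simp [so]
  | some i => (dense_compl_singleton (0 : ℂ)).preimage (isOpenMap_eval i)

variable [TopologicalSpace X] {β : Base X} {A : At ι X} (W : Wt β A) (hA : A.Ok β)

include hA in
theorem σ_mem (p : W.bl.κ) {z : ι → ℂ} (hz : z ∈ (W.bl.C p).B) :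
    σo (W.w p.1.1) p.1.2 z ∈ (A.C p.1.1).B :=
  (hA.ch _).closed _ hz.1 (map_mem_closure (cont_σ _ _) hz.2 fun _ h => h.1)

include hA in
theorem so_ne (p : W.bl.κ) {z : ι → ℂ} (hz : z ∈ (W.bl.C p).B) (h : (W.bl.C p).π z ∉ β.Z) :
    so p.1.2 z ≠ 0 := by
  have h1 := W.ovr _ _ (σ_mem W hA p hz)
  obtain ⟨⟨a, _ | i⟩, hp⟩ := p
  · exact one_ne_zero
  · refine fun h0 => h (h1 ⟨fun e => hp (congrFun e i), fun l hl => ?_⟩)
    have h2 : z i = 0 := h0
    have h3 : W.w a i ≠ 0 := hp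
    have h4 : W.w a l ≠ 0 := hl
    show sl (W.w a) i z l = 0
    simp [sl, h2, h3, h4]

theorem so_ne' (p : W.bl.κ) {z : ι → ℂ} (hz : z ∉ (W.bl.C p).E) : so p.1.2 z ≠ 0 := by
  obtain ⟨⟨a, _ | i⟩, hp⟩ := p
  · exact one_ne_zero
  · have h1 : update (A.C a).lab i W.N i ≠ 0 := by
      rw [update_self]
      exact W.pos
    exact fun h0 => hz ⟨i, h1, h0⟩

omit [TopologicalSpace X] in
theorem mon_eq' (C : Ch ι X) (ex : ℕ → ℝ) (z : ι → ℂ) :
    C.mon ex z = ∏ l, ‖z l‖ ^ (if C.lab l ≠ 0 then ex (C.lab l) else 0) := by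
  rw [Ch.mon, Finset.prod_filter]
  exact Finset.prod_congr rfl fun l _ => by split_ifs <;> simp

theorem mon_bl {ex : ℕ → ℝ} (hex : ∀ j, 0 ≤ ex j) {J : Finset ℕ} (h0 : 0 ∉ J)
    (hJ : ∀ a l, (A.C a).lab l ≠ 0 → (A.C a).lab l ∈ J) (p : W.bl.κ) {z : ι → ℂ}
    (hz : z ∈ (W.bl.C p).U) :
    (A.C p.1.1).mon ex (σo (W.w p.1.1) p.1.2 z) * (A.C p.1.1).nF (σo (W.w p.1.1) p.1.2 z) =
      (W.bl.C p).mon (update ex W.N (W.d + ∑ j ∈ J, W.m j * ex j)) z * (W.bl.C p).nF z := by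
  have h1 : (A.C p.1.1).nF (σo (W.w p.1.1) p.1.2 z) = ‖so p.1.2 z‖ ^ W.d * (W.bl.C p).nF z := by
    rw [Ch.nF, Ch.nF, Finset.mul_sum]
    refine Finset.sum_congr rfl fun k _ => ?_
    rw [W.eqG _ _ p.2 k z hz, norm_mul, norm_pow]
    rfl
  rw [h1, ← mul_assoc, mon_eq', mon_eq']
  congr 1
  obtain ⟨⟨a, _ | i⟩, hp⟩ := p
  · show (∏ l, ‖z l‖ ^ _) * ‖(1 : ℂ)‖ ^ _ = ∏ l, ‖z l‖ ^ (if (A.C a).lab l ≠ 0 then
      update ex W.N _ ((A.C a).lab l) else 0)
    simp only [update_of_ne (W.new a _), norm_one, one_pow, mul_one]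
  · have hw : W.w a ≠ 0 := fun e => hp (congrFun e i)
    set e : ι → ℝ := fun l => if (A.C a).lab l ≠ 0 then ex ((A.C a).lab l) else 0 with he
    have he0 : ∀ l, 0 ≤ e l := fun l => by
      simp only [he]
      split_ifs
      exacts [hex _, le_rfl]
    have h2 : ∑ j ∈ J, W.m j * ex j = ∑ l, W.w a l * e l := by
      have h3 : ∑ l, W.w a l * e l = ∑ l ∈ Finset.univ.filter (fun l => (A.C a).lab l ≠ 0),
          W.w a l * ex ((A.C a).lab l) := by
        rw [Finset.sum_filter]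
        exact Finset.sum_congr rfl fun l _ => by simp only [he, mul_ite, mul_zero]
      rw [h3, ← Finset.sum_fiberwise_of_maps_to (g := (A.C a).lab) (t := J)
        fun l hl => hJ a l (Finset.mem_filter.1 hl).2]
      refine Finset.sum_congr rfl fun j hj => ?_
      have hj0 : j ≠ 0 := fun e => h0 (e ▸ hj)
      rw [← W.hm a hw j hj0, Nat.cast_sum, Finset.sum_mul, Finset.filter_filter]
      refine Finset.sum_congr (Finset.filter_congr fun l _ => ?_) fun l hl => ?_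
      · exact ⟨fun h => ⟨h ▸ hj0, h⟩, fun h => h.2⟩
      · rw [(Finset.mem_filter.1 hl).2.2]
    have hs : ∀ l, (0 : ℝ) ≤ W.w a l * e l := fun l => mul_nonneg (Nat.cast_nonneg _) (he0 l)
    rw [h2]
    show (∏ l, ‖sl (W.w a) i z l‖ ^ e l) * ‖z i‖ ^ W.d = ∏ l, ‖z l‖ ^
      (if update (A.C a).lab i W.N l ≠ 0 then
        update ex W.N _ (update (A.C a).lab i W.N l) else 0)
    have h4 : ∀ l, ‖sl (W.w a) i z l‖ ^ e l =
        ‖z i‖ ^ ((W.w a l : ℝ) * e l) * (if l = i then 1 else ‖z l‖ ^ e l) := fun l => by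
      rw [Real.rpow_natCast_mul (norm_nonneg _), sl]
      split_ifs with hl
      · rw [hl, norm_pow, mul_one]
      · rw [norm_mul, norm_pow, Real.mul_rpow (by positivity) (norm_nonneg _)]
    have h5 : ∀ (c : ℝ) l, ‖z l‖ ^ (if update (A.C a).lab i W.N l ≠ 0 then
        update ex W.N c (update (A.C a).lab i W.N l) else 0) =
        (if l = i then ‖z i‖ ^ c else 1) * (if l = i then 1 else ‖z l‖ ^ e l) := fun c l => by
      by_cases hl : l = i
      · subst hl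
        simp [W.pos]
      · simp only [update_of_ne hl, update_of_ne (W.new a _), if_neg hl, one_mul, he]
    simp only [h4, h5, Finset.prod_mul_distrib, Finset.prod_ite_eq', Finset.mem_univ, if_true]
    rw [← Real.rpow_sum_of_nonneg (norm_nonneg _) fun l _ => hs l, Real.rpow_add_of_nonneg
      (norm_nonneg _) (Nat.cast_nonneg _) (Finset.sum_nonneg fun l _ => hs l), Real.rpow_natCast]
    ring

end InvH

open InvH

theorem stInvs (hS : StSig) : StInvs := by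
  intro ι X _ _ _ β A A' h
  induction h with
  | refl => exact ⟨id, id, id, fun _ => id, id⟩
  | @tail A₁ A₂ _ h ih =>
    obtain ⟨i1, i2, i3, i4, i5⟩ := ih
    obtain ⟨hA, h⟩ := h
    have key : ∀ P : Ch ι X → (ι → ℂ) → Prop, (∀ C u C' u' Φ Ψ, Arr C u C' u' Φ Ψ → P C' u' →
        P C u) → A₁.Off β P → A₂.Off β P := fun P hP h1 a z hz hZ => by
      cases h with
      | ref h =>
        obtain ⟨b, f, h2⟩ := h.arr a
        obtain ⟨-, g, h3⟩ := h2 z (h.sub a hz)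
        exact hP _ _ _ _ _ _ h3 (h1 b _ ((mem_iff h3).2 hz) (pi_eq h3 hz ▸ hZ))
      | bl W =>
        obtain ⟨g, h3⟩ := hS _ _ β _ W hA a z hz.1 (so_ne W hA a hz hZ)
        exact hP _ _ _ _ _ _ h3 (h1 _ _ (σ_mem W hA a hz) hZ)
    refine ⟨fun h0 a z hz hE => ?_, fun h0 a => ?_, fun h0 a z hz => ?_,
      fun c h0 => key _ (fun _ _ _ _ _ _ h => sm_of h) (i4 c h0),
      fun h0 => key _ (fun _ _ _ _ _ _ h => unit_of h) (i5 h0)⟩
    · cases h with
      | ref h =>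
        obtain ⟨b, f, h2⟩ := h.arr a
        obtain ⟨h4, g, h3⟩ := h2 z hz
        rw [← mem_iff h3, ← zero_iff h3]
        exact i1 h0 b _ h4 (mt (E_iff h3).1 hE)
      | bl W =>
        obtain ⟨g, h3⟩ := hS _ _ β _ W hA a z hz (so_ne' W a hE)
        rw [← mem_iff h3, ← zero_iff h3]
        exact i1 h0 _ _ hz (mt (E_iff h3).1 hE)
    · cases h with
      | ref h =>
        obtain ⟨b, f, h2⟩ := h.arr a
        refine (h.sub a).antisymm fun z hz => ?_
        obtain ⟨h4, g, h3⟩ := h2 z hz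
        exact (mem_iff h3).1 ((i2 h0 b).symm ▸ h4)
      | bl W =>
        refine inter_subset_left.antisymm fun z hz => ⟨hz, closure_mono (fun y hy => ?_)
          ((dense_so a.1.2).open_subset_closure_inter
            ((hA.ch _).isOpen.preimage (cont_σ _ _)) hz)⟩
        exact ⟨(i2 h0 _).symm ▸ hy.1, hy.2⟩
    · cases h with
      | ref h =>
        obtain ⟨b, f, h2⟩ := h.arr a
        obtain ⟨-, g, h3⟩ := h2 z (h.sub a hz)
        exact unit_of h3 (i3 h0 b _ ((mem_iff h3).2 hz))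
      | bl W =>
        obtain ⟨k, hk⟩ := i3 h0 _ _ (σ_mem W hA a hz)
        rw [W.eqG _ _ a.2 k z hz.1] at hk
        exact ⟨k, right_ne_zero_of_mul hk⟩

theorem stTot : StTot := by
  intro ι X _ _ _ β A A' Γ XO nm ex h hex h0
  induction h with
  | refl => exact ⟨ex, hex, h0⟩
  | @tail A₁ A₂ _ h ih =>
    obtain ⟨ex, hex, h0⟩ := ih
    obtain ⟨hA, h⟩ := h
    cases h with
    | ref h =>
      refine ⟨ex, hex, fun a z hz γ hγ => ?_⟩
      obtain ⟨b, f, h2⟩ := h.arr a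
      obtain ⟨-, g, h3⟩ := h2 z (h.sub a hz)
      exact tot_of h3 (h0 b _ ((mem_iff h3).2 hz) γ (pi_eq h3 hz ▸ hγ))
    | bl W =>
      let J : Finset ℕ :=
        (finite_range fun q : A₁.κ × ι => (A₁.C q.1).lab q.2).toFinset.erase 0
      refine ⟨update ex W.N (W.d + ∑ j ∈ J, W.m j * ex j), fun j => ?_, fun p z hz γ hγ => ?_⟩
      · rw [update_apply]
        split_ifs
        exacts [add_nonneg (Nat.cast_nonneg _) (Finset.sum_nonneg fun j _ =>
          mul_nonneg (Nat.cast_nonneg _) (hex j)), hex j]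
      · have h1 : Tendsto (σo (W.w p.1.1) p.1.2) (𝓝[(W.bl.C p).B] z)
            (𝓝[(A₁.C p.1.1).B] (σo (W.w p.1.1) p.1.2 z)) :=
          (cont_σ _ _).continuousWithinAt.tendsto_nhdsWithin fun y hy => σ_mem W hA p hy
        have h2 := cmp_comp (h0 _ _ (σ_mem W hA p hz) γ hγ) h1
        refine cmp_trans h2 (cmp_of_eq ?_)
        filter_upwards [self_mem_nhdsWithin] with y hy
        exact mon_bl W hex (Finset.notMem_erase _ _) (fun a l hl => Finset.mem_erase.2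
          ⟨hl, (Finite.mem_toFinset _).2 (mem_range.2 ⟨(a, l), rfl⟩)⟩) p hy.1

end Vale.Agent.P277Z.Hir.Gl
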