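import Vale.Agent.P277Z.Hir.BSk

/-!
# P277, resolution, global part: restriction to coordinate subspaces, new families
-/

open Filter Topology Set Function Metric

set_option linter.unusedSectionVars false

noncomputable section

namespace Vale.Agent.P277Z.Hir.Gl

open L (Le IsCo Ass sl)

namespace ResA

section ext

variable {ι ι' : Type} {e : ι' → ι}

theorem ext0_apply (he : Injective e) (z : ι' → ℂ) (l : ι') : ext0 e z (e l) = z l :=
  he.extend_apply _ _ _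

theorem ext0_out {l : ι} (hl : l ∉ range e) (z : ι' → ℂ) : ext0 e z l = 0 :=
  extend_apply' _ _ _ hl

theorem pr_ext0 (he : Injective e) (z : ι' → ℂ) : ext0 e z ∘ e = z :=
  funext fun l => ext0_apply he z l

theorem ext0_pr (he : Injective e) {u : ι → ℂ} (hu : ∀ l, l ∉ range e → u l = 0) :
    ext0 e (u ∘ e) = u := by
  funext l
  by_cases hl : l ∈ range e
  · obtain ⟨l, rfl⟩ := hl
    exact ext0_apply he _ l
  · rw [ext0_out hl, hu l hl]

variable [Fintype ι] [Fintype ι']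

theorem an_ext0 (he : Injective e) (z : ι' → ℂ) : AnalyticAt ℂ (ext0 e) z := by
  refine analyticAt_pi_iff.2 fun l => ?_
  by_cases hl : l ∈ range e
  · obtain ⟨l, rfl⟩ := hl
    simp only [ext0_apply he]
    exact (ContinuousLinearMap.proj l : (ι' → ℂ) →L[ℂ] ℂ).analyticAt z
  · simp only [ext0_out hl]
    exact analyticAt_const

theorem an_pr (e : ι' → ι) (u : ι → ℂ) : AnalyticAt ℂ (fun u : ι → ℂ => u ∘ e) u :=
  analyticAt_pi_iff.2 fun l => (ContinuousLinearMap.proj (e l) : (ι → ℂ) →L[ℂ] ℂ).analyticAt u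

theorem cont_ext0 (he : Injective e) : Continuous (ext0 e) :=
  continuous_iff_continuousAt.2 fun z => (an_ext0 he z).continuousAt

theorem cont_pr (e : ι' → ι) : Continuous fun u : ι → ℂ => u ∘ e :=
  continuous_iff_continuousAt.2 fun z => (an_pr e z).continuousAt

end ext

variable {ι ι' X : Type} [Fintype ι] [DecidableEq ι] [Fintype ι'] [DecidableEq ι']
  [TopologicalSpace X] {β : Base X}

section res

variable {C C' : Ch ι X} {e e' : ι' → ι}

omit [Fintype ι] [DecidableEq ι] [Fintype ι'] [DecidableEq ι'] [TopologicalSpace X] in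
theorem memB (h : C.Flat e) {z : ι' → ℂ} (hz : ext0 e z ∈ C.U) : ext0 e z ∈ C.B :=
  (h.mem _ hz).2 fun _ hl => ext0_out hl z

theorem back (hC : C.Ok β) (h : C.Flat e) {u : ι → ℂ} (hu : u ∈ C.B) : ext0 e (u ∘ e) = u :=
  ext0_pr h.inj ((h.mem _ (hC.sub hu)).1 hu)

theorem evB (hC : C.Ok β) (h : C.Flat e) {z : ι' → ℂ} (hz : ext0 e z ∈ C.U) :
    ∀ᶠ w in 𝓝 z, ext0 e w ∈ C.B :=
  ((cont_ext0 h.inj).continuousAt.eventually (hC.isOpen.mem_nhds hz)).mono fun _ hw => memB h hw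

theorem tendsto_pr (h : C.Flat e) (z : ι' → ℂ) :
    Tendsto (fun u : ι → ℂ => u ∘ e) (𝓝 (ext0 e z)) (𝓝 z) := by
  have := (cont_pr e).tendsto (ext0 e z)
  rwa [pr_ext0 h.inj] at this

omit [DecidableEq ι] [DecidableEq ι'] [TopologicalSpace X] in
theorem s_res (h : C.Flat e) {j : ℕ} (hj : j ≠ 0) (z : ι' → ℂ) :
    (C.res e).s j z = C.s j (ext0 e z) := by
  refine Finset.prod_nbij e (fun l hl => ?_) h.inj.injOn (fun l hl => ?_)
    fun l _ => (ext0_apply h.inj z l).symm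
  · exact Finset.mem_filter.2 ⟨Finset.mem_univ _, (Finset.mem_filter.1 hl).2⟩
  · have hl' : C.lab l = j := (Finset.mem_filter.1 hl).2
    obtain ⟨l', rfl⟩ := h.lab l (hl' ▸ hj)
    exact ⟨l', Finset.mem_coe.2 (Finset.mem_filter.2 ⟨Finset.mem_univ _, hl'⟩), rfl⟩

theorem ok_res (hC : C.Ok β) (h : C.Flat e) : (C.res e).Ok β := by
  have hc := cont_ext0 h.inj
  have ho : IsOpen (ext0 e ⁻¹' C.U) := hC.isOpen.preimage hc
  refine ⟨ho, Subset.rfl, fun u hu _ => hu, fun l l' h1 h2 => h.inj (hC.lbl _ _ h1 h2),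
    fun _ => analyticOnNhd_const, hC.cont.comp hc.continuousOn fun z hz => memB h hz,
    fun u hu f hf => ?_, fun u hu hZ => ?_, fun u hu hZ f g hg hfg => ?_,
    fun u hu ⟨l, h1, h2⟩ => ?_, fun u hu => ?_, fun u hu => ?_⟩
  · obtain ⟨g, hg, k⟩ := hC.hol _ (memB h hu) f hf
    refine ⟨fun z => g (ext0 e z), hg.comp (an_ext0 h.inj u), ?_⟩
    filter_upwards [hc.continuousAt.eventually k] with z hz hz' using hz (memB h hz')
  · refine (hC.opn _ (memB h hu) hZ).trans fun S hS => ?_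
    rw [mem_map, mem_nhdsWithin_iff_eventually] at hS ⊢
    filter_upwards [(tendsto_pr h u).eventually hS] with y hy hyB
    have h1 := back hC h hyB
    have h2 : C.π (ext0 e (y ∘ e)) ∈ S := hy (show ext0 e (y ∘ e) ∈ C.U from h1.symm ▸ hC.sub hyB)
    rwa [h1] at h2
  · refine hC.iso _ (memB h hu) hZ f (fun y => g (y ∘ e))
      (hg.comp_of_eq (an_pr e _) (pr_ext0 h.inj u)) ?_
    filter_upwards [(tendsto_pr h u).eventually hfg] with y hy hyB
    have h1 := back hC h hyB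
    have h2 : f (C.π (ext0 e (y ∘ e))) = g (y ∘ e) :=
      hy (show ext0 e (y ∘ e) ∈ C.U from h1.symm ▸ hC.sub hyB)
    rwa [h1] at h2
  · exact hC.unt _ (memB h hu) ⟨e l, h1, (ext0_apply h.inj u l).trans h2⟩
  · have h1 := map_mem_closure (cont_pr e) (hC.dense _ (memB h hu))
      (t := {z ∈ (C.res e).B | (C.res e).π z ∉ β.Z}) fun y hy => by
        have h1 := back hC h hy.1
        exact ⟨show ext0 e (y ∘ e) ∈ C.U from h1.symm ▸ hC.sub hy.1,
          show C.π (ext0 e (y ∘ e)) ∉ β.Z from h1.symm ▸ hy.2⟩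
    rwa [pr_ext0 h.inj] at h1
  · obtain ⟨ε, hε, k⟩ := hC.faith _ (memB h hu)
    refine ⟨ε, hε, ?_⟩
    filter_upwards [((hc.prodMap hc).tendsto (u, u)).eventually k] with p hp h1 h2 h3 h4 h5
    have h6 : ext0 e p.2 = ext0 e p.1 := hp (memB h h1) (memB h h2) h3 h4 fun l hl => by
      obtain ⟨l, rfl⟩ := h.lab l hl
      simpa only [Prod.map_fst, Prod.map_snd, ext0_apply h.inj] using h5 l hl
    rw [← pr_ext0 h.inj p.2, h6, pr_ext0 h.inj]

theorem arr_res (hC : C.Ok β) (hC' : C'.Ok β) (h : C.Flat e) (h' : C'.Flat e') {z z' : ι' → ℂ}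
    (hz : ext0 e z ∈ C.U) (hz' : ext0 e' z' ∈ C'.U) {Φ Ψ : (ι → ℂ) → ι → ℂ}
    (a : Arr C (ext0 e z) C' (ext0 e' z') Φ Ψ) :
    Arr (C.res e) z (C'.res e') z' (fun w => Φ (ext0 e w) ∘ e') fun w => Ψ (ext0 e' w) ∘ e := by
  have t := (cont_ext0 h.inj).tendsto z
  have t' := (cont_ext0 h'.inj).tendsto z'
  have hΨ : Ψ (ext0 e' z') = ext0 e z := a.val ▸ a.left.self_of_nhds
  have tΨ : Tendsto Ψ (𝓝 (ext0 e' z')) (𝓝 (ext0 e z)) := hΨ ▸ a.an'.continuousAt.tendsto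
  have h1 : ∀ᶠ w in 𝓝 z, Φ (ext0 e w) ∈ C'.B := by
    filter_upwards [evB hC h hz, t.eventually a.mem] with w h1 h2 using h2.2 h1
  have h2 : ∀ᶠ w in 𝓝 z', Ψ (ext0 e' w) ∈ C.B := by
    filter_upwards [evB hC' h' hz', t'.eventually (tΨ.eventually a.mem), t'.eventually a.right]
      with w h1 h2 h3 using h2.1 (h3.symm ▸ h1)
  refine ⟨(an_pr e' _).comp (a.an.comp (an_ext0 h.inj z)),
    (an_pr e _).comp (a.an'.comp (an_ext0 h'.inj z')), ?_, ?_, ?_, ?_, ?_, fun j hj => ?_,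
    1, one_pos, .of_forall fun w => ?_⟩
  · rw [a.val, pr_ext0 h'.inj]
  · filter_upwards [h1, t.eventually a.left] with w h1 h3
    rw [back hC' h' h1, h3, pr_ext0 h.inj]
  · filter_upwards [h2, t'.eventually a.right] with w h2 h3
    rw [back hC h h2, h3, pr_ext0 h'.inj]
  · filter_upwards [h1, evB hC h hz] with w h1 h3
    exact iff_of_true (show ext0 e' (Φ (ext0 e w) ∘ e') ∈ C'.U from
      (back hC' h' h1).symm ▸ hC'.sub h1) (hC.sub h3)
  · filter_upwards [h1, evB hC h hz, t.eventually a.pi] with w h1 h3 h4 _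
    show C'.π (ext0 e' (Φ (ext0 e w) ∘ e')) = C.π (ext0 e w)
    rw [back hC' h' h1, h4 h3]
  · obtain ⟨v, hv, hv0, k⟩ := a.div j hj
    refine ⟨fun w => v (ext0 e w), hv.comp (an_ext0 h.inj z), hv0, ?_⟩
    filter_upwards [h1, t.eventually k] with w h1 h3
    rw [s_res h' hj, s_res h hj, back hC' h' h1, h3]
  · exact ⟨(one_mul _).ge, (one_mul _).ge⟩

end res

/-! ### shrinking -/

omit [TopologicalSpace X] in
theorem cmp_via {T : Type} {l : Filter T} {f g h : T → ℝ} (h1 : Cmp l f g) (h2 : Cmp l f h) :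
    Cmp l g h := by
  obtain ⟨c, hc, k⟩ := h1
  obtain ⟨c', hc', k'⟩ := h2
  refine ⟨c * c', mul_pos hc hc', ?_⟩
  filter_upwards [k, k'] with z hz hz'
  refine ⟨hz.2.trans ?_, hz'.2.trans ?_⟩
  · rw [mul_assoc]
    exact mul_le_mul_of_nonneg_left hz'.1 hc.le
  · rw [mul_comm c, mul_assoc]
    exact mul_le_mul_of_nonneg_left hz.1 hc'.le

/-- an open piece of a chart -/
def shr (C : Ch ι X) (V : Set (ι → ℂ)) : Ch ι X := { C with U := V, B := V }

theorem ok_shr {C : Ch ι X} (hC : C.Ok β) {V : Set (ι → ℂ)} (hV : IsOpen V) (hB : V ⊆ C.B)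
    {m : ℕ} {F : Fin m → (ι → ℂ) → ℂ} (hF : ∀ k, AnalyticOnNhd ℂ (F k) V) :
    ((shr C V).withF m F).Ok β := by
  refine ⟨hV, Subset.rfl, fun u hu _ => hu, hC.lbl, hF, hC.cont.mono hB,
    fun u hu f hf => ?_, fun u hu hZ => ?_, fun u hu hZ f g hg hfg => ?_,
    fun u hu => hC.unt u (hB hu), fun u hu => ?_, fun u hu => ?_⟩
  · obtain ⟨g, hg, k⟩ := hC.hol u (hB hu) f hf
    exact ⟨g, hg, k.mono fun z h1 h2 => h1 (hB h2)⟩
  · refine (hC.opn u (hB hu) hZ).trans (map_mono ?_)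
    show 𝓝[C.B] u ≤ 𝓝[V] u
    rw [hV.nhdsWithin_eq hu]
    exact nhdsWithin_le_nhds
  · refine hC.iso u (hB hu) hZ f g hg ?_
    filter_upwards [hfg, hV.mem_nhds hu] with z h1 h2 _ using h1 h2
  · refine closure_mono (fun z hz => ?_) (hV.inter_closure ⟨hu, hC.dense u (hB hu)⟩)
    exact ⟨hz.1, hz.2.2⟩
  · obtain ⟨ε, hε, k⟩ := hC.faith u (hB hu)
    exact ⟨ε, hε, k.mono fun p hp h1 h2 => hp (hB h1) (hB h2)⟩

omit [DecidableEq ι] [TopologicalSpace X] in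
theorem arr_id {C : Ch ι X} {V : Set (ι → ℂ)} (hV : IsOpen V) (hB : V ⊆ C.B) {z : ι → ℂ}
    (hz : z ∈ V) : Arr (shr C V) z C z id id :=
  ⟨analyticAt_id, analyticAt_id, rfl, .of_forall fun _ => rfl, .of_forall fun _ => rfl,
    by filter_upwards [hV.mem_nhds hz] with y hy using iff_of_true (hB hy) hy,
    .of_forall fun _ _ => rfl,
    fun _ _ => ⟨fun _ => 1, analyticAt_const, one_ne_zero, .of_forall fun _ => (one_mul _).symm⟩,
    1, one_pos, .of_forall fun _ => ⟨(one_mul _).ge, (one_mul _).ge⟩⟩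

end ResA

open ResA

theorem stRes : StRes := by
  intro ι ι' X _ _ _ _ _ β A e hA hF
  refine ⟨⟨fun a => ok_res (hA.ch a) (hF a), fun a => ?_, fun a z hz => (hA.ch a).sub (hA.sub a hz),
    fun a b z hz z' hz' => ?_, fun x hx hZ => ?_⟩, fun a => rfl⟩
  · exact (LeftInverse.isClosedEmbedding (f := fun u : ι → ℂ => u ∘ e a) (pr_ext0 (hF a).inj)
      (cont_pr _) (cont_ext0 (hF a).inj)).isCompact_preimage (hA.cpt a)
  · obtain ⟨n, Φ, Ψ, h1, h2⟩ := hA.prp a b _ (memB (hF a) hz) _ (memB (hF b) hz')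
    refine ⟨n, _, _, fun k => arr_res (hA.ch a) (hA.ch b) (hF a) (hF b) hz hz' (h1 k), ?_⟩
    filter_upwards [(((cont_ext0 (hF a).inj).prodMap (cont_ext0 (hF b).inj)).tendsto
      (z, z')).eventually h2] with p hp k1 k2 k3 k4
    obtain ⟨k, hk⟩ := hp (memB (hF a) k1) (memB (hF b) k2) k3 k4
    refine ⟨k, ?_⟩
    have hk' : Φ k (ext0 (e a) p.1) = ext0 (e b) p.2 := hk
    rw [hk', pr_ext0 (hF b).inj]
  · obtain ⟨a, u, hu, rfl⟩ := hA.cov x hx hZ
    have h1 := back (hA.ch a) (hF a) (hA.sub a hu)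
    exact ⟨a, u ∘ e a, show ext0 (e a) (u ∘ e a) ∈ A.K a from h1.symm ▸ hu,
      congrArg (A.C a).π h1⟩

theorem stNewF : StNewF := by
  intro ι X _ _ _ β A Γ XO nm hA hfull hf
  choose! m f hf using fun (p : A.κ × (ι → ℂ)) (h : p.2 ∈ A.K p.1) => hf p.1 p.2 h
  have hBo : ∀ a, IsOpen (A.C a).B := fun a => hfull a ▸ (hA.ch a).isOpen
  have hπ : ∀ a, ∀ u ∈ (A.C a).B, ContinuousAt (A.C a).π u := fun a u hu =>
    (hA.ch a).cont.continuousAt ((hBo a).mem_nhds hu)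
  have hr : ∀ p : A.κ × (ι → ℂ), p.2 ∈ A.K p.1 → ∃ r > 0, ∀ z ∈ ball p.2 r, z ∈ (A.C p.1).B ∧
      (∀ k, β.Hol (f p k) ((A.C p.1).π z)) ∧
      ((A.C p.1).π z ∉ β.Z → ∃ k, f p k ((A.C p.1).π z) ≠ 0) ∧ (∃ γ, (A.C p.1).π z ∈ XO γ) ∧
      ∀ γ, (A.C p.1).π z ∈ XO γ → Cmp (𝓝 ((A.C p.1).π z)) (nm γ) fun y => ∑ k, ‖f p k y‖ :=
    fun p hp => eventually_nhds_iff_ball.1 (Eventually.and ((hBo _).mem_nhds (hA.sub _ hp))
      ((hπ _ _ (hA.sub _ hp)).eventually (hf p hp)))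
  choose! r hr0 hr using hr
  choose t ht htc using fun a => (hA.cpt a).elim_nhds_subcover (fun u => ball u (r (a, u) / 2))
    fun u hu => ball_mem_nhds u (half_pos (hr0 (a, u) hu))
  let A' : At ι X :=
    { κ := Σ a, t a
      C := fun p => shr (A.C p.1) (ball p.2 (r (p.1, p.2)))
      K := fun p => A.K p.1 ∩ closedBall p.2 (r (p.1, p.2) / 2) }
  have hP := fun p : Σ a, t a => hr (p.1, p.2) (ht _ _ p.2.2)
  have hB : ∀ p : Σ a, t a, ball (p.2 : ι → ℂ) (r (p.1, p.2)) ⊆ (A.C p.1).B :=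
    fun p z hz => (hP p z hz).1
  have hK : ∀ p : Σ a, t a, A'.K p ⊆ ball (p.2 : ι → ℂ) (r (p.1, p.2)) := fun p z hz =>
    closedBall_subset_ball (half_lt_self (hr0 (p.1, p.2) (ht _ _ p.2.2))) hz.2
  have hcp : ∀ p, IsCompact (A'.K p) := fun p => (hA.cpt p.1).inter_right isClosed_closedBall
  have hcov : ∀ a, ∀ u ∈ A.K a, ∃ v : t a, u ∈ A'.K ⟨a, v⟩ := fun a u hu => by
    obtain ⟨v, hv, h⟩ := mem_iUnion₂.1 (htc a hu)
    exact ⟨⟨v, hv⟩, hu, ball_subset_closedBall h⟩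
  have hcmp : ∀ (p : Σ a, t a), ∀ z ∈ ball (p.2 : ι → ℂ) (r (p.1, p.2)), ∀ γ,
      (A.C p.1).π z ∈ XO γ → Cmp (𝓝 z) (fun y => nm γ ((A.C p.1).π y))
        fun y => ∑ k, ‖f (p.1, p.2) k ((A.C p.1).π y)‖ := fun p z hz γ hγ =>
    let ⟨c, hc, k⟩ := (hP p z hz).2.2.2.2 γ hγ
    ⟨c, hc, (hπ _ _ (hB p hz)).eventually k⟩
  refine ⟨A', fun p => m (p.1, p.2), fun p k z => f (p.1, p.2) k ((A.C p.1).π z),
    ⟨fun p => isOpen_ball, fun p => Subset.rfl, fun p => (hA.ch p.1).lbl,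
      fun p k => ((hA.ch p.1).anF k).mono ((hB p).trans (hA.ch p.1).sub), hcp, hK,
      fun p => ⟨p.1, id, fun z hz => ⟨(hA.ch p.1).sub (hB p hz), id, arr_id isOpen_ball (hB p) hz⟩⟩,
      fun a u hu => ?_⟩,
    ⟨fun p => ok_shr (hA.ch p.1) isOpen_ball (hB p) fun k z hz => ?_, hcp, hK,
      fun p q u hu u' hu' => ?_, fun x hx hZ => ?_⟩, fun p => rfl, fun p u hu γ hγ => ?_,
    fun p u hu hZ => (hP p u hu).2.2.1 hZ⟩
  · obtain ⟨v, hv⟩ := hcov a u hu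
    exact ⟨⟨a, v⟩, u, hv, id, id, arr_id isOpen_ball (hB ⟨a, v⟩) (hK _ hv)⟩
  · obtain ⟨g, hg, k⟩ := (hA.ch p.1).hol z (hB p hz) _ ((hP p z hz).2.1 k)
    refine hg.congr ?_
    filter_upwards [k, (hBo _).mem_nhds (hB p hz)] with y h1 h2 using (h1 h2).symm
  · obtain ⟨n, Φ, Ψ, h1, h2⟩ := hA.prp p.1 q.1 u (hB p hu) u' (hB q hu')
    refine ⟨n, Φ, Ψ, fun k => ?_, h2.mono fun z hz k1 k2 => hz (hB p k1) (hB q k2)⟩
    have a := h1 k
    have tΦ : Tendsto (Φ k) (𝓝 u) (𝓝 u') := a.val ▸ a.an.continuousAt.tendsto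
    have hpi : ∀ᶠ z in 𝓝 u, (A.C q.1).π (Φ k z) = (A.C p.1).π z := by
      filter_upwards [a.pi, (hBo _).mem_nhds (hB p hu)] with z h1 h2 using h1 h2
    refine ⟨a.an, a.an', a.val, a.left, a.right, ?_, hpi.mono fun _ h _ => h, a.div, ?_⟩
    · filter_upwards [tΦ.eventually (isOpen_ball.mem_nhds hu'), isOpen_ball.mem_nhds hu]
        with z h1 h2 using iff_of_true h1 h2
    · obtain ⟨γ, hγ⟩ := (hP p u hu).2.2.2.1
      have h3 : (A.C q.1).π u' = (A.C p.1).π u := a.val ▸ hpi.self_of_nhds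
      obtain ⟨c, hc, k'⟩ := hcmp q u' hu' γ (h3 ▸ hγ)
      refine cmp_via ⟨c, hc, ?_⟩ (hcmp p u hu γ hγ)
      filter_upwards [tΦ.eventually k', hpi] with z h1 h2
      rw [← h2]
      exact h1
  · obtain ⟨a, u, hu, rfl⟩ := hA.cov x hx hZ
    obtain ⟨v, hv⟩ := hcov a u hu
    exact ⟨⟨a, v⟩, u, hv, rfl⟩
  · obtain ⟨c, hc, k⟩ := hcmp p u hu γ hγ
    refine ⟨c, hc, (k.filter_mono nhdsWithin_le_nhds).mono fun z hz => ?_⟩
    simp only [Ch.mon, Pi.zero_apply, Real.rpow_zero, Finset.prod_const_one, one_mul]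
    exact hz

end Vale.Agent.P277Z.Hir.Gl
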