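import Vale.Agent.P277Z.Hir.BDefs

/-!
# P277, resolution, global part: the statements
-/

open Filter Topology Set Function

noncomputable section

namespace Vale.Agent.P277Z.Hir.Gl

open L (Le IsCo Ass sl)

/-- `Φ'`, with the local inverse `Ψ'`, lifts `Φ` to the slices -/
structure Lf {ι : Type} [Fintype ι] [DecidableEq ι] (w : ι → ℕ) (i : ι) (z : ι → ℂ) (w' : ι → ℕ)
    (j : ι) (z' : ι → ℂ) (Φ Φ' Ψ' : (ι → ℂ) → ι → ℂ) : Prop where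
  an : AnalyticAt ℂ Φ' z
  an' : AnalyticAt ℂ Ψ' z'
  val : Φ' z = z'
  left : ∀ᶠ p in 𝓝 z, Ψ' (Φ' p) = p
  right : ∀ᶠ q in 𝓝 z', Φ' (Ψ' q) = q
  comm : ∀ᶠ p in 𝓝 z, sl w' j (Φ' p) = Φ (sl w i p)
  exc : Ass (fun p => Φ' p j) (fun p => p i) z

/-- **DIVS**: division on a slice -/
def StDivS : Prop :=
  ∀ (ι : Type) [Fintype ι] [DecidableEq ι] (w : ι → ℕ) (i : ι) (z : ι → ℂ) (f : (ι → ℂ) → ℂ)
    (b : ℕ), w i ≠ 0 → z i = 0 → AnalyticAt ℂ f (sl w i z) →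
    Le id (fun m => (w m : ℚ)) f b (sl w i z) →
    ∃ Y, AnalyticAt ℂ Y z ∧ ∀ᶠ p in 𝓝 z, f (sl w i p) = p i ^ b * Y p

/-- **LIFTA**: the finitely many lifts of a local isomorphism which respects the filtrations -/
def StLiftA : Prop :=
  ∀ (ι : Type) [Fintype ι] [DecidableEq ι] (w w' : ι → ℕ) (i j : ι) (z z' : ι → ℂ)
    (Φ Ψ : (ι → ℂ) → ι → ℂ), w i ≠ 0 → w' j ≠ 0 → z i = 0 → z' j = 0 →
    Φ (sl w i z) = sl w' j z' → ContinuousAt Φ (sl w i z) → ContinuousAt Ψ (sl w' j z') →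
    (∀ᶠ u in 𝓝 (sl w i z), Ψ (Φ u) = u) → (∀ᶠ u in 𝓝 (sl w' j z'), Φ (Ψ u) = u) →
    (∀ l, ∃ Y, AnalyticAt ℂ Y z ∧ ∀ᶠ p in 𝓝 z, Φ (sl w i p) l = p i ^ w' l * Y p) →
    (∀ l, ∃ Y, AnalyticAt ℂ Y z' ∧ ∀ᶠ q in 𝓝 z', Ψ (sl w' j q) l = q j ^ w l * Y q) →
    ∃ (n : ℕ) (Φ' Ψ' : Fin n → (ι → ℂ) → ι → ℂ), (∀ k, Lf w i z w' j z' Φ (Φ' k) (Ψ' k)) ∧
      ∀ᶠ p in 𝓝 (z, z'), p.1 i ≠ 0 → p.2 j ≠ 0 → sl w' j p.2 = Φ (sl w i p.1) →
        ∃ k, Φ' k p.1 = p.2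

/-- **LIFTB**: the lift of an arrow is an arrow -/
def StLiftB : Prop :=
  ∀ (ι X : Type) [Fintype ι] [DecidableEq ι] [TopologicalSpace X] (β : Base X) (A : At ι X)
    (W : Wt β A), A.Ok β → ∀ (a b : A.κ) (i j : ι) (hi : Use (W.w a) (some i))
    (hj : Use (W.w b) (some j)) (z z' : ι → ℂ) (Φ Ψ Φ' Ψ' : (ι → ℂ) → ι → ℂ),
    sl (W.w a) i z ∈ (A.C a).U → sl (W.w b) j z' ∈ (A.C b).U →
    Arr (A.C a) (sl (W.w a) i z) (A.C b) (sl (W.w b) j z') Φ Ψ →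
    Lf (W.w a) i z (W.w b) j z' Φ Φ' Ψ' →
    Arr (W.bl.C ⟨(a, some i), hi⟩) z (W.bl.C ⟨(b, some j), hj⟩) z' Φ' Ψ'

/-- **SIG**: outside the new divisor the blow-up map is an arrow -/
def StSig : Prop :=
  ∀ (ι X : Type) [Fintype ι] [DecidableEq ι] [TopologicalSpace X] (β : Base X) (A : At ι X)
    (W : Wt β A), A.Ok β → ∀ (p : W.bl.κ), ∀ z ∈ (W.bl.C p).U, so p.1.2 z ≠ 0 →
    ∃ g, Arr (W.bl.C p) z (A.C p.1.1) (σo (W.w p.1.1) p.1.2 z) (σo (W.w p.1.1) p.1.2) g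

/-- **BLC**: the charts of the blow-up -/
def StBlC : Prop :=
  ∀ (ι X : Type) [Fintype ι] [DecidableEq ι] [TopologicalSpace X] (β : Base X) (A : At ι X)
    (W : Wt β A), A.Ok β → ∀ p, (W.bl.C p).Ok β

/-- **BLK**: the cores of the blow-up -/
def StBlK : Prop :=
  ∀ (ι X : Type) [Fintype ι] [DecidableEq ι] [TopologicalSpace X] (β : Base X) (A : At ι X)
    (W : Wt β A), A.Ok β → (∀ p, IsCompact (W.bl.K p)) ∧
    (∀ x ∈ β.O, x ∉ β.Z → ∃ p, ∃ u ∈ W.bl.K p, (W.bl.C p).π u = x) ∧ (A.Full → W.bl.Full)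

/-- **BL**: the blow-up of a good atlas is good -/
def StBl : Prop :=
  ∀ (ι X : Type) [Fintype ι] [DecidableEq ι] [TopologicalSpace X] (β : Base X) (A : At ι X)
    (W : Wt β A), A.Ok β → W.bl.Ok β

/-- **REF**: a refinement of a good atlas is good -/
def StRef : Prop :=
  ∀ (ι X : Type) [Fintype ι] [DecidableEq ι] [TopologicalSpace X] (β : Base X) (A A' : At ι X),
    A.Ok β → Ref A A' → A'.Ok β

/-- **INV**: invariants of the steps -/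
def StInvs : Prop :=
  ∀ (ι X : Type) [Fintype ι] [DecidableEq ι] [TopologicalSpace X] (β : Base X) (A A' : At ι X),
    Steps β A A' → (A.ZB → A'.ZB) ∧ (A.Full → A'.Full) ∧ (A.Unit → A'.Unit) ∧
      (∀ c, A.Off β (fun C u => C.Sm c u) → A'.Off β fun C u => C.Sm c u) ∧
      (A.Off β (fun C u => ∃ k, C.F k u ≠ 0) → A'.Off β fun C u => ∃ k, C.F k u ≠ 0)

/-- **TOT**: the total transforms -/
def StTot : Prop :=
  ∀ (ι X : Type) [Fintype ι] [DecidableEq ι] [TopologicalSpace X] (β : Base X) (A A' : At ι X)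
    (Γ : Type) (XO : Γ → Set X) (nm : Γ → X → ℝ) (ex : ℕ → ℝ), Steps β A A' → (∀ j, 0 ≤ ex j) →
    A.Tot XO nm ex → ∃ ex' : ℕ → ℝ, (∀ j, 0 ≤ ex' j) ∧ A'.Tot XO nm ex'

/-- **RES**: restriction to the coordinate subspaces -/
def StRes : Prop :=
  ∀ (ι ι' X : Type) [Fintype ι] [DecidableEq ι] [Fintype ι'] [DecidableEq ι'] [TopologicalSpace X]
    (β : Base X) (A : At ι X) (e : A.κ → ι' → ι), A.Ok β → (∀ a, (A.C a).Flat (e a)) →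
    (A.res e).Ok β ∧ (A.res e).Full

/-- **NEWF**: a full atlas gets, after a refinement, the pull back of local families on the base -/
def StNewF : Prop :=
  ∀ (ι X : Type) [Fintype ι] [DecidableEq ι] [TopologicalSpace X] (β : Base X) (A : At ι X)
    (Γ : Type) (XO : Γ → Set X) (nm : Γ → X → ℝ), A.Ok β → A.Full →
    (∀ a, ∀ u ∈ A.K a, ∃ (m : ℕ) (f : Fin m → X → ℂ), ∀ᶠ x in 𝓝 ((A.C a).π u),
      (∀ k, β.Hol (f k) x) ∧ (x ∉ β.Z → ∃ k, f k x ≠ 0) ∧ (∃ γ, x ∈ XO γ) ∧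
      ∀ γ, x ∈ XO γ → Cmp (𝓝 x) (nm γ) fun y => ∑ k, ‖f k y‖) →
    ∃ (A' : At ι X) (m : A'.κ → ℕ) (F : ∀ a, Fin (m a) → (ι → ℂ) → ℂ), Ref A A' ∧
      (A'.withF m F).Ok β ∧ (A'.withF m F).Full ∧ (A'.withF m F).Tot XO nm 0 ∧
      (A'.withF m F).Off β fun C u => ∃ k, C.F k u ≠ 0

/-- **GLUE**: the manifold -/
def StGlue : Prop :=
  ∀ (n : ℕ) (X : Type) [TopologicalSpace X] [T2Space X] (β : Base X) (A : At (Fin n) X),
    A.Ok β → A.Full → A.Free β → Nonempty (Glue β A)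

end Vale.Agent.P277Z.Hir.Gl
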