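import Vale.Agent.P277Z.Hir.Loc
import Mathlib.Topology.Algebra.Module.FiniteDimension
import Mathlib.Analysis.Analytic.Constructions
import Mathlib.Analysis.Analytic.Linear
import Mathlib.Analysis.Calculus.FDeriv.Mul

/-!
# P277Z, block HIR: pull back of centres, invariance of the type
-/

set_option linter.unusedSectionVars false

open Filter Topology Set

noncomputable section

namespace Vale.Agent.P277Z.Hir

namespace CH

section gen

variable {E E' : Type} [NormedAddCommGroup E] [NormedSpace ℂ E] [NormedAddCommGroup E']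
  [NormedSpace ℂ E'] {k : ℕ} {y : ℕ → E → ℂ} {ω : ℕ → ℚ} {q : E}

theorem fil_mul {c : ℚ} {f g : E → ℂ} (hg : AnalyticAt ℂ g q) (h : Fil k y ω q c f) :
    Fil k y ω q c fun u => g u * f u := by
  induction h with
  | base hc hf => exact .base hc (hg.mul hf)
  | zero => exact .congr (.of_forall fun u => (mul_zero _).symm) .zero
  | mul i hi _ ih => exact .congr (.of_forall fun u => mul_left_comm _ _ _) (.mul i hi ih)
  | add _ _ ih ih' => exact .congr (.of_forall fun u => (mul_add _ _ _).symm) (.add ih ih')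
  | mono hc _ ih => exact .mono hc ih
  | congr e _ ih => exact .congr (e.mono fun u hu => congrArg (g u * ·) hu) ih

theorem fil_pull {y' : ℕ → E' → ℂ} {Φ : E → E'} (hΦ : AnalyticAt ℂ Φ q)
    (hy : ∀ i < k, ∃ e : E → ℂ, AnalyticAt ℂ e q ∧ ∀ᶠ u in 𝓝 q, y' i (Φ u) = e u * y i u)
    {c : ℚ} {f : E' → ℂ} (h : Fil k y' ω (Φ q) c f) : Fil k y ω q c fun u => f (Φ u) := by
  induction h with
  | base hc hf => exact .base hc (hf.comp hΦ)
  | zero => exact .zero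
  | mul i hi _ ih =>
    obtain ⟨e, he, h⟩ := hy i hi
    refine .congr (h.mono fun u hu => ?_) (.mul i hi (fil_mul he ih))
    simp only [hu]
    ring
  | add _ _ ih ih' => exact .add ih ih'
  | mono hc _ ih => exact .mono hc ih
  | congr e _ ih => exact .congr (e.comp_tendsto hΦ.continuousAt) ih

end gen

theorem mkTy_congr {k : ℕ} (ω : ℕ → ℚ) {lb lb' : ℕ → ℕ} (h : ∀ i < k, lb i = lb' i) :
    mkTy k ω lb = mkTy k ω lb' := by
  refine congrArg toLex (funext fun i => ?_)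
  split_ifs with hi
  · rw [h i hi]
  · rfl

variable {ι : Type} [Fintype ι] [DecidableEq ι] {nu nu₁ : ι → ℕ} {Φ : W ι → W ι} {q : W ι}

theorem an_crd (l : ι) (q : W ι) : AnalyticAt ℂ (fun u : W ι => u l) q :=
  (ContinuousLinearMap.proj (R := ℂ) (φ := fun _ : ι => ℂ) l).analyticAt q

theorem fderiv_crd (hΦ : AnalyticAt ℂ Φ q) {l l₁ : ι} {e : W ι → ℂ} (he : AnalyticAt ℂ e q)
    (h : ∀ᶠ u in 𝓝 q, Φ u l₁ = e u * u l) (hl : q l = 0) (v : W ι) :
    fderiv ℂ Φ q v l₁ = e q * v l := by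
  have h1 := ((ContinuousLinearMap.proj (R := ℂ) (φ := fun _ : ι => ℂ) l₁).hasFDerivAt.comp q
    hΦ.differentiableAt.hasFDerivAt)
  have h2 := (he.differentiableAt.hasFDerivAt.mul
    (ContinuousLinearMap.proj (R := ℂ) (φ := fun _ : ι => ℂ) l).hasFDerivAt).congr_of_eventuallyEq h
  have h3 := congrArg (fun A : W ι →L[ℂ] ℂ => A v) (h1.unique h2)
  simpa [hl] using h3

theorem exists_inv (h : LIso nu nu₁ Φ q) : ∃ Ψ : W ι → W ι, LIso nu₁ nu Ψ (Φ q) ∧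
    Ψ (Φ q) = q ∧ ∀ᶠ v in 𝓝 (Φ q), Φ (Ψ v) = v := by
  let A := (fderiv ℂ Φ q).toContinuousLinearEquivOfDetNeZero h.det
  have hA : (A : W ι →L[ℂ] W ι) = fderiv ℂ Φ q :=
    ContinuousLinearMap.coe_toContinuousLinearEquivOfDetNeZero _ _
  have hs : HasStrictFDerivAt Φ (A : W ι →L[ℂ] W ι) q := hA ▸ h.an.hasStrictFDerivAt
  have h1 : AnalyticAt ℂ (hs.localInverse Φ A q) (Φ q) :=
    (hs.toOpenPartialHomeomorph Φ).analyticAt_symm' hs.mem_toOpenPartialHomeomorph_source h.an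
      hA.symm
  have h2 : hs.localInverse Φ A q (Φ q) = q := hs.localInverse_apply_image
  refine ⟨_, ⟨h1, ?_, fun l₁ l h3 h4 => ?_, h.mt', fun l h3 h4 => h.mt l h3 (h2 ▸ h4)⟩, h2,
    hs.eventually_right_inverse⟩
  · rw [hs.to_localInverse.hasFDerivAt.fderiv, ContinuousLinearEquiv.det_coe_symm, hA]
    exact inv_ne_zero h.det
  · obtain ⟨e, a1, a2, a3⟩ := h.div l l₁ (h4 ▸ h3) h4.symm
    have a4 : AnalyticAt ℂ (fun v => e (hs.localInverse Φ A q v)) (Φ q) := a1.comp_of_eq h1 h2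
    have a5 : e (hs.localInverse Φ A q (Φ q)) ≠ 0 := h2.symm ▸ a2
    refine ⟨fun v => (e (hs.localInverse Φ A q v))⁻¹, a4.inv a5, inv_ne_zero a5, ?_⟩
    filter_upwards [hs.localInverse_tendsto.eventually a3, hs.eventually_right_inverse,
      a4.continuousAt.eventually_ne a5] with v b1 b2 b3
    rw [b2] at b1
    rw [b1, inv_mul_cancel_left₀ b3]

end CH

open CH

theorem stC : StC := by
  intro ι _ _ nu nu₁ _ h1 Φ q h J
  have a0 : ∀ l₁, ∃ l, nu₁ l₁ ≠ 0 → Φ q l₁ = 0 → nu l = nu₁ l₁ := fun l₁ => by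
    by_cases h2 : nu₁ l₁ ≠ 0 ∧ Φ q l₁ = 0
    · obtain ⟨l, hl⟩ := h.mt' l₁ h2.1 h2.2
      exact ⟨l, fun _ _ => hl⟩
    · exact ⟨l₁, fun h3 h4 => absurd ⟨h3, h4⟩ h2⟩
  choose μ hμ using a0
  have a1 : ∀ i < J.k, ∀ l, J.lab i = some l → nu₁ l ≠ 0 ∧ nu (μ l) = nu₁ l ∧ q (μ l) = 0 ∧
      ∃ e : W ι → ℂ, AnalyticAt ℂ e q ∧ ∀ᶠ u in 𝓝 q, J.y i (Φ u) = e u * u (μ l) :=
    fun i hi l hl => by
      obtain ⟨b1, b2⟩ := J.div i hi l hl
      have b3 := J.van i hi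
      rw [b2] at b3 ⊢
      have b4 := hμ l b1 b3
      obtain ⟨e, c1, c2, c3⟩ := h.div (μ l) l (b4 ▸ b1) b4.symm
      exact ⟨b1, b4, (mul_eq_zero.1 (c3.self_of_nhds.symm.trans b3)).resolve_left c2, e, c1, c3⟩
  have a2 : ∀ i < J.k, ((J.lab i).map μ).elim 0 nu = (J.lab i).elim 0 nu₁ := fun i hi => by
    rcases hl : J.lab i with _ | l
    · rfl
    · exact (a1 i hi l hl).2.1
  obtain ⟨y, hy, hy'⟩ : ∃ y : ℕ → W ι → ℂ, (∀ i, J.lab i = none → y i = fun u => J.y i (Φ u)) ∧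
      ∀ i l, J.lab i = some l → y i = fun u => u (μ l) :=
    ⟨fun i => (J.lab i).elim (fun u => J.y i (Φ u)) fun l u => u (μ l),
      fun i hi => by simp only [hi, Option.elim], fun i l hi => by simp only [hi, Option.elim]⟩
  refine ⟨⟨J.k, y, J.ω, fun i => (J.lab i).map μ, J.pos, fun i hi => ?_, fun i hi => ?_,
    fun i hi l hl => ?_, fun i hi i' hi' l hl hl' => ?_, fun c e hc he hv => ?_,
    fun i i' h2 h3 => ?_⟩, mkTy_congr _ a2, fun c f => fil_pull h.an fun i hi => ?_⟩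
  · rcases hl : J.lab i with _ | l
    · rw [hy i hl]
      exact (J.an i hi).comp h.an
    · rw [hy' i l hl]
      exact an_crd _ _
  · rcases hl : J.lab i with _ | l
    · rw [hy i hl]
      exact J.van i hi
    · rw [hy' i l hl]
      exact (a1 i hi l hl).2.2.1
  · obtain ⟨l₁, b1, rfl⟩ := Option.map_eq_some_iff.1 hl
    exact ⟨(a1 i hi l₁ b1).2.1 ▸ (a1 i hi l₁ b1).1, hy' i l₁ b1⟩
  · obtain ⟨l₁, b1, rfl⟩ := Option.map_eq_some_iff.1 hl
    obtain ⟨l₂, b2, b3⟩ := Option.map_eq_some_iff.1 hl'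
    obtain rfl : l₂ = l₁ := h1 l₁ l₂ (a1 i hi l₁ b1).1
      (by rw [← (a1 i' hi' l₂ b2).2.1, b3, (a1 i hi l₁ b1).2.1])
    exact J.inj i hi i' hi' _ b1 b2
  · have b0 : ∀ l, ∃ (l₁ : ι) (r : ℂ), e l ≠ 0 → nu₁ l₁ ≠ 0 ∧ Φ q l₁ = 0 ∧
        ∀ v : W ι, v l = r * fderiv ℂ Φ q v l₁ := fun l => by
      by_cases h2 : e l = 0
      · exact ⟨l, 0, fun h3 => absurd h2 h3⟩
      obtain ⟨b1, b2⟩ := he l h2
      obtain ⟨l₁, b3⟩ := h.mt l b1 b2
      obtain ⟨ε, c1, c2, c3⟩ := h.div l l₁ b1 b3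
      exact ⟨l₁, (ε q)⁻¹, fun _ => ⟨b3 ▸ b1, by rw [c3.self_of_nhds, b2, mul_zero], fun v => by
        rw [fderiv_crd h.an c1 c3 b2, inv_mul_cancel_left₀ c2]⟩⟩
    choose lam r b0 using b0
    have hc' : ∀ i, J.lab i ≠ none → c i = 0 := fun i hi => hc i (by simpa using hi)
    refine J.indep c (fun l₁ => ∑ l, if lam l = l₁ then e l * r l else 0) hc' (fun l₁ hl => ?_)
      fun w => ?_
    · obtain ⟨l, -, b1⟩ := Finset.exists_ne_zero_of_sum_ne_zero hl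
      obtain ⟨rfl, b2⟩ := ite_ne_right_iff.1 b1
      exact ⟨(b0 l (left_ne_zero_of_mul b2)).1, (b0 l (left_ne_zero_of_mul b2)).2.1⟩
    · obtain ⟨v, rfl⟩ : ∃ v, fderiv ℂ Φ q v = w :=
        ((fderiv ℂ Φ q).toContinuousLinearEquivOfDetNeZero h.det).surjective w
      refine Eq.trans (congrArg₂ _ (Finset.sum_congr rfl fun i hi => ?_) ?_) (hv v)
      · rcases hl : J.lab i with _ | l
        · rw [hy i hl]
          exact congrArg (fun A : W ι →L[ℂ] ℂ => c i * A v) (fderiv_comp q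
            (J.an i (Finset.mem_range.1 hi)).differentiableAt h.an.differentiableAt).symm
        · rw [hc' i (by simp [hl]), zero_mul, zero_mul]
      · simp only [Finset.sum_mul, ite_mul, zero_mul]
        rw [Finset.sum_comm]
        refine Finset.sum_congr rfl fun l _ => ?_
        rw [Finset.sum_ite_eq, if_pos (Finset.mem_univ _)]
        by_cases h2 : e l = 0
        · rw [h2, zero_mul, zero_mul, zero_mul]
        · rw [mul_assoc, ← (b0 l h2).2.2]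
  · rw [a2 i (h2.trans_lt h3), a2 i' h3]
    exact J.sorted i i' h2 h3
  · rcases hl : J.lab i with _ | l
    · exact ⟨fun _ => 1, analyticAt_const, .of_forall fun u => by
        simp only [hy i hl, one_mul]⟩
    · obtain ⟨e, b1, b2⟩ := (a1 i hi l hl).2.2.2
      exact ⟨e, b1, b2.mono fun u hu => by simp only [hy' i l hl, hu]⟩

theorem CH.back (h1 : StC) (h2 : StI) {ι : Type} [Fintype ι] [DecidableEq ι] {nu nu₁ : ι → ℕ}
    (hn : Lbl nu) (hn₁ : Lbl nu₁) {Φ : W ι → W ι} {q q' : W ι} (h : LIso nu nu₁ Φ q)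
    (hq : Φ q = q') {κ κ' : Type} [Fintype κ] [Fintype κ'] {F : κ → W ι → ℂ}
    {F' : κ' → W ι → ℂ} (hF : ∀ a, AnalyticAt ℂ (F a) q) {C : ℝ}
    (hC : ∀ᶠ u in 𝓝 q, nrm F u ≤ C * nrm F' (Φ u)) (J : Cen nu₁ q') (hJ : J.Adm F') :
    ∃ J' : Cen nu q, J'.Adm F ∧ J'.ty = J.ty := by
  subst hq
  obtain ⟨J', a1, a2⟩ := h1 ι nu nu₁ hn hn₁ Φ q h J
  refine ⟨J', fun a => h2 ι nu q J' κ' (fun b u => F' b (Φ u)) (fun b => a2 _ _ (hJ b)) _ (hF a) C
    (hC.mono fun u hu => le_trans ?_ hu), a1⟩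
  exact Finset.single_le_sum (f := fun a => ‖F a u‖) (fun _ _ => norm_nonneg _) (Finset.mem_univ a)

theorem stInv (h1 : StC) (h2 : StI) : StInv := by
  intro ι _ _ nu nu₁ hn hn₁ Φ q h κ κ' _ _ F F' hF hF' ⟨C, _, hC⟩ τ
  obtain ⟨Ψ, a1, a2, a3⟩ := exists_inv h
  have b1 := back h1 h2 hn hn₁ h rfl hF (hC.mono fun _ hu => hu.2)
  have b2 := back h1 h2 hn₁ hn a1 a2 hF' (F' := F) (C := C) (by
    have t : Tendsto Ψ (𝓝 (Φ q)) (𝓝 q) := by simpa only [ContinuousAt, a2] using a1.an.continuousAt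
    filter_upwards [t.eventually hC, a3] with v c1 c2
    simpa only [c2] using c1.1)
  refine ⟨fun ⟨⟨J, c1, c2⟩, c3⟩ => ⟨?_, fun J' hJ' => ?_⟩,
    fun ⟨⟨J, c1, c2⟩, c3⟩ => ⟨?_, fun J' hJ' => ?_⟩⟩
  · obtain ⟨J', d1, d2⟩ := b1 J c1
    exact ⟨J', d1, d2.trans c2⟩
  · obtain ⟨J₁, d1, d2⟩ := b2 J' hJ'
    exact d2 ▸ c3 J₁ d1
  · obtain ⟨J', d1, d2⟩ := b2 J c1
    exact ⟨J', d1, d2.trans c2⟩
  · obtain ⟨J₁, d1, d2⟩ := b1 J' hJ'
    exact d2 ▸ c3 J₁ d1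

end Vale.Agent.P277Z.Hir
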