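import Vale.Agent.P277Z.Hir.DDefs
import Vale.Agent.P267.H338.Riem
import Vale.Agent.P268.Hol

/-!
# P277, resolution, removal of the stabilisers: eigenfunctions and invariant functions
-/

open Filter Topology Set Function Metric Asymptotics

noncomputable section

namespace Vale.Agent.P277Z.Hir.Gl

namespace Eig

theorem le_order {φ v : ℂ → ℂ} {ζ : ℂ} {ρ b k : ℕ} (hζ : IsPrimitiveRoot ζ ρ) (hb : b < ρ)
    (hv : ContinuousAt v 0) (hv0 : v 0 ≠ 0) (h1 : ∀ᶠ t in 𝓝 0, φ t = t ^ k * v t)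
    (h2 : ∀ᶠ t in 𝓝 0, φ (ζ * t) = ζ ^ b * φ t) : b ≤ k := by
  have t0 : Tendsto (fun t => ζ * t) (𝓝 0) (𝓝 0) := by
    simpa using (continuous_const_mul ζ).tendsto 0
  have h3 : ∀ᶠ t in 𝓝[≠] 0, ζ ^ k * v (ζ * t) = ζ ^ b * v t := by
    filter_upwards [self_mem_nhdsWithin, mem_nhdsWithin_of_mem_nhds h1,
      mem_nhdsWithin_of_mem_nhds h2, mem_nhdsWithin_of_mem_nhds (t0.eventually h1)] with t a b c d
    refine mul_left_cancel₀ (pow_ne_zero k a) ?_
    rw [b, d, mul_pow] at c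
    linear_combination c
  have h4 : ζ ^ k * v 0 = ζ ^ b * v 0 := tendsto_nhds_unique_of_eventuallyEq
    (((hv.tendsto.comp t0).const_mul _).mono_left nhdsWithin_le_nhds)
    ((hv.tendsto.const_mul _).mono_left nhdsWithin_le_nhds) h3
  by_contra! h5
  exact h5.ne (hζ.pow_inj (h5.trans hb) hb (mul_right_cancel₀ hv0 h4))

theorem schwarz {φ : ℂ → ℂ} {ζ : ℂ} {ρ b : ℕ} {r M : ℝ} (hζ : IsPrimitiveRoot ζ ρ) (hb : b < ρ)
    (hd : DifferentiableOn ℂ φ (ball 0 r)) (hM : ∀ t ∈ ball 0 r, ‖φ t‖ ≤ M)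
    (he : ∀ t ∈ ball 0 r, φ (ζ * t) = ζ ^ b * φ t) {t : ℂ} (ht : t ∈ ball 0 r) :
    ‖φ t‖ ≤ M * (‖t‖ / r) ^ b := by
  rcases b with _ | n
  · simpa using hM t ht
  have hn := ball_mem_nhds (0 : ℂ) (nonempty_ball.1 ⟨t, ht⟩)
  have ha := hd.analyticAt hn
  have key : φ 0 = 0 ∧ φ =o[𝓝 0] fun w => ‖w‖ ^ n := by
    by_cases h0 : ∀ᶠ w in 𝓝 0, φ w = 0
    · exact ⟨h0.self_of_nhds, (isLittleO_zero _ _).congr' (h0.mono fun _ h => h.symm) .rfl⟩
    obtain ⟨k, v, hv, hv0, h1⟩ := ha.exists_eventuallyEq_pow_smul_nonzero_iff.2 h0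
    simp only [sub_zero, smul_eq_mul] at h1
    obtain ⟨j, rfl⟩ := Nat.exists_eq_add_of_le
      (le_order hζ hb hv.continuousAt hv0 h1 (mem_of_superset hn he))
    refine ⟨by simp [h1.self_of_nhds], ?_⟩
    have h2 : (fun w : ℂ => w ^ (j + 1) * v w) =o[𝓝 0] fun _ => (1 : ℂ) := by
      rw [isLittleO_one_iff]
      simpa using ((continuous_pow (j + 1)).tendsto (0 : ℂ)).mul hv.continuousAt.tendsto
    refine (((isBigO_refl (fun w : ℂ => w ^ n) _).mul_isLittleO h2).norm_right).congr' ?_ ?_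
    · filter_upwards [h1] with w hw
      rw [hw]
      ring
    · exact .of_forall fun w => by simp
  have := Complex.dist_le_mul_div_pow_of_mapsTo_ball_of_isLittleO (n := n) (R₂ := M) hd
    (fun w hw => by simpa [key.1] using hM w hw) (by simpa [key.1] using key.2) ht
  simpa [key.1] using this

variable {ι : Type} [Fintype ι]

theorem curve_mem {u x : ι → ℂ} {w : ι → ℕ} {R : ℝ} (hR : R ≤ 1) (hu : ∀ l, w l ≠ 0 → u l = 0)
    (h0 : ∀ l, w l = 0 → ‖x l - u l‖ < R) (h1 : ∀ l, w l ≠ 0 → ‖x l‖ ≤ 1) {s : ℂ}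
    (hs : s ∈ ball 0 R) : (fun l => s ^ w l * x l) ∈ ball u R := by
  rw [mem_ball_zero_iff] at hs
  rw [mem_ball, dist_pi_lt_iff ((norm_nonneg s).trans_lt hs)]
  intro l
  rw [dist_eq_norm]
  by_cases hl : w l = 0
  · simpa [hl] using h0 l hl
  · rw [hu l hl, sub_zero, norm_mul, norm_pow]
    exact ((mul_le_of_le_one_right (by positivity) (h1 l hl)).trans
      (pow_le_of_le_one (norm_nonneg s) (hs.le.trans hR) hl)).trans_lt hs

theorem exists_ball {f : (ι → ℂ) → ℂ} {u : ι → ℂ} (hf : AnalyticAt ℂ f u) {p : (ι → ℂ) → Prop}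
    (hp : ∀ᶠ z in 𝓝 u, p z) : ∃ R M : ℝ, 0 < R ∧ R ≤ 1 ∧
      ∀ z ∈ ball u R, AnalyticAt ℂ f z ∧ ‖f z‖ ≤ M ∧ p z := by
  obtain ⟨R, hR, h⟩ := Metric.eventually_nhds_iff_ball.1 (hf.eventually_analyticAt.and
    ((hf.continuousAt.norm.eventually (ge_mem_nhds (lt_add_one ‖f u‖))).and hp))
  exact ⟨min R 1, _, lt_min hR one_pos, min_le_right _ _,
    fun z hz => h z (ball_subset_ball (min_le_left _ _) hz)⟩

variable [DecidableEq ι]

theorem update_mem {u z : ι → ℂ} {i : ι} {R : ℝ} (hu : u i = 0) (hz : z ∈ ball u R) {a : ℂ}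
    (ha : ‖a‖ < R) : update z i a ∈ ball u R := by
  rw [mem_ball, dist_pi_lt_iff ((norm_nonneg a).trans_lt ha)] at hz ⊢
  intro l
  by_cases hl : l = i
  · subst hl
    simpa [hu] using ha
  · rw [update_of_ne hl]
    exact hz l

omit [Fintype ι] in
theorem inv_eq {f : (ι → ℂ) → ℂ} {z : ι → ℂ} {i : ι} {ρ : ℕ} (hρ : ρ ≠ 0)
    (h : ∀ η : ℂ, η ^ ρ = 1 → f (update z i (η * z i)) = f z) {a : ℂ} (ha : a ^ ρ = z i ^ ρ) :
    f (update z i a) = f z := by
  by_cases h0 : z i = 0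
  · rw [h0, zero_pow hρ, pow_eq_zero_iff hρ] at ha
    rw [ha, ← h0, update_eq_self]
  · have := h (a / z i) (by rw [div_pow, ha, div_self (pow_ne_zero _ h0)])
    rwa [div_mul_cancel₀ _ h0] at this

theorem ana_update {q : ι → ℂ} (i : ι) {b : (ι → ℂ) → ℂ} (hb : AnalyticAt ℂ b q) :
    AnalyticAt ℂ (fun p => update p i (b p)) q := by
  refine AnalyticAt.pi fun l => ?_
  by_cases hl : l = i
  · subst hl
    simpa using hb
  · simp only [update_of_ne hl]
    exact (ContinuousLinearMap.proj (R := ℂ) (φ := fun _ : ι => ℂ) l).analyticAt q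

omit [DecidableEq ι] in
theorem ana_coord (q : ι → ℂ) (i : ι) : AnalyticAt ℂ (fun p : ι → ℂ => p i) q :=
  (ContinuousLinearMap.proj (R := ℂ) (φ := fun _ : ι => ℂ) i).analyticAt q

theorem root_lt {a b : ℂ} {ρ : ℕ} {R : ℝ} (hR : 0 < R) (h : a ^ ρ = b) (hb : ‖b‖ < R ^ ρ) :
    ‖a‖ < R :=
  lt_of_pow_lt_pow_left₀ ρ hR.le (by rwa [← norm_pow, h])

omit [DecidableEq ι] in
theorem coord_lt {u q : ι → ℂ} {i : ι} {r : ℝ} (hu : u i = 0) (hq : q ∈ ball u r) : ‖q i‖ < r := by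
  simpa [hu] using (dist_le_pi_dist q u i).trans_lt hq

omit [Fintype ι] in
theorem dense_ne (i : ι) : Dense {z : ι → ℂ | z i ≠ 0} := by
  intro z
  have h1 : Tendsto (fun t => update z i t) (𝓝[≠] (z i)) (𝓝 z) := by
    have := ((continuous_const (y := z)).update i continuous_id).tendsto (z i)
    simpa using this.mono_left nhdsWithin_le_nhds
  refine mem_closure_of_tendsto h1 ?_
  by_cases h0 : z i = 0
  · filter_upwards [self_mem_nhdsWithin] with t ht
    simpa [h0] using ht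
  · filter_upwards [mem_nhdsWithin_of_mem_nhds (eventually_ne_nhds h0)] with t ht
    simpa using ht

/-- the descended function is holomorphic outside the hyperplane -/
theorem ana_desc {f : (ι → ℂ) → ℂ} {u : ι → ℂ} {i : ι} {ρ : ℕ} {R : ℝ} (hρ : ρ ≠ 0) (hu : u i = 0)
    (hR : 0 < R) (hR1 : R ≤ 1) (hf : ∀ z ∈ ball u R, AnalyticAt ℂ f z)
    (hi : ∀ z ∈ ball u R, ∀ η : ℂ, η ^ ρ = 1 → f (update z i (η * z i)) = f z) {q : ι → ℂ}
    (hq : q ∈ ball u (R ^ ρ)) (h0 : q i ≠ 0) :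
    AnalyticAt ℂ (fun p => f (update p i (p i ^ (ρ : ℂ)⁻¹))) q := by
  have hsub : ball u (R ^ ρ) ⊆ ball u R := ball_subset_ball (pow_le_of_le_one hR.le hR1 hρ)
  set b : (ι → ℂ) → ℂ := fun p => q i ^ (ρ : ℂ)⁻¹ * (p i / q i) ^ (ρ : ℂ)⁻¹ with hb
  have h1 : ∀ p, b p ^ ρ = p i := fun p => by
    rw [hb, mul_pow, Complex.cpow_nat_inv_pow _ hρ, Complex.cpow_nat_inv_pow _ hρ,
      mul_div_cancel₀ _ h0]
  have h2 : AnalyticAt ℂ b q := analyticAt_const.mul
    (((ana_coord q i).div_const).cpow analyticAt_const (by simp [h0]))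
  have h3 : ∀ p ∈ ball u (R ^ ρ), update p i (b p) ∈ ball u R := fun p hp =>
    update_mem hu (hsub hp) (root_lt hR (h1 p) (coord_lt hu hp))
  refine ((hf _ (h3 q hq)).comp_of_eq (ana_update i h2) rfl).congr ?_
  filter_upwards [isOpen_ball.mem_nhds hq] with p hp
  have := inv_eq hρ (hi _ (h3 p hp)) (a := p i ^ (ρ : ℂ)⁻¹)
    (by rw [update_self, h1, Complex.cpow_nat_inv_pow _ hρ])
  rw [update_idem] at this
  exact this.symm

end Eig

open Eig

theorem stEig : StEig := by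
  intro ι _ _ f u ζ ρ b w hζ hb hf hu he
  obtain ⟨R, M, hR, hR1, h⟩ := exists_ball hf he
  refine ⟨M / R ^ b, ?_⟩
  filter_upwards [ball_mem_nhds u hR] with z hz t ht ht1 hw
  simp only [Rat.cast_natCast, Real.rpow_natCast, id, ne_eq, Nat.cast_eq_zero] at hw ⊢
  have hM : 0 ≤ M := (norm_nonneg _).trans (h z hz).2.1
  rw [div_mul_eq_mul_div, mul_div_assoc, ← div_pow]
  rcases le_or_gt R t with h1 | h1
  · exact (h z hz).2.1.trans (le_mul_of_one_le_right hM (one_le_pow₀ ((one_le_div hR).2 h1)))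
  have ht' : (t : ℂ) ≠ 0 := by exact_mod_cast ht.ne'
  have hm : ∀ s ∈ ball (0 : ℂ) R, (fun l => s ^ w l * (z l / t ^ w l)) ∈ ball u R := fun s hs =>
    curve_mem hR1 hu (fun l hl => by
      simpa [hl, dist_eq_norm] using (dist_le_pi_dist z u l).trans_lt hz) (fun l hl => by
      rw [norm_div, norm_pow, Complex.norm_real, Real.norm_of_nonneg ht.le,
        div_le_one (by positivity)]
      exact hw l hl) hs
  have := schwarz (φ := fun s => f fun l => s ^ w l * (z l / t ^ w l)) (r := R) (M := M)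
    (IsPrimitiveRoot.coe_units_iff.2 hζ) hb
    (fun s hs => ((h _ (hm s hs)).1.differentiableAt.comp s
      (f := fun s : ℂ => fun l => s ^ w l * (z l / t ^ w l)) (by fun_prop)).differentiableWithinAt)
    (fun s hs => (h _ (hm s hs)).2.1) (fun s hs => by
      rw [← (h _ (hm s hs)).2.2]
      congr 1
      funext l
      rw [dg, mul_pow, mul_assoc]) (t := t) (by simpa [abs_of_pos ht] using h1)
  simpa [mul_div_cancel₀ _ (pow_ne_zero _ ht'), abs_of_pos ht] using this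

theorem stDesc : StDesc := by
  intro ι _ _ f u i ρ hρ hu hf hi
  have hfin : {η : ℂ | η ^ ρ = 1}.Finite := (Multiset.finite_toSet (Polynomial.nthRoots ρ 1)).subset
    fun η h => (Polynomial.mem_nthRoots (Nat.pos_of_ne_zero hρ)).2 h
  obtain ⟨R, M, hR, hR1, h⟩ := exists_ball hf (hfin.eventually_all.2 hi)
  have hsub : ball u (R ^ ρ) ⊆ ball u R := ball_subset_ball (pow_le_of_le_one hR.le hR1 hρ)
  obtain ⟨W, hW, huW, -, H, hH, he⟩ := P267.H338.riemann_extension (g := fun p : ι → ℂ => p i)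
    (u := fun p => f (update p i (p i ^ (ρ : ℂ)⁻¹))) (C := M) isOpen_ball
    (mem_ball_self (pow_pos hR ρ)) (by fun_prop) (mem_closure_iff_frequently.1 (dense_ne i u))
    (fun q hq => (ana_desc hρ hu hR hR1 (fun z hz => (h z hz).1) (fun z hz => (h z hz).2.2)
      hq.1 hq.2).differentiableAt.differentiableWithinAt)
    fun q hq _ => (h _ (update_mem hu (hsub hq)
      (root_lt hR (Complex.cpow_nat_inv_pow _ hρ) (coord_lt hu hq)))).2.1
  have hHa := P268.analyticAt_of_differentiableOn hW hH huW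
  have hq := ana_update (q := u) i ((ana_coord u i).fun_pow ρ)
  have hq0 : update u i (u i ^ ρ) = u := by rw [hu, zero_pow hρ, ← hu, update_eq_self]
  refine ⟨H, hHa, ?_⟩
  obtain ⟨s, hs, h1⟩ := Metric.eventually_nhds_iff_ball.1
    (((hHa.comp_of_eq hq hq0).eventually_analyticAt.and (ball_mem_nhds u hR)).and
      (hq.continuousAt.eventually (hq0.symm ▸ hW.mem_nhds huW)))
  filter_upwards [ball_mem_nhds u hs]
  refine EqOn.of_subset_closure (s := ball u s ∩ {z | z i ≠ 0}) (fun z hz => ?_)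
    (fun z hz => (h z (h1 z hz).1.2).1.continuousAt.continuousWithinAt)
    (fun z hz => (h1 z hz).1.1.continuousAt.continuousWithinAt) inter_subset_left
    ((dense_ne i).open_subset_closure_inter isOpen_ball)
  have h2 := he _ (h1 z hz.1).2 (by simpa [hρ] using hz.2)
  simp only [update_self, update_idem] at h2
  rw [h2]
  exact (inv_eq hρ (h z (h1 z hz.1).1.2).2.2 (Complex.cpow_nat_inv_pow _ hρ)).symm

end Vale.Agent.P277Z.Hir.Gl
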