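import Vale.Agent.P277Z.Hir.DDefs
import Vale.Agent.P277Z.Hir.LB

/-!
# P277, resolution, removal of the stabilisers: linear charts
-/

open Filter Topology Set Function

noncomputable section

namespace Vale.Agent.P277Z.Hir.Gl

open L (Le IsCo Ass sl)

set_option linter.unusedSectionVars false

namespace Lin

variable {ι X : Type} [Fintype ι] [DecidableEq ι] {C C' : Ch ι X} {u u' : ι → ℂ}
  {Φ Ψ Φ' : (ι → ℂ) → ι → ℂ}

theorem arr_congr (h : Arr C u C' u' Φ Ψ) (e : Φ =ᶠ[𝓝 u] Φ') : Arr C u C' u' Φ' Ψ where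
  an := h.an.congr e
  an' := h.an'
  val := e.self_of_nhds ▸ h.val
  left := (h.left.and e).mono fun _ a => a.2 ▸ a.1
  right := (h.right.and (h.tendsto'.eventually e)).mono fun _ a => a.2 ▸ a.1
  mem := (h.mem.and e).mono fun _ a => a.2 ▸ a.1
  pi := (h.pi.and e).mono fun _ a => a.2 ▸ a.1
  div j hj := ass_congr (h.div j hj) (e.mono fun _ a => congrArg (C'.s j) a) EventuallyEq.rfl
  cmp := h.cmp.congr (e.mono fun _ a => congrArg C'.nF a) EventuallyEq.rfl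

theorem chr_le (b : Arr C u C' u' Φ Ψ) : Chr C u ≤ Chr C' u' := by
  rintro c ⟨γ, γ', a, h⟩
  refine ⟨_, _, (b.symm.trans a).trans b, h.1, fun j hj => ?_⟩
  obtain ⟨e, e1, e2, e3⟩ := h.2 j hj
  obtain ⟨v, v1, v2, v3⟩ := b.div j hj
  have h1 : AnalyticAt ℂ (fun z => v (γ z) * e z / v z) u :=
    ((AnalyticAt.comp (a.val.symm ▸ v1) a.an).mul e1).div v1 v2
  refine ⟨fun q => v (γ (Ψ q)) * e (Ψ q) / v (Ψ q),
    AnalyticAt.comp (g := fun z => v (γ z) * e z / v z) (b.val'.symm ▸ h1) b.an', ?_, ?_⟩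
  · simp only [b.val', a.val, e2]
    field_simp
  · filter_upwards [b.tendsto'.eventually (a.tendsto.eventually v3), b.tendsto'.eventually v3,
      b.tendsto'.eventually e3, b.tendsto'.eventually (v1.continuousAt.eventually_ne v2), b.right]
      with q h2 h3 h4 h5 h6
    rw [h6] at h3
    rw [comp_apply, comp_apply, h2, h3, h4]
    field_simp

theorem iter {c : ℕ → ℂˣ} (a : Arr C u C u Φ Ψ) (h : Chi C u Φ c) (n : ℕ) :
    ∃ Θ, Arr C u C u Φ^[n] Θ ∧ Chi C u Φ^[n] (c ^ n) := by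
  induction n with
  | zero => exact ⟨id, Arr.refl C u, Chi.id C u⟩
  | succ n ih =>
    obtain ⟨Θ, a', h'⟩ := ih
    exact ⟨_, a.trans a', pow_succ' c n ▸ h.comp a h'⟩

/-- the chart in the new coordinates -/
def pc (C : Ch ι X) (u : ι → ℂ) (x : (ι → ℂ) → ι → ℂ) (V : Set (ι → ℂ)) : Ch ι X where
  U := V
  B := V
  π := C.π ∘ x
  lab l := if u l = 0 then C.lab l else 0
  m := C.m
  F k := C.F k ∘ x

variable {x : (ι → ℂ) → ι → ℂ} {V : Set (ι → ℂ)}

theorem arr_pc (hV : IsOpen V) {z : ι → ℂ} (hz : z ∈ V) :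
    Arr (pc C u x V) z (pc C u x univ) z id id :=
  { Arr.refl (pc C u x univ) z with
    mem := Filter.mem_of_superset (hV.mem_nhds hz) fun _ h => iff_of_true trivial h
    pi := Eventually.of_forall fun _ _ => rfl }

theorem lab_pc {l : ι} {j : ℕ} (hj : j ≠ 0) : (pc C u x V).lab l = j ↔ C.lab l = j ∧ u l = 0 := by
  show (if u l = 0 then C.lab l else 0) = j ↔ _
  split_ifs with h <;> simp [h, hj.symm]

theorem lbl_pc (hl : ∀ l l', C.lab l ≠ 0 → C.lab l' = C.lab l → l' = l) (l l' : ι)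
    (h : (pc C u x V).lab l ≠ 0) (e : (pc C u x V).lab l' = (pc C u x V).lab l) : l' = l := by
  have h1 := ((lab_pc h).1 rfl).1
  exact hl l l' (h1.symm ▸ h) (((lab_pc h).1 e).1.trans h1.symm)

end Lin

open Lin

theorem stLin (hA : StLinA) (hU : StUsc) : StLin := by
  intro ι X _ _ _ β C u ζ ρ m hC hB hu hP hρ hζ hm ⟨γ, γ', a, hχ⟩
  have hU3 := (hU ι X β C u hC hB hu hP).2.2.1
  have h1 : ∀ᶠ z in 𝓝 u, γ^[ρ] z = z := by
    obtain ⟨Θ, a', h'⟩ := iter a hχ ρ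
    have e : gch ζ m ^ ρ = 1 := funext fun j => by
      rw [Pi.pow_apply, gch, ← pow_mul, mul_comm, pow_mul, hζ.pow_eq_one, one_pow, Pi.one_apply]
    exact (hU3 _ _ _ a' h').mono fun z h => h (e ▸ one_mem _)
  obtain ⟨y, w, y1, y2, w1, w2, y3⟩ := hA ι γ u ζ ρ {l | C.lab l ≠ 0 ∧ u l = 0}
    (fun l => m (C.lab l)) hρ hζ a.an a.val h1 fun l hl => ⟨hl.2, hm _, by
      obtain ⟨e, e1, e2, e3⟩ := hχ.2 _ hl.1
      rw [C.s_of_lab hC.lbl hl.1] at e3
      exact ⟨e, e1, e2.trans (Units.val_pow_eq_pow_val _ _), e3⟩⟩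
  obtain ⟨x, x1, -, x2, x3⟩ := y1.exists_inv
  rw [y2] at x1 x3
  have key : ∀ j, j ≠ 0 → (∃ l, C.lab l = j ∧ u l = 0) ∨
      ((∀ l, (pc C u x univ).lab l ≠ j) ∧ C.s j u ≠ 0) := fun j hj =>
    or_iff_not_imp_left.2 fun h => ⟨fun l e => h ⟨l, (lab_pc hj).1 e⟩, mt C.s_eq_zero.1 h⟩
  have b : Arr C u (pc C u x univ) 0 y x :=
    { an := y1.1
      an' := x1.1
      val := y2
      left := x2
      right := x3
      mem := Filter.mem_of_superset (hC.isOpen.mem_nhds hu) fun _ h =>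
        iff_of_true trivial (hB.symm ▸ h)
      pi := x2.mono fun _ h _ => congrArg C.π h
      div := fun j hj => by
        rcases key j hj with ⟨l, rfl, h⟩ | ⟨h, h'⟩
        · have e := (lab_pc (x := x) (V := univ) hj).2 ⟨rfl, h⟩
          rw [C.s_of_lab hC.lbl hj, ← e, Ch.s_of_lab _ (lbl_pc hC.lbl) (e.symm ▸ hj)]
          exact (w2 l ⟨hj, h⟩).2
        · rw [Ch.s_of_not _ h]
          exact ass_of_ne analyticAt_const (C.s_an j u) one_ne_zero h'
      cmp := Cmp.of_eq (x2.mono fun _ h => congrArg C.nF h) }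
  have h2 : ∀ᶠ z in 𝓝 0, y (γ (x z)) = dg ζ w z :=
    ((b.tendsto'.eventually y3).and x3).mono fun z h => by rw [h.1, h.2]
  have d := arr_congr ((b.symm.trans a).trans b) h2
  obtain ⟨r, hr, H⟩ := Metric.eventually_nhds_iff_ball.1 (d.ev.and (b.symm.ev.and
    ((b.tendsto'.eventually (hC.isOpen.mem_nhds hu)).and
    ((b.tendsto'.eventually (hU3 _ _ _ a hχ)).and (h2.and x3)))))
  have c : ∀ z ∈ Metric.ball (0 : ι → ℂ) r, Arr (pc C u x (Metric.ball 0 r)) z C (x z) x y :=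
    fun z hz => (arr_pc Metric.isOpen_ball hz).trans (H z hz).2.1
  refine ⟨pc C u x (Metric.ball 0 r), x, w, ⟨Metric.isOpen_ball, subset_rfl, lbl_pc hC.lbl,
    fun k z hz => (hC.anF k _ (H z hz).2.2.1).comp (c z hz).an,
    fun z hz => ⟨(H z hz).2.2.1, y, c z hz⟩⟩, ⟨0, Metric.mem_ball_self hr, b.val'⟩, w1,
    fun j hj => ?_, fun z hz => ?_, fun z hz hg l hl => ?_⟩
  · rcases key j hj with ⟨l, rfl, h⟩ | ⟨h, h'⟩
    · rw [Finset.sum_eq_single_of_mem l (Finset.mem_filter.2 ⟨Finset.mem_univ _,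
        (lab_pc hj).2 ⟨rfl, h⟩⟩) fun l' h1 h2 =>
        absurd (hC.lbl l l' hj ((lab_pc hj).1 (Finset.mem_filter.1 h1).2).1) h2]
      exact (w2 l ⟨hj, h⟩).1
    · refine (Finset.sum_eq_zero fun l hl => absurd (Finset.mem_filter.1 hl).2 (h l)).trans ?_
      obtain ⟨e, -, e2, e3⟩ := hχ.2 j hj
      have e4 := e3.self_of_nhds
      rw [a.val, e2, eq_comm, mul_left_eq_self₀, or_iff_left h', Units.val_eq_one] at e4
      exact (by_contra fun h0 => hζ.pow_ne_one_of_pos_of_lt h0 (hm j) e4 : m j = 0).symm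
  · have h3 : dg ζ w z ∈ Metric.ball (0 : ι → ℂ) r := by
      have h4 : ‖(ζ : ℂ)‖ = 1 := Complex.norm_eq_one_of_pow_eq_one
        ((Units.val_pow_eq_pow_val _ _).symm.trans (congrArg Units.val hζ.pow_eq_one)) hρ
      rw [mem_ball_zero_iff, pi_norm_lt_iff hr]
      intro l
      rw [dg, norm_mul, norm_pow, h4, one_pow, one_mul]
      exact (pi_norm_lt_iff hr).1 (mem_ball_zero_iff.1 hz) l
    exact ⟨h3, _, ((arr_pc Metric.isOpen_ball hz).trans (H z hz).1).trans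
      (arr_pc Metric.isOpen_ball h3).symm⟩
  · obtain ⟨-, -, -, h3, h4, h5⟩ := H z hz
    rw [h3 (chr_le (c z hz) hg), h5] at h4
    have h6 := congrFun h4 l
    rw [dg, eq_comm, mul_left_eq_self₀, ← Units.val_pow_eq_pow_val, Units.val_eq_one] at h6
    exact h6.resolve_left (hζ.pow_ne_one_of_pos_of_lt hl (w1 l))

end Vale.Agent.P277Z.Hir.Gl
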