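import Vale.Agent.P277Z.Hir.DDefs

/-!
# P277, resolution, removal of the stabilisers: linearisation of a map of finite order
-/

open Filter Topology Set Function Module Polynomial

noncomputable section

namespace Vale.Agent.P277Z.Hir.Gl

open L (Le IsCo Ass sl)

namespace LinA

variable {ι : Type} [Fintype ι]

/-- a basis of eigenvectors which contains given eigenvectors -/
theorem eig {V : Type} [AddCommGroup V] [Module ℂ V] [FiniteDimensional ℂ V]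
    (hd : finrank ℂ V = Fintype.card ι) (T : End ℂ V) {ρ : ℕ} (hρ : ρ ≠ 0) (hT : T ^ ρ = 1)
    {ζ : ℂ} (hζ : IsPrimitiveRoot ζ ρ) (v : ι → V) (hv : LinearIndependent ℂ v) (S : Set ι)
    (a : ι → ℕ) (ha : ∀ l ∈ S, a l < ρ ∧ T (v l) = ζ ^ a l • v l) :
    ∃ (L : ι → V) (w : ι → ℕ), Submodule.span ℂ (range L) = ⊤ ∧
      (∀ l, w l < ρ ∧ T (L l) = ζ ^ w l • L l) ∧ ∀ l ∈ S, L l = v l ∧ w l = a l := by
  classical
  have : NeZero ρ := ⟨hρ⟩
  set t : Set V := {x | ∃ k < ρ, T x = ζ ^ k • x} with ht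
  have hss : T.IsSemisimple := End.isSemisimple_of_squarefree_aeval_eq_zero
    (separable_X_pow_sub_C (1 : ℂ) (Nat.cast_ne_zero.2 hρ) one_ne_zero).squarefree
    (by simp [hT])
  have hsp : Submodule.span ℂ t = ⊤ := by
    rw [eq_top_iff, ← hss.iSup_eigenspace_eq_top]
    refine iSup_le fun μ x hx => ?_
    by_cases h0 : x = 0
    · rw [h0]; exact Submodule.zero_mem _
    have h1 : (T ^ ρ) x = μ ^ ρ • x := (End.HasEigenvector.pow_apply ⟨hx, h0⟩ ρ)
    rw [hT, End.one_apply] at h1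
    have h2 : μ ^ ρ = 1 := by
      have h3 : (μ ^ ρ - 1) • x = 0 := by rw [sub_smul, ← h1, one_smul, sub_self]
      exact sub_eq_zero.1 ((smul_eq_zero.1 h3).resolve_right h0)
    obtain ⟨k, hk, rfl⟩ := hζ.eq_pow_of_pow_eq_one h2
    exact Submodule.subset_span ⟨k, hk, End.mem_eigenspace_iff.1 hx⟩
  obtain ⟨b, hbt, hsb, hb1, hb2⟩ := exists_linearIndepOn_id_extension (K := ℂ) (s := v '' S)
    (t := t) ((hv.linearIndepOn S).id_image) (by
      rintro _ ⟨l, hl, rfl⟩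
      exact ⟨a l, ha l hl⟩)
  have hb3 : Submodule.span ℂ b = ⊤ := by
    rw [eq_top_iff, ← hsp]
    exact Submodule.span_le.2 hb1
  have hbf : Finite b := hb2.finite
  have := Fintype.ofFinite b
  let B : Basis b ℂ V := Basis.mk hb2 (by simp [hb3])
  have hc : Fintype.card ι = Fintype.card b := by rw [← hd, finrank_eq_card_basis B]
  obtain ⟨g, hg⟩ := Cardinal.extend_function_finite (s := S) (β := b)
    ⟨fun l => ⟨v l, hsb ⟨l, l.2, rfl⟩⟩, fun l l' h =>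
      Subtype.ext (hv.injective (congrArg Subtype.val h))⟩ ⟨Fintype.equivOfCardEq hc⟩
  have hg' : ∀ l ∈ S, (g l : V) = v l := fun l hl => congrArg Subtype.val (hg ⟨l, hl⟩)
  choose k hk1 hk2 using fun l => hbt (g l).2
  refine ⟨fun l => g l, fun l => if l ∈ S then a l else k l, ?_, fun l => ?_, fun l hl => ?_⟩
  · rw [← hb3]
    congr 1
    ext x
    exact ⟨fun ⟨l, h⟩ => h ▸ (g l).2, fun h => ⟨g.symm ⟨x, h⟩, by simp⟩⟩
  · by_cases hl : l ∈ S
    · simp only [if_pos hl, hg' l hl]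
      exact ha l hl
    · simp only [if_neg hl]
      exact ⟨hk1 l, hk2 l⟩
  · exact ⟨hg' l hl, if_pos hl⟩

/-- the same for linear forms -/
theorem forms [DecidableEq ι] (D : (ι → ℂ) →L[ℂ] ι → ℂ) {ρ : ℕ} (hρ : ρ ≠ 0) (hD : D ^ ρ = 1)
    {ζ : ℂ} (hζ : IsPrimitiveRoot ζ ρ) (S : Set ι) (a : ι → ℕ)
    (ha : ∀ l ∈ S, a l < ρ ∧ ∀ x, D x l = ζ ^ a l * x l) :
    ∃ (L : ι → (ι → ℂ) →L[ℂ] ℂ) (w : ι → ℕ), (∀ x, (∀ l, L l x = 0) → x = 0) ∧
      (∀ l, w l < ρ ∧ ∀ x, L l (D x) = ζ ^ w l * L l x) ∧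
      ∀ l ∈ S, (∀ x, L l x = x l) ∧ w l = a l := by
  set T : End ℂ (Dual ℂ (ι → ℂ)) := (D : (ι → ℂ) →ₗ[ℂ] ι → ℂ).dualMap with hT
  have h1 : ∀ (k : ℕ) (φ : Dual ℂ (ι → ℂ)) x, (T ^ k) φ x = φ ((D ^ k) x) := by
    intro k
    induction k with
    | zero => intro φ x; rfl
    | succ k ih =>
      intro φ x
      rw [pow_succ, pow_succ', End.mul_apply, ih]
      rfl
  obtain ⟨L, w, h2, h3, h4⟩ := eig (ι := ι) (by simp) T hρ (by
    refine LinearMap.ext fun φ => LinearMap.ext fun x => ?_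
    rw [h1, hD]
    rfl) hζ (fun l => LinearMap.proj l) (by
      rw [Fintype.linearIndependent_iff]
      intro c hc l
      simpa [Pi.single_apply] using congrArg (fun φ : Dual ℂ (ι → ℂ) => φ (Pi.single l 1)) hc)
    S a fun l hl => ⟨(ha l hl).1, LinearMap.ext fun x => (ha l hl).2 x⟩
  refine ⟨fun l => (L l).toContinuousLinearMap, w, fun x hx => funext fun l => ?_,
    fun l => ⟨(h3 l).1, fun x => congrArg (fun φ : Dual ℂ (ι → ℂ) => φ x) (h3 l).2⟩,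
    fun l hl => ⟨fun x => congrArg (fun φ : Dual ℂ (ι → ℂ) => φ x) (h4 l hl).1, (h4 l hl).2⟩⟩
  have h5 : Submodule.span ℂ (range L) ≤ LinearMap.ker (Dual.eval ℂ (ι → ℂ) x) :=
    Submodule.span_le.2 (by
      rintro _ ⟨l, rfl⟩
      exact hx l)
  exact h5 (h2 ▸ Submodule.mem_top : (LinearMap.proj l : Dual ℂ (ι → ℂ)) ∈ _)

theorem iter {γ : (ι → ℂ) → ι → ℂ} {u : ι → ℂ} (h : AnalyticAt ℂ γ u) (hu : γ u = u) (k : ℕ) :
    AnalyticAt ℂ γ^[k] u := by
  induction k with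
  | zero => exact analyticAt_id
  | succ k ih => exact ih.comp_of_eq h hu

theorem iter_unit {γ : (ι → ℂ) → ι → ℂ} {u : ι → ℂ} (h : AnalyticAt ℂ γ u) (hu : γ u = u) {l : ι}
    {e : (ι → ℂ) → ℂ} (he : AnalyticAt ℂ e u) (hl : ∀ᶠ z in 𝓝 u, γ z l = e z * z l) (k : ℕ) :
    ∃ e' : (ι → ℂ) → ℂ, AnalyticAt ℂ e' u ∧ e' u = e u ^ k ∧
      ∀ᶠ z in 𝓝 u, γ^[k] z l = e' z * z l := by
  induction k with
  | zero => exact ⟨fun _ => 1, analyticAt_const, by simp, .of_forall fun z => by simp⟩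
  | succ k ih =>
    obtain ⟨e', h1, h2, h3⟩ := ih
    have h4 : Tendsto γ (𝓝 u) (𝓝 u) := by simpa only [ContinuousAt, hu] using h.continuousAt
    refine ⟨fun z => e' (γ z) * e z, (h1.comp_of_eq h hu).mul he, by simp [hu, h2, pow_succ], ?_⟩
    filter_upwards [hl, h4.eventually h3] with z h5 h6
    rw [iterate_succ_apply, h6, h5, mul_assoc]

theorem avg {c : ℂ} (hc : c ≠ 0) {ρ : ℕ} (hρ : ρ ≠ 0) (x : ℂ) :
    (ρ : ℂ)⁻¹ * ∑ k ∈ Finset.range ρ, c⁻¹ ^ k * (c ^ k * x) = x := by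
  have h : ∀ k ∈ Finset.range ρ, c⁻¹ ^ k * (c ^ k * x) = x := fun k _ => by
    rw [← mul_assoc, ← mul_pow, inv_mul_cancel₀ hc, one_pow, one_mul]
  rw [Finset.sum_congr rfl h, Finset.sum_const, Finset.card_range, nsmul_eq_mul, ← mul_assoc,
    inv_mul_cancel₀ (Nat.cast_ne_zero.2 hρ), one_mul]

end LinA

open LinA in
theorem stLinA : StLinA := by
  intro ι _ _ γ u ζ ρ S a hρ hζ hγ hu hord hS
  have hζ' : IsPrimitiveRoot (ζ : ℂ) ρ := IsPrimitiveRoot.coe_units_iff.2 hζ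
  set D := fderiv ℂ γ u with hD
  have hD1 : HasFDerivAt γ D u := hγ.differentiableAt.hasFDerivAt
  have hD2 : D ^ ρ = 1 :=
    (hD1.iterate hu ρ).unique ((hasFDerivAt_id u).congr_of_eventuallyEq hord)
  obtain ⟨L, w, h1, h2, h3⟩ := forms D hρ hD2 hζ' S a fun l hl => by
    obtain ⟨h0, h1, e, h2, h3, h4⟩ := hS l hl
    refine ⟨h1, fun x => ?_⟩
    have h5 := (hasFDerivAt_pi'.1 hD1 l).unique ((h2.differentiableAt.hasFDerivAt.mul
      (hasFDerivAt_apply (𝕜 := ℂ) l u)).congr_of_eventuallyEq h4)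
    simpa [h0, h3] using congrArg (fun φ : (ι → ℂ) →L[ℂ] ℂ => φ x) h5
  have hc : ∀ l, (ζ : ℂ) ^ w l ≠ 0 := fun l => pow_ne_zero _ ζ.ne_zero
  have h4 : ∀ l k x, L l ((D ^ k) x) = ((ζ : ℂ) ^ w l) ^ k * L l x := by
    intro l k x
    induction k with
    | zero => simp
    | succ k ih => rw [pow_succ', mul_apply_eq_comp, (h2 l).2, ih]; ring
  set y : (ι → ℂ) → ι → ℂ := fun z l =>
    (ρ : ℂ)⁻¹ * ∑ k ∈ Finset.range ρ, ((ζ : ℂ) ^ w l)⁻¹ ^ k * L l (γ^[k] z - u) with hy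
  have hya : AnalyticAt ℂ y u := AnalyticAt.pi fun l => analyticAt_const.mul
    (Finset.analyticAt_fun_sum _ fun k _ => analyticAt_const.mul
      (((L l).analyticAt _).comp ((iter hγ hu k).sub analyticAt_const)))
  have hyd : HasFDerivAt y (ContinuousLinearMap.pi L) u := by
    refine hasFDerivAt_pi.2 fun l => ?_
    have h5 := (HasFDerivAt.fun_sum (u := Finset.range ρ) fun k _ => ((L l).hasFDerivAt.comp u
      ((hD1.iterate hu k).sub_const u)).const_mul (((ζ : ℂ) ^ w l)⁻¹ ^ k)).const_mul (ρ : ℂ)⁻¹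
    refine h5.congr_fderiv (ContinuousLinearMap.ext fun x => ?_)
    simp only [smul_apply, sum_apply, ContinuousLinearMap.comp_apply, h4, smul_eq_mul]
    exact avg (hc l) hρ _
  refine ⟨y, w, ⟨hya, ?_⟩, funext fun l => ?_, fun l => (h2 l).1, fun l hl => ⟨(h3 l hl).2, ?_⟩, ?_⟩
  · rw [hyd.fderiv]
    have h5 : Injective (ContinuousLinearMap.pi L) :=
      (injective_iff_map_eq_zero _).2 fun x hx => h1 x (congrFun hx)
    exact ⟨h5, LinearMap.injective_iff_surjective (f := (ContinuousLinearMap.pi L :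
      (ι → ℂ) →ₗ[ℂ] ι → ℂ)).1 h5⟩
  · simp [hy, iterate_fixed hu]
  · obtain ⟨h0, -, e, h5, h6, h7⟩ := hS l hl
    choose e' h8 h9 h10 using iter_unit hγ hu h5 h7
    refine ⟨fun z => (ρ : ℂ)⁻¹ * ∑ k ∈ Finset.range ρ, ((ζ : ℂ) ^ w l)⁻¹ ^ k * e' k z,
      analyticAt_const.mul (Finset.analyticAt_fun_sum _ fun k _ => analyticAt_const.mul (h8 k)),
      ?_, ?_⟩
    · have h11 := avg (hc l) hρ 1
      simp only [mul_one] at h11
      simp only [h9, h6, ← (h3 l hl).2, h11]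
      exact one_ne_zero
    · filter_upwards [(Finset.range ρ).eventually_all.2 fun k _ => h10 k] with z hz
      simp only [hy, mul_assoc, Finset.sum_mul]
      congr 1
      refine Finset.sum_congr rfl fun k hk => ?_
      rw [(h3 l hl).1, Pi.sub_apply, h0, sub_zero, hz k hk]
  · filter_upwards [hord] with z hz
    funext l
    set f : ℕ → ℂ := fun k => ((ζ : ℂ) ^ w l)⁻¹ ^ k * L l (γ^[k] z - u) with hf
    have h5 : f ρ = f 0 := by
      have h8 : ((ζ : ℂ) ^ w l) ^ ρ = 1 := by rw [pow_right_comm, hζ'.pow_eq_one, one_pow]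
      simp [hf, hz, h8]
    have h6 : ∑ k ∈ Finset.range ρ, f (k + 1) = ∑ k ∈ Finset.range ρ, f k := by
      have h7 := Finset.sum_range_succ' f ρ
      rw [Finset.sum_range_succ, h5] at h7
      exact (add_right_cancel h7).symm
    change (ρ : ℂ)⁻¹ * _ = (ζ : ℂ) ^ w l * ((ρ : ℂ)⁻¹ * ∑ k ∈ Finset.range ρ, f k)
    rw [← h6, mul_left_comm, Finset.mul_sum (a := (ζ : ℂ) ^ w l)]
    congr 1
    refine Finset.sum_congr rfl fun k _ => ?_
    simp only [hf, iterate_succ_apply]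
    rw [pow_succ', mul_assoc, ← mul_assoc, mul_inv_cancel₀ (hc l), one_mul]

end Vale.Agent.P277Z.Hir.Gl
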