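import Vale.Agent.P277Z.Hir.DDefs
import Vale.Agent.P277Z.Hir.BBl

/-!
# P277, resolution, removal of the stabilisers: the orders of the stabilisers
-/

open Filter Topology Set Function

noncomputable section

namespace Vale.Agent.P277Z.Hir.Gl

open L (Le IsCo Ass sl)

namespace DOr

theorem card_split {H K : Type} [Group H] [Group K] (f : H →* K) :
    Nat.card H = Nat.card f.range * Nat.card f.ker := by
  rw [Subgroup.card_eq_card_quotient_mul_card_subgroup f.ker,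
    Nat.card_congr (QuotientGroup.quotientKerEquivRange f).toEquiv]

variable {ι X : Type} [Fintype ι] [DecidableEq ι]

omit [DecidableEq ι] in
theorem chi_ex {C : Ch ι X} {u : ι → ℂ} {Φ Ψ : (ι → ℂ) → ι → ℂ} (a : Arr C u C u Φ Ψ) :
    ∃ c, Chi C u Φ c := by
  choose e h1 h2 h3 using a.div
  refine ⟨fun j => if h : j = 0 then 1 else Units.mk0 (e j h u) (h2 j h), dif_pos rfl,
    fun j hj => ⟨e j hj, h1 j hj, by simp [hj], h3 j hj⟩⟩

theorem chi_one {C : Ch ι X} {u : ι → ℂ} {Φ : (ι → ℂ) → ι → ℂ} {c : ℕ → ℂˣ} (h : Chi C u Φ c)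
    {j : ℕ} (hj : j ≠ 0) (hl : ∀ l, C.lab l ≠ j) : c j = 1 := by
  obtain ⟨e, -, h2, h3⟩ := h.2 j hj
  have h4 := h3.self_of_nhds
  rw [C.s_of_not hl, mul_one, h2] at h4
  exact Units.ext h4.symm

variable [TopologicalSpace X] {β : Base X}

omit [DecidableEq ι] in
theorem mtch {C : Ch ι X} {u : ι → ℂ} (hP : Prp β C u C u) {T : Type} {l : Filter T} [l.NeBot]
    {x y : T → ι → ℂ} (hx : Tendsto x l (𝓝 u)) (hy : Tendsto y l (𝓝 u))
    (h : ∀ᶠ t in l, x t ∈ C.B ∧ y t ∈ C.B ∧ C.π (x t) ∉ β.Z ∧ C.π (y t) = C.π (x t)) :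
    ∃ Φ Ψ c, Arr C u C u Φ Ψ ∧ Chi C u Φ c ∧ ∃ᶠ t in l, Φ (x t) = y t := by
  obtain ⟨n, Φ, Ψ, ha, hp⟩ := hP
  have h1 : ∀ᶠ t in l, ∃ k, Φ k (x t) = y t := by
    filter_upwards [(hx.prodMk_nhds hy).eventually hp, h] with t h1 h2
      using h1 h2.1 h2.2.1 h2.2.2.1 h2.2.2.2
  obtain ⟨k, hk⟩ : ∃ k, ∃ᶠ t in l, Φ k (x t) = y t := by
    by_contra hn
    simp only [not_exists, not_frequently] at hn
    obtain ⟨t, ⟨k, h2⟩, h3⟩ := (h1.and (eventually_all.2 hn)).exists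
    exact h3 k h2
  obtain ⟨c, hc⟩ := chi_ex (ha k)
  exact ⟨_, _, c, ha k, hc, hk⟩

theorem s_ne {C : Ch ι X} (hC : C.Ok β) {p : ι → ℂ} (hp : p ∈ {z ∈ C.B | C.π z ∉ β.Z}) {j : ℕ}
    (hj : j ≠ 0) : C.s j p ≠ 0 := fun h => hp.2 (hC.unt p hp.1 (C.mem_E.2 ⟨j, hj, h⟩))

/-- the map of characters for the blow-up -/
def phi (N : ℕ) (m : ℕ → ℕ) : (ℕ → ℂˣ) →* ℕ → ℂˣ where
  toFun c j := if j = 0 ∨ j = N then 1 else c N ^ m j * c j
  map_one' := by
    funext j
    simp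
  map_mul' c c' := by
    funext j
    simp only [Pi.mul_apply]
    split_ifs
    · exact (mul_one _).symm
    · rw [mul_pow, mul_mul_mul_comm]

/-- the map of characters for the quotient -/
def psi (N ρ : ℕ) : (ℕ → ℂˣ) →* ℕ → ℂˣ where
  toFun c j := if j = N then c N ^ ρ else c j
  map_one' := by
    funext j
    simp
  map_mul' c c' := by
    funext j
    simp only [Pi.mul_apply]
    split_ifs
    · rw [mul_pow]
    · rfl

omit [DecidableEq ι] [TopologicalSpace X] in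
theorem s_qm (C : Ch ι X) (N ρ j : ℕ) (p : ι → ℂ) :
    (C.root N ρ).s j (C.qm N ρ p) = if j = N then C.s j p ^ ρ else C.s j p := by
  split_ifs with h
  · rw [Ch.s, Ch.s, ← Finset.prod_pow]
    exact Finset.prod_congr rfl fun l hl => if_pos ((Finset.mem_filter.1 hl).2.trans h)
  · exact Finset.prod_congr rfl fun l hl =>
      if_neg fun e => h ((Finset.mem_filter.1 hl).2.symm.trans e)

end DOr

open DOr

/-- **ORDB** -/
theorem stOrdB (hU : StUsc) : StOrdB := by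
  intro ι X _ _ _ β A W hA hF a i hi z hz hz0
  set C' := W.bl.C ⟨(a, some i), hi⟩
  set C := A.C a
  set w := W.w a
  have hi' : w i ≠ 0 := hi
  have hC' : C'.Ok β := stBlC stSig ι X β A W hA _
  have hB' : C'.B = C'.U := (stBlK ι X β A W hA).2.2 hF _
  have hB : C.B = C.U := hF a
  have hu : sl w i z ∈ C.U := hz
  have hP : Prp β C (sl w i z) C (sl w i z) := hA.prp a a _ (hB ▸ hu) _ (hB ▸ hu)
  obtain ⟨hfin, -, hfix, -⟩ := hU ι X β C _ (hA.ch a) hB hu hP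
  have hnb : (𝓝[{p ∈ C'.B | C'.π p ∉ β.Z}] z).NeBot :=
    mem_closure_iff_nhdsWithin_neBot.1 (hC'.dense z (hB' ▸ hz))
  have tsl : Tendsto (sl w i) (𝓝 z) (𝓝 (sl w i z)) := (LiftB.cont_sl w i).continuousAt
  have hN : ∀ p, C'.s W.N p = p i := LiftB.s_new C w i _ (W.new a)
  have hO : ∀ j, j ≠ 0 → j ≠ W.N → ∀ p, C.s j (sl w i p) = p i ^ W.m j * C'.s j p :=
    fun j h0 hj p => by
      rw [← W.hm a (fun e => hi' (congrFun e i)) j h0]
      exact LiftB.s_old C w i _ hj p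
  have key : ∀ c ∈ Chr C' z, phi W.N W.m c ∈ Chr C (sl w i z) ∧
      (phi W.N W.m c = 1 → c W.N ^ w i = 1) := by
    rintro c ⟨Θ, Θ', ar, hc⟩
    obtain ⟨Φ, Ψ, c', ar', hc', hf⟩ := mtch hP (l := 𝓝[{p ∈ C'.B | C'.π p ∉ β.Z}] z)
      (x := sl w i) (y := fun p => sl w i (Θ p)) (tsl.mono_left nhdsWithin_le_nhds)
      ((tsl.comp ar.tendsto).mono_left nhdsWithin_le_nhds) (by
        filter_upwards [self_mem_nhdsWithin, nhdsWithin_le_nhds ar.mem, nhdsWithin_le_nhds ar.pi]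
          with p h1 h2 h3
        exact ⟨hB ▸ (hC'.sub h1.1 :), hB ▸ (hC'.sub (h2.2 h1.1) :), h1.2, h3 h1.1⟩)
    obtain ⟨eN, a1, a2, a3⟩ := hc.2 W.N W.pos
    have e : phi W.N W.m c = c' := by
      funext j
      change (if j = 0 ∨ j = W.N then 1 else c W.N ^ W.m j * c j) = c' j
      split_ifs with hj
      · rcases hj with rfl | rfl
        · exact hc'.1.symm
        · exact (chi_one hc' W.pos (W.new a)).symm
      · obtain ⟨h0, hj⟩ := not_or.1 hj
        obtain ⟨e1, b1, b2, b3⟩ := hc.2 j h0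
        obtain ⟨e2, d1, d2, d3⟩ := hc'.2 j h0
        refine Units.ext ?_
        rw [Units.val_mul, Units.val_pow_eq_pow_val, ← a2, ← b2, ← d2]
        refine tendsto_nhds_unique_of_frequently_eq
          (((a1.continuousAt.pow _).mul b1.continuousAt).tendsto.mono_left nhdsWithin_le_nhds)
          ((d1.continuousAt.tendsto.comp tsl).mono_left nhdsWithin_le_nhds) (hf.mp ?_)
        filter_upwards [self_mem_nhdsWithin, nhdsWithin_le_nhds a3, nhdsWithin_le_nhds b3,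
          nhdsWithin_le_nhds (tsl.eventually d3)] with p h1 h2 h3 h4 h5
        rw [h5, hO j h0 hj, hO j h0 hj, ← hN (Θ p), ← hN p, h2, h3] at h4
        refine mul_right_cancel₀ (mul_ne_zero (pow_ne_zero (W.m j) (s_ne hC' h1 W.pos))
          (s_ne hC' h1 h0)) ?_
        simp only [Pi.mul_apply, Pi.pow_apply, comp_apply]
        rw [← h4]
        ring
    refine ⟨e ▸ ⟨Φ, Ψ, ar', hc'⟩, fun h1 => Units.ext ?_⟩
    have h2 := hfix Φ Ψ c' ar' hc'
    rw [Units.val_pow_eq_pow_val, ← a2, Units.val_one]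
    refine tendsto_nhds_unique_of_frequently_eq
      ((a1.continuousAt.pow _).tendsto.mono_left nhdsWithin_le_nhds) tendsto_const_nhds (hf.mp ?_)
    filter_upwards [self_mem_nhdsWithin, nhdsWithin_le_nhds a3,
      nhdsWithin_le_nhds (tsl.eventually h2)] with p k1 k2 k3 k4
    have k5 := congrFun ((k3 (by rw [← e, h1]; exact one_mem _)).symm.trans k4) i
    simp only [sl, if_true] at k5
    rw [← hN (Θ p), ← hN p, k2, mul_pow] at k5
    refine mul_right_cancel₀ (pow_ne_zero (w i) (s_ne hC' k1 W.pos)) ?_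
    simp only [Pi.pow_apply]
    rw [← k5, one_mul]
  let f := (phi W.N W.m).comp (Chr C' z).subtype
  have : NeZero (w i) := ⟨hi'⟩
  rw [card_split f, mul_comm]
  refine Nat.mul_le_mul (le_trans ?_ (card_rootsOfUnity ℂ (w i))) ?_
  · refine Nat.card_le_card_of_injective (fun c : f.ker => (⟨c.1.1 W.N,
      (mem_rootsOfUnity _ _).2 ((key _ c.1.2).2 c.2)⟩ : rootsOfUnity (w i) ℂ)) fun c c' h => ?_
    have h1 : c.1.1 W.N = c'.1.1 W.N := congrArg Subtype.val h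
    refine Subtype.ext (Subtype.ext (funext fun j => ?_))
    by_cases hj : j = 0 ∨ j = W.N
    · rcases hj with rfl | rfl
      · obtain ⟨_, _, -, k1⟩ := c.1.2
        obtain ⟨_, _, -, k2⟩ := c'.1.2
        rw [k1.1, k2.1]
      · exact h1
    · have h2 : phi W.N W.m c.1.1 j = phi W.N W.m c'.1.1 j :=
        congrFun (c.2.trans c'.2.symm :) j
      have h3 : c.1.1 W.N ^ W.m j * c.1.1 j = c'.1.1 W.N ^ W.m j * c'.1.1 j :=
        (if_neg hj).symm.trans (h2.trans (if_neg hj))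
      rw [h1] at h3
      exact mul_left_cancel h3
  · refine Subgroup.card_le_of_le ?_
    rintro _ ⟨c, rfl⟩
    exact (key _ c.2).1

/-- **ORDR** -/
theorem stOrdR (hU : StUsc) (hA : StRootA) : StOrdR := by
  intro ι X _ _ _ β C N ρ hC hB hun hN hρ hS z hz hP hz0
  obtain ⟨-, r1, r2, r3, -, r4⟩ := hA ι X β C N ρ hC hB hun hN hρ hS
  obtain ⟨hfin, -⟩ := hU ι X β C z hC hB hz hP
  have hnb : (𝓝[{p ∈ C.B | C.π p ∉ β.Z}] z).NeBot :=
    mem_closure_iff_nhdsWithin_neBot.1 (hC.dense z (hB ▸ hz))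
  have tq : Tendsto (C.qm N ρ) (𝓝 z) (𝓝 (C.qm N ρ z)) := (r2 z).le
  have hzl : ∀ l, C.lab l = N → z l = 0 := fun l hl => by
    obtain ⟨l', h1, h2⟩ := C.s_eq_zero.1 hz0
    rw [hC.lbl l' l (h1 ▸ hN) (hl.trans h1.symm), h2]
  have tr : Tendsto (C.rt N ρ) (𝓝 (C.qm N ρ z)) (𝓝 z) := by
    refine tendsto_pi_nhds.2 fun l => ?_
    have h1 : Tendsto (fun p : ι → ℂ => p l) (𝓝 (C.qm N ρ z)) (𝓝 (C.qm N ρ z l)) :=
      (continuous_apply l).continuousAt
    by_cases hl : C.lab l = N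
    · simp only [Ch.rt, Ch.qm, if_pos hl, hzl l hl, zero_pow hρ] at h1 ⊢
      have h2 := (Complex.continuousAt_cpow_const_of_re_pos (z := 0) (w := (ρ : ℂ)⁻¹)
        (Or.inl le_rfl) (by simpa using Nat.pos_of_ne_zero hρ)).tendsto
      rw [Complex.zero_cpow (inv_ne_zero (Nat.cast_ne_zero.2 hρ))] at h2
      exact h2.comp h1
    · simp only [Ch.rt, Ch.qm, if_neg hl] at h1 ⊢
      exact h1
  let f := (psi N ρ).comp (Chr C z).subtype
  have key : Chr (C.root N ρ) (C.qm N ρ z) ≤ f.range := by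
    rintro c ⟨Θ, Θ', ar, hc⟩
    have ty : Tendsto (fun p => C.rt N ρ (Θ (C.qm N ρ p))) (𝓝 z) (𝓝 z) :=
      tr.comp (ar.tendsto.comp tq)
    obtain ⟨Φ, Ψ, c', ar', hc', hf⟩ := mtch hP (l := 𝓝[{p ∈ C.B | C.π p ∉ β.Z}] z)
      (x := id) (y := fun p => C.rt N ρ (Θ (C.qm N ρ p))) nhdsWithin_le_nhds
      (ty.mono_left nhdsWithin_le_nhds) (by
        filter_upwards [self_mem_nhdsWithin, nhdsWithin_le_nhds (tq.eventually ar.pi),
          nhdsWithin_le_nhds (ty.eventually (hC.isOpen.mem_nhds hz))] with p h1 h2 h3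
        have h4 := r3 p (hC.sub h1.1)
        exact ⟨h1.1, hB ▸ h3, h1.2, (h2 h4.1).trans h4.2⟩)
    refine ⟨⟨c', Φ, Ψ, ar', hc'⟩, funext fun j => ?_⟩
    change (if j = N then c' N ^ ρ else c' j) = c j
    by_cases h0 : j = 0
    · rw [if_neg (h0 ▸ hN.symm), h0, hc.1, hc'.1]
    obtain ⟨e1, b1, b2, b3⟩ := hc.2 j h0
    obtain ⟨e2, d1, d2, d3⟩ := hc'.2 j h0
    have t1 : Tendsto (fun p => e1 (C.qm N ρ p)) (𝓝[{p ∈ C.B | C.π p ∉ β.Z}] z) (𝓝 (c j : ℂ)) :=
      b2 ▸ (b1.continuousAt.tendsto.comp tq).mono_left nhdsWithin_le_nhds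
    have t2 : Tendsto e2 (𝓝[{p ∈ C.B | C.π p ∉ β.Z}] z) (𝓝 (c' j : ℂ)) :=
      d2 ▸ d1.continuousAt.tendsto.mono_left nhdsWithin_le_nhds
    have hf' : ∃ᶠ p in 𝓝[{p ∈ C.B | C.π p ∉ β.Z}] z, C.s j p ≠ 0 ∧
        (if j = N then (e2 p * C.s j p) ^ ρ else e2 p * C.s j p) =
          e1 (C.qm N ρ p) * if j = N then C.s j p ^ ρ else C.s j p := by
      refine hf.mp ?_
      filter_upwards [self_mem_nhdsWithin, nhdsWithin_le_nhds (tq.eventually b3),
        nhdsWithin_le_nhds d3] with p h1 h2 h3 h4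
      refine ⟨s_ne hC h1 h0, ?_⟩
      rw [← h3, ← s_qm, ← s_qm, ← h2, show Φ p = _ from h4, r1]
    refine Units.ext ?_
    split_ifs at hf' ⊢ with hj
    · rw [Units.val_pow_eq_pow_val, ← hj]
      refine tendsto_nhds_unique_of_frequently_eq (t2.pow ρ) t1 (hf'.mono fun p h => ?_)
      exact mul_right_cancel₀ (pow_ne_zero ρ h.1) ((mul_pow _ _ _).symm.trans h.2)
    · exact tendsto_nhds_unique_of_frequently_eq t2 t1
        (hf'.mono fun p h => mul_right_cancel₀ h.1 h.2)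
  have : NeZero ρ := ⟨hρ⟩
  have : Finite f.range := Finite.of_surjective _ f.rangeRestrict_surjective
  rw [card_split f, mul_comm]
  refine Nat.mul_le_mul (Subgroup.card_le_of_le key) ?_
  refine (Complex.card_rootsOfUnity ρ).symm.trans_le ?_
  refine Nat.card_le_card_of_injective (fun η : rootsOfUnity ρ ℂ => (⟨⟨update 1 N η.1, _, _,
    r4 z hz hz0 η.1 ((mem_rootsOfUnity _ _).1 η.2)⟩, funext fun j => ?_⟩ : f.ker))
    fun η η' h => Subtype.ext ?_
  · change (if j = N then update (1 : ℕ → ℂˣ) N η.1 N ^ ρ else update (1 : ℕ → ℂˣ) N η.1 j) = 1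
    split_ifs with hj
    · rw [update_self, (mem_rootsOfUnity _ _).1 η.2]
    · rw [update_of_ne hj, Pi.one_apply]
  · have h1 : update (1 : ℕ → ℂˣ) N η.1 = update (1 : ℕ → ℂˣ) N η'.1 :=
      congrArg (fun c : f.ker => c.1.1) h
    simpa using congrFun h1 N

end Vale.Agent.P277Z.Hir.Gl
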