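import Vale.Agent.P277Z.Hir.DChi

/-!
# P277, resolution, removal of the stabilisers: the quotient atlas
-/

open Filter Topology Set Function

noncomputable section

namespace Vale.Agent.P277Z.Hir.Gl

open L (Ass)

variable {ι X : Type} [Fintype ι] [DecidableEq ι] [TopologicalSpace X] {β : Base X}
  {C C' : Ch ι X} {u v : ι → ℂ} {Φ Ψ : (ι → ℂ) → ι → ℂ} {N ρ : ℕ}

namespace RootH

omit [DecidableEq ι] in
theorem cancel {f g t : (ι → ℂ) → ℂ} (hf : AnalyticAt ℂ f u) (hg : AnalyticAt ℂ g u)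
    (ht : ∀ w, (∀ l, w l ≠ 0) → t w ≠ 0) (h : ∀ᶠ z in 𝓝 u, f z * t z = g z * t z) :
    ∀ᶠ z in 𝓝 u, f z = g z := by
  filter_upwards [hf.eventually_analyticAt, hg.eventually_analyticAt, h.eventually_nhds]
    with z h1 h2 h3
  exact tendsto_nhds_unique_of_frequently_eq h1.continuousAt h2.continuousAt
    (((mem_closure_iff_frequently.1 (dense_pi univ (fun _ _ => dense_compl_singleton (0 : ℂ))
      z)).and_eventually h3).mono fun w k => mul_right_cancel₀ (ht w fun l => k.1 l trivial) k.2)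

omit [Fintype ι] [DecidableEq ι] [TopologicalSpace X] in
theorem qm_rot {η : ℂ} (h : η ^ ρ = 1) (z : ι → ℂ) : C.qm N ρ (C.rot N η z) = C.qm N ρ z := by
  funext l
  by_cases k : C.lab l = N <;> simp [Ch.qm, Ch.rot, k, mul_pow, h]

omit [DecidableEq ι] [TopologicalSpace X] in
theorem s_qm (j : ℕ) (z : ι → ℂ) :
    (C.root N ρ).s j (C.qm N ρ z) = C.s j z ^ (if j = N then ρ else 1) := by
  unfold Ch.s
  rw [← Finset.prod_pow]
  refine Finset.prod_congr rfl fun l hl => ?_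
  rw [Ch.qm, (Finset.mem_filter.1 hl).2]
  split_ifs <;> simp

omit [DecidableEq ι] [TopologicalSpace X] in
theorem an_qm (z : ι → ℂ) : AnalyticAt ℂ (C.qm N ρ) z :=
  analyticAt_pi_iff.2 fun l => by
    have h := (ContinuousLinearMap.proj (R := ℂ) (φ := fun _ : ι => ℂ) l).analyticAt z
    by_cases k : C.lab l = N
    · simpa only [Ch.qm, k, if_true] using! h.pow ρ
    · simpa only [Ch.qm, k, if_false] using! h

theorem desc (hD : StDesc) (ok : C.Ok β) (hN : N ≠ 0) (hρ : ρ ≠ 0) (hs : C.s N u = 0)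
    {f : (ι → ℂ) → ℂ} (hf : AnalyticAt ℂ f u)
    (h : ∀ η : ℂˣ, η ^ ρ = 1 → ∀ᶠ z in 𝓝 u, f (C.rot N η z) = f z) :
    ∃ H, AnalyticAt ℂ H (C.qm N ρ u) ∧ ∀ᶠ z in 𝓝 u, f z = H (C.qm N ρ z) := by
  obtain ⟨i, rfl, h0⟩ := C.s_eq_zero.1 hs
  have e : ∀ (t : ℂ → ℂ) (z : ι → ℂ),
      (fun l => if C.lab l = C.lab i then t (z l) else z l) = update z i (t (z i)) := by
    intro t z
    funext l
    by_cases k : l = i
    · simp [k]
    · rw [update_of_ne k, if_neg fun k' => k (ok.lbl i l hN k')]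
  have e1 : ∀ z, C.qm (C.lab i) ρ z = update z i (z i ^ ρ) := e (· ^ ρ)
  obtain ⟨H, h1, h2⟩ := hD ι f u i ρ hρ h0 hf fun η hη => by
    have h3 := h (Units.mk0 η fun k => by simp [k, hρ] at hη) (Units.ext hη)
    simpa only [← e (η * ·)] using! h3
  refine ⟨H, ?_, by simpa only [e1] using h2⟩
  rwa [e1, h0, zero_pow hρ, ← h0, update_eq_self]

/-- the hypotheses on a chart -/
structure Gd (β : Base X) (N ρ : ℕ) (C : Ch ι X) : Prop where
  ok : C.Ok β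
  full : C.B = C.U
  map : ∀ z, map (C.qm N ρ) (𝓝 z) = 𝓝 (C.qm N ρ z)
  mem : ∀ z ∈ C.U, C.qm N ρ z ∈ (C.root N ρ).U ∧ (C.root N ρ).π (C.qm N ρ z) = C.π z
  arr : ∀ z ∈ C.U, C.s N z ≠ 0 → ∃ g, Arr C z (C.root N ρ) (C.qm N ρ z) (C.qm N ρ) g
  rot : ∀ z ∈ C.U, C.s N z = 0 → ∀ η : ℂˣ, η ^ ρ = 1 →
    Arr C z C z (C.rot N η) (C.rot N (η⁻¹ : ℂˣ)) ∧ Chi C z (C.rot N η) (update 1 N η)

theorem inv (G : Gd β N ρ C) (G' : Gd β N ρ C') (hu : u ∈ C.U) (hv : v ∈ C'.U) (hs : C.s N u = 0)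
    (hs' : C'.s N v = 0) (h : Arr C u C' v Φ Ψ) (η : ℂˣ) (hη : η ^ ρ = 1) :
    ∀ᶠ z in 𝓝 u, C'.qm N ρ (Φ (C.rot N η z)) = C'.qm N ρ (Φ z) := by
  obtain ⟨a, c⟩ := G.rot u hu hs η hη
  obtain ⟨a', c'⟩ := G'.rot v hv hs' η hη
  filter_upwards [h.tendsto.eventually (chi_uniq2 G'.ok G'.full hv ((h.symm.trans a).trans h) a'
    (Chi.conj h.symm c a.an a.val) c'), h.left] with z h1 h2
  rw [← qm_rot (congrArg Units.val hη) (Φ z), ← h1, comp_apply, comp_apply, h2]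

theorem half (hD : StDesc) (hN : N ≠ 0) (hρ : ρ ≠ 0) (G : Gd β N ρ C) (G' : Gd β N ρ C')
    (hu : u ∈ C.U) (hv : v ∈ C'.U) (hs : C.s N u = 0) (hs' : C'.s N v = 0) (h : Arr C u C' v Φ Ψ) :
    ∃ Θ : (ι → ℂ) → ι → ℂ, AnalyticAt ℂ Θ (C.qm N ρ u) ∧
      ∀ᶠ z in 𝓝 u, Θ (C.qm N ρ z) = C'.qm N ρ (Φ z) := by
  choose H h1 h2 using fun l => desc hD G.ok hN hρ hs
    (analyticAt_pi_iff.1 ((an_qm (C := C') (N := N) (ρ := ρ) _).comp h.an) l) fun η hη =>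
      (inv G G' hu hv hs hs' h η hη).mono fun z k => congrFun k l
  exact ⟨fun w l => H l w, analyticAt_pi_iff.2 h1,
    (eventually_all.2 h2).mono fun z k => funext fun l => (k l).symm⟩

theorem down (hD : StDesc) (hN : N ≠ 0) (hρ : ρ ≠ 0) (G : Gd β N ρ C) (G' : Gd β N ρ C')
    (hu : u ∈ C.U) (hv : v ∈ C'.U) (h : Arr C u C' v Φ Ψ) :
    ∃ Θ Θ', Arr (C.root N ρ) (C.qm N ρ u) (C'.root N ρ) (C'.qm N ρ v) Θ Θ' ∧
      ∀ᶠ z in 𝓝 u, Θ (C.qm N ρ z) = C'.qm N ρ (Φ z) := by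
  by_cases hs : C.s N u = 0
  swap
  · obtain ⟨g, a⟩ := G.arr u hu hs
    obtain ⟨g', a'⟩ := G'.arr v hv ((h.s_ne hN).2 hs)
    exact ⟨_, _, (a.symm.trans h).trans a', a.left.mono fun z k => by simp only [comp_apply, k]⟩
  have hs' : C'.s N v = 0 := not_not.1 fun k => (h.s_ne hN).1 k hs
  obtain ⟨Θ, h1, h2⟩ := half hD hN hρ G G' hu hv hs hs' h
  obtain ⟨Θ', h3, h4⟩ := half hD hN hρ G' G hv hu hs' hs h.symm
  have h5 := G.ok.isOpen.mem_nhds hu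
  have h6 := h.tendsto.eventually (G'.ok.isOpen.mem_nhds hv)
  refine ⟨Θ, Θ', ⟨h1, h3, h.val ▸ h2.self_of_nhds, ?_, ?_, ?_, ?_, fun j hj => ?_,
    Cmp.refl _ _⟩, h2⟩
  · rw [← G.map, eventually_map]
    filter_upwards [h2, h.tendsto.eventually h4, h.left] with z k1 k2 k3
    rw [k1, k2, k3]
  · rw [← G'.map, eventually_map]
    filter_upwards [h4, h.tendsto'.eventually h2, h.right] with z k1 k2 k3
    rw [k1, k2, k3]
  · rw [← G.map, eventually_map]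
    filter_upwards [h2, h5, h6] with z k1 k2 k3
    exact iff_of_true (k1 ▸ (G'.mem _ k3).1) (G.mem _ k2).1
  · rw [← G.map, eventually_map]
    filter_upwards [h2, h5, h6, h.pi] with z k1 k2 k3 k4 _
    rw [k1, (G'.mem _ k3).2, (G.mem _ k2).2, k4 (G.full ▸ k2)]
  · obtain ⟨e, k1, k2, k3⟩ := h.div j hj
    have k4 : ∀ᶠ z in 𝓝 u, (C'.root N ρ).s j (C'.qm N ρ (Φ z)) =
        e z ^ (if j = N then ρ else 1) * (C.root N ρ).s j (C.qm N ρ z) :=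
      k3.mono fun z k => by rw [s_qm, s_qm, ← mul_pow, show C'.s j (Φ z) = _ from k]
    obtain ⟨H, k5, k6⟩ := desc hD G.ok hN hρ hs (k1.fun_pow (if j = N then ρ else 1)) fun η hη => by
      obtain ⟨a, -⟩ := G.rot u hu hs η hη
      refine cancel (t := fun z => (C.root N ρ).s j (C.qm N ρ z))
        ((AnalyticAt.comp (a.val.symm ▸ k1) a.an).fun_pow _) (k1.fun_pow _) (fun w k => ?_) ?_
      · rw [s_qm]
        exact pow_ne_zero _ (Finset.prod_ne_zero_iff.2 fun l _ => k l)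
      · filter_upwards [k4, a.tendsto.eventually k4, inv G G' hu hv hs hs' h η hη] with z l1 l2 l3
        rw [← l1, ← l3, l2, qm_rot (congrArg Units.val hη)]
    refine ⟨H, k5, k6.self_of_nhds ▸ pow_ne_zero _ k2, ?_⟩
    rw [← G.map, EventuallyEq, eventually_map]
    filter_upwards [h2, k4, k6] with z l1 l2 l3
    rw [l1, l2, l3]

end RootH

open RootH

theorem stRoot (hA : StRootA) (hC : StRootC) (hD : StDesc) : StRoot := by
  intro ι X _ _ _ β A N ρ ⟨ok, hf, hu⟩ hN hρ hs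
  have h := fun a => hA ι X β (A.C a) N ρ (ok.ch a) (hf a) (hu a) hN hρ (hs a)
  have G : ∀ a, Gd β N ρ (A.C a) := fun a =>
    ⟨ok.ch a, hf a, (h a).2.2.1, (h a).2.2.2.1, (h a).2.2.2.2.1, (h a).2.2.2.2.2⟩
  refine ⟨⟨fun a => hC ι X β (A.C a) N ρ (ok.ch a) (hf a) (hu a) hN hρ (hs a), fun a =>
    (ok.cpt a).image (continuous_iff_continuousAt.2 fun z => (an_qm z).continuousAt), ?_, ?_, ?_⟩,
    fun _ => rfl, fun _ _ _ => ⟨(0 : Fin 1), one_ne_zero⟩⟩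
  · rintro a _ ⟨z, hz, rfl⟩
    exact ((G a).mem z (hf a ▸ ok.sub a hz)).1
  · intro a b u' hu' v' hv'
    have h1 : (A.C a).rt N ρ u' ∈ (A.C a).U := hu'
    have h2 : (A.C b).rt N ρ v' ∈ (A.C b).U := hv'
    rw [← (h a).2.1 u', ← (h b).2.1 v']
    generalize (A.C a).rt N ρ u' = u, (A.C b).rt N ρ v' = v at h1 h2
    obtain ⟨n, Φ, Ψ, h3, h4⟩ := ok.prp a b u (hf a ▸ h1) v (hf b ▸ h2)
    choose Θ Θ' h5 h6 using fun k => down hD hN hρ (G a) (G b) h1 h2 (h3 k)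
    refine ⟨n, Θ, Θ', h5, ?_⟩
    rw [nhds_prod_eq, ← (G a).map, ← (G b).map, prod_map_map_eq, eventually_map, ← nhds_prod_eq]
    filter_upwards [h4, (continuous_fst.tendsto (u, v)).eventually ((eventually_all.2 h6).and
      ((ok.ch a).isOpen.mem_nhds h1)), (continuous_snd.tendsto (u, v)).eventually
        ((ok.ch b).isOpen.mem_nhds h2)] with p k1 k2 k3 _ _ k4 k5
    have e := ((G a).mem _ k2.2).2
    obtain ⟨k, hk⟩ := k1 (hf a ▸ k2.2) (hf b ▸ k3) (e ▸ k4)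
      (((G b).mem _ k3).2.symm.trans (k5.trans e))
    exact ⟨k, hk ▸ k2.1 k⟩
  · intro x hx hx'
    obtain ⟨a, u, h1, rfl⟩ := ok.cov x hx hx'
    exact ⟨a, _, ⟨u, h1, rfl⟩, ((G a).mem u (hf a ▸ ok.sub a h1)).2⟩

end Vale.Agent.P277Z.Hir.Gl
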