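import Vale.Agent.P277Z.Hir.DDefs

/-!
# P277, resolution, removal of the stabilisers: the quotient map
-/

open Filter Topology Set Function

noncomputable section

namespace Vale.Agent.P277Z.Hir.Gl

open L (Ass)

set_option linter.all false

namespace RootA

variable {ι X : Type} [Fintype ι] [DecidableEq ι] (C : Ch ι X) {N ρ : ℕ}

theorem qm_rt (hρ : ρ ≠ 0) (z : ι → ℂ) : C.qm N ρ (C.rt N ρ z) = z := by
  funext l
  unfold Ch.qm Ch.rt
  split_ifs
  · exact Complex.cpow_nat_inv_pow _ hρ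
  · rfl

theorem qm_open (hρ : ρ ≠ 0) : IsOpenQuotientMap (C.qm N ρ) := by
  have : NeZero ρ := ⟨hρ⟩
  have e : C.qm N ρ = Pi.map fun l => if C.lab l = N then fun x : ℂ => x ^ ρ else id := by
    funext z l
    unfold Ch.qm
    rw [Pi.map_apply]
    split_ifs <;> rfl
  rw [e]
  refine .piMap fun l => ?_
  split_ifs
  · exact Complex.isOpenQuotientMap_pow ρ
  · exact .id

theorem map_qm (hρ : ρ ≠ 0) (z : ι → ℂ) : map (C.qm N ρ) (𝓝 z) = 𝓝 (C.qm N ρ z) :=
  (qm_open C hρ).isOpenMap.map_nhds_eq (qm_open C hρ).continuous.continuousAt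

theorem proj_an (l : ι) (z : ι → ℂ) : AnalyticAt ℂ (fun z : ι → ℂ => z l) z :=
  (ContinuousLinearMap.proj (R := ℂ) l).analyticAt z

theorem qm_an (z : ι → ℂ) : AnalyticAt ℂ (C.qm N ρ) z := by
  refine AnalyticAt.pi fun l => ?_
  by_cases h : C.lab l = N
  · simp only [Ch.qm, if_pos h]
    exact (proj_an l z).pow ρ
  · simpa only [Ch.qm, if_neg h] using proj_an l z

theorem rot_an (η : ℂ) (z : ι → ℂ) : AnalyticAt ℂ (C.rot N η) z := by
  refine AnalyticAt.pi fun l => ?_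
  by_cases h : C.lab l = N
  · simp only [Ch.rot, if_pos h]
    exact analyticAt_const.mul (proj_an l z)
  · simpa only [Ch.rot, if_neg h] using proj_an l z

theorem rot_rot {η η' : ℂ} (h : η' * η = 1) (z : ι → ℂ) : C.rot N η' (C.rot N η z) = z := by
  funext l
  unfold Ch.rot
  split_ifs
  · rw [← mul_assoc, h, one_mul]
  · rfl

theorem s_qm (j : ℕ) (z : ι → ℂ) :
    (C.root N ρ).s j (C.qm N ρ z) = if j = N then C.s j z ^ ρ else C.s j z := by
  change ∏ l ∈ Finset.univ.filter (fun l => C.lab l = j), C.qm N ρ z l = _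
  split_ifs with h
  · rw [Ch.s, ← Finset.prod_pow]
    exact Finset.prod_congr rfl fun l hl => if_pos ((Finset.mem_filter.1 hl).2.trans h)
  · exact Finset.prod_congr rfl fun l hl =>
      if_neg fun e => h ((Finset.mem_filter.1 hl).2.symm.trans e)

theorem nF_root (z : ι → ℂ) : (C.root N ρ).nF z = 1 := by
  change ∑ _a : Fin 1, ‖(1 : ℂ)‖ = 1
  simp

theorem loc_root (hρ : ρ ≠ 0) {a : ℂ} (ha : a ≠ 0) : ∃ r : ℂ → ℂ, AnalyticAt ℂ r (a ^ ρ) ∧
    (∀ᶠ x in 𝓝 a, r (x ^ ρ) = x) ∧ ∀ y, r y ^ ρ = y := by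
  have h1 := pow_ne_zero ρ ha
  refine ⟨fun y => a * (y / a ^ ρ) ^ (ρ : ℂ)⁻¹, analyticAt_const.mul
    ((analyticAt_id.div analyticAt_const h1).cpow analyticAt_const (by
      simp [div_self h1])), ?_, fun y => ?_⟩
  · have h2 : ContinuousAt (fun x : ℂ => (x / a).arg) a :=
      ContinuousAt.comp (f := fun x : ℂ => x / a) (Complex.continuousAt_arg (by
        simp [div_self ha])) (continuousAt_id.div_const a)
    have h3 : 0 < Real.pi / ρ := div_pos Real.pi_pos (Nat.cast_pos.2 (Nat.pos_of_ne_zero hρ))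
    have h4 : (a / a).arg = 0 := by simp [div_self ha]
    filter_upwards [continuousAt_const.eventually_lt h2 ((neg_neg_of_pos h3).trans_eq h4.symm),
      h2.eventually_lt continuousAt_const (h4.trans_lt h3)] with x h5 h6
    rw [← div_pow, Complex.pow_cpow_nat_inv hρ h5 h6.le, mul_div_cancel₀ _ ha]
  · rw [mul_pow, Complex.cpow_nat_inv_pow _ hρ, mul_div_cancel₀ _ h1]

theorem exists_inv (hρ : ρ ≠ 0) {z : ι → ℂ} (hz : C.s N z ≠ 0) : ∃ g : (ι → ℂ) → ι → ℂ,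
    AnalyticAt ℂ g (C.qm N ρ z) ∧ (∀ᶠ x in 𝓝 z, g (C.qm N ρ x) = x) ∧
      ∀ y, C.qm N ρ (g y) = y := by
  have key : ∀ l, ∃ r : ℂ → ℂ, AnalyticAt ℂ r (C.qm N ρ z l) ∧
      (∀ᶠ x in 𝓝 z, r (C.qm N ρ x l) = x l) ∧
      ∀ y, (if C.lab l = N then r y ^ ρ else r y) = y := fun l => by
    by_cases h : C.lab l = N
    · obtain ⟨r, h1, h2, h3⟩ := loc_root hρ (a := z l) fun h0 => hz (C.s_eq_zero.2 ⟨l, h, h0⟩)
      simp only [Ch.qm, if_pos h]
      exact ⟨r, h1, (continuous_apply l).continuousAt.eventually h2, h3⟩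
    · simp only [Ch.qm, if_neg h]
      exact ⟨id, analyticAt_id, .of_forall fun _ => rfl, fun _ => rfl⟩
  choose r h1 h2 h3 using key
  exact ⟨fun y l => r l (y l), AnalyticAt.pi fun l =>
      AnalyticAt.comp (f := fun y : ι → ℂ => y l) (h1 l) (proj_an l _),
    (eventually_all.2 h2).mono fun x hx => funext hx, fun y => funext fun l => h3 l (y l)⟩

variable {C} (hl : ∀ l l', C.lab l ≠ 0 → C.lab l' = C.lab l → l' = l) (hN : N ≠ 0)
include hl hN

theorem exists_rot (hρ : ρ ≠ 0) {z z' : ι → ℂ} (h : C.qm N ρ z' = C.qm N ρ z) :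
    ∃ η : ℂ, η ^ ρ = 1 ∧ z' = C.rot N η z := by
  have h1 : ∀ l, C.lab l = N → z' l ^ ρ = z l ^ ρ := fun l e => by
    simpa only [Ch.qm, if_pos e] using congrFun h l
  have h2 : ∀ η : ℂ, (∀ l, C.lab l = N → z' l = η * z l) → z' = C.rot N η z := fun η hη => by
    funext l
    unfold Ch.rot
    split_ifs with e
    · exact hη l e
    · simpa only [Ch.qm, if_neg e] using congrFun h l
  by_cases h3 : ∃ l, C.lab l = N ∧ z l ≠ 0
  · obtain ⟨l, e, h0⟩ := h3
    refine ⟨z' l / z l, by rw [div_pow, h1 l e, div_self (pow_ne_zero _ h0)],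
      h2 _ fun l' e' => ?_⟩
    rw [hl l l' (e ▸ hN) (e'.trans e.symm), div_mul_cancel₀ _ h0]
  · refine ⟨1, one_pow _, h2 _ fun l e => ?_⟩
    have h4 : z l = 0 := by_contra fun h0 => h3 ⟨l, e, h0⟩
    have h5 := h1 l e
    rw [h4, zero_pow hρ, pow_eq_zero_iff hρ] at h5
    rw [h5, h4, mul_zero]

theorem qm_mem (hρ : ρ ≠ 0) (hS : C.Sym N ρ) {z : ι → ℂ} (hz : z ∈ C.U) :
    C.qm N ρ z ∈ (C.root N ρ).U ∧ (C.root N ρ).π (C.qm N ρ z) = C.π z := by
  obtain ⟨η, h1, h2⟩ := exists_rot hl hN hρ (qm_rt C hρ (C.qm N ρ z))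
  change C.rt N ρ (C.qm N ρ z) ∈ C.U ∧ C.π (C.rt N ρ (C.qm N ρ z)) = C.π z
  rw [h2]
  exact hS η h1 z hz

theorem root_U (hρ : ρ ≠ 0) (hS : C.Sym N ρ) : (C.root N ρ).U = C.qm N ρ '' C.U :=
  Subset.antisymm (fun z hz => ⟨_, hz, qm_rt C hρ z⟩) <| by
    rintro _ ⟨z, hz, rfl⟩
    exact (qm_mem hl hN hρ hS hz).1

theorem s_rot {l : ι} (e : C.lab l = N) (η : ℂˣ) (j : ℕ) (z : ι → ℂ) :
    C.s j (C.rot N η z) = (update (1 : ℕ → ℂˣ) N η j : ℂˣ) * C.s j z := by
  by_cases h : j = N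
  · subst h
    rw [update_self, ← e, C.s_of_lab hl (e ▸ hN)]
    exact if_pos rfl
  · rw [update_of_ne h, Pi.one_apply, Units.val_one, one_mul]
    exact Finset.prod_congr rfl fun l hl =>
      if_neg fun e => h ((Finset.mem_filter.1 hl).2.symm.trans e)

omit hl hN

variable [TopologicalSpace X] {β : Base X}

theorem nF_cont (h : C.Ok β) {z : ι → ℂ} (hz : z ∈ C.U) : ContinuousAt C.nF z :=
  tendsto_finset_sum _ fun a _ => (h.anF a z hz).continuousAt.norm

theorem nF_pos {z : ι → ℂ} (hz : ∃ k, C.F k z ≠ 0) : 0 < C.nF z :=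
  lt_of_le_of_ne (C.nF_nonneg z) fun e => hz.elim fun k hk => hk (C.nF_eq_zero.1 e.symm k)

end RootA

open RootA in
theorem stRootA : StRootA := by
  intro ι X _ _ _ β C N ρ h hB hU hN hρ hS
  refine ⟨?_, qm_rt C hρ, map_qm C hρ, fun z hz => qm_mem h.lbl hN hρ hS hz,
    fun z hz h0 => ?_, fun z hz h0 η hη => ?_⟩
  · rw [root_U h.lbl hN hρ hS]
    exact (qm_open C hρ).isOpenMap _ h.isOpen
  · obtain ⟨g, h1, h2, h3⟩ := exists_inv C hρ h0
    refine ⟨g, qm_an C z, h1, rfl, h2, .of_forall h3, ?_,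
      .of_forall fun y hy => (qm_mem h.lbl hN hρ hS (hB ▸ hy)).2, fun j _ => ?_, ?_⟩
    · filter_upwards [h.isOpen.mem_nhds hz] with y hy
      exact iff_of_true (qm_mem h.lbl hN hρ hS hy).1 (hB ▸ hy)
    · simp only [s_qm]
      split_ifs with e
      · exact ass_of_ne ((C.s_an j z).pow ρ) (C.s_an j z) (pow_ne_zero _ (e ▸ h0)) (e ▸ h0)
      · exact ass_refl _ _
    · simp only [nF_root]
      exact Cmp.of_pos continuousAt_const (nF_cont h hz) one_pos (nF_pos (hU z (hB ▸ hz)))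
  · obtain ⟨l, e, h1⟩ := C.s_eq_zero.1 h0
    have h2 : C.rot N η z = z := by
      funext l'
      unfold Ch.rot
      split_ifs with e'
      · rw [h.lbl l l' (e ▸ hN) (e'.trans e.symm), h1, mul_zero]
      · rfl
    have h3 : (η : ℂ) ^ ρ = 1 := by rw [← Units.val_pow_eq_pow_val, hη, Units.val_one]
    refine ⟨⟨rot_an C _ z, rot_an C _ z, h2, .of_forall (rot_rot C η.inv_mul),
      .of_forall (rot_rot C η.mul_inv), ?_, .of_forall fun y hy => (hS η h3 y (hB ▸ hy)).2,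
      fun j _ => ⟨fun _ => _, analyticAt_const, Units.ne_zero _,
        .of_forall (s_rot h.lbl hN e η j)⟩, ?_⟩, update_of_ne hN.symm _ _,
      fun j _ => ⟨fun _ => _, analyticAt_const, rfl, .of_forall (s_rot h.lbl hN e η j)⟩⟩
    · filter_upwards [h.isOpen.mem_nhds hz] with y hy
      exact iff_of_true (hB ▸ (hS η h3 y hy).1) (hB ▸ hy)
    · have h4 := nF_pos (hU z (hB ▸ hz))
      exact Cmp.of_pos (ContinuousAt.comp (g := C.nF) (h2.symm ▸ nF_cont h hz)
        (rot_an C _ z).continuousAt) (nF_cont h hz) (h4.trans_eq (congrArg C.nF h2.symm)) h4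

end Vale.Agent.P277Z.Hir.Gl
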