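import Vale.Agent.P277Z.Hir.DDefs
import Vale.Agent.P277Z.Hir.BRef

/-!
# P277, resolution, removal of the stabilisers: the charts of the quotient
-/

open Filter Topology Set Function

set_option linter.unusedSectionVars false

noncomputable section

namespace Vale.Agent.P277Z.Hir.Gl

namespace RootC

variable {ι X : Type} [Fintype ι] [DecidableEq ι] {C : Ch ι X} {N ρ : ℕ} {i : ι}

theorem qm_eq (h : ∀ l, C.lab l = N ↔ l = i) (y : ι → ℂ) : C.qm N ρ y = update y i (y i ^ ρ) := by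
  funext l
  by_cases e : l = i
  · subst e
    simp [Ch.qm, h]
  · simp [Ch.qm, h, e]

theorem rt_eq (h : ∀ l, C.lab l = N ↔ l = i) (y : ι → ℂ) :
    C.rt N ρ y = update y i (y i ^ (ρ : ℂ)⁻¹) := by
  funext l
  by_cases e : l = i
  · subst e
    simp [Ch.rt, h]
  · simp [Ch.rt, h, e]

theorem rot_eq (h : ∀ l, C.lab l = N ↔ l = i) (η : ℂ) (y : ι → ℂ) :
    C.rot N η y = update y i (η * y i) := by
  funext l
  by_cases e : l = i
  · subst e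
    simp [Ch.rot, h]
  · simp [Ch.rot, h, e]

theorem qm_zero (hρ : ρ ≠ 0) {y : ι → ℂ} {l : ι} (h : C.qm N ρ y l = 0) : y l = 0 := by
  unfold Ch.qm at h
  split_ifs at h
  · exact pow_eq_zero_iff hρ |>.1 h
  · exact h

variable [TopologicalSpace X] {β : Base X}

theorem faith (ok : C.Ok β) (hB : C.B = C.U) (hN : N ≠ 0) (hρ : ρ ≠ 0)
    (h : ∀ l, C.lab l = N ↔ l = i)
    (hπ : ∀ z ∈ C.U, C.qm N ρ z ∈ (C.root N ρ).U ∧ (C.root N ρ).π (C.qm N ρ z) = C.π z)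
    {z : ι → ℂ} (hz : z ∈ C.U) (h0 : z i = 0) :
    ∃ ε : ℝ, 0 < ε ∧ ∀ᶠ p in 𝓝 (z, z), p.1 ∈ (C.root N ρ).B → p.2 ∈ (C.root N ρ).B →
      (C.root N ρ).π p.1 ∉ β.Z → (C.root N ρ).π p.2 = (C.root N ρ).π p.1 →
      (∀ l, C.lab l ≠ 0 → ‖p.2 l - p.1 l‖ ≤ ε * ‖p.1 l‖) → p.2 = p.1 := by
  obtain ⟨ε, hε, h1⟩ := ok.faith z (hB ▸ hz)
  have hi : C.lab i ≠ 0 := ((h i).2 rfl).symm ▸ hN
  obtain ⟨δ, hδ, h2⟩ : ∃ δ > (0 : ℝ), ∀ x : ℂ, ‖x - 1‖ ≤ δ → ‖x ^ (ρ : ℂ)⁻¹ - 1‖ ≤ ε := by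
    have h2 := (continuousAt_cpow_const (b := (ρ : ℂ)⁻¹) Complex.one_mem_slitPlane).tendsto
    rw [Complex.one_cpow] at h2
    obtain ⟨δ, hδ, h3⟩ := Metric.nhds_basis_closedBall.mem_iff.1
      (h2 (Metric.closedBall_mem_nhds 1 hε))
    exact ⟨δ, hδ, fun x hx => mem_closedBall_iff_norm.1 (h3 (mem_closedBall_iff_norm.2 hx))⟩
  let r : (ι → ℂ) × (ι → ℂ) → ℂ := fun p => (p.2 i / p.1 i) ^ (ρ : ℂ)⁻¹
  let L := 𝓝 (z, z) ⊓ 𝓟 {p | ‖r p - 1‖ ≤ ε}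
  have f1 : Tendsto Prod.fst L (𝓝 z) := continuousAt_fst.tendsto.mono_left inf_le_left
  have f2 : Tendsto Prod.snd L (𝓝 z) := continuousAt_snd.tendsto.mono_left inf_le_left
  have h3 : Tendsto (fun p : (ι → ℂ) × (ι → ℂ) => p.1 i ^ (ρ : ℂ)⁻¹) L (𝓝 0) := by
    have h3 := (Complex.continuousAt_cpow_const_of_re_pos (z := 0) (w := (ρ : ℂ)⁻¹) (by simp)
      (by rw [← Complex.ofReal_natCast, ← Complex.ofReal_inv, Complex.ofReal_re]; positivity)).tendsto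
    rw [Complex.zero_cpow (by simpa using hρ)] at h3
    exact h3.comp (h0 ▸ (tendsto_pi_nhds.1 f1 i))
  have h4 : Tendsto (fun p => p.1 i ^ (ρ : ℂ)⁻¹ * r p) L (𝓝 0) :=
    h3.zero_mul_isBoundedUnder_le ⟨ε + 1, eventually_map.2 (eventually_inf_principal.2
      (.of_forall fun p hp => (norm_le_norm_sub_add _ 1).trans (by
        rw [norm_one]; exact add_le_add hp le_rfl)))⟩
  have t1 := f1.update i h3
  have t2 := f2.update i h4
  rw [← h0, update_eq_self] at t1 t2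
  refine ⟨min ε δ, lt_min hε hδ, ?_⟩
  filter_upwards [eventually_inf_principal.1 (((t1.prodMk_nhds t2).eventually h1).and
    (t2.eventually (ok.isOpen.mem_nhds hz)))] with p k l1 _ l3 l4 l5
  have l6 : C.rt N ρ p.1 ∈ C.B := hB ▸ l1
  have q1 : C.qm N ρ (C.rt N ρ p.1) = p.1 := by
    rw [rt_eq h, qm_eq h, update_idem, update_self, Complex.cpow_nat_inv_pow _ hρ, update_eq_self]
  have l7 : p.1 i ≠ 0 := fun e =>
    l3 (ok.unt _ l6 ⟨i, hi, qm_zero (N := N) hρ (by rw [q1, e])⟩)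
  have l8 : ‖r p - 1‖ ≤ ε := h2 _ (by
    rw [div_sub_one l7, norm_div, div_le_iff₀ (norm_pos_iff.2 l7)]
    exact (l5 i hi).trans (mul_le_mul_of_nonneg_right (min_le_right _ _) (norm_nonneg _)))
  obtain ⟨k1, k2⟩ := k l8
  have q2 : C.qm N ρ (update p.2 i (p.1 i ^ (ρ : ℂ)⁻¹ * r p)) = p.2 := by
    rw [qm_eq h, update_idem, update_self, mul_pow, Complex.cpow_nat_inv_pow _ hρ,
      Complex.cpow_nat_inv_pow _ hρ, mul_div_cancel₀ _ l7, update_eq_self]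
  rw [← rt_eq h] at k1
  rw [← q1, ← q2]
  refine congrArg _ (k1 l6 (hB ▸ k2) l3 (by rw [← (hπ _ k2).2, q2]; exact l4) fun l hl => ?_)
  rw [rt_eq h]
  by_cases e : l = i
  · subst e
    simp only [update_self]
    rw [← mul_sub_one, norm_mul, mul_comm]
    exact mul_le_mul_of_nonneg_right l8 (norm_nonneg _)
  · simp only [update_of_ne e]
    exact (l5 l hl).trans (mul_le_mul_of_nonneg_right (min_le_left _ _) (norm_nonneg _))

theorem hol (hD : StDesc) (ok : C.Ok β) (hB : C.B = C.U) (hρ : ρ ≠ 0) (hs : C.Sym N ρ)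
    (h : ∀ l, C.lab l = N ↔ l = i) {z : ι → ℂ} (hz : z ∈ C.U) (h0 : z i = 0) {f : X → ℂ}
    (hf : β.Hol f (C.π z)) :
    ∃ H, AnalyticAt ℂ H z ∧ ∀ᶠ y in 𝓝 z, f (C.π y) = H (C.qm N ρ y) := by
  obtain ⟨g, h1, h2⟩ := ok.hol z (hB ▸ hz) f hf
  have hU : ∀ᶠ y in 𝓝 z, y ∈ C.U := ok.isOpen.mem_nhds hz
  obtain ⟨H, h3, h4⟩ := hD ι g z i ρ hρ h0 h1 fun η hη => by
    have t : Tendsto (fun y : ι → ℂ => update y i (η * y i)) (𝓝 z) (𝓝 z) := by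
      have := (tendsto_id (x := 𝓝 z)).update i ((continuous_apply i).tendsto z |>.const_mul η)
      rwa [h0, mul_zero, ← h0, update_eq_self] at this
    filter_upwards [t.eventually h2, h2, hU] with y k1 k2 k3
    obtain ⟨k4, k5⟩ := hs η hη y k3
    rw [rot_eq h] at k4 k5
    rw [← k1 (hB ▸ k4), k5, k2 (hB ▸ k3)]
  refine ⟨H, h3, ?_⟩
  filter_upwards [h2, h4, hU] with y k1 k2 k3
  rw [k1 (hB ▸ k3), k2, qm_eq h]

end RootC

open RootC in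
theorem stRootC (hA : StRootA) (hD : StDesc) : StRootC := by
  intro ι X _ _ _ β C N ρ ok hB hF hN hρ hs
  obtain ⟨hO, hq, hm, hπ, hAr, -⟩ := hA ι X β C N ρ ok hB hF hN hρ hs
  have hn : ∀ u, map (C.qm N ρ) (𝓝 (C.rt N ρ u)) = 𝓝 u := fun u => by rw [hm, hq]
  have hU : ∀ u ∈ (C.root N ρ).B, ∀ᶠ y in 𝓝 (C.rt N ρ u), y ∈ C.U := fun u hu =>
    ok.isOpen.mem_nhds hu
  have hb : ∀ u ∈ (C.root N ρ).B, C.rt N ρ u ∈ C.B := fun u hu => hB ▸ hu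
  have ar : ∀ u ∈ (C.root N ρ).B, C.s N (C.rt N ρ u) ≠ 0 →
      ∃ g, Arr (C.root N ρ) u C (C.rt N ρ u) g (C.qm N ρ) := fun u hu h => by
    obtain ⟨g, a⟩ := hAr _ hu h
    rw [hq] at a
    exact ⟨g, a.symm⟩
  have ar' : ∀ u ∈ (C.root N ρ).B, (C.root N ρ).π u ∉ β.Z →
      ∃ g, Arr (C.root N ρ) u C (C.rt N ρ u) g (C.qm N ρ) := fun u hu h =>
    ar u hu fun e => h (ok.unt _ (hb u hu) (C.mem_E.2 ⟨N, hN, e⟩))
  have cs : ∀ u, C.s N (C.rt N ρ u) = 0 →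
      ∃ i, (∀ l, C.lab l = N ↔ l = i) ∧ u i = 0 ∧ C.rt N ρ u = u := fun u h => by
    obtain ⟨i, h1, h2⟩ := C.s_eq_zero.1 h
    have h3 : ∀ l, C.lab l = N ↔ l = i := fun l =>
      ⟨fun e => ok.lbl i l (h1 ▸ hN) (e.trans h1.symm), fun e => e ▸ h1⟩
    have h4 := hq u
    rw [qm_eq h3, h2, zero_pow hρ, ← h2, update_eq_self] at h4
    exact ⟨i, h3, h4 ▸ h2, h4⟩
  refine ⟨hO, Subset.rfl, fun u hu _ => hu, ok.lbl, fun _ => analyticOnNhd_const,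
    fun u hu => ContinuousAt.continuousWithinAt ?_, fun u hu f hf => ?_, fun u hu hZ => ?_,
    fun u hu hZ => ?_, fun u hu hE => ?_, fun u hu => ?_, fun u hu => ?_⟩
  · rw [ContinuousAt, ← hn u]
    refine tendsto_map'_iff.2 (Tendsto.congr' ((hU u hu).mono fun y hy => (hπ y hy).2.symm) ?_)
    exact (ok.cont _ (hb u hu)).continuousAt (hB ▸ hU u hu)
  · by_cases h : C.s N (C.rt N ρ u) = 0
    · obtain ⟨i, h1, h2, h3⟩ := cs u h
      obtain ⟨H, h4, h5⟩ := hol hD ok hB hρ hs h1 (z := C.rt N ρ u) hu (h3.symm ▸ h2) hf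
      refine ⟨H, h3 ▸ h4, ?_⟩
      rw [← hn u, eventually_map]
      filter_upwards [h5, hU u hu] with y k1 k2 _
      rw [(hπ y k2).2, k1]
    · obtain ⟨g, a⟩ := ar u hu h
      exact Rf.hol a ok hu f hf
  · obtain ⟨g, a⟩ := ar' u hu hZ
    exact Rf.opn a ok hu hZ
  · obtain ⟨g, a⟩ := ar' u hu hZ
    exact Rf.iso a ok hu hZ
  · obtain ⟨l, h1, h2⟩ := hE
    exact ok.unt _ (hb u hu) ⟨l, h1, qm_zero (N := N) hρ (by rw [hq, h2])⟩
  · rw [mem_closure_iff_frequently, ← hn u, frequently_map]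
    refine (mem_closure_iff_frequently.1 (ok.dense _ (hb u hu))).mono fun y hy => ?_
    obtain ⟨h1, h2⟩ := hπ y (hB ▸ hy.1)
    exact ⟨h1, h2 ▸ hy.2⟩
  · by_cases h : C.s N (C.rt N ρ u) = 0
    · obtain ⟨i, h1, h2, h3⟩ := cs u h
      exact faith ok hB hN hρ h1 hπ (h3 ▸ hu) h2
    · obtain ⟨g, a⟩ := ar u hu h
      exact Rf.faith a ok ok.lbl hu

end Vale.Agent.P277Z.Hir.Gl
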