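import Vale.Agent.P277Z.Hir.DRootA
import Vale.Agent.P277Z.Hir.BInv

/-!
# P277, resolution, removal of the stabilisers: the total transforms
-/

open Filter Topology Set Function

noncomputable section

namespace Vale.Agent.P277Z.Hir.Gl

set_option linter.all false

namespace RootA

variable {ι X : Type} [Fintype ι] [DecidableEq ι] (C : Ch ι X) {N ρ : ℕ}

theorem mon_qm (hρ : ρ ≠ 0) (ex : ℕ → ℝ) (z : ι → ℂ) :
    (C.root N ρ).mon (update ex N (ex N / ρ)) (C.qm N ρ z) = C.mon ex z := by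
  refine Finset.prod_congr rfl fun l _ => ?_
  change ‖C.qm N ρ z l‖ ^ update ex N (ex N / ρ) (C.lab l) = _
  unfold Ch.qm
  split_ifs with e
  · rw [e, update_self, norm_pow, ← Real.rpow_natCast, ← Real.rpow_mul (norm_nonneg _),
      mul_div_cancel₀ _ (Nat.cast_ne_zero.2 hρ)]
  · rw [update_of_ne e]

end RootA

open RootA in
theorem stTotD : StTotD := by
  intro ι X _ _ _ β A A' N₀ Γ XO nm ex h hex h0
  induction h with
  | refl => exact ⟨ex, hex, h0⟩
  | @tail A₁ A₂ _ h ih =>
    obtain ⟨ex, hex, h0⟩ := ih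
    obtain ⟨⟨hA, hF, hU⟩, h⟩ := h
    cases h with
    | ref h => exact stTot ι X β _ _ Γ XO nm ex (.single ⟨hA, .ref h⟩) hex h0
    | bl W _ _ => exact stTot ι X β _ _ Γ XO nm ex (.single ⟨hA, .bl W⟩) hex h0
    | root N ρ _ hN h2 hS =>
      have hρ : ρ ≠ 0 := by omega
      refine ⟨update ex N (ex N / ρ), fun j => ?_, fun a u hu γ hγ => ?_⟩
      · by_cases e : j = N
        · rw [e, update_self]
          exact div_nonneg (hex N) (Nat.cast_nonneg ρ)
        · rw [update_of_ne e]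
          exact hex j
      · have hz : (A₁.C a).rt N ρ u ∈ (A₁.C a).U := hu
        have hz' : (A₁.C a).rt N ρ u ∈ (A₁.C a).B := hF a ▸ hz
        have h1 := h0 a _ hz' γ hγ
        rw [hF a, (hA.ch a).isOpen.nhdsWithin_eq hz] at h1
        have h3 := h1.trans ((Cmp.refl _ ((A₁.C a).mon ex)).mul
          (Cmp.of_pos (nF_cont (hA.ch a) hz) continuousAt_const (nF_pos (hU a _ hz')) one_pos)
          ((A₁.C a).mon_nonneg ex) ((A₁.C a).mon_nonneg ex) (A₁.C a).nF_nonneg
          fun _ => zero_le_one)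
        refine Cmp.mono ?_ nhdsWithin_le_nhds
        rw [← qm_rt (A₁.C a) (N := N) hρ u, ← map_qm _ hρ]
        refine (?_ : Cmp _ (fun z => nm γ (((A₁.C a).root N ρ).π ((A₁.C a).qm N ρ z))) fun z =>
          ((A₁.C a).root N ρ).mon (update ex N (ex N / ρ)) ((A₁.C a).qm N ρ z) *
            ((A₁.C a).root N ρ).nF ((A₁.C a).qm N ρ z))
        refine h3.congr ?_ (.of_forall fun z => ?_)
        · filter_upwards [(hA.ch a).isOpen.mem_nhds hz] with y hy
          rw [(qm_mem (hA.ch a).lbl hN hρ (hS a) hy).2]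
        · simp only [mon_qm _ hρ, nF_root]

end Vale.Agent.P277Z.Hir.Gl
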