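import Vale.Agent.P277Z.Hir.DChi

/-!
# P277, resolution, removal of the stabilisers: semicontinuity of the stabilisers
-/

open Filter Topology Set Function

set_option linter.unusedSectionVars false

noncomputable section

namespace Vale.Agent.P277Z.Hir.Gl

namespace Usc

theorem root_isolated {N : ℕ} (hN : N ≠ 0) {a : ℂ} (ha : a ≠ 0) :
    ∀ᶠ r in 𝓝 a, r ^ N = a ^ N → r = a := by
  have h : ∀ᶠ r in 𝓝 a, ∑ i ∈ Finset.range N, r ^ i * a ^ (N - 1 - i) ≠ 0 :=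
    (show ContinuousAt (fun r : ℂ => ∑ i ∈ Finset.range N, r ^ i * a ^ (N - 1 - i)) a by
      fun_prop).eventually_ne (by
        rw [geom_sum₂_self]
        exact mul_ne_zero (Nat.cast_ne_zero.2 hN) (pow_ne_zero _ ha))
  refine h.mono fun r hr h1 => ?_
  have h2 := geom_sum₂_mul r a N
  rw [h1, sub_self, mul_eq_zero] at h2
  exact sub_eq_zero.1 (h2.resolve_left hr)

variable {ι X : Type} [Fintype ι] [DecidableEq ι] {C : Ch ι X} {z : ι → ℂ}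

theorem chi_one {Θ : (ι → ℂ) → ι → ℂ} {θ : ℕ → ℂˣ} (h : Chi C z Θ θ) {j : ℕ}
    (hj : ¬ ∃ l, C.lab l ≠ 0 ∧ C.lab l = j) : θ j = 1 := by
  by_cases h0 : j = 0
  · rw [h0, h.1]
  · obtain ⟨e, -, h1, h2⟩ := h.2 j h0
    have h3 := h2.self_of_nhds
    rw [C.s_of_not fun l hl => hj ⟨l, hl ▸ h0, hl⟩, mul_one, h1] at h3
    exact Units.ext h3.symm

theorem chr_ext {θ θ' : ℕ → ℂˣ} {z' : ι → ℂ} (h : θ ∈ Chr C z) (h' : θ' ∈ Chr C z')
    (he : ∀ l, C.lab l ≠ 0 → (θ (C.lab l) : ℂ) = θ' (C.lab l)) : θ = θ' := by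
  obtain ⟨_, _, -, h⟩ := h
  obtain ⟨_, _, -, h'⟩ := h'
  funext j
  by_cases hj : ∃ l, C.lab l ≠ 0 ∧ C.lab l = j
  · obtain ⟨l, hl, rfl⟩ := hj
    exact Units.ext (he l hl)
  · rw [chi_one h hj, chi_one h' hj]

variable [TopologicalSpace X] {β : Base X} {n : ℕ} {Φ : Fin n → (ι → ℂ) → ι → ℂ}
  {e : Fin n → ι → (ι → ℂ) → ℂ}

/-- the points at which the arrows `Φ k` describe all the identifications -/
structure Gd (β : Base X) (C : Ch ι X) (Φ : Fin n → (ι → ℂ) → ι → ℂ)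
    (e : Fin n → ι → (ι → ℂ) → ℂ) (z : ι → ℂ) : Prop where
  mem : z ∈ C.B
  prp : ∀ᶠ p in 𝓝 (z, z), p.1 ∈ C.B → p.2 ∈ C.B → C.π p.1 ∉ β.Z → C.π p.2 = C.π p.1 →
    ∃ k, Φ k p.1 = p.2
  cont : ∀ k, ContinuousAt (Φ k) z
  chi : ∀ k l, C.lab l ≠ 0 → ContinuousAt (e k l) z ∧
    ∀ᶠ x in 𝓝 z, C.s (C.lab l) (Φ k x) = e k l x * C.s (C.lab l) x

theorem Gd.ex (hC : C.Ok β) (h : Gd β C Φ e z) {θ : ℕ → ℂˣ} (hθ : θ ∈ Chr C z) :
    ∃ k, Φ k z = z ∧ ∀ l, C.lab l ≠ 0 → (θ (C.lab l) : ℂ) = e k l z := by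
  obtain ⟨Θ, Θ', a, hc⟩ := hθ
  have ht : Tendsto (fun x => (x, Θ x)) (𝓝 z) (𝓝 (z, z)) := tendsto_id.prodMk_nhds a.tendsto
  have h1 : ∃ᶠ x in 𝓝 z, ∃ k, (x ∈ C.B ∧ C.π x ∉ β.Z) ∧ Φ k x = Θ x :=
    ((mem_closure_iff_frequently.1 (hC.dense z h.mem)).and_eventually
      ((ht.eventually h.prp).and (a.mem.and a.pi))).mono fun x hx =>
        let ⟨k, hk⟩ := hx.2.1 hx.1.1 (hx.2.2.1.2 hx.1.1) hx.1.2 (hx.2.2.2 hx.1.1)
        ⟨k, hx.1, hk⟩
  obtain ⟨k, hk⟩ : ∃ k, ∃ᶠ x in 𝓝 z, (x ∈ C.B ∧ C.π x ∉ β.Z) ∧ Φ k x = Θ x := by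
    by_contra hn
    exact h1 ((eventually_all.2 fun k => not_frequently.1 fun hk => hn ⟨k, hk⟩).mono
      fun x hx => not_exists.2 hx)
  refine ⟨k, tendsto_nhds_unique_of_frequently_eq (h.cont k) a.tendsto (hk.mono fun _ hx => hx.2),
    fun l hl => ?_⟩
  obtain ⟨e', h2, h3, h4⟩ := hc.2 _ hl
  rw [← h3]
  refine tendsto_nhds_unique_of_frequently_eq h2.continuousAt (h.chi k l hl).1
    ((hk.and_eventually (h4.and (h.chi k l hl).2)).mono fun x hx => ?_)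
  have h5 : C.s (C.lab l) x ≠ 0 := fun h5 =>
    hx.1.1.2 (hC.unt x hx.1.1.1 (C.mem_E.2 ⟨_, hl, h5⟩))
  refine mul_right_cancel₀ h5 ?_
  rw [← hx.2.1, ← hx.2.2, hx.1.2]

theorem Gd.fin (hC : C.Ok β) (h : Gd β C Φ e z) :
    Finite (Chr C z) ∧ ∀ θ ∈ Chr C z, ∀ j, (θ j : ℂ) ^ n.factorial = 1 := by
  choose κ _ hκ using fun θ : Chr C z => h.ex hC θ.2
  have hi : Injective κ := fun θ θ' hθ => Subtype.ext (chr_ext θ.2 θ'.2 fun l hl => by
    rw [hκ θ l hl, hκ θ' l hl, hθ])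
  have : Finite (Chr C z) := Finite.of_injective κ hi
  refine ⟨this, fun θ hθ j => ?_⟩
  have h1 : Nat.card (Chr C z) ≤ n := by simpa using Nat.card_le_card_of_injective κ hi
  obtain ⟨r, hr⟩ := Nat.dvd_factorial Nat.card_pos h1
  have h2 : (⟨θ, hθ⟩ : Chr C z) ^ n.factorial = 1 := by rw [hr, pow_mul, pow_card_eq_one', one_pow]
  have h3 := congrArg (fun x : Chr C z => ((x.1 j : ℂˣ) : ℂ)) h2
  simpa using h3

end Usc

/-- **USC** -/
theorem stUsc : StUsc := by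
  rintro ι X _ _ _ β C u hC hB hu ⟨n, Φ, Ψ, ha, hp⟩
  choose c hc using fun k => chi_exists (ha k)
  have hcm : ∀ k, c k ∈ Chr C u := fun k => ⟨_, _, ha k, hc k⟩
  have h0 : ∀ k l, ∃ e : (ι → ℂ) → ℂ, C.lab l ≠ 0 → AnalyticAt ℂ e u ∧ e u = c k (C.lab l) ∧
      ∀ᶠ z in 𝓝 u, C.s (C.lab l) (Φ k z) = e z * C.s (C.lab l) z := fun k l => by
    by_cases hl : C.lab l = 0
    · exact ⟨0, fun h => absurd hl h⟩
    · exact ((hc k).2 _ hl).imp fun _ h _ => h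
  choose e he using h0
  have hG : ∀ᶠ z in 𝓝 u, Usc.Gd β C Φ e z := by
    have h1 : ∀ᶠ z in 𝓝 u, ∀ k l, C.lab l ≠ 0 → ContinuousAt (e k l) z ∧
        ∀ᶠ x in 𝓝 z, C.s (C.lab l) (Φ k x) = e k l x * C.s (C.lab l) x :=
      eventually_all.2 fun k => eventually_all.2 fun l => eventually_imp_distrib_left.2 fun hl =>
        ((he k l hl).1.eventually_analyticAt.mono fun _ h => h.continuousAt).and
          (he k l hl).2.2.eventually_nhds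
    filter_upwards [hC.isOpen.mem_nhds hu,
      (tendsto_id.prodMk_nhds tendsto_id).eventually hp.eventually_nhds,
      eventually_all.2 fun k => (ha k).an.eventually_analyticAt, h1] with z h2 h3 h4 h5
    exact ⟨hB ▸ h2, h3, fun k => (h4 k).continuousAt, h5⟩
  obtain ⟨hf, hr⟩ := hG.self_of_nhds.fin hC
  have key : ∀ᶠ z in 𝓝 u, ∀ θ ∈ Chr C z, ∃ k, Φ k z = z ∧ θ = c k := by
    have h1 : ∀ᶠ z in 𝓝 u, ∀ k l, C.lab l ≠ 0 →
        e k l z ^ n.factorial = e k l u ^ n.factorial → e k l z = e k l u :=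
      eventually_all.2 fun k => eventually_all.2 fun l => eventually_imp_distrib_left.2 fun hl =>
        (he k l hl).1.continuousAt.eventually (Usc.root_isolated n.factorial_ne_zero
          (by rw [(he k l hl).2.1]; exact Units.ne_zero _))
    filter_upwards [hG, h1] with z h2 h3 θ hθ
    obtain ⟨k, h4, h5⟩ := h2.ex hC hθ
    refine ⟨k, h4, Usc.chr_ext hθ (hcm k) fun l hl => ?_⟩
    rw [h5 l hl, ← (he k l hl).2.1]
    refine h3 k l hl ?_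
    rw [← h5 l hl, (he k l hl).2.1, (h2.fin hC).2 θ hθ, hr _ (hcm k)]
  refine ⟨hf, key.mono fun z hz θ hθ => ?_, fun γ γ' g a hg => ?_, fun hb => ?_⟩
  · obtain ⟨k, -, rfl⟩ := hz θ hθ
    exact hcm k
  · have h1 : ∀ᶠ z in 𝓝 u, ∀ k, g = c k → Φ k z = γ z :=
      eventually_all.2 fun k => eventually_imp_distrib_left.2 fun h =>
        chi_uniq2 hC hB hu (ha k) a (hc k) (h ▸ hg)
    filter_upwards [key, h1] with z h2 h3 hz
    obtain ⟨k, h4, h5⟩ := h2 g hz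
    rw [← h3 k h5, h4]
  · have h1 : ∀ᶠ z in 𝓝 u, ∀ k, Φ k z = z := eventually_all.2 fun k =>
      chi_uniq hC hB hu (ha k) (Subgroup.mem_bot.1 (hb ▸ hcm k) ▸ hc k)
    filter_upwards [hp, (continuous_fst.tendsto (u, u)).eventually h1] with p h2 h3 a b c d
    obtain ⟨k, hk⟩ := h2 a b c d
    rw [← hk, h3 k]

end Vale.Agent.P277Z.Hir.Gl
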