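import Vale.Agent.P277Z.Hir.DChi
import Vale.Agent.P277Z.Hir.BBlC

/-!
# P277, resolution, removal of the stabilisers: the blow-up of the fixed points
-/

open Filter Topology Set Function

noncomputable section

namespace Vale.Agent.P277Z.Hir.Gl

open L (Le IsCo Ass sl)

set_option linter.unusedSectionVars false

variable {ι X : Type} [Fintype ι] [DecidableEq ι]

namespace WtD

variable {C : Ch ι X} {ζ : ℂˣ} {ρ : ℕ} {m : ℕ → ℕ} {w : ι → ℕ}

theorem lab (h : C.Lin ζ ρ m w) (h0 : m 0 = 0) (hm : m ≠ 0) : ∃ l, C.lab l ≠ 0 ∧ w l ≠ 0 := by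
  obtain ⟨j, hj⟩ := Function.ne_iff.1 hm
  have hj0 : j ≠ 0 := fun e => hj (e ▸ h0)
  obtain ⟨l, h1, h2⟩ := Finset.exists_ne_zero_of_sum_ne_zero ((h.hm j hj0).trans_ne hj)
  exact ⟨l, (Finset.mem_filter.1 h1).2 ▸ hj0, h2⟩

theorem chi (h : C.Lin ζ ρ m w) (h0 : m 0 = 0) (u : ι → ℂ) : Chi C u (dg ζ w) (gch ζ m) := by
  refine ⟨by simp [gch, h0], fun j hj => ⟨fun _ => (ζ : ℂ) ^ m j, analyticAt_const, by simp [gch],
    .of_forall fun z => ?_⟩⟩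
  simp only [Ch.s, dg, Finset.prod_mul_distrib, Finset.prod_pow_eq_pow_sum, h.hm j hj]

theorem dg_fix (ζ : ℂˣ) {u : ι → ℂ} (hu : ∀ l, w l ≠ 0 → u l = 0) : dg ζ w u = u := by
  funext l
  by_cases h : w l = 0
  · simp [dg, h]
  · simp [dg, hu l h]

theorem arr (h : C.Lin ζ ρ m w) {u : ι → ℂ} (hU : u ∈ C.U) (hu : ∀ l, w l ≠ 0 → u l = 0) :
    ∃ Ψ, Arr C u C u (dg ζ w) Ψ := by
  obtain ⟨Ψ, a⟩ := (h.arr u hU).2
  rw [dg_fix ζ hu] at a
  exact ⟨Ψ, a⟩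

theorem iter (h : C.Lin ζ ρ m w) (hB : C.B = C.U) {v : ι → ℂ} (hv : v ∈ C.U) (k : ℕ) :
    dg (ζ ^ k) w v ∈ C.U ∧ C.π (dg (ζ ^ k) w v) = C.π v := by
  induction k with
  | zero =>
    have e : dg (ζ ^ 0) w v = v := funext fun l => by simp [dg]
    rw [e]
    exact ⟨hv, rfl⟩
  | succ k ih =>
    have e : dg (ζ ^ (k + 1)) w v = dg ζ w (dg (ζ ^ k) w v) := funext fun l => by
      simp only [dg, Units.val_pow_eq_pow_val, pow_succ', Units.val_mul, mul_pow, mul_assoc]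
    obtain ⟨h1, Ψ, a⟩ := h.arr _ ih.1
    rw [e]
    exact ⟨h1, (a.pi_eq (hB ▸ ih.1)).trans ih.2⟩

theorem sym (hζ : IsPrimitiveRoot ζ ρ) (hρ : ρ ≠ 0) (hB : C.B = C.U) {N : ℕ}
    (hN : ∀ l, C.lab l ≠ N) {o : Option ι} (h : o ≠ none → C.Lin ζ ρ m w)
    (G : Fin C.m → (ι → ℂ) → ℂ) : (C.bl w N o G).Sym N ρ := by
  intro η hη z hz
  cases o with
  | none =>
    have e : (C.bl w N none G).rot N η z = z := funext fun l => if_neg (hN l)
    rw [e]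
    exact ⟨hz, rfl⟩
  | some i =>
    have : NeZero ρ := ⟨hρ⟩
    obtain ⟨k, -, rfl⟩ := (IsPrimitiveRoot.coe_units_iff.2 hζ).eq_pow_of_pow_eq_one hη
    have e1 : (C.bl w N (some i) G).rot N ((ζ : ℂ) ^ k) z i = (ζ : ℂ) ^ k * z i :=
      if_pos (show update C.lab i N i = N from update_self i N C.lab)
    have e : sl w i ((C.bl w N (some i) G).rot N ((ζ : ℂ) ^ k) z) = dg (ζ ^ k) w (sl w i z) := by
      funext l
      by_cases hl : l = i
      · simp only [sl, dg, e1, hl, if_true, mul_pow, Units.val_pow_eq_pow_val]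
      · have e2 : (C.bl w N (some i) G).rot N ((ζ : ℂ) ^ k) z l = z l :=
          if_neg fun e => hN l ((update_of_ne hl N C.lab).symm.trans e)
        simp only [sl, dg, if_neg hl, e1, e2, mul_pow, Units.val_pow_eq_pow_val, mul_assoc]
    have := iter (h (Option.some_ne_none i)) hB (show sl w i z ∈ C.U from hz) k
    rw [← e] at this
    exact this

theorem not_inj [TopologicalSpace X] {β : Base X} (h : C.Lin ζ ρ m w) (hζ : IsPrimitiveRoot ζ ρ)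
    (h0 : m 0 = 0) (hm : m ≠ 0) (hC : C.Ok β) (hB : C.B = C.U) {u : ι → ℂ} (hU : u ∈ C.B)
    (hu : u ∈ Zc w) : ¬ C.Inj β u := by
  intro hI
  obtain ⟨Ψ, a⟩ := arr h (hB ▸ hU) hu.2
  obtain ⟨l, h1, hl⟩ := lab h h0 hm
  obtain ⟨z, ⟨h2, h3⟩, h4⟩ := ((mem_closure_iff_frequently.1 (hC.dense u hU)).and_eventually
    ((tendsto_id.prodMk_nhds a.tendsto).eventually hI)).exists
  obtain ⟨h5, _, a'⟩ := h.arr z (hB ▸ h2)
  exact (IsPrimitiveRoot.coe_units_iff.2 hζ).pow_ne_one_of_pos_of_lt hl (h.lt l)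
    (mul_right_cancel₀ (fun e => h3 (hC.unt z h2 ⟨l, h1, e⟩))
      ((congrFun (h4 h2 (hB ▸ h5) h3 (a'.pi_eq h2)) l).trans (one_mul _).symm))

end WtD

open WtD in
theorem stWtD (hE : StEig) : StWtD := by
  intro ι X _ _ _ β A ζ ρ N₀ m w hA hF hζ h0 hm hρ H
  obtain ⟨B, hB⟩ := (Set.finite_range fun p : A.κ × ι => (A.C p.1).lab p.2).bddAbove
  have hN : ∀ a l, (A.C a).lab l ≠ B + N₀ + 1 := fun a l =>
    (Nat.lt_succ_of_le ((hB ⟨(a, l), rfl⟩).trans (Nat.le_add_right _ _))).ne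
  have lin : ∀ a, w a ≠ 0 → (A.C a).Lin ζ ρ m (w a) := fun a h =>
    (H a).resolve_left fun h' => h h'.1
  refine ⟨⟨w, 0, B + N₀ + 1, m, fun a o k z => (A.C a).F k (σo (w a) o z), Nat.succ_ne_zero _, hN,
    fun a h => (lin a h).hm, fun a o _ k z hz => ((hA.ch a).anF k _ hz).comp (BlC.an_σo _ o z),
    fun a o _ k z _ => by simp, fun a u hu hZ => ?_, fun a b u hu hZ u' Φ Ψ hu' h => ?_⟩, rfl,
    (Nat.le_add_left _ _).trans (Nat.le_succ _),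
    fun p => sym (m := m) hζ (hρ 0).ne_bot (hF _) (hN _) (fun h => lin _ ?_) _,
    fun a u hu hZ => not_inj (lin a hZ.1) hζ h0 hm (hA.ch a) (hF a) hu hZ⟩
  · obtain ⟨l, h1, h2⟩ := lab (lin a hZ.1) h0 hm
    exact (hA.ch a).unt u hu ⟨l, h1, hZ.2 l h2⟩
  · obtain ⟨Θ, d⟩ := arr (lin a hZ.1) (hF a ▸ hu) hZ.2
    have a1 := (h.symm.trans d).trans h
    have c1 := (chi (lin a hZ.1) h0 u).conj h.symm d.an d.val
    have c2 : gch ζ m ∈ Chr (A.C b) u' := ⟨_, _, a1, c1⟩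
    have lb := (H b).resolve_left fun h' => h'.2 u' hu' c2
    have f1 := lb.fix u' hu' c2
    obtain ⟨l₀, -, h1⟩ := lab lb h0 hm
    obtain ⟨Θ', d'⟩ := arr lb hu' f1
    have e := chi_uniq2 (hA.ch b) (hF b) hu' a1 d' c1 (chi lb h0 u')
    refine ⟨⟨fun e0 => h1 (congrFun e0 l₀), f1⟩, fun l => hE ι (fun z => Φ z l) u ζ ρ (w b l) (w a)
      hζ (lb.lt l) ((BlC.an_crd l _).comp h.an) hZ.2 ?_⟩
    filter_upwards [h.tendsto.eventually e, h.left] with z h2 h3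
    have h4 := congrFun h2 l
    simp only [comp_apply, h3] at h4
    exact h4
  · obtain ⟨⟨a, _ | i⟩, hp⟩ := p
    · exact absurd rfl h
    · exact fun e => hp (congrFun e i)

end Vale.Agent.P277Z.Hir.Gl
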