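import Vale.Agent.P277Z.Hir.DMain
import Vale.Agent.P277Z.Hir.DUsc
import Vale.Agent.P277Z.Hir.DLinA
import Vale.Agent.P277Z.Hir.DLin
import Vale.Agent.P277Z.Hir.DRootA
import Vale.Agent.P277Z.Hir.DRootC
import Vale.Agent.P277Z.Hir.DRoot
import Vale.Agent.P277Z.Hir.DOrd
import Vale.Agent.P277Z.Hir.DWt
import Vale.Agent.P277Z.Hir.DTot
import Vale.Agent.P277Z.Hir.DEig

/-!
# P277, resolution, removal of the stabilisers: assembly
-/

namespace Vale.Agent.P277Z.Hir.Gl

theorem rootOrb : StRoot := stRoot stRootA (stRootC stRootA stDesc) stDesc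

theorem stDestack : StDestack :=
  destack_of ⟨stUsc, stLin stLinA stUsc, stRootA, rootOrb, stOrdB stUsc, stOrdR stUsc stRootA,
    stWtD stEig⟩

end Vale.Agent.P277Z.Hir.Gl
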