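import Vale.Agent.P277Z.Hir.DDefs

/-!
# P277, resolution, removal of the stabilisers: characters of arrows
-/

open Filter Topology Set Function

noncomputable section

namespace Vale.Agent.P277Z.Hir.Gl

open L (Le IsCo Ass sl)

set_option linter.unusedSectionVars false

variable {ι X : Type} [Fintype ι] [DecidableEq ι]
variable {C C' : Ch ι X} {u u' : ι → ℂ} {Φ Ψ Φ' Ψ' h g : (ι → ℂ) → ι → ℂ} {c : ℕ → ℂˣ}

theorem chi_exists (a : Arr C u C u Φ Ψ) : ∃ c, Chi C u Φ c := by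
  have key : ∀ j, ∃ c : ℂˣ, (j = 0 → c = 1) ∧ (j ≠ 0 → ∃ e : (ι → ℂ) → ℂ, AnalyticAt ℂ e u ∧
      e u = c ∧ ∀ᶠ z in 𝓝 u, C.s j (Φ z) = e z * C.s j z) := by
    intro j
    by_cases hj : j = 0
    · exact ⟨1, fun _ => rfl, fun h => absurd hj h⟩
    · obtain ⟨e, h1, h2, h3⟩ := a.div j hj
      exact ⟨Units.mk0 _ h2, fun h => absurd h hj, fun _ => ⟨e, h1, rfl, h3⟩⟩
  choose c h1 h2 using key
  exact ⟨c, h1 0 rfl, h2⟩

theorem Chi.congr (H : Chi C u Φ c) (e : Φ =ᶠ[𝓝 u] Φ') : Chi C u Φ' c := by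
  refine ⟨H.1, fun j hj => ?_⟩
  obtain ⟨f, h1, h2, h3⟩ := H.2 j hj
  exact ⟨f, h1, h2, (h3.and e).mono fun z hz => hz.2 ▸ hz.1⟩

theorem Chi.conj (a : Arr C u C' u' h g) (H : Chi C' u' Φ c) (hΦ : AnalyticAt ℂ Φ u')
    (hv : Φ u' = u') : Chi C u (g ∘ Φ ∘ h) c := by
  refine ⟨H.1, fun j hj => ?_⟩
  obtain ⟨e, h1, h2, h3⟩ := H.2 j hj
  obtain ⟨e₁, k1, k2, k3⟩ := a.div j hj
  have hT : Tendsto Φ (𝓝 u') (𝓝 u') := by simpa only [hv] using hΦ.continuousAt.tendsto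
  have hA : AnalyticAt ℂ (g ∘ Φ ∘ h) u :=
    AnalyticAt.comp (by simpa only [comp_apply, a.val, hv] using a.an')
      (AnalyticAt.comp (a.val.symm ▸ hΦ) a.an)
  have hV : (g ∘ Φ ∘ h) u = u := by simp only [comp_apply, a.val, hv, a.val']
  have hT' : Tendsto (g ∘ Φ ∘ h) (𝓝 u) (𝓝 u) := by simpa only [hV] using hA.continuousAt.tendsto
  have k4 : AnalyticAt ℂ (fun z => e₁ ((g ∘ Φ ∘ h) z)) u := AnalyticAt.comp (hV.symm ▸ k1) hA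
  have k5 : e₁ ((g ∘ Φ ∘ h) u) ≠ 0 := hV.symm ▸ k2
  refine ⟨fun z => e (h z) * e₁ z / e₁ ((g ∘ Φ ∘ h) z),
    ((AnalyticAt.comp (a.val.symm ▸ h1) a.an).mul k1).div k4 k5, ?_, ?_⟩
  · simp only [hV, a.val, h2]
    exact mul_div_cancel_right₀ _ k2
  · filter_upwards [a.tendsto.eventually h3, k3, hT'.eventually k3,
      (hT.comp a.tendsto).eventually a.right, k4.continuousAt.eventually_ne k5]
      with z m1 m2 m3 m4 m5
    simp only [comp_apply] at m3 m4 m5 ⊢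
    rw [m4, m1, m2] at m3
    field_simp
    linear_combination -m3

theorem Arr.chr_le (a : Arr C u C' u' h g) : Chr C' u' ≤ Chr C u :=
  fun _ ⟨_, _, b, H⟩ => ⟨_, _, (a.trans b).trans a.symm, H.conj a b.an b.val⟩

theorem Arr.chr_eq (a : Arr C u C' u' h g) : Chr C' u' = Chr C u :=
  le_antisymm a.chr_le a.symm.chr_le

theorem Arr.congr (a : Arr C u C' u' Φ Ψ) (e : Φ =ᶠ[𝓝 u] Φ') : Arr C u C' u' Φ' Ψ where
  an := a.an.congr e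
  an' := a.an'
  val := e.self_of_nhds ▸ a.val
  left := (a.left.and e).mono fun _ hz => hz.2 ▸ hz.1
  right := (a.right.and (a.tendsto'.eventually e)).mono fun _ hz => hz.2 ▸ hz.1
  mem := (a.mem.and e).mono fun _ hz => hz.2 ▸ hz.1
  pi := (a.pi.and e).mono fun _ hz => hz.2 ▸ hz.1
  div := fun j hj => ass_congr (a.div j hj) (e.mono fun z hz => by simp only [hz]) EventuallyEq.rfl
  cmp := a.cmp.congr (e.mono fun z hz => by simp only [hz]) EventuallyEq.rfl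

theorem Chi.tendsto {T : Type} {l : Filter T} {x : T → ι → ℂ} (H : Chi C u Φ c) {j : ℕ}
    (hj : j ≠ 0) (hx : Tendsto x l (𝓝 u)) (h0 : ∀ᶠ t in l, C.s j (x t) ≠ 0) :
    Tendsto (fun t => C.s j (Φ (x t)) / C.s j (x t)) l (𝓝 (c j)) := by
  obtain ⟨e, h1, h2, h3⟩ := H.2 j hj
  refine (h2 ▸ h1.continuousAt.tendsto.comp hx).congr' ?_
  filter_upwards [hx.eventually h3, h0] with t h4 h5
  rw [h4, mul_div_cancel_right₀ _ h5, comp_apply]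

variable [TopologicalSpace X] {β : Base X}

theorem nebot (ok : C.Ok β) (hu : u ∈ C.B) : (𝓝[{z ∈ C.B | C.π z ∉ β.Z}] u).NeBot :=
  mem_closure_iff_nhdsWithin_neBot.1 (ok.dense u hu)

theorem s_ne_of (ok : C.Ok β) {z : ι → ℂ} (hz : z ∈ C.B) (hZ : C.π z ∉ β.Z) {j : ℕ} (hj : j ≠ 0) :
    C.s j z ≠ 0 := fun h => hZ (ok.unt z hz (C.mem_E.2 ⟨j, hj, h⟩))

/-- a closed condition which holds outside `Z` holds everywhere -/
theorem eq_of_off {E : Type} [TopologicalSpace E] [T2Space E] (ok : C.Ok β) (hF : C.B = C.U)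
    (hu : u ∈ C.U) {f f' : (ι → ℂ) → E} (hf : ∀ᶠ z in 𝓝 u, ContinuousAt f z)
    (hf' : ∀ᶠ z in 𝓝 u, ContinuousAt f' z) (H : ∀ᶠ z in 𝓝 u, z ∈ C.B → C.π z ∉ β.Z → f z = f' z) :
    f =ᶠ[𝓝 u] f' := by
  filter_upwards [hf, hf', H.eventually_nhds, ok.isOpen.mem_nhds hu] with z h1 h2 h3 h4
  have := nebot ok (hF ▸ h4 : z ∈ C.B)
  refine tendsto_nhds_unique_of_eventuallyEq (l := 𝓝[{z ∈ C.B | C.π z ∉ β.Z}] z)
    (h1.tendsto.mono_left nhdsWithin_le_nhds) (h2.tendsto.mono_left nhdsWithin_le_nhds) ?_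
  filter_upwards [nhdsWithin_le_nhds h3, self_mem_nhdsWithin] with p h5 h6 using h5 h6.1 h6.2

theorem chi_uniq (ok : C.Ok β) (hF : C.B = C.U) (hu : u ∈ C.U) (a : Arr C u C u Φ Ψ)
    (H : Chi C u Φ 1) : Φ =ᶠ[𝓝 u] id := by
  obtain ⟨ε, hε, hf⟩ := ok.faith u (hF ▸ hu)
  have h1 : ∀ l, ∀ᶠ z in 𝓝 u, C.lab l ≠ 0 → ‖Φ z l - z l‖ ≤ ε * ‖z l‖ := by
    intro l
    by_cases hl : C.lab l = 0
    · exact .of_forall fun _ h => absurd hl h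
    obtain ⟨e, k1, k2, k3⟩ := H.2 _ hl
    rw [C.s_of_lab ok.lbl hl] at k3
    have k4 : ∀ᶠ z in 𝓝 u, ‖e z - 1‖ < ε :=
      (k1.continuousAt.sub continuousAt_const).norm.eventually_lt continuousAt_const
        (by simpa [k2] using hε)
    filter_upwards [k3, k4] with z k5 k6 _
    rw [k5, ← sub_one_mul, norm_mul]
    exact mul_le_mul_of_nonneg_right k6.le (norm_nonneg _)
  refine eq_of_off ok hF hu (a.an.eventually_analyticAt.mono fun z hz => hz.continuousAt)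
    (.of_forall fun z => continuousAt_id) ?_
  have h2 : Tendsto (fun z => (z, Φ z)) (𝓝 u) (𝓝 (u, u)) := tendsto_id.prodMk_nhds a.tendsto
  filter_upwards [h2.eventually hf, eventually_all.2 h1, a.mem, a.pi] with z k1 k2 k3 k4 hz hZ
  exact k1 hz (k3.2 hz) hZ (k4 hz) k2

theorem chi_uniq2 (ok : C.Ok β) (hF : C.B = C.U) (hu : u ∈ C.U) (a : Arr C u C u Φ Ψ)
    (a' : Arr C u C u Φ' Ψ') (H : Chi C u Φ c) (H' : Chi C u Φ' c) : Φ =ᶠ[𝓝 u] Φ' := by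
  have h1 := chi_uniq ok hF hu (a.trans a'.symm) (by simpa using H.comp a (H'.inv a'))
  filter_upwards [h1, a.tendsto.eventually a'.right] with z h2 h3
  rw [← h3]
  exact congrArg Φ' h2

theorem match0 {T : Type} {l : Filter T} [l.NeBot] {x y : T → ι → ℂ} (hp : Prp β C u C u)
    (hx : Tendsto x l (𝓝 u)) (hy : Tendsto y l (𝓝 u))
    (H : ∀ᶠ t in l, x t ∈ C.B ∧ y t ∈ C.B ∧ C.π (x t) ∉ β.Z ∧ C.π (y t) = C.π (x t)) :
    ∃ Φ Ψ c, Arr C u C u Φ Ψ ∧ Chi C u Φ c ∧ ∃ᶠ t in l, y t = Φ (x t) := by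
  obtain ⟨n, Φ, Ψ, h1, h2⟩ := hp
  have h3 : ∀ᶠ t in l, ∃ k, y t = Φ k (x t) := by
    filter_upwards [(hx.prodMk_nhds hy).eventually h2, H] with t h4 h5
    obtain ⟨k, hk⟩ := h4 h5.1 h5.2.1 h5.2.2.1 h5.2.2.2
    exact ⟨k, hk.symm⟩
  obtain ⟨k, hk⟩ := frequently_exists.1 h3.frequently
  obtain ⟨c, hc⟩ := chi_exists (h1 k)
  exact ⟨_, _, c, h1 k, hc, hk⟩

theorem Pc.full {C₁ : Ch ι X} (p : Pc C₁ C h) (hF : C.B = C.U) : C₁.B = C₁.U :=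
  p.sub.antisymm fun z hz => let ⟨h1, _, a⟩ := p.arr z hz; a.mem_iff.1 (hF ▸ h1)

/-- refinements from local pieces -/
theorem exists_ref_pc {A : At ι X} (hA : A.Ok β) (P : A.κ → Ch ι X → ((ι → ℂ) → ι → ℂ) → Prop)
    (H : ∀ a, ∀ u ∈ A.K a, ∃ C₁ h, Pc C₁ (A.C a) h ∧ (∃ z ∈ C₁.U, h z = u) ∧ P a C₁ h) :
    ∃ A' : At ι X, Ref A A' ∧ ∀ a', ∃ a h, Pc (A'.C a') (A.C a) h ∧ P a (A'.C a') h := by
  have H' : ∀ a (u : A.K a), ∃ C₁ h, ∃ L : Set (ι → ℂ), Pc C₁ (A.C a) h ∧ P a C₁ h ∧ IsCompact L ∧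
      L ⊆ C₁.U ∧ h '' L ∈ 𝓝 u.1 := by
    intro a u
    obtain ⟨C₁, h, p, ⟨z, hz, hzu⟩, hP⟩ := H a u u.2
    obtain ⟨L, k1, k2, k3⟩ := local_compact_nhds (p.isOpen.mem_nhds hz)
    obtain ⟨-, g, ar⟩ := p.arr z hz
    exact ⟨C₁, h, L, p, hP, k3, k2, hzu ▸ ar.map_nhds ▸ image_mem_map k1⟩
  choose C₁ h L p hP k1 k2 k3 using H'
  have h7 : ∀ a, ∃ t : Finset (A.K a), A.K a ⊆ ⋃ u ∈ t, h a u '' L a u :=
    fun a => (hA.cpt a).elim_nhds_subcover' (fun u hu => h a ⟨u, hu⟩ '' L a ⟨u, hu⟩)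
      fun u hu => k3 a ⟨u, hu⟩
  choose t ht using h7
  refine ⟨⟨Σ a, t a, fun q => C₁ q.1 q.2, fun q => L q.1 q.2 ∩ h q.1 q.2 ⁻¹' A.K q.1⟩,
    ⟨fun q => (p _ _).isOpen, fun q => (p _ _).sub, fun q => (p _ _).lbl, fun q => (p _ _).anF,
      fun q => ?_, fun q z hz => ?_, fun q => ⟨q.1, h q.1 q.2, (p _ _).arr⟩, fun a u hu => ?_⟩,
    fun q => ⟨q.1, h q.1 q.2, p _ _, hP _ _⟩⟩
  · have hc : ContinuousOn (h q.1 q.2) (L q.1 q.2) := fun z hz =>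
      let ⟨_, _, ar⟩ := (p _ _).arr z (k2 _ _ hz); ar.an.continuousAt.continuousWithinAt
    exact (k1 _ _).of_isClosed_subset
      (hc.preimage_isClosed_of_isClosed (k1 _ _).isClosed (hA.cpt _).isClosed) inter_subset_left
  · obtain ⟨-, g, ar⟩ := (p _ _).arr z (k2 _ _ hz.1)
    exact ar.mem_iff.1 (hA.sub _ hz.2)
  · obtain ⟨v, hv, z, hz, rfl⟩ := mem_iUnion₂.1 (ht a hu)
    obtain ⟨-, g, ar⟩ := (p _ _).arr z (k2 _ _ hz)
    exact ⟨⟨a, v, hv⟩, z, ⟨hz, hu⟩, _, g, ar⟩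

end Vale.Agent.P277Z.Hir.Gl
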