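import Vale.Agent.P277Z.Hir.BArr

/-!
# P277, resolution, removal of the stabilisers: definitions and statements
-/

open Filter Topology Set Function

noncomputable section

namespace Vale.Agent.P277Z.Hir.Gl

open L (Le IsCo Ass sl)

set_option linter.unusedSectionVars false

variable {ι X : Type} [Fintype ι] [DecidableEq ι]

/-- `c` is the character by which `Φ` acts on the equations of the divisors at `u` -/
def Chi (C : Ch ι X) (u : ι → ℂ) (Φ : (ι → ℂ) → ι → ℂ) (c : ℕ → ℂˣ) : Prop :=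
  c 0 = 1 ∧ ∀ j, j ≠ 0 → ∃ e : (ι → ℂ) → ℂ, AnalyticAt ℂ e u ∧ e u = c j ∧
    ∀ᶠ z in 𝓝 u, C.s j (Φ z) = e z * C.s j z

theorem Chi.id (C : Ch ι X) (u : ι → ℂ) : Chi C u id 1 :=
  ⟨rfl, fun _ _ => ⟨fun _ => 1, analyticAt_const, rfl, .of_forall fun _ => (one_mul _).symm⟩⟩

theorem Chi.comp {C : Ch ι X} {u : ι → ℂ} {Φ Ψ Φ' : (ι → ℂ) → ι → ℂ} {c c' : ℕ → ℂˣ}
    (a : Arr C u C u Φ Ψ) (h : Chi C u Φ c) (h' : Chi C u Φ' c') : Chi C u (Φ' ∘ Φ) (c * c') := by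
  refine ⟨by simp [h.1, h'.1], fun j hj => ?_⟩
  obtain ⟨e, h1, h2, h3⟩ := h.2 j hj
  obtain ⟨e', h4, h5, h6⟩ := h'.2 j hj
  refine ⟨fun z => e z * e' (Φ z), h1.mul (AnalyticAt.comp (a.val.symm ▸ h4) a.an),
    by simp [a.val, h2, h5], ?_⟩
  filter_upwards [h3, a.tendsto.eventually h6] with z h7 h8
  rw [comp_apply, h8, h7]
  ring

theorem Chi.inv {C : Ch ι X} {u : ι → ℂ} {Φ Ψ : (ι → ℂ) → ι → ℂ} {c : ℕ → ℂˣ}
    (a : Arr C u C u Φ Ψ) (h : Chi C u Φ c) : Chi C u Ψ c⁻¹ := by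
  refine ⟨by simp [h.1], fun j hj => ?_⟩
  obtain ⟨e, h1, h2, h3⟩ := h.2 j hj
  have h4 : AnalyticAt ℂ (fun z => e (Ψ z)) u := AnalyticAt.comp (a.val'.symm ▸ h1) a.an'
  have h5 : e (Ψ u) ≠ 0 := by simp [a.val', h2]
  refine ⟨fun z => (e (Ψ z))⁻¹, h4.inv h5, by simp [a.val', h2], ?_⟩
  filter_upwards [a.tendsto'.eventually h3, a.right, h4.continuousAt.eventually_ne h5]
    with z h6 h7 h8
  rw [h7] at h6
  rw [h6, ← mul_assoc, inv_mul_cancel₀ h8, one_mul]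

/-- the stabiliser of `u`, as a group of characters -/
def Chr (C : Ch ι X) (u : ι → ℂ) : Subgroup (ℕ → ℂˣ) where
  carrier := {c | ∃ Φ Ψ, Arr C u C u Φ Ψ ∧ Chi C u Φ c}
  one_mem' := ⟨id, id, Arr.refl C u, Chi.id C u⟩
  mul_mem' := fun ⟨_, _, a, h⟩ ⟨_, _, a', h'⟩ => ⟨_, _, a.trans a', h.comp a h'⟩
  inv_mem' := fun ⟨_, _, a, h⟩ => ⟨_, _, a.symm, h.inv a⟩

/-- the diagonal action -/
def dg (ζ : ℂˣ) (w : ι → ℕ) (z : ι → ℂ) : ι → ℂ := fun l => (ζ : ℂ) ^ w l * z l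

/-- the character with exponents `m` -/
def gch (ζ : ℂˣ) (m : ℕ → ℕ) : ℕ → ℂˣ := fun j => ζ ^ m j

/-- the element `gch ζ m` acts on the chart by the diagonal map with the weights `w` -/
structure Ch.Lin (C : Ch ι X) (ζ : ℂˣ) (ρ : ℕ) (m : ℕ → ℕ) (w : ι → ℕ) : Prop where
  lt : ∀ l, w l < ρ
  hm : ∀ j, j ≠ 0 → ∑ l ∈ Finset.univ.filter (fun l => C.lab l = j), w l = m j
  arr : ∀ z ∈ C.U, dg ζ w z ∈ C.U ∧ ∃ Ψ, Arr C z C (dg ζ w z) (dg ζ w) Ψ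
  fix : ∀ z ∈ C.U, gch ζ m ∈ Chr C z → ∀ l, w l ≠ 0 → z l = 0

/-- `C₁` is an open piece of `C` in new coordinates -/
structure Pc (C₁ C : Ch ι X) (h : (ι → ℂ) → ι → ℂ) : Prop where
  isOpen : IsOpen C₁.U
  sub : C₁.B ⊆ C₁.U
  lbl : ∀ l l', C₁.lab l ≠ 0 → C₁.lab l' = C₁.lab l → l' = l
  anF : ∀ k, AnalyticOnNhd ℂ (C₁.F k) C₁.U
  arr : ∀ z ∈ C₁.U, h z ∈ C.U ∧ ∃ g, Arr C₁ z C (h z) h g

namespace Ch
variable (C : Ch ι X) (N ρ : ℕ)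

/-- the quotient map -/
def qm (z : ι → ℂ) : ι → ℂ := fun l => if C.lab l = N then z l ^ ρ else z l

/-- a section of the quotient map -/
def rt (z : ι → ℂ) : ι → ℂ := fun l => if C.lab l = N then z l ^ (ρ : ℂ)⁻¹ else z l

/-- the rotation of the coordinate with label `N` -/
def rot (η : ℂ) (z : ι → ℂ) : ι → ℂ := fun l => if C.lab l = N then η * z l else z l

/-- the chart is invariant under the rotations -/
def Sym : Prop := ∀ η : ℂ, η ^ ρ = 1 → ∀ z ∈ C.U, C.rot N η z ∈ C.U ∧ C.π (C.rot N η z) = C.π z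

/-- the quotient of the chart by the rotations -/
def root : Ch ι X where
  U := C.rt N ρ ⁻¹' C.U
  B := C.rt N ρ ⁻¹' C.U
  π := C.π ∘ C.rt N ρ
  lab := C.lab
  m := 1
  F := fun _ _ => 1

end Ch

/-- the quotient of the atlas by the rotations -/
def At.root (A : At ι X) (N ρ : ℕ) : At ι X where
  κ := A.κ
  C a := (A.C a).root N ρ
  K a := (A.C a).qm N ρ '' A.K a

variable [TopologicalSpace X]

/-- the map to the base is injective near `u`, outside `Z` -/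
def Ch.Inj (β : Base X) (C : Ch ι X) (u : ι → ℂ) : Prop :=
  ∀ᶠ p in 𝓝 (u, u), p.1 ∈ C.B → p.2 ∈ C.B → C.π p.1 ∉ β.Z → C.π p.2 = C.π p.1 → p.2 = p.1

/-- good full atlases whose families have no zeros -/
def At.Orb (β : Base X) (A : At ι X) : Prop := A.Ok β ∧ A.Full ∧ A.Unit

/-- one step of the removal of the stabilisers; the new labels are at least `N₀` -/
inductive StepD (β : Base X) (N₀ : ℕ) : At ι X → At ι X → Prop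
  | ref {A A' : At ι X} : Ref A A' → StepD β N₀ A A'
  | bl {A : At ι X} (W : Wt β A) : N₀ ≤ W.N →
      (∀ a, ∀ u ∈ (A.C a).B, u ∈ Zc (W.w a) → ¬ (A.C a).Inj β u) → StepD β N₀ A W.bl
  | root {A : At ι X} (N ρ : ℕ) : N₀ ≤ N → N ≠ 0 → 2 ≤ ρ → (∀ a, (A.C a).Sym N ρ) →
      StepD β N₀ A (A.root N ρ)

/-- finitely many such steps -/
def StepsD (β : Base X) (N₀ : ℕ) : At ι X → At ι X → Prop :=
  Relation.ReflTransGen fun A A' => A.Orb β ∧ StepD β N₀ A A'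

/-! ### statements -/

/-- **USC**: the stabilisers are finite and decrease near a point -/
def StUsc : Prop :=
  ∀ (ι X : Type) [Fintype ι] [DecidableEq ι] [TopologicalSpace X] (β : Base X) (C : Ch ι X)
    (u : ι → ℂ), C.Ok β → C.B = C.U → u ∈ C.U → Prp β C u C u →
    Finite (Chr C u) ∧ (∀ᶠ z in 𝓝 u, Chr C z ≤ Chr C u) ∧
    (∀ γ γ' g, Arr C u C u γ γ' → Chi C u γ g → ∀ᶠ z in 𝓝 u, g ∈ Chr C z → γ z = z) ∧
    (Chr C u = ⊥ → C.Inj β u)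

/-- **LINA**: linearisation of a map of finite order -/
def StLinA : Prop :=
  ∀ (ι : Type) [Fintype ι] [DecidableEq ι] (γ : (ι → ℂ) → ι → ℂ) (u : ι → ℂ) (ζ : ℂˣ) (ρ : ℕ)
    (S : Set ι) (a : ι → ℕ), ρ ≠ 0 → IsPrimitiveRoot ζ ρ → AnalyticAt ℂ γ u → γ u = u →
    (∀ᶠ z in 𝓝 u, γ^[ρ] z = z) →
    (∀ l ∈ S, u l = 0 ∧ a l < ρ ∧ ∃ e : (ι → ℂ) → ℂ, AnalyticAt ℂ e u ∧ e u = (ζ : ℂ) ^ a l ∧
      ∀ᶠ z in 𝓝 u, γ z l = e z * z l) →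
    ∃ (y : (ι → ℂ) → ι → ℂ) (w : ι → ℕ), IsCo y u ∧ y u = 0 ∧ (∀ l, w l < ρ) ∧
      (∀ l ∈ S, w l = a l ∧ Ass (fun z => y z l) (fun z => z l) u) ∧
      ∀ᶠ z in 𝓝 u, y (γ z) = dg ζ w (y z)

/-- **LIN**: linear charts -/
def StLin : Prop :=
  ∀ (ι X : Type) [Fintype ι] [DecidableEq ι] [TopologicalSpace X] (β : Base X) (C : Ch ι X)
    (u : ι → ℂ) (ζ : ℂˣ) (ρ : ℕ) (m : ℕ → ℕ), C.Ok β → C.B = C.U → u ∈ C.U → Prp β C u C u →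
    ρ ≠ 0 → IsPrimitiveRoot ζ ρ → (∀ j, m j < ρ) → gch ζ m ∈ Chr C u →
    ∃ (C₁ : Ch ι X) (h : (ι → ℂ) → ι → ℂ) (w : ι → ℕ), Pc C₁ C h ∧ (∃ z ∈ C₁.U, h z = u) ∧
      C₁.Lin ζ ρ m w

/-- **EIG**: eigenfunctions have the weighted order of the eigenvalue -/
def StEig : Prop :=
  ∀ (ι : Type) [Fintype ι] [DecidableEq ι] (f : (ι → ℂ) → ℂ) (u : ι → ℂ) (ζ : ℂˣ) (ρ b : ℕ)
    (w : ι → ℕ), IsPrimitiveRoot ζ ρ → b < ρ → AnalyticAt ℂ f u → (∀ l, w l ≠ 0 → u l = 0) →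
    (∀ᶠ z in 𝓝 u, f (dg ζ w z) = (ζ : ℂ) ^ b * f z) → Le id (fun l => (w l : ℚ)) f b u

/-- **DESC**: invariant functions descend -/
def StDesc : Prop :=
  ∀ (ι : Type) [Fintype ι] [DecidableEq ι] (f : (ι → ℂ) → ℂ) (u : ι → ℂ) (i : ι) (ρ : ℕ), ρ ≠ 0 →
    u i = 0 → AnalyticAt ℂ f u →
    (∀ η : ℂ, η ^ ρ = 1 → ∀ᶠ z in 𝓝 u, f (update z i (η * z i)) = f z) →
    ∃ H, AnalyticAt ℂ H u ∧ ∀ᶠ z in 𝓝 u, f z = H (update z i (z i ^ ρ))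

/-- **ROOTA**: the quotient map -/
def StRootA : Prop :=
  ∀ (ι X : Type) [Fintype ι] [DecidableEq ι] [TopologicalSpace X] (β : Base X) (C : Ch ι X)
    (N ρ : ℕ), C.Ok β → C.B = C.U → (∀ u ∈ C.B, ∃ k, C.F k u ≠ 0) → N ≠ 0 → ρ ≠ 0 → C.Sym N ρ →
    IsOpen (C.root N ρ).U ∧ (∀ z, C.qm N ρ (C.rt N ρ z) = z) ∧
    (∀ z, map (C.qm N ρ) (𝓝 z) = 𝓝 (C.qm N ρ z)) ∧
    (∀ z ∈ C.U, C.qm N ρ z ∈ (C.root N ρ).U ∧ (C.root N ρ).π (C.qm N ρ z) = C.π z) ∧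
    (∀ z ∈ C.U, C.s N z ≠ 0 → ∃ g, Arr C z (C.root N ρ) (C.qm N ρ z) (C.qm N ρ) g) ∧
    ∀ z ∈ C.U, C.s N z = 0 → ∀ η : ℂˣ, η ^ ρ = 1 →
      Arr C z C z (C.rot N η) (C.rot N (η⁻¹ : ℂˣ)) ∧ Chi C z (C.rot N η) (update 1 N η)

/-- **ROOTC**: the charts of the quotient -/
def StRootC : Prop :=
  ∀ (ι X : Type) [Fintype ι] [DecidableEq ι] [TopologicalSpace X] (β : Base X) (C : Ch ι X)
    (N ρ : ℕ), C.Ok β → C.B = C.U → (∀ u ∈ C.B, ∃ k, C.F k u ≠ 0) → N ≠ 0 → ρ ≠ 0 → C.Sym N ρ →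
    (C.root N ρ).Ok β

/-- **ROOT**: the quotient atlas -/
def StRoot : Prop :=
  ∀ (ι X : Type) [Fintype ι] [DecidableEq ι] [TopologicalSpace X] (β : Base X) (A : At ι X)
    (N ρ : ℕ), A.Orb β → N ≠ 0 → ρ ≠ 0 → (∀ a, (A.C a).Sym N ρ) → (A.root N ρ).Orb β

/-- **ORDB**: the order of the stabiliser on the blow-up -/
def StOrdB : Prop :=
  ∀ (ι X : Type) [Fintype ι] [DecidableEq ι] [TopologicalSpace X] (β : Base X) (A : At ι X)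
    (W : Wt β A), A.Ok β → A.Full → ∀ (a : A.κ) (i : ι) (hi : Use (W.w a) (some i)),
    ∀ z ∈ (W.bl.C ⟨(a, some i), hi⟩).U, z i = 0 → Nat.card (Chr (W.bl.C ⟨(a, some i), hi⟩) z) ≤
      W.w a i * Nat.card (Chr (A.C a) (sl (W.w a) i z))

/-- **ORDR**: the order of the stabiliser on the quotient -/
def StOrdR : Prop :=
  ∀ (ι X : Type) [Fintype ι] [DecidableEq ι] [TopologicalSpace X] (β : Base X) (C : Ch ι X)
    (N ρ : ℕ), C.Ok β → C.B = C.U → (∀ u ∈ C.B, ∃ k, C.F k u ≠ 0) → N ≠ 0 → ρ ≠ 0 → C.Sym N ρ →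
    ∀ z ∈ C.U, Prp β C z C z → C.s N z = 0 →
    ρ * Nat.card (Chr (C.root N ρ) (C.qm N ρ z)) ≤ Nat.card (Chr C z)

/-- **WTD**: the blow-up of the fixed points -/
def StWtD : Prop :=
  ∀ (ι X : Type) [Fintype ι] [DecidableEq ι] [TopologicalSpace X] (β : Base X) (A : At ι X)
    (ζ : ℂˣ) (ρ N₀ : ℕ) (m : ℕ → ℕ) (w : A.κ → ι → ℕ), A.Ok β → A.Full → IsPrimitiveRoot ζ ρ →
    m 0 = 0 → m ≠ 0 → (∀ j, m j < ρ) →
    (∀ a, (w a = 0 ∧ ∀ z ∈ (A.C a).U, gch ζ m ∉ Chr (A.C a) z) ∨ (A.C a).Lin ζ ρ m (w a)) →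
    ∃ W : Wt β A, W.w = w ∧ N₀ ≤ W.N ∧ (∀ p, (W.bl.C p).Sym W.N ρ) ∧
      ∀ a, ∀ u ∈ (A.C a).B, u ∈ Zc (w a) → ¬ (A.C a).Inj β u

/-- **TOTD**: the total transforms -/
def StTotD : Prop :=
  ∀ (ι X : Type) [Fintype ι] [DecidableEq ι] [TopologicalSpace X] (β : Base X) (A A' : At ι X)
    (N₀ : ℕ) (Γ : Type) (XO : Γ → Set X) (nm : Γ → X → ℝ) (ex : ℕ → ℝ), StepsD β N₀ A A' →
    (∀ j, 0 ≤ ex j) → A.Tot XO nm ex → ∃ ex' : ℕ → ℝ, (∀ j, 0 ≤ ex' j) ∧ A'.Tot XO nm ex'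

/-- **D**: removal of the stabilisers -/
def StDestack : Prop :=
  ∀ (ι X : Type) [Fintype ι] [DecidableEq ι] [TopologicalSpace X] (β : Base X) (A : At ι X)
    (N₀ : ℕ), A.Orb β → ∃ A', StepsD β N₀ A A' ∧ A'.Orb β ∧ A'.Free β

end Vale.Agent.P277Z.Hir.Gl
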