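import Vale.Agent.P277Z.Hir.DChi
import Vale.Agent.P277Z.Hir.BBl
import Vale.Agent.P277Z.Hir.BInv

/-!
# P277, resolution, removal of the stabilisers: the induction
-/

open Filter Topology Set Function

noncomputable section

namespace Vale.Agent.P277Z.Hir.Gl

open L (Le IsCo Ass sl)

set_option linter.unusedSectionVars false

variable {ι X : Type} [Fintype ι] [DecidableEq ι] [TopologicalSpace X] {β : Base X}

theorem At.Orb.step {A A' : At ι X} (h : A.Orb β) (s : Step β A A') : A'.Orb β :=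
  have s' : Steps β A A' := Relation.ReflTransGen.single ⟨h.1, s⟩
  ⟨s'.ok h.1, (stInvs stSig ι X β A A' s').2.1 h.2.1, (stInvs stSig ι X β A A' s').2.2.1 h.2.2⟩

/-- an open piece of a chart -/
def Ch.opc (C : Ch ι X) (V : Set (ι → ℂ)) : Ch ι X := { C with U := V, B := V ∩ C.B }

theorem pc_open {C : Ch ι X} (ok : C.Ok β) {V : Set (ι → ℂ)} (hV : IsOpen V) (hs : V ⊆ C.U) :
    Pc (C.opc V) C id where
  isOpen := hV
  sub := inter_subset_left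
  lbl := ok.lbl
  anF := fun k => (ok.anF k).mono hs
  arr := fun z hz => ⟨hs hz, id, { Arr.refl C z with
    mem := (hV.eventually_mem hz).mono fun _ h => ⟨fun h' => ⟨h, h'⟩, fun h' => h'.2⟩
    pi := .of_forall fun _ _ => rfl }⟩

/-- the set of the stabilisers -/
def At.grp (A : At ι X) : Set (Subgroup (ℕ → ℂˣ)) := {G | ∃ a, ∃ u ∈ (A.C a).U, G = Chr (A.C a) u}

theorem Ref.grp {A A' : At ι X} (r : Ref A A') : A'.grp ⊆ A.grp := by
  rintro _ ⟨a', z, hz, rfl⟩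
  obtain ⟨a, h, H⟩ := r.arr a'
  obtain ⟨h1, g, ar⟩ := H z hz
  exact ⟨a, h z, h1, ar.chr_eq.symm⟩

theorem At.Orb.prp {A : At ι X} (h : A.Orb β) {a : A.κ} {u : ι → ℂ} (hu : u ∈ (A.C a).U) :
    Prp β (A.C a) u (A.C a) u :=
  h.1.prp a a u (h.2.1 a ▸ hu) u (h.2.1 a ▸ hu)

theorem At.Orb.finite (hU : StUsc) {A : At ι X} (h : A.Orb β) {G : Subgroup (ℕ → ℂˣ)}
    (hG : G ∈ A.grp) : Finite G := by
  obtain ⟨a, u, hu, rfl⟩ := hG
  exact (hU ι X β _ u (h.1.ch a) (h.2.1 a) hu (h.prp hu)).1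

theorem small (hU : StUsc) {A : At ι X} (h : A.Orb β) {a : A.κ} {u : ι → ℂ} (hu : u ∈ A.K a) :
    ∃ C₁, Pc C₁ (A.C a) id ∧ u ∈ C₁.U ∧ ∀ z ∈ C₁.U, Chr C₁ z ≤ Chr (A.C a) u := by
  have hu' := (h.1.ch a).sub (h.1.sub a hu)
  obtain ⟨V, v1, v2, v3⟩ := eventually_nhds_iff.1 (((h.1.ch a).isOpen.eventually_mem hu').and
    (hU ι X β _ u (h.1.ch a) (h.2.1 a) hu' (h.prp hu')).2.1)
  have p := pc_open (h.1.ch a) v2 fun z hz => (v1 z hz).1
  refine ⟨_, p, v3, fun z hz => ?_⟩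
  obtain ⟨-, g, ar⟩ := p.arr z hz
  exact ar.chr_eq ▸ (v1 z hz).2

theorem finite_ref (hU : StUsc) {A : At ι X} (h : A.Orb β) : ∃ A', Ref A A' ∧ A'.grp.Finite := by
  obtain ⟨A', r, H⟩ := exists_ref_pc h.1
    (fun _ C₁ _ => ∃ G : Subgroup (ℕ → ℂˣ), Finite G ∧ ∀ z ∈ C₁.U, Chr C₁ z ≤ G) fun a u hu => by
      obtain ⟨C₁, p, h1, h2⟩ := small hU h hu
      exact ⟨C₁, id, p, ⟨u, h1, rfl⟩, _,
        h.finite hU ⟨a, u, (h.1.ch a).sub (h.1.sub a hu), rfl⟩, h2⟩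
  choose _ _ _ G hG hle using H
  refine ⟨A', r, (finite_iUnion (f := fun a' => {K | K ≤ G a'}) fun a' => ?_).subset ?_⟩
  · have : (G a' : Set (ℕ → ℂˣ)).Finite := hG a'
    exact this.finite_subsets.preimage SetLike.coe_injective.injOn
  · rintro _ ⟨a', z, hz, rfl⟩
    exact mem_iUnion.2 ⟨a', hle a' z hz⟩

theorem s_bl {A : At ι X} (W : Wt β A) (p : W.bl.κ) (z : ι → ℂ) :
    (W.bl.C p).s W.N z = so p.1.2 z := by
  obtain ⟨⟨a, _ | i⟩, ho⟩ := p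
  · exact congrFun (Ch.s_of_not _ (W.new a)) z
  · refine Finset.prod_eq_single_of_mem i (Finset.mem_filter.2
      ⟨Finset.mem_univ _, (update_self .. : update (A.C a).lab i W.N i = W.N)⟩) fun l h1 h2 => ?_
    have h3 : update (A.C a).lab i W.N l = W.N := (Finset.mem_filter.1 h1).2
    rw [update_of_ne h2] at h3
    exact absurd h3 (W.new a l)

theorem exists_gch {G : Subgroup (ℕ → ℂˣ)} [Finite G] {g : ℕ → ℂˣ} (hg : g ∈ G) (h1 : g ≠ 1)
    (h0 : g 0 = 1) : ∃ (ζ : ℂˣ) (ρ : ℕ) (m : ℕ → ℕ), 2 ≤ ρ ∧ IsPrimitiveRoot ζ ρ ∧ m 0 = 0 ∧ m ≠ 0 ∧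
      (∀ j, m j < ρ) ∧ g = gch ζ m := by
  have hρ : Nat.card G ≠ 0 := Nat.card_pos.ne'
  have : NeZero (Nat.card G) := ⟨hρ⟩
  have h2 : g ^ Nat.card G = 1 :=
    congrArg Subtype.val (pow_card_eq_one' (x := (⟨g, hg⟩ : G)))
  have hζ := (Complex.isPrimitiveRoot_exp _ hρ).isUnit_unit' hρ
  have h3 : ∀ j, ∃ m < Nat.card G, _ ^ m = g j := fun j =>
    hζ.eq_pow_of_mem_rootsOfUnity ((mem_rootsOfUnity _ _).2 (congrFun h2 j))
  choose m hm he using h3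
  have h4 : g = gch _ m := funext fun j => (he j).symm
  refine ⟨_, _, m, ?_, hζ, ?_, ?_, hm, h4⟩
  · by_contra h
    have : Nat.card G = 1 := by omega
    rw [this, pow_one] at h2
    exact h1 h2
  · exact Nat.eq_zero_of_dvd_of_lt ((hζ.pow_eq_one_iff_dvd _).1 ((he 0).trans h0)) (hm 0)
  · rintro rfl
    exact h1 (h4.trans (funext fun j => pow_zero _))

/-- the local statements -/
structure DH : Prop where
  usc : StUsc
  lin : StLin
  rootA : StRootA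
  root : StRoot
  ordB : StOrdB
  ordR : StOrdR
  wt : StWtD

theorem StepsD.orb (hR : StRoot) {N₀ : ℕ} {A A' : At ι X} (s : StepsD β N₀ A A') (h : A.Orb β) :
    A'.Orb β := by
  induction s with
  | refl => exact h
  | tail _ s ih =>
    rcases s.2 with r | ⟨W, -, -⟩ | ⟨N, ρ, -, h1, h2, h3⟩
    · exact ih.step (.ref r)
    · exact ih.step (.bl W)
    · exact hR ι X β _ N ρ ih h1 (by omega) h3

theorem step_d (H : DH) (N₀ : ℕ) {A : At ι X} (h : A.Orb β) {G : Subgroup (ℕ → ℂˣ)}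
    (hG : G ∈ A.grp) {g : ℕ → ℂˣ} (hg : g ∈ G) (h1 : g ≠ 1) :
    ∃ A', StepsD β N₀ A A' ∧ ∀ G' ∈ A'.grp,
      (G' ∈ A.grp ∧ g ∉ G') ∨ ∃ K ∈ A.grp, Nat.card G' < Nat.card K := by
  have := h.finite H.usc hG
  have h0 : g 0 = 1 := by
    obtain ⟨a, u, -, rfl⟩ := hG
    obtain ⟨_, _, -, hc⟩ := hg
    exact hc.1
  obtain ⟨ζ, ρ, m, hρ, hζ, m0, m1, m2, rfl⟩ := exists_gch hg h1 h0
  obtain ⟨A₁, r, H₁⟩ := exists_ref_pc h.1
    (fun _ C₁ _ => ∃ w, (w = 0 ∧ ∀ z ∈ C₁.U, gch ζ m ∉ Chr C₁ z) ∨ C₁.Lin ζ ρ m w) fun a u hu => by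
      have hu' := (h.1.ch a).sub (h.1.sub a hu)
      by_cases hc : gch ζ m ∈ Chr (A.C a) u
      · obtain ⟨C₁, k, w, p, k1, k2⟩ :=
          H.lin ι X β _ u ζ ρ m (h.1.ch a) (h.2.1 a) hu' (h.prp hu') (by omega) hζ m2 hc
        exact ⟨C₁, k, p, k1, w, Or.inr k2⟩
      · obtain ⟨C₁, p, k1, k2⟩ := small H.usc h hu
        exact ⟨C₁, id, p, ⟨u, k1, rfl⟩, 0, Or.inl ⟨rfl, fun z hz hc' => hc (k2 z hz hc')⟩⟩
  choose _ _ _ w hw using H₁
  have o1 := h.step (.ref r)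
  obtain ⟨W, rfl, hN, hS, hI⟩ := H.wt ι X β A₁ ζ ρ N₀ m w o1.1 o1.2.1 hζ m0 m1 m2 hw
  have o2 := o1.step (.bl W)
  refine ⟨W.bl.root W.N ρ, ((Relation.ReflTransGen.single ⟨h, .ref r⟩).tail
    ⟨o1, .bl W hN hI⟩).tail ⟨o2, .root _ _ hN W.pos hρ hS⟩, ?_⟩
  rintro _ ⟨p, z'', hz'', rfl⟩
  obtain ⟨-, q2, -, -, q5, -⟩ := H.rootA ι X β (W.bl.C p) W.N ρ (o2.1.ch p) (o2.2.1 p) (o2.2.2 p)
    W.pos (by omega) (hS p)
  obtain ⟨z, hz, rfl⟩ : ∃ z ∈ (W.bl.C p).U, (W.bl.C p).qm W.N ρ z = z'' := ⟨_, hz'', q2 z''⟩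
  have hm : σo (W.w p.1.1) p.1.2 z ∈ (A₁.C p.1.1).U := hz
  have hK : Chr (A₁.C p.1.1) (σo (W.w p.1.1) p.1.2 z) ∈ A.grp := r.grp ⟨_, _, hm, rfl⟩
  by_cases hs : so p.1.2 z = 0
  · have k1 := H.ordR ι X β (W.bl.C p) W.N ρ (o2.1.ch p) (o2.2.1 p) (o2.2.2 p) W.pos (by omega)
      (hS p) z hz (o2.prp hz) ((s_bl W p z).trans hs)
    obtain ⟨⟨a, _ | i⟩, ho⟩ := p
    · exact absurd hs one_ne_zero
    have k2 := H.ordB ι X β A₁ W o1.1 o1.2.1 a i ho z hz hs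
    have k3 : W.w a i < ρ := by
      rcases hw a with k | k
      · exact absurd (congrFun k.1 i) ho
      · exact k.lt i
    have : Finite (Chr (A₁.C a) (sl (W.w a) i z)) := h.finite H.usc hK
    have k4 : 0 < Nat.card (Chr (A₁.C a) (sl (W.w a) i z)) := Nat.card_pos
    exact Or.inr ⟨_, hK, lt_of_mul_lt_mul_left
      ((k1.trans k2).trans_lt (Nat.mul_lt_mul_of_pos_right k3 k4)) (Nat.zero_le ρ)⟩
  · obtain ⟨g₁, a₁⟩ := q5 z hz ((s_bl W p z).trans_ne hs)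
    obtain ⟨g₂, a₂⟩ := stSig ι X β A₁ W o1.1 p z hz hs
    have e : Chr ((W.bl.root W.N ρ).C p) ((W.bl.C p).qm W.N ρ z) =
        Chr (A₁.C p.1.1) (σo (W.w p.1.1) p.1.2 z) := a₁.chr_eq.trans a₂.chr_eq.symm
    rw [e]
    refine Or.inl ⟨hK, fun hc => ?_⟩
    rcases hw p.1.1 with k | k
    · exact k.2 _ hm hc
    · refine hs (so_zero p.2 ⟨fun h0 => m1 (funext fun j => ?_), k.fix _ hm hc⟩)
      by_cases hj : j = 0
      · exact hj ▸ m0
      · rw [← k.hm j hj, h0]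
        simp

theorem destack_le (H : DH) (N₀ : ℕ) (M : ℕ) : ∀ A : At ι X, A.Orb β →
    (∀ G ∈ A.grp, Nat.card G ≤ M + 1) → ∃ A', StepsD β N₀ A A' ∧ A'.Orb β ∧ A'.Free β := by
  induction M with
  | zero =>
    refine fun A h hM => ⟨A, .refl, h, fun a u hu => ?_⟩
    have hu' := (h.1.ch a).sub hu
    have := h.finite H.usc ⟨a, u, hu', rfl⟩
    exact (H.usc ι X β _ u (h.1.ch a) (h.2.1 a) hu' (h.prp hu')).2.2.2
      (Subgroup.eq_bot_of_card_le _ (hM _ ⟨a, u, hu', rfl⟩))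
  | succ M ih =>
    have key : ∀ S : Set (Subgroup (ℕ → ℂˣ)), S.Finite → ∀ A : At ι X, A.Orb β →
        (∀ G ∈ A.grp, Nat.card G ≤ M + 1 ∨ (Nat.card G = M + 2 ∧ G ∈ S)) →
        ∃ A', StepsD β N₀ A A' ∧ A'.Orb β ∧ A'.Free β := by
      intro S hS
      induction S, hS using Set.Finite.induction_on with
      | empty => exact fun A h hM => ih A h fun G hG => (hM G hG).elim id fun k => k.2.elim
      | @insert K S _ _ ihS =>
        intro A h hM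
        by_cases hK : K ∈ A.grp ∧ K ≠ ⊥
        · obtain ⟨g, hg, h1⟩ : ∃ g ∈ K, g ≠ 1 := by
            by_contra hc
            exact hK.2 ((Subgroup.eq_bot_iff_forall _).2 fun g hg => by
              by_contra h1
              exact hc ⟨g, hg, h1⟩)
          obtain ⟨A', s, hA'⟩ := step_d H N₀ h hK.1 hg h1
          obtain ⟨A'', s', k⟩ := ihS A' (s.orb H.root h) fun G hG => by
            rcases hA' G hG with ⟨k1, k2⟩ | ⟨K', k1, k2⟩
            · exact (hM G k1).imp id fun k => ⟨k.1, k.2.resolve_left fun e => k2 (e ▸ hg)⟩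
            · have := hM K' k1
              omega
          exact ⟨A'', s.trans s', k⟩
        · refine ihS A h fun G hG => (hM G hG).imp id fun k => ⟨k.1, k.2.resolve_left ?_⟩
          rintro rfl
          refine hK ⟨hG, fun e => ?_⟩
          have := k.1
          rw [e, Subgroup.card_bot] at this
          omega
    intro A h hM
    obtain ⟨A₁, r, hf⟩ := finite_ref H.usc h
    obtain ⟨A', s, k⟩ := key _ hf A₁ (h.step (.ref r)) fun G hG => by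
      have := hM G (r.grp hG)
      by_cases e : Nat.card G = M + 2
      · exact Or.inr ⟨e, hG⟩
      · omega
    exact ⟨A', .head ⟨h, .ref r⟩ s, k⟩

theorem destack_of (H : DH) : StDestack := by
  intro ι X _ _ _ β A N₀ h
  obtain ⟨A₁, r, hf⟩ := finite_ref H.usc h
  obtain ⟨M, hM⟩ := (hf.image fun G : Subgroup (ℕ → ℂˣ) => Nat.card G).bddAbove
  obtain ⟨A', s, k⟩ := destack_le H N₀ M A₁ (h.step (.ref r)) fun G hG =>
    (hM ⟨G, hG, rfl⟩).trans (Nat.le_succ M)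
  exact ⟨A', .head ⟨h, .ref r⟩ s, k⟩

end Vale.Agent.P277Z.Hir.Gl
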