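import Vale.Agent.P277Z.Hir.EA

/-!
# P277Z, block HIR: existence of certificates
-/

set_option linter.unusedSectionVars false

open Filter Topology Set

noncomputable section

namespace Vale.Agent.P277Z.Hir

namespace EH

variable {ι : Type} [Fintype ι] [DecidableEq ι] {κ : Type} (nu : ι → ℕ) (F : κ → W ι → ℂ) (p : W ι)

/-- fields which kill the first `i` functions -/
def Tan (x : ℕ → W ι → ℂ) (i : ℕ) (δ : W ι → W ι) : Prop :=
  AnalyticAt ℂ δ p ∧ ∀ j < i, ∀ᶠ u in 𝓝 p, vf δ (x j) u = 0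

section lvl
variable (T : (W ι → W ι) → Prop) (mk : (ℕ → ℕ) → ℚ) (dr : κ → (ℕ → ℕ) → W ι → ℂ)

/-- the order is at least the mark divided by `w` -/
def Pz (w : ℚ) : Prop := ∀ (a : κ) (β : ℕ → ℕ) (L : List (W ι → W ι)), (∀ δ ∈ L, T δ) →
  L.length * w < mk β → L.foldr vf (dr a β) p = 0

/-- derivatives of mark `w` -/
def Wt (w : ℚ) (g : W ι → ℂ) : Prop := ∃ (a : κ) (β : ℕ → ℕ) (L : List (W ι → W ι)),
  (∀ δ ∈ L, T δ) ∧ ((L.length : ℚ) + 1) * w = mk β ∧ g = L.foldr vf (dr a β)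

/-- the label `n` is possible -/
def Qn (w : ℚ) (n : ℕ) : Prop := ∃ g δ, Wt T mk dr w g ∧ T δ ∧ vf δ g p ≠ 0 ∧
  ∀ l, nu l ≠ 0 → nu l ≠ n → ∀ᶠ u in 𝓝 p, δ u l = 0

/-- one stage of the construction -/
structure St (l : ι) (w : ℚ) (δ : W ι → W ι) (y : W ι → ℂ) : Prop where
  pos : 0 < w
  van : y p = 0
  tan : T δ
  one : ∀ᶠ u in 𝓝 p, vf δ y u = 1
  dv : ∀ l', nu l' ≠ 0 → l' ≠ l → ∀ᶠ u in 𝓝 p, δ u l' = 0
  wit : ∃ g, Wt T mk dr w g ∧ vf δ g p ≠ 0 ∧ (nu l = 0 → g = y)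
  pz : Pz p T mk dr w
  mn : ∀ n, Qn nu p T mk dr w n → nu l ≤ n

end lvl

/-- the first `i` stages -/
structure PC (i : ℕ) (m : ℕ → ι) (ω : ℕ → ℚ) (D : ℕ → W ι → W ι) (x : ℕ → W ι → ℂ)
    (ψ : W ι → W ι) : Prop where
  an : AnalyticAt ℂ ψ p
  unit : IsUnit (fderiv ℂ ψ p)
  div : ∀ l, nu l ≠ 0 → (fun u => ψ u l) = fun u => u l
  link : ∀ j < i, (fun u => ψ u (m j)) = x j
  inj : ∀ j < i, ∀ j' < i, m j = m j' → j = j'
  st : ∀ j < i, St nu p (Tan p x j) (fun β => mark ω β j) (fun a β => der D β j (F a))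
    (m j) (ω j) (D j) (x j)

variable {nu F p} {i : ℕ} {m : ℕ → ι} {ω : ℕ → ℚ} {D : ℕ → W ι → W ι} {x : ℕ → W ι → ℂ}
  {ψ : W ι → W ι}

theorem lift_tan {j : ℕ} (hD : Tan p x j (D j)) {L : List (W ι → W ι)}
    (hL : ∀ δ ∈ L, Tan p x (j + 1) δ) (n : ℕ) : ∀ δ ∈ L ++ List.replicate n (D j), Tan p x j δ :=
  fun δ h => (List.mem_append.1 h).elim
    (fun h => ⟨(hL δ h).1, fun j' hj => (hL δ h).2 j' (by omega)⟩)
    fun h => List.eq_of_mem_replicate h ▸ hD

theorem Pz.succ {j : ℕ} (hD : Tan p x j (D j))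
    (h : Pz p (Tan p x j) (fun β => mark ω β j) (fun a β => der D β j (F a)) (ω j)) :
    Pz p (Tan p x (j + 1)) (fun β => mark ω β (j + 1)) (fun a β => der D β (j + 1) (F a)) (ω j) :=
  fun a β L hL hm => by
  rw [der_succ]
  refine h a β _ (lift_tan hD hL _) ?_
  beta_reduce at hm ⊢
  rw [mark_succ] at hm
  rw [List.length_append, List.length_replicate]
  push_cast
  linarith

theorem Qn.pred {j n : ℕ} (hD : Tan p x j (D j)) (h : Qn nu p (Tan p x (j + 1))
    (fun β => mark ω β (j + 1)) (fun a β => der D β (j + 1) (F a)) (ω j) n) :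
    Qn nu p (Tan p x j) (fun β => mark ω β j) (fun a β => der D β j (F a)) (ω j) n := by
  obtain ⟨g, δ, ⟨a, β, L, hL, hm, rfl⟩, h1, h2, h3⟩ := h
  refine ⟨_, δ, ⟨a, β, _, lift_tan hD hL (β j), ?_, der_succ D β j L⟩,
    ⟨h1.1, fun j' hj => h1.2 j' (by omega)⟩, h2, h3⟩
  beta_reduce at hm ⊢
  rw [mark_succ] at hm
  rw [List.length_append, List.length_replicate]
  push_cast
  linarith

theorem PC.sorted (h : PC nu F p i m ω D x ψ) (j : ℕ) : ∀ j', j ≤ j' → j' < i →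
    ent (ω j) (nu (m j)) ≤ ent (ω j') (nu (m j')) := by
  intro j' hj
  induction j', hj using Nat.le_induction with
  | base => exact fun _ => le_rfl
  | succ k _ ih =>
    intro hk
    refine (ih (by omega)).trans ?_
    have s := h.st k (by omega)
    have s' := h.st (k + 1) hk
    obtain ⟨g, ⟨a, β, L, hL, hm, rfl⟩, h1, -⟩ := s'.wit
    have h2 : ω (k + 1) ≤ ω k := le_of_not_gt fun h2 => h1 (s.pz.succ s.tan a β (D (k + 1) :: L)
      (List.forall_mem_cons.2 ⟨s'.tan, hL⟩) (by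
        rw [List.length_cons, ← hm]
        push_cast
        exact mul_lt_mul_of_pos_left h2 (by positivity)))
    rw [ent, ent, WithTop.coe_le_coe, Prod.Lex.toLex_le_toLex]
    rcases h2.eq_or_lt with h2 | h2
    · refine Or.inr ⟨by rw [h2], s.mn _ (Qn.pred s.tan ⟨_, D (k + 1), ⟨a, β, L, hL, h2 ▸ hm, rfl⟩,
        s'.tan, h1, fun l h3 h4 => s'.dv l h3 fun e => h4 (e ▸ rfl)⟩)⟩
    · exact Or.inl (inv_strictAnti₀ s'.pos h2)

/-- the coordinate fields -/
def cf (ψ : W ι → W ι) (v : W ι) : W ι → W ι := pb ψ fun _ => v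

theorem cf_vf (h : AnalyticAt ℂ ψ p) (hu : IsUnit (fderiv ℂ ψ p)) (v : W ι) (l : ι) :
    ∀ᶠ u in 𝓝 p, vf (cf ψ v) (fun u => ψ u l) u = v l := by
  filter_upwards [pb_vf (δ := fun _ => v) h hu (crd_an l _) EventuallyEq.rfl] with u hu
  rw [cf, hu, vf_crd]

theorem fd_apply (h : AnalyticAt ℂ ψ p) (v : W ι) (l : ι) :
    fderiv ℂ ψ p v l = fderiv ℂ (fun u => ψ u l) p v := by
  rw [fderiv_apply h.differentiableAt]
  rfl

theorem fd_sum (hu : IsUnit (fderiv ℂ ψ p)) (g : W ι → ℂ) (v : W ι) :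
    fderiv ℂ g p v = ∑ l, fderiv ℂ ψ p v l * vf (cf ψ (Pi.single l 1)) g p := by
  have : v = ∑ l, fderiv ℂ ψ p v l • cf ψ (Pi.single l 1) p := by
    simp only [cf, pb, ← map_smul, ← map_sum]
    rw [← pi_eq_sum_univ', ← mul_apply_eq_comp, Ring.inverse_mul_cancel _ hu]
    rfl
  conv_lhs => rw [this]
  simp only [map_sum, map_smul, smul_eq_mul, vf]

theorem PC.cf_tan (h : PC nu F p i m ω D x ψ) {v : W ι} (hv : ∀ j < i, v (m j) = 0) :
    Tan p x i (cf ψ v) :=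
  ⟨pb_an h.an h.unit analyticAt_const, fun j hj => by
    rw [← h.link j hj, ← hv j hj]
    exact cf_vf h.an h.unit v _⟩

theorem PC.cf_div (h : PC nu F p i m ω D x ψ) (v : W ι) {l : ι} (hl : nu l ≠ 0) :
    ∀ᶠ u in 𝓝 p, cf ψ v u l = v l := by
  have := cf_vf h.an h.unit v l
  rw [h.div l hl] at this
  simpa only [vf_crd] using this

theorem PC.split (h : PC nu F p i m ω D x ψ) {δ : W ι → W ι} (hδ : Tan p x i δ) {g : W ι → ℂ}
    (hg : vf δ g p ≠ 0) : ∃ l, (∀ j < i, m j ≠ l) ∧ vf (cf ψ (Pi.single l 1)) g p ≠ 0 ∧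
      (nu l ≠ 0 → δ p l ≠ 0) := by
  rw [vf, fd_sum h.unit] at hg
  obtain ⟨l, -, hl⟩ := Finset.exists_ne_zero_of_sum_ne_zero hg
  have h1 := left_ne_zero_of_mul hl
  rw [fd_apply h.an] at h1
  refine ⟨l, fun j hj e => h1 ?_, right_ne_zero_of_mul hl, fun h2 => ?_⟩
  · rw [← e, h.link j hj]
    exact (hδ.2 j hj).self_of_nhds
  · rwa [h.div l h2, ← vf, vf_crd] at h1

theorem PC.nil (hF : ∀ a, F a p = 0) (h : PC nu F p i m ω D x ψ) (a : κ) (β : ℕ → ℕ)
    (hβ : 0 < mark ω β i) : der D β i (F a) p = 0 := by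
  rcases i with _ | i
  · exact hF a
  · have s := h.st i i.lt_succ_self
    exact s.pz.succ s.tan a β [] (by simp) (by simpa using hβ)

theorem PC.step (hp : ∀ l, nu l ≠ 0 → p l = 0) (hA : ∀ a, AnalyticAt ℂ (F a) p)
    (hF : ∀ a, F a p = 0) (h : PC nu F p i m ω D x ψ)
    (hc : ∃ (a : κ) (β : ℕ → ℕ) (L : List (W ι → W ι)), (∀ δ ∈ L, Tan p x i δ) ∧ 0 < mark ω β i ∧
      L.foldr vf (der D β i (F a)) p ≠ 0) :
    ∃ m' ω' D' x' ψ', PC nu F p (i + 1) m' ω' D' x' ψ' := by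
  have hω := fun j hj => (h.st j hj).pos
  obtain ⟨⟨e, μ⟩, ⟨a, β, L, hL, h0, h1, rfl, rfl⟩, hmin⟩ := exists_min (mark_fin hω)
    (S := {y | ∃ (a : κ) (β : ℕ → ℕ) (L : List (W ι → W ι)), (∀ δ ∈ L, Tan p x i δ) ∧
      0 < mark ω β i ∧ L.foldr vf (der D β i (F a)) p ≠ 0 ∧ L.length = y.1 ∧ mark ω β i = y.2})
    (by
      rintro ⟨_, _⟩ ⟨a, β, L, -, h0, -, rfl, rfl⟩
      exact ⟨⟨h0, β, rfl⟩, h0, mark_le β hω⟩)
    (by
      obtain ⟨a, β, L, h1, h2, h3⟩ := hc
      exact ⟨(_, _), a, β, L, h1, h2, h3, rfl, rfl⟩)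
  rcases L with _ | ⟨δ, L⟩
  · exact (h1 (h.nil hF a β h0)).elim
  obtain ⟨w, hw⟩ : ∃ w, w = mark ω β i / (L.length + 1) := ⟨_, rfl⟩
  have hw0 : 0 < w := by rw [hw]; positivity
  have hw1 : ((L.length : ℚ) + 1) * w = mark ω β i := by rw [hw]; field_simp
  have hz : Pz p (Tan p x i) (fun β => mark ω β i) (fun a β => der D β i (F a)) w :=
    fun a' β' L' hL' hm => by
    by_contra h2
    have h3 : 0 < mark ω β' i := lt_of_le_of_lt (by positivity) hm
    have h4 : ((L.length + 1 : ℕ) : ℚ) / mark ω β i ≤ L'.length / mark ω β' i :=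
      hmin (L'.length, mark ω β' i) ⟨a', β', L', hL', h3, h2, rfl, rfl⟩
    push_cast at h4
    beta_reduce at hm
    rw [div_le_div_iff₀ h0 h3, ← hw1] at h4
    have : (0 : ℚ) < L.length + 1 := by positivity
    nlinarith
  have hq : ∀ g δ, Wt (Tan p x i) (fun β => mark ω β i) (fun a β => der D β i (F a)) w g →
      Tan p x i δ → vf δ g p ≠ 0 → ∃ l, (∀ j < i, m j ≠ l) ∧
        vf (cf ψ (Pi.single l 1)) g p ≠ 0 ∧ (nu l ≠ 0 → δ p l ≠ 0) ∧
        Qn nu p (Tan p x i) (fun β => mark ω β i) (fun a β => der D β i (F a)) w (nu l) :=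
    fun g δ hg h2 h3 => by
    obtain ⟨l, h4, h5, h6⟩ := h.split h2 h3
    refine ⟨l, h4, h5, h6, g, _, hg, h.cf_tan fun j hj => Pi.single_eq_of_ne (h4 j hj) _, h5,
      fun l' h7 h8 => ?_⟩
    rw [← Pi.single_eq_of_ne (M := fun _ : ι => ℂ) (show l' ≠ l from fun e => h8 (e ▸ rfl)) 1]
    exact h.cf_div _ h7
  have hex : ∃ n, Qn nu p (Tan p x i) (fun β => mark ω β i) (fun a β => der D β i (F a)) w n := by
    obtain ⟨l, -, -, -, h2⟩ := hq _ δ ⟨a, β, L, fun δ h => hL δ (List.mem_cons_of_mem _ h), hw1, rfl⟩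
      (hL δ List.mem_cons_self) h1
    exact ⟨_, h2⟩
  classical
  obtain ⟨g, δ', hg, h2, h3, h4⟩ := Nat.find_spec hex
  obtain ⟨l, h5, h6, h7, h8⟩ := hq g δ' hg h2 h3
  have h9 : nu l ≤ Nat.find hex := by
    by_contra h9
    have h10 : nu l ≠ 0 := by omega
    exact h7 h10 (h4 l h10 (by omega)).self_of_nhds
  have hT : Tan p x i (cf ψ (Pi.single l 1)) := h.cf_tan fun j hj => Pi.single_eq_of_ne (h5 j hj) _
  obtain ⟨G, g1, g2, g3, g4, g5⟩ : ∃ G : W ι → ℂ, AnalyticAt ℂ G p ∧ G p = 0 ∧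
      vf (cf ψ (Pi.single l 1)) G p ≠ 0 ∧ (nu l = 0 → g = G) ∧ (nu l ≠ 0 → G = fun u => u l) := by
    by_cases hl : nu l = 0
    · obtain ⟨a', β', L', hL', hm, rfl⟩ := hg
      exact ⟨_, foldr_an (fun δ h => (hL' δ h).1) (der_an _ (fun j hj => (h.st j hj).tan.1) (hA _)),
        hz a' β' L' hL' (by rw [← hm]; linarith), h6, fun _ => rfl, fun h => (h hl).elim⟩
    · refine ⟨_, crd_an l p, hp l hl, ?_, fun h => (hl h).elim, fun _ => rfl⟩
      rw [vf_crd, (h.cf_div _ hl).self_of_nhds]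
      simp
  have a1 := vf_an hT.1 g1
  let ψ' : W ι → W ι := fun u => Function.update (ψ u) l (G u)
  have e1 : (fun u => ψ' u l) = G := funext fun u => Function.update_self ..
  have e2 : ∀ l', l' ≠ l → (fun u => ψ' u l') = fun u => ψ u l' := fun l' hl => funext fun u =>
    Function.update_of_ne hl ..
  have a2 : AnalyticAt ℂ ψ' p := analyticAt_pi_iff.2 fun l' => by
    by_cases hl : l' = l
    · rwa [hl, e1]
    · rw [e2 l' hl]
      exact analyticAt_pi_iff.1 h.an l'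
  let Δ : W ι → W ι := fun u => (vf (cf ψ (Pi.single l 1)) G u)⁻¹ • cf ψ (Pi.single l 1) u
  have up : ∀ {α : Type} (f : ℕ → α) (b : α), ∀ j < i, Function.update f i b j = f j :=
    fun f b j hj => Function.update_of_ne hj.ne ..
  have c1 : ∀ j ≤ i, Tan p (Function.update x i G) j = Tan p x j := fun j hj => funext fun δ =>
    congrArg _ (forall_congr fun j' => forall_congr fun hj' => by rw [up x G j' (by omega)])
  have c2 : ∀ j ≤ i, (fun β => mark (Function.update ω i w) β j) = fun β => mark ω β j :=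
    fun j hj => funext fun β => mark_congr β fun j' hj' => up ω w j' (by omega)
  have c3 : ∀ j ≤ i, (fun a β => der (Function.update D i Δ) β j (F a)) =
      fun a β => der D β j (F a) :=
    fun j hj => funext₂ fun a β => der_congr β fun j' hj' => up D Δ j' (by omega)
  refine ⟨Function.update m i l, Function.update ω i w, Function.update D i Δ,
    Function.update x i G, ψ', a2, ?_, fun l' hl => ?_, fun j hj => ?_, fun j hj j' hj' e => ?_,
    fun j hj => ?_⟩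
  · rw [ContinuousLinearMap.isUnit_iff_bijective]
    have : Function.Injective (fderiv ℂ ψ' p : W ι →ₗ[ℂ] W ι) := by
      refine (injective_iff_map_eq_zero _).2 fun v hv => ?_
      have b1 : ∀ l', fderiv ℂ (fun u => ψ' u l') p v = 0 := fun l' =>
        (fd_apply a2 v l').symm.trans (congrFun hv l')
      have b2 : ∀ l', l' ≠ l → fderiv ℂ ψ p v l' = 0 := fun l' hl => by
        rw [fd_apply h.an, ← e2 l' hl, b1]
      have b3 := b1 l
      rw [e1, fd_sum h.unit, Finset.sum_eq_single l (fun l' _ hl => by rw [b2 l' hl, zero_mul])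
        (by simp), mul_eq_zero, or_iff_left g3] at b3
      refine (injective_iff_map_eq_zero _).1
        (ContinuousLinearMap.isUnit_iff_bijective.1 h.unit).1 v (funext fun l' => ?_)
      by_cases hl : l' = l
      · rwa [hl]
      · exact b2 l' hl
    exact ⟨this, LinearMap.injective_iff_surjective.1 this⟩
  · by_cases e : l' = l
    · rw [e, e1, g5 (e ▸ hl)]
    · rw [e2 l' e, h.div l' hl]
  · rcases (Nat.lt_succ_iff.1 hj).eq_or_lt with rfl | hj
    · rw [Function.update_self, Function.update_self, e1]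
    · rw [up m l j hj, up x G j hj, e2 _ (h5 j hj), h.link j hj]
  · rcases (Nat.lt_succ_iff.1 hj).eq_or_lt with rfl | hj <;>
      rcases (Nat.lt_succ_iff.1 hj').eq_or_lt with rfl | hj'
    · rfl
    · rw [Function.update_self, up m l j' hj'] at e
      exact (h5 j' hj' e.symm).elim
    · rw [Function.update_self, up m l j hj] at e
      exact (h5 j hj e).elim
    · rw [up m l j hj, up m l j' hj'] at e
      exact h.inj j hj j' hj' e
  · rw [c1 j (by omega), c2 j (by omega), c3 j (by omega)]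
    rcases (Nat.lt_succ_iff.1 hj).eq_or_lt with rfl | hj
    · simp only [Function.update_self]
      refine ⟨hw0, g2, ⟨(a1.inv g3).smul hT.1, fun j' hj' => ?_⟩, ?_, fun l' h10 h11 => ?_,
        ⟨g, hg, ?_, g4⟩, hz, fun n hn => h9.trans (Nat.find_min' hex hn)⟩
      · filter_upwards [hT.2 j' hj'] with u hu
        rw [vf_smul, hu, mul_zero]
      · filter_upwards [a1.continuousAt.eventually_ne g3] with u hu
        rw [vf_smul, inv_mul_cancel₀ hu]
      · filter_upwards [h.cf_div (Pi.single l 1) h10] with u hu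
        show _ * cf ψ (Pi.single l 1) u l' = 0
        rw [hu, Pi.single_eq_of_ne h11, mul_zero]
      · rw [vf_smul]
        exact mul_ne_zero (inv_ne_zero g3) h6
    · rw [up m l j hj, up ω w j hj, up D Δ j hj, up x G j hj]
      exact h.st j hj

theorem exists_pc [Nonempty ι] (hp : ∀ l, nu l ≠ 0 → p l = 0) (hA : ∀ a, AnalyticAt ℂ (F a) p)
    (hF : ∀ a, F a p = 0) : ∃ k m ω D x ψ, PC nu F p k m ω D x ψ ∧
      ∀ (a : κ) (β : ℕ → ℕ) (L : List (W ι → W ι)), (∀ δ ∈ L, Tan p x k δ) → 0 < mark ω β k →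
        L.foldr vf (der D β k (F a)) p = 0 := by
  by_contra hn
  push Not at hn
  have key : ∀ k, ∃ m ω D x ψ, PC nu F p k m ω D x ψ := fun k => by
    induction k with
    | zero =>
      exact ⟨fun _ => Classical.arbitrary ι, 0, 0, 0, id, analyticAt_id,
        by rw [fderiv_id]; exact isUnit_one, fun _ _ => rfl, by simp, by simp, by simp⟩
    | succ k ih =>
      obtain ⟨m, ω, D, x, ψ, h⟩ := ih
      exact h.step hp hA hF (hn _ _ _ _ _ _ h)
  obtain ⟨m, ω, D, x, ψ, h⟩ := key (Fintype.card ι + 1)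
  have := Fintype.card_le_of_injective (fun j : Fin (Fintype.card ι + 1) => m j)
    fun j j' e => Fin.ext (h.inj j j.2 j' j'.2 e)
  simp at this

theorem PC.gc (hA : ∀ a, AnalyticAt ℂ (F a) p) (h : PC nu F p i m ω D x ψ)
    (hf : ∀ (a : κ) (β : ℕ → ℕ) (L : List (W ι → W ι)), (∀ δ ∈ L, Tan p x i δ) → 0 < mark ω β i →
      L.foldr vf (der D β i (F a)) p = 0) {φ : W ι → W ι} {q : W ι} (hφ : AnalyticAt ℂ φ q)
    (hu : IsUnit (fderiv ℂ φ q)) (hq : φ q = p) (hi : ∀ᶠ z in 𝓝 q, ψ (φ z) = z) :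
    GC nu (fun a z => F a (φ z)) q i m ω fun j => pb φ (D j) := by
  subst hq
  have hT := hφ.continuousAt.tendsto
  have hc : ∀ l, (fun z : W ι => z l) =ᶠ[𝓝 q] fun z => ψ (φ z) l := fun l =>
    hi.mono fun z hz => by simp only [hz]
  have k1 : ∀ δ l, ∀ᶠ z in 𝓝 q, pb φ δ z l = vf δ (fun u => ψ u l) (φ z) := fun δ l => by
    filter_upwards [pb_vf (δ := δ) hφ hu (analyticAt_pi_iff.1 h.an l) (hc l)] with z hz
    rw [← hz, vf_crd]
  have k2 : ∀ j ≤ i, ∀ δ, Tan (φ q) x j δ →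
      AnalyticAt ℂ (pb φ δ) q ∧ ∀ j' < j, ∀ᶠ z in 𝓝 q, pb φ δ z (m j') = 0 := fun j hj δ hδ =>
    ⟨pb_an hφ hu hδ.1, fun j' hj' => by
      filter_upwards [k1 δ (m j'), hT.eventually (hδ.2 j' hj')] with z h1 h2
      rw [h1, h.link j' (by omega), h2]⟩
  have k3 : ∀ j ≤ i, ∀ a β (L : List (W ι → W ι)), (∀ δ ∈ L, AnalyticAt ℂ δ (φ q)) →
      (L.map (pb φ)).foldr vf (der (fun j => pb φ (D j)) β j fun z => F a (φ z)) =ᶠ[𝓝 q]
        fun z => L.foldr vf (der D β j (F a)) (φ z) := fun j hj a β L hL =>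
    have hD := fun j' (hj' : j' < j) => (h.st j' (by omega)).tan.1
    pb_foldr hφ hu hL (der_an β hD (hA a)) (pb_der hφ hu β hD (hA a))
  refine ⟨fun a => (hA a).comp hφ, fun j hj => ?_, h.inj, fun j hj => (h.st j hj).pos, h.sorted,
    fun j hj => (k2 j hj.le _ (h.st j hj).tan).1, fun j hj => ?_,
    fun j hj => (k2 j hj.le _ (h.st j hj).tan).2, fun j hj l h1 h2 => ?_, fun j hj => ?_,
    fun a β hβ v hv n => ?_⟩
  · rw [← (h.st j hj).van, ← h.link j hj]
    exact (hc _).self_of_nhds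
  · filter_upwards [k1 (D j) (m j), hT.eventually (h.st j hj).one] with z h1 h2
    rw [h1, h.link j hj, h2]
  · filter_upwards [k1 (D j) l, hT.eventually ((h.st j hj).dv l h1 h2)] with z h3 h4
    rw [h3, h.div l h1, vf_crd, h4]
  · obtain ⟨g, ⟨a, β, L, hL, hm, rfl⟩, h1, h2⟩ := (h.st j hj).wit
    refine ⟨a, β, L.map (pb φ), List.forall_mem_map.2 fun δ hδ => k2 j hj.le δ (hL δ hδ),
      by rwa [List.length_map], ?_, fun h3 => ?_⟩
    · have := (k3 j hj.le a β (D j :: L) (List.forall_mem_cons.2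
        ⟨(h.st j hj).tan.1, fun δ hδ => (hL δ hδ).1⟩)).self_of_nhds
      exact fun e => h1 (this.symm.trans e)
    · filter_upwards [k3 j hj.le a β L fun δ hδ => (hL δ hδ).1, hc (m j)] with z h4 h5
      rw [h4, h2 h3, ← h.link j hj, h5]
  · have h1 : pb φ (cf ψ v) =ᶠ[𝓝 q] fun _ => v := by
      filter_upwards [eventually_all.2 (k1 (cf ψ v)),
        hT.eventually (eventually_all.2 (cf_vf h.an h.unit v))] with z h1 h2
      exact funext fun l => (h1 l).trans (h2 l)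
    have h2 : ∀ f : W ι → ℂ, (vf fun _ => v)^[n] f =ᶠ[𝓝 q] (vf (pb φ (cf ψ v)))^[n] f := fun f => by
      induction n with
      | zero => exact EventuallyEq.rfl
      | succ n ih =>
        rw [Function.iterate_succ_apply', Function.iterate_succ_apply']
        exact vf_congr h1.symm ih
    have h3 : ∀ δ ∈ List.replicate n (cf ψ v), Tan (φ q) x i δ := fun δ hδ =>
      List.eq_of_mem_replicate hδ ▸ h.cf_tan hv
    rw [(h2 _).self_of_nhds, ← foldr_rep, ← List.map_replicate,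
      (k3 i le_rfl a β _ fun δ hδ => (h3 δ hδ).1).self_of_nhds]
    exact hf a β _ h3 hβ

theorem main [Nonempty ι] [Finite κ] (hp : ∀ l, nu l ≠ 0 → p l = 0)
    (hA : ∀ a, AnalyticAt ℂ (F a) p) (hF : ∀ a, F a p = 0) {N : Set (W ι)} (hN : N ∈ 𝓝 p) :
    ∃ ψ : OpenPartialHomeomorph (W ι) (W ι), IsChg nu ψ ∧ p ∈ ψ.source ∧ ψ.source ⊆ N ∧
      ∃ C : Cert nu ψ.target fun a u => F a (ψ.symm u), ψ p ∈ C.Z := by
  obtain ⟨k, m, ω, D, x, ψ, h, hf⟩ := exists_pc hp hA hF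
  let A : W ι ≃L[ℂ] W ι := ContinuousLinearEquiv.unitsEquiv ℂ _ h.unit.unit
  have hA' : fderiv ℂ ψ p = (A : W ι →L[ℂ] W ι) := rfl
  have hs : HasStrictFDerivAt ψ (A : W ι →L[ℂ] W ι) p := hA' ▸ h.an.hasStrictFDerivAt
  let e := hs.toOpenPartialHomeomorph ψ
  have hp' : p ∈ e.source := hs.mem_toOpenPartialHomeomorph_source
  have ht : e.target ∈ 𝓝 (ψ p) := e.open_target.mem_nhds (e.map_source hp')
  have hφ : AnalyticAt ℂ e.symm (ψ p) := e.analyticAt_symm' hp' h.an hA'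
  have hq : e.symm (ψ p) = p := e.left_inv hp'
  have hu : IsUnit (fderiv ℂ e.symm (ψ p)) := by
    rw [show fderiv ℂ e.symm (ψ p) = A.symm from hs.to_localInverse.hasFDerivAt.fderiv,
      ContinuousLinearMap.isUnit_iff_bijective]
    exact A.symm.bijective
  have hT : Tendsto e.symm (𝓝 (ψ p)) (𝓝 p) := by
    have := hφ.continuousAt.tendsto
    rwa [hq] at this
  obtain ⟨r, hr, hs', C, hC⟩ := (h.gc hA hf hφ hu hq
    (mem_of_superset ht fun z hz => e.right_inv hz)).cert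
    (N := {z | z ∈ e.target ∧ AnalyticAt ℂ e.symm z ∧ e.symm z ∈ N ∧ AnalyticAt ℂ ψ (e.symm z)})
    (Eventually.and ht (hφ.eventually_analyticAt.and
      (hT.eventually (Eventually.and hN h.an.eventually_analyticAt))))
  let e' := (e.symm.restrOpen _ (Metric.isOpen_ball (x := ψ p) (ε := r))).symm
  have e1 : e'.target = Metric.ball (ψ p) r := inter_eq_right.2 fun z hz => (hs' hz).1
  have e2 : ∀ u ∈ e'.source, u ∈ N ∧ AnalyticAt ℂ ψ u := fun u hu => by
    have := (hs' (e1 ▸ e'.map_source hu)).2.2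
    rwa [show e.symm (e' u) = u from e'.left_inv hu] at this
  refine ⟨e', ⟨fun u hu => (e2 u hu).2, fun z hz => (hs' (e1 ▸ hz)).2.1,
    fun u _ l hl => congrFun (h.div l hl) u⟩, ⟨hp', Metric.mem_ball_self hr⟩,
    fun u hu => (e2 u hu).1, ?_⟩
  rw [e1]
  exact ⟨C, hC⟩

end EH

theorem stE : StE := by
  unfold StE
  intros
  apply EH.main <;> assumption

end Vale.Agent.P277Z.Hir
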