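import Mathlib
import Vale.Agent.P277Z.Hir.Loc

/-!
# P277Z, block HIR: vector fields, their transport, certificates from germs
-/

open Filter Topology Set

noncomputable section

namespace Vale.Agent.P277Z.Hir.EH

section gen
variable {E : Type} [NormedAddCommGroup E] [NormedSpace ℂ E] {p : E} {f g : E → ℂ} {δ δ' : E → E}

theorem vf_an (hδ : AnalyticAt ℂ δ p) (hf : AnalyticAt ℂ f p) : AnalyticAt ℂ (vf δ f) p :=
  ((ContinuousLinearMap.apply ℂ ℂ : E →L[ℂ] (E →L[ℂ] ℂ) →L[ℂ] ℂ).analyticAt_bilinear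
    (δ p, fderiv ℂ f p)).comp₂ hδ hf.fderiv

theorem vf_congr (hδ : δ =ᶠ[𝓝 p] δ') (h : f =ᶠ[𝓝 p] g) : vf δ f =ᶠ[𝓝 p] vf δ' g := by
  filter_upwards [hδ, h.fderiv (𝕜 := ℂ)] with u h1 h2
  rw [vf, vf, h1, h2]

theorem vf_smul (c : E → ℂ) (u : E) : vf (fun u => c u • δ u) f u = c u * vf δ f u :=
  map_smul (fderiv ℂ f u) _ _

theorem foldr_an {L : List (E → E)} (hL : ∀ δ ∈ L, AnalyticAt ℂ δ p) (hf : AnalyticAt ℂ f p) :
    AnalyticAt ℂ (L.foldr vf f) p := by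
  induction L with
  | nil => exact hf
  | cons δ L ih => exact vf_an (hL δ List.mem_cons_self) (ih fun δ h => hL δ (List.mem_cons_of_mem _ h))

theorem foldr_rep (n : ℕ) : (List.replicate n δ).foldr vf f = (vf δ)^[n] f := by
  induction n with
  | zero => rfl
  | succ n ih => rw [List.replicate_succ, List.foldr_cons, ih, Function.iterate_succ_apply']

theorem der_succ (D : ℕ → E → E) (β : ℕ → ℕ) (n : ℕ) (L : List (E → E)) :
    L.foldr vf (der D β (n + 1) f) = (L ++ List.replicate (β n) (D n)).foldr vf (der D β n f) := by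
  rw [List.foldr_append, foldr_rep]
  rfl

theorem der_an {D : ℕ → E → E} (β : ℕ → ℕ) {n : ℕ} (hD : ∀ j < n, AnalyticAt ℂ (D j) p)
    (hf : AnalyticAt ℂ f p) : AnalyticAt ℂ (der D β n f) p := by
  induction n with
  | zero => exact hf
  | succ n ih =>
    rw [der, ← foldr_rep]
    exact foldr_an (fun δ h => List.eq_of_mem_replicate h ▸ hD n n.lt_succ_self)
      (ih fun j hj => hD j (by omega))

theorem der_congr {D D' : ℕ → E → E} (β : ℕ → ℕ) {n : ℕ} (h : ∀ j < n, D j = D' j) :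
    der D β n f = der D' β n f := by
  induction n with
  | zero => rfl
  | succ n ih => rw [der, der, h n n.lt_succ_self, ih fun j hj => h j (by omega)]

/-- pull back of a vector field -/
def pb (φ : E → E) (δ : E → E) : E → E := fun z => Ring.inverse (fderiv ℂ φ z) (δ (φ z))

variable [CompleteSpace E] {φ : E → E} {q : E} {f' : E → ℂ}

theorem pb_an (hφ : AnalyticAt ℂ φ q) (hu : IsUnit (fderiv ℂ φ q)) (hδ : AnalyticAt ℂ δ (φ q)) :
    AnalyticAt ℂ (pb φ δ) q := by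
  have h1 : AnalyticAt ℂ (fun z => Ring.inverse (fderiv ℂ φ z)) q :=
    AnalyticAt.comp (f := fderiv ℂ φ) (analyticAt_inverse hu.unit) hφ.fderiv
  exact ((ContinuousLinearMap.apply ℂ E : E →L[ℂ] (E →L[ℂ] E) →L[ℂ] E).analyticAt_bilinear
    _).comp₂ (hδ.comp hφ) h1

theorem pb_vf (hφ : AnalyticAt ℂ φ q) (hu : IsUnit (fderiv ℂ φ q)) (hf : AnalyticAt ℂ f (φ q))
    (h : f' =ᶠ[𝓝 q] fun z => f (φ z)) : vf (pb φ δ) f' =ᶠ[𝓝 q] fun z => vf δ f (φ z) := by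
  filter_upwards [h.fderiv (𝕜 := ℂ), hφ.eventually_analyticAt,
    hφ.continuousAt.eventually hf.eventually_analyticAt,
    hφ.fderiv.continuousAt.eventually (Units.isOpen.mem_nhds hu)] with z h1 h2 h3 h4
  rw [vf, h1, show (fun z => f (φ z)) = f ∘ φ from rfl,
    fderiv_comp z h3.differentiableAt h2.differentiableAt, ContinuousLinearMap.comp_apply, pb,
    ← mul_apply_eq_comp, Ring.mul_inverse_cancel _ h4]
  rfl

theorem pb_foldr (hφ : AnalyticAt ℂ φ q) (hu : IsUnit (fderiv ℂ φ q)) {L : List (E → E)}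
    (hL : ∀ δ ∈ L, AnalyticAt ℂ δ (φ q)) (hf : AnalyticAt ℂ f (φ q))
    (h : f' =ᶠ[𝓝 q] fun z => f (φ z)) :
    (L.map (pb φ)).foldr vf f' =ᶠ[𝓝 q] fun z => L.foldr vf f (φ z) := by
  induction L with
  | nil => exact h
  | cons δ L ih =>
    have hL' := fun δ h => hL δ (List.mem_cons_of_mem _ h)
    exact pb_vf hφ hu (foldr_an hL' hf) (ih hL')

theorem pb_der (hφ : AnalyticAt ℂ φ q) (hu : IsUnit (fderiv ℂ φ q)) {D : ℕ → E → E} (β : ℕ → ℕ)
    {n : ℕ} (hD : ∀ j < n, AnalyticAt ℂ (D j) (φ q)) (hf : AnalyticAt ℂ f (φ q)) :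
    der (fun j => pb φ (D j)) β n (fun z => f (φ z)) =ᶠ[𝓝 q] fun z => der D β n f (φ z) := by
  induction n with
  | zero => exact EventuallyEq.rfl
  | succ n ih =>
    have hD' := fun j (hj : j < n) => hD j (by omega)
    rw [der, der, ← foldr_rep, ← foldr_rep, ← List.map_replicate]
    exact pb_foldr hφ hu (fun δ h => List.eq_of_mem_replicate h ▸ hD n n.lt_succ_self)
      (der_an β hD' hf) (ih hD')

omit [CompleteSpace E] in
theorem iter_line (v : E) (n : ℕ) : ∀ f : E → ℂ, AnalyticAt ℂ f q →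
    iteratedDeriv n (fun t : ℂ => f (q + t • v)) 0 = (vf fun _ => v)^[n] f q := by
  have hl : ∀ t : ℂ, HasDerivAt (fun t : ℂ => q + t • v) v t := fun t => by
    simpa using ((hasDerivAt_id t).smul_const v).const_add q
  induction n with
  | zero => simp
  | succ n ih =>
    intro f hf
    rw [iteratedDeriv_succ', Function.iterate_succ_apply, ← ih _ (vf_an analyticAt_const hf)]
    refine EventuallyEq.iteratedDeriv_eq n ?_
    have h1 : Tendsto (fun t : ℂ => q + t • v) (𝓝 0) (𝓝 q) := by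
      simpa using (hl 0).continuousAt.tendsto
    filter_upwards [h1.eventually hf.eventually_analyticAt] with t ht
    exact (ht.differentiableAt.hasFDerivAt.comp_hasDerivAt t (hl t)).deriv

omit [CompleteSpace E] in
/-- the identity theorem along a line -/
theorem line_zero {U : Set E} (hU : Convex ℝ U) (hf : AnalyticOnNhd ℂ f U) (hq : q ∈ U) {u : E}
    (hu : u ∈ U) (h : ∀ n, (vf fun _ => u - q)^[n] f q = 0) : f u = 0 := by
  let l : ℂ → E := fun t => q + t • (u - q)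
  have hl : ∀ t, AnalyticAt ℂ l t := fun t => by fun_prop
  have h1 : AnalyticOnNhd ℂ (fun t => f (l t)) ((↑) '' Icc (0 : ℝ) 1) := by
    rintro _ ⟨t, ht, rfl⟩
    refine AnalyticAt.comp (hf _ ?_) (hl _)
    have := hU.add_smul_sub_mem hq hu ht
    rwa [← Complex.coe_smul] at this
  have h0 : (0 : ℂ) ∈ (↑) '' Icc (0 : ℝ) 1 := ⟨0, by simp, rfl⟩
  have h2 : (fun t => f (l t)) =ᶠ[𝓝 0] 0 := by
    refine analyticOrderAt_eq_top.1 (ENat.eq_top_iff_forall_ge.2 fun n => ?_)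
    refine (natCast_le_analyticOrderAt_iff_iteratedDeriv_eq_zero (h1 0 h0)).2 fun i _ => ?_
    rw [iter_line _ _ _ (hf q hq), h]
  have := h1.eqOn_zero_of_preconnected_of_eventuallyEq_zero
    (isPreconnected_Icc.image _ Complex.continuous_ofReal.continuousOn) h0 h2
    (x := 1) ⟨1, by simp, rfl⟩
  simpa [l] using this

end gen

theorem mark_succ (ω : ℕ → ℚ) (β : ℕ → ℕ) (n : ℕ) :
    mark ω β (n + 1) = mark ω β n - β n * ω n := by
  rw [mark, mark, Finset.sum_range_succ]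
  ring

theorem mark_congr {ω ω' : ℕ → ℚ} (β : ℕ → ℕ) {n : ℕ} (h : ∀ j < n, ω j = ω' j) :
    mark ω β n = mark ω' β n := by
  rw [mark, mark, Finset.sum_congr rfl fun j hj => by rw [h j (Finset.mem_range.1 hj)]]

theorem mark_le {ω : ℕ → ℚ} (β : ℕ → ℕ) {n : ℕ} (h : ∀ j < n, 0 < ω j) : mark ω β n ≤ 1 :=
  sub_le_self _ (Finset.sum_nonneg fun j hj =>
    mul_nonneg (Nat.cast_nonneg _) (h j (Finset.mem_range.1 hj)).le)

theorem mark_fin {ω : ℕ → ℚ} {n : ℕ} (h : ∀ j < n, 0 < ω j) :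
    {μ | 0 < μ ∧ ∃ β, mark ω β n = μ}.Finite := by
  induction n with
  | zero => exact (finite_singleton 1).subset (by rintro _ ⟨-, β, rfl⟩; simp [mark])
  | succ n ih =>
    have h' := fun j (hj : j < n) => h j (by omega)
    have hn := h n n.lt_succ_self
    refine ((ih h').image2 (fun μ (b : ℕ) => μ - b * ω n) (finite_Iic ⌈1 / ω n⌉₊)).subset ?_
    rintro _ ⟨h0, β, rfl⟩
    rw [mark_succ] at h0 ⊢
    have h1 := mark_le β h'
    have h2 : 0 ≤ β n * ω n := by positivity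
    refine ⟨_, ⟨by linarith, β, rfl⟩, β n, ?_, rfl⟩
    rw [mem_Iic, ← Nat.cast_le (α := ℚ)]
    exact ((le_div_iff₀ hn).2 (by linarith)).trans (Nat.le_ceil _)

theorem exists_min {M : Set ℚ} (hM : M.Finite) {S : Set (ℕ × ℚ)}
    (hS : ∀ x ∈ S, x.2 ∈ M ∧ 0 < x.2 ∧ x.2 ≤ 1) (hne : S.Nonempty) :
    ∃ x ∈ S, ∀ y ∈ S, x.1 / x.2 ≤ y.1 / y.2 := by
  obtain ⟨x, hx⟩ := hne
  have hf : {y ∈ S | y.1 / y.2 ≤ x.1 / x.2}.Finite := by
    refine ((finite_Iic ⌈x.1 / x.2⌉₊).prod hM).subset fun y ⟨hy, h⟩ => ⟨?_, (hS y hy).1⟩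
    rw [mem_Iic, ← Nat.cast_le (α := ℚ)]
    exact ((le_div_self (Nat.cast_nonneg _) (hS y hy).2.1 (hS y hy).2.2).trans h).trans
      (Nat.le_ceil _)
  obtain ⟨y, hy, h⟩ := exists_min_image _ (fun y : ℕ × ℚ => y.1 / y.2) hf ⟨x, hx, le_rfl⟩
  exact ⟨y, hy.1, fun z hz => (le_total (z.1 / z.2) (x.1 / x.2)).elim (fun h' => h z ⟨hz, h'⟩)
    hy.2.trans⟩

variable {ι : Type} [Fintype ι] [DecidableEq ι]

omit [DecidableEq ι] in
theorem vf_crd (δ : W ι → W ι) (l : ι) (u : W ι) : vf δ (fun u => u l) u = δ u l := by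
  rw [vf, show (fun u : W ι => u l) = ContinuousLinearMap.proj (R := ℂ) (φ := fun _ : ι => ℂ) l
    from rfl, ContinuousLinearMap.fderiv]
  rfl

omit [DecidableEq ι] in
theorem crd_an (l : ι) (p : W ι) : AnalyticAt ℂ (fun u : W ι => u l) p :=
  (ContinuousLinearMap.proj (R := ℂ) (φ := fun _ : ι => ℂ) l).analyticAt p

/-- certificates of germs -/
structure GC (nu : ι → ℕ) {κ : Type} (F : κ → W ι → ℂ) (q : W ι) (k : ℕ) (m : ℕ → ι) (ω : ℕ → ℚ)
    (D : ℕ → W ι → W ι) : Prop where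
  anF : ∀ a, AnalyticAt ℂ (F a) q
  van : ∀ i < k, q (m i) = 0
  inj : ∀ i < k, ∀ i' < k, m i = m i' → i = i'
  pos : ∀ i < k, 0 < ω i
  sorted : ∀ i i', i ≤ i' → i' < k → ent (ω i) (nu (m i)) ≤ ent (ω i') (nu (m i'))
  anD : ∀ i < k, AnalyticAt ℂ (D i) q
  one : ∀ i < k, ∀ᶠ u in 𝓝 q, D i u (m i) = 1
  low : ∀ i < k, ∀ j < i, ∀ᶠ u in 𝓝 q, D i u (m j) = 0
  tan : ∀ i < k, ∀ l, nu l ≠ 0 → l ≠ m i → ∀ᶠ u in 𝓝 q, D i u l = 0
  wit : ∀ i < k, ∃ (a : κ) (β : ℕ → ℕ) (L : List (W ι → W ι)),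
    (∀ δ ∈ L, AnalyticAt ℂ δ q ∧ ∀ j < i, ∀ᶠ u in 𝓝 q, δ u (m j) = 0) ∧
    ((L.length : ℚ) + 1) * ω i = mark ω β i ∧ vf (D i) (L.foldr vf (der D β i (F a))) q ≠ 0 ∧
    (nu (m i) = 0 → ∀ᶠ u in 𝓝 q, L.foldr vf (der D β i (F a)) u = u (m i))
  fin : ∀ (a : κ) (β : ℕ → ℕ), 0 < mark ω β k → ∀ v : W ι, (∀ j < k, v (m j) = 0) →
    ∀ n, (vf fun _ => v)^[n] (der D β k (F a)) q = 0

theorem ev_lt {X : Type} {l : Filter X} {k : ℕ} {P : ℕ → X → Prop}
    (h : ∀ i < k, ∀ᶠ u in l, P i u) : ∀ᶠ u in l, ∀ i < k, P i u :=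
  (eventually_all_finite (finite_Iio k)).2 h

omit [DecidableEq ι] in
theorem GC.cert {nu : ι → ℕ} {κ : Type} [Finite κ] {F : κ → W ι → ℂ} {q : W ι} {k : ℕ} {m : ℕ → ι}
    {ω : ℕ → ℚ} {D : ℕ → W ι → W ι} (h : GC nu F q k m ω D) {N : Set (W ι)} (hN : N ∈ 𝓝 q) :
    ∃ r > 0, Metric.ball q r ⊆ N ∧ ∃ C : Cert nu (Metric.ball q r) F, q ∈ C.Z := by
  choose a β L hL hm hv hx using h.wit
  have e : ∀ᶠ u in 𝓝 q, u ∈ N ∧ (∀ a, AnalyticAt ℂ (F a) u) ∧ ∀ i < k, AnalyticAt ℂ (D i) u ∧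
      D i u (m i) = 1 ∧ (∀ j < i, D i u (m j) = 0) ∧ (∀ l, nu l ≠ 0 → l ≠ m i → D i u l = 0) ∧
      ∀ hi : i < k, (∀ δ ∈ L i hi, AnalyticAt ℂ δ u ∧ ∀ j < i, δ u (m j) = 0) ∧
        vf (D i) ((L i hi).foldr vf (der D (β i hi) i (F (a i hi)))) u ≠ 0 ∧ (nu (m i) = 0 →
          (L i hi).foldr vf (der D (β i hi) i (F (a i hi))) u = u (m i)) := by
    refine Eventually.and hN ((eventually_all.2 fun a => (h.anF a).eventually_analyticAt).and
      (ev_lt fun i hi => (h.anD i hi).eventually_analyticAt.and ((h.one i hi).and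
        ((ev_lt (h.low i hi)).and ((eventually_all.2 fun l => eventually_all.2 fun h1 =>
          eventually_all.2 fun h2 => h.tan i hi l h1 h2).and (eventually_all.2 fun hi => ?_))))))
    refine ((eventually_all_finite (List.finite_toSet _)).2 fun δ hδ =>
      (hL i hi δ hδ).1.eventually_analyticAt.and (ev_lt (hL i hi δ hδ).2)).and
      (Eventually.and ?_ (eventually_all.2 (hx i hi)))
    exact (vf_an (h.anD i hi) (foldr_an (fun δ hδ => (hL i hi δ hδ).1) (der_an _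
      (fun j hj => h.anD j (by omega)) (h.anF _)))).continuousAt.eventually_ne (hv i hi)
  obtain ⟨r, hr, e⟩ := Metric.eventually_nhds_iff_ball.1 e
  refine ⟨r, hr, fun u hu => (e u hu).1, ⟨k, m, ω, D, Metric.isOpen_ball,
    fun a u hu => (e u hu).2.1 a, h.inj, h.pos, h.sorted, fun i hi u hu => ((e u hu).2.2 i hi).1,
    fun i hi u hu => ((e u hu).2.2 i hi).2.1, fun i hi j hj u hu => ((e u hu).2.2 i hi).2.2.1 j hj,
    fun i hi l h1 h2 u hu => ((e u hu).2.2 i hi).2.2.2.1 l h1 h2,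
    fun i hi => ⟨a i hi, β i hi, L i hi, fun δ hδ =>
      ⟨fun u hu => ((((e u hu).2.2 i hi).2.2.2.2 hi).1 δ hδ).1,
        fun j hj u hu => ((((e u hu).2.2 i hi).2.2.2.2 hi).1 δ hδ).2 j hj⟩, hm i hi,
      fun u hu _ => (((e u hu).2.2 i hi).2.2.2.2 hi).2⟩, fun a β hβ u hu h0 => ?_⟩, h.van⟩
  refine line_zero (convex_ball q r) (fun u hu => der_an β (fun j hj => ((e u hu).2.2 j hj).1)
    ((e u hu).2.1 a)) (Metric.mem_ball_self hr) hu (h.fin a β hβ _ fun j hj => ?_)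
  rw [Pi.sub_apply, h0 j hj, h.van j hj, sub_self]

end Vale.Agent.P277Z.Hir.EH
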