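import Vale.Agent.P277Z.Hir.FgDefs
import Vale.Agent.P277Z.Hir.BArr
import Vale.Agent.P277Z.Hir.BLiftB

/-!
# P277, resolution with a given boundary: the steps after forgetting the old labels
-/

open Filter Topology Set Function Metric

noncomputable section

namespace Vale.Agent.P277Z.Hir.Gl

open L (Le IsCo Ass sl)

variable {ι X : Type} [Fintype ι] [DecidableEq ι]

set_option linter.unusedSectionVars false

theorem Ch.fg_lab (C : Ch ι X) (q : ℕ) {j : ℕ} (hj : j ≠ 0) (l : ι) :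
    (C.fg q).lab l = j ↔ q < j ∧ C.lab l = j := by
  simp only [Ch.fg]
  split_ifs <;> omega

theorem Ch.fg_ne (C : Ch ι X) (q : ℕ) (l : ι) : (C.fg q).lab l ≠ 0 ↔ q < C.lab l := by
  simp only [Ch.fg]
  split_ifs <;> omega

theorem Ch.s_fg (C : Ch ι X) {q j : ℕ} (hj : q < j) : (C.fg q).s j = C.s j := by
  funext z
  refine Finset.prod_congr (Finset.filter_congr fun l _ => ?_) fun _ _ => rfl
  rw [C.fg_lab q (by omega)]
  exact and_iff_right hj

theorem Ch.s_fg' (C : Ch ι X) {q j : ℕ} (h0 : j ≠ 0) (hj : j ≤ q) : (C.fg q).s j = fun _ => 1 :=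
  Ch.s_of_not _ fun l h => absurd ((C.fg_lab q h0 l).1 h).1 (by omega)

theorem Ch.lbl_fg {C : Ch ι X} (h : ∀ l l', C.lab l ≠ 0 → C.lab l' = C.lab l → l' = l) (q : ℕ) :
    ∀ l l', (C.fg q).lab l ≠ 0 → (C.fg q).lab l' = (C.fg q).lab l → l' = l := by
  intro l l' h1 h2
  have h3 := (C.fg_lab q h1 l').1 h2
  have h4 := (C.fg_lab q h1 l).1 rfl
  exact h l l' (by omega) (h3.2.trans h4.2.symm)

section arr
variable {C C' : Ch ι X} {u u' : ι → ℂ} {Φ Ψ : (ι → ℂ) → ι → ℂ}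

theorem Arr.fg (h : Arr C u C' u' Φ Ψ) (q : ℕ) : Arr (C.fg q) u (C'.fg q) u' Φ Ψ := by
  refine ⟨h.an, h.an', h.val, h.left, h.right, h.mem, h.pi, fun j hj => ?_, h.cmp⟩
  by_cases e : q < j
  · rw [C.s_fg e, C'.s_fg e]
    exact h.div j hj
  · rw [C.s_fg' hj (by omega), C'.s_fg' hj (by omega)]
    exact ass_refl _ _

end arr

theorem Ref.fg {A A' : At ι X} (h : Ref A A') (q : ℕ) : Ref (A.fg q) (A'.fg q) := by
  refine ⟨h.isOpen, h.sub, fun a => Ch.lbl_fg (h.lbl a) q, h.anF, h.cpt, h.subK, fun a => ?_,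
    fun a u hu => ?_⟩
  · obtain ⟨b, f, h1⟩ := h.arr a
    exact ⟨b, f, fun z hz => ⟨(h1 z hz).1, (h1 z hz).2.imp fun _ e => e.fg q⟩⟩
  · obtain ⟨b, z, hz, f, g, h1⟩ := h.cov a u hu
    exact ⟨b, z, hz, f, g, h1.fg q⟩

/-- finitely many analytic maps cannot cover a dense set by their zeros -/
theorem exists_germ {E : Type} [NormedAddCommGroup E] [NormedSpace ℂ E] {κ : Type} (s : Finset κ)
    {g : κ → (ι → ℂ) → E} {V : Set (ι → ℂ)} (hVo : IsOpen V) (hV : IsPreconnected V) {u : ι → ℂ} (hu : u ∈ V)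
    (hg : ∀ k ∈ s, AnalyticOnNhd ℂ (g k) V) (h0 : ∀ k ∈ s, ¬ g k =ᶠ[𝓝 u] 0) :
    ∀ O, IsOpen O → O ⊆ V → O.Nonempty →
      ∃ O', IsOpen O' ∧ O' ⊆ O ∧ O'.Nonempty ∧ ∀ k ∈ s, ∀ z ∈ O', g k z ≠ 0 := by
  classical
  induction s using Finset.induction_on with
  | empty => exact fun O h1 _ h3 => ⟨O, h1, Subset.rfl, h3, by simp⟩
  | insert a s _ ih =>
    intro O h1 h2 h3
    obtain ⟨O', p1, p2, ⟨z, hz⟩, p4⟩ := ih (fun k hk => hg k (Finset.mem_insert_of_mem hk))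
      (fun k hk => h0 k (Finset.mem_insert_of_mem hk)) O h1 h2 h3
    have ha := hg a (Finset.mem_insert_self _ _)
    have h4 : ∃ z ∈ O', g a z ≠ 0 := by
      by_contra h5
      push Not at h5
      have h6 := ha.eqOn_zero_of_preconnected_of_eventuallyEq_zero hV (h2 (p2 hz))
        (by filter_upwards [p1.mem_nhds hz] with v hv using h5 v hv)
      refine h0 a (Finset.mem_insert_self _ _) ?_
      filter_upwards [hVo.mem_nhds hu] with v hv using h6 hv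
    obtain ⟨v, hv, h5⟩ := h4
    refine ⟨O' ∩ (O' ∩ g a ⁻¹' {0}ᶜ), p1.inter ((ha.continuousOn.mono (p2.trans h2)).isOpen_inter_preimage
      p1 isOpen_compl_singleton), inter_subset_left.trans p2, ⟨v, hv, hv, h5⟩, fun k hk w hw => ?_⟩
    rcases Finset.mem_insert.1 hk with rfl | hk
    · exact hw.2.2
    · exact p4 k hk w hw.1

variable [TopologicalSpace X] {β β₀ : Base X} {A : At ι X} {q : ℕ}

/-- in a full atlas an arrow is determined by the maps to the base -/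
theorem Arr.of_fg (hA : A.Ok β) (hF : A.Full) {a b : A.κ} {u u' : ι → ℂ} (hu : u ∈ (A.C a).U)
    (hu' : u' ∈ (A.C b).U) {Φ Ψ : (ι → ℂ) → ι → ℂ}
    (h : Arr ((A.C a).fg q) u ((A.C b).fg q) u' Φ Ψ) : Arr (A.C a) u (A.C b) u' Φ Ψ := by
  obtain ⟨n, Φ', Ψ', h1, h2⟩ := hA.prp a b u (hF a ▸ hu) u' (hF b ▸ hu')
  have h3 : ∃ k, (fun z => Φ' k z - Φ z) =ᶠ[𝓝 u] 0 := by
    by_contra h4
    push Not at h4
    have h5 : Tendsto (fun z => (z, Φ z)) (𝓝 u) (𝓝 (u, u')) := tendsto_id.prodMk_nhds h.tendsto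
    have h6 : ∀ᶠ z in 𝓝 u, (∀ k, AnalyticAt ℂ (fun z => Φ' k z - Φ z) z) ∧ z ∈ (A.C a).U ∧
        ((A.C a).π z ∉ β.Z → ∃ k, Φ' k z = Φ z) := by
      filter_upwards [eventually_all.2 fun k => ((h1 k).an.sub h.an).eventually_analyticAt,
        (hA.ch a).isOpen.mem_nhds hu, h5.eventually h2, h.mem, h.pi] with z a1 a2 a3 a4 a5
      have a6 : z ∈ (A.C a).B := hF a ▸ a2
      exact ⟨a1, a2, fun e => a3 a6 (a4.2 a6) e (a5 a6)⟩
    obtain ⟨r, hr, h7⟩ := Metric.eventually_nhds_iff_ball.1 h6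
    obtain ⟨O, o1, o2, ⟨z, o3⟩, o4⟩ := exists_germ Finset.univ (g := fun k z => Φ' k z - Φ z)
      isOpen_ball (convex_ball u r).isPreconnected (mem_ball_self hr)
      (fun k _ z hz => (h7 z hz).1 k) (fun k _ => h4 k) _ isOpen_ball Subset.rfl
      ⟨u, mem_ball_self hr⟩
    obtain ⟨v, v1, v2⟩ := mem_closure_iff.1 ((hA.ch a).dense z (hF a ▸ (h7 z (o2 o3)).2.1)) O o1 o3
    obtain ⟨k, hk⟩ := (h7 v (o2 v1)).2.2 v2.2
    exact o4 k (Finset.mem_univ _) v v1 (sub_eq_zero.2 hk)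
  obtain ⟨k, hk⟩ := h3
  refine ⟨h.an, h.an', h.val, h.left, h.right, h.mem, h.pi, fun j hj => ?_, h.cmp⟩
  refine ass_congr ((h1 k).div j hj) ?_ EventuallyEq.rfl
  filter_upwards [hk] with z hz
  rw [sub_eq_zero.1 hz]

/-- the blow-up data after forgetting the old labels -/
def Wt.fg (W : Wt β A) (hA : A.Ok β) (hF : A.Full) (hN : q < W.N)
    (hov : ∀ a, ∀ u ∈ (A.C a).B, u ∈ Zc (W.w a) → (A.C a).π u ∈ β₀.Z) : Wt β₀ (A.fg q) where
  w := W.w
  d := W.d
  N := W.N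
  m j := if q < j then W.m j else 0
  G := W.G
  pos := W.pos
  new a l h := W.new a l (((A.C a).fg_lab q W.pos l).1 h).2
  hm a ha j hj := by
    split_ifs with e
    · rw [← W.hm a ha j hj]
      refine Finset.sum_congr (Finset.filter_congr fun l _ => ?_) fun _ _ => rfl
      exact ((A.C a).fg_lab q hj l).trans (and_iff_right e)
    · exact Finset.sum_eq_zero fun l hl =>
        absurd (((A.C a).fg_lab q hj l).1 (Finset.mem_filter.1 hl).2).1 e
  anG := W.anG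
  eqG := W.eqG
  ovr := hov
  fil a b u hu hZ u' Φ Ψ hu' h :=
    W.fil a b u hu hZ u' Φ Ψ hu' (h.of_fg hA hF ((hA.ch a).sub hu) hu')

theorem labo_fg (C : Ch ι X) {N : ℕ} (hN : q < N) (o : Option ι) :
    labo (C.fg q).lab N o = fun l => if labo C.lab N o l ≤ q then 0 else labo C.lab N o l := by
  rcases o with _ | i
  · rfl
  · funext l
    by_cases e : l = i
    · simp [labo, e, hN.not_ge]
    · simp [labo, e, Ch.fg]

theorem Wt.fg_bl (W : Wt β A) (hA : A.Ok β) (hF : A.Full) (hN : q < W.N)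
    (hov : ∀ a, ∀ u ∈ (A.C a).B, u ∈ Zc (W.w a) → (A.C a).π u ∈ β₀.Z) :
    (W.fg hA hF hN hov).bl = W.bl.fg q := by
  have h : (W.fg hA hF hN hov).bl.C = (W.bl.fg q).C := by
    funext p
    show Ch.mk _ _ _ (labo ((A.C p.1.1).fg q).lab W.N p.1.2) _ _ = _
    rw [labo_fg _ hN]
    rfl
  exact congrArg (fun C => At.mk (W.bl.fg q).κ C (W.bl.fg q).K) h

/-! ### the total transforms of the old divisors -/

theorem ass_mul {f g f' g' : (ι → ℂ) → ℂ} {u : ι → ℂ} (h : Ass f g u) (h' : Ass f' g' u) :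
    Ass (fun z => f z * f' z) (fun z => g z * g' z) u := by
  obtain ⟨e, e1, e2, e3⟩ := h
  obtain ⟨e', f1, f2, f3⟩ := h'
  refine ⟨fun z => e z * e' z, e1.mul f1, mul_ne_zero e2 f2, ?_⟩
  filter_upwards [e3, f3] with z h1 h2
  rw [h1, h2]
  ring

theorem ass_fprod {κ : Type} (s : Finset κ) {f g : κ → (ι → ℂ) → ℂ} {u : ι → ℂ} (n : κ → ℕ)
    (h : ∀ k ∈ s, Ass (f k) (g k) u) :
    Ass (fun z => ∏ k ∈ s, f k z ^ n k) (fun z => ∏ k ∈ s, g k z ^ n k) u := by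
  choose! e e1 e2 e3 using h
  refine ⟨fun z => ∏ k ∈ s, e k z ^ n k, Finset.analyticAt_fun_prod _ fun k hk => (e1 k hk).pow _,
    Finset.prod_ne_zero_iff.2 fun k hk => pow_ne_zero _ (e2 k hk), ?_⟩
  filter_upwards [(eventually_all_finset s).2 e3] with z hz
  rw [← Finset.prod_mul_distrib]
  exact Finset.prod_congr rfl fun k hk => by rw [hz k hk, mul_pow]

theorem Ch.mn_eq (C : Ch ι X) (mo : ℕ → ℕ) {J : Finset ℕ} (h0 : ∀ j ∈ J, q < j)
    (hJ : ∀ l, q < C.lab l → C.lab l ∈ J) (z : ι → ℂ) :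
    C.mn q mo z = ∏ j ∈ J, C.s j z ^ mo j := by
  unfold Ch.mn Ch.s
  rw [← Finset.prod_fiberwise_of_maps_to (g := C.lab) (t := J)
    (fun l hl => hJ l (Finset.mem_filter.1 hl).2)]
  refine Finset.prod_congr rfl fun j hj => ?_
  rw [← Finset.prod_pow, Finset.filter_filter]
  refine Finset.prod_congr (Finset.filter_congr fun l _ => ?_) fun l hl => ?_
  · exact ⟨fun h => h.2, fun h => ⟨h ▸ h0 j hj, h⟩⟩
  · rw [(Finset.mem_filter.1 hl).2]

theorem Arr.mn {C C' : Ch ι X} {u u' : ι → ℂ} {Φ Ψ : (ι → ℂ) → ι → ℂ} (h : Arr C u C' u' Φ Ψ)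
    (mo : ℕ → ℕ) : Ass (fun z => C'.mn q mo (Φ z)) (C.mn q mo) u := by
  let J : Finset ℕ := (Finset.univ.image C.lab ∪ Finset.univ.image C'.lab).filter (q < ·)
  have h0 : ∀ j ∈ J, q < j := fun j hj => (Finset.mem_filter.1 hj).2
  rw [funext (C.mn_eq mo h0 fun l hl => by simp [J, hl])]
  simp only [C'.mn_eq mo h0 fun l hl => by simp [J, hl]]
  exact ass_fprod J mo fun j hj => h.div j (by have := h0 j hj; omega)

variable {V : X → Set X} {ζ : X → Fin q → X → ℂ} {mo : Fin q → ℕ → ℕ}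

theorem At.Old.ref {A' : At ι X} (h : A.Old V ζ mo) (hr : Ref A A') (hF : A'.Full) :
    A'.Old V ζ mo := by
  intro a z hz x l hx
  obtain ⟨b, f, h1⟩ := hr.arr a
  obtain ⟨h2, g, h3⟩ := h1 z hz
  have h4 := h b _ h2 x l (by rwa [h3.pi_eq (hF a ▸ hz)])
  refine ass_trans (ass_congr (ass_comp h4 h3.an) ?_ EventuallyEq.rfl)
    (ass_mul (h3.div _ (Nat.succ_ne_zero _)) (h3.mn _))
  filter_upwards [h3.pi, (hr.isOpen a).mem_nhds hz] with v v1 v2
  rw [v1 (hF a ▸ v2)]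

theorem At.Old.bl (h : A.Old V ζ mo) (W : Wt β A) (hN : q < W.N) :
    ∃ mo' : Fin q → ℕ → ℕ, W.bl.Old V ζ mo' := by
  let J : Finset ℕ :=
    (finite_range fun p : A.κ × ι => (A.C p.1).lab p.2).toFinset.filter (q < ·)
  have h0 : ∀ j ∈ J, q < j := fun j hj => (Finset.mem_filter.1 hj).2
  have hJ : ∀ a l, q < (A.C a).lab l → (A.C a).lab l ∈ J := fun a l hl =>
    Finset.mem_filter.2 ⟨(Finite.mem_toFinset _).2 (mem_range.2 ⟨(a, l), rfl⟩), hl⟩
  have hNJ : W.N ∉ J := fun e => by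
    obtain ⟨p, hp⟩ := (Finite.mem_toFinset _).1 (Finset.mem_filter.1 e).1
    exact W.new _ _ hp
  refine ⟨fun l => update (mo l) W.N (W.m (l + 1) + ∑ j ∈ J, W.m j * mo l j), ?_⟩
  rintro ⟨⟨a, o⟩, hp⟩ z hz x l hx
  have h1 := h a _ hz x l hx
  rcases o with _ | i
  · refine ass_congr h1 EventuallyEq.rfl (.of_forall fun v => ?_)
    show _ = (A.C a).s (l + 1) v * ∏ i ∈ Finset.univ.filter (fun i => q < (A.C a).lab i),
      v i ^ update (mo l) W.N _ ((A.C a).lab i)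
    simp only [update_of_ne (W.new a _)]
    rfl
  · have hw : W.w a ≠ 0 := fun e => hp (congrFun e i)
    refine ass_congr (ass_comp (Φ := sl (W.w a) i) h1 (LiftB.an_sl _ _ _)) EventuallyEq.rfl
      (.of_forall fun v => ?_)
    have h2 : ∀ j, j ≠ 0 → j ≠ W.N → (A.C a).s j (sl (W.w a) i v) =
        v i ^ W.m j * (W.bl.C ⟨(a, some i), hp⟩).s j v := fun j e e' => by
      rw [LiftB.s_old (A.C a) (W.w a) i (W.G a (some i)) e', W.hm a hw j e]
      rfl
    have h3 : (W.bl.C ⟨(a, some i), hp⟩).s W.N v = v i :=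
      LiftB.s_new (A.C a) (W.w a) i (W.G a (some i)) (W.new a) v
    have h4 : ∀ l', q < (W.bl.C ⟨(a, some i), hp⟩).lab l' →
        (W.bl.C ⟨(a, some i), hp⟩).lab l' ∈ insert W.N J := fun l' hl => by
      change q < update (A.C a).lab i W.N l' at hl
      change update (A.C a).lab i W.N l' ∈ _
      by_cases e : l' = i
      · rw [e, update_self]
        exact Finset.mem_insert_self _ _
      · rw [update_of_ne e] at hl ⊢
        exact Finset.mem_insert_of_mem (hJ a l' hl)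
    have h5 : ∀ j ∈ insert W.N J, q < j := fun j hj => by
      rcases Finset.mem_insert.1 hj with rfl | hj
      exacts [hN, h0 j hj]
    have h6 : ∏ j ∈ J, (A.C a).s j (sl (W.w a) i v) ^ mo l j = v i ^ (∑ j ∈ J, W.m j * mo l j) *
        ∏ j ∈ J, (W.bl.C ⟨(a, some i), hp⟩).s j v ^
          update (mo l) W.N (W.m (l + 1) + ∑ j ∈ J, W.m j * mo l j) j := by
      rw [← Finset.prod_pow_eq_pow_sum, ← Finset.prod_mul_distrib]
      refine Finset.prod_congr rfl fun j hj => ?_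
      have e : j ≠ W.N := fun e => hNJ (e ▸ hj)
      rw [h2 j (by have := h0 j hj; omega) e, update_of_ne e, mul_pow, ← pow_mul]
    simp only [(A.C a).mn_eq _ h0 (hJ a), Ch.mn_eq _ _ h5 h4, Finset.prod_insert hNJ, update_self,
      h3, h6, h2 (l + 1) (Nat.succ_ne_zero _) (by have := l.2; omega)]
    ring

end Vale.Agent.P277Z.Hir.Gl
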