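import Vale.Agent.P277Z.Hir.NzA
import Mathlib.Analysis.Calculus.FDeriv.Mul
import Mathlib.Topology.Algebra.Module.FiniteDimension

/-!
# P277Z, local theory: rows `StNz` and `StReg`
-/

open Filter Topology Set

set_option linter.unusedSectionVars false

noncomputable section

namespace Vale.Agent.P277Z.Hir

namespace NzH

variable {ι : Type} [Fintype ι] [DecidableEq ι]

theorem an_crd (l : ι) (q : W ι) : AnalyticAt ℂ (fun u : W ι => u l) q :=
  (ContinuousLinearMap.proj (R := ℂ) (φ := fun _ : ι => ℂ) l).analyticAt q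

theorem an_pr (w : ι → ℕ) (q : W (Option ι)) : AnalyticAt ℂ (pr w) q :=
  analyticAt_pi_iff.2 fun l => ((an_crd none q).pow (w l)).mul (an_crd (some l) q)

theorem pr_zero (u : W (Option ι)) : pr 0 u = fun l => u (some l) := by
  funext l
  simp [pr]

theorem lbl_nuO {nu : ι → ℕ} (hL : Lbl nu) {N : ℕ} (hN : ∀ l, nu l < N) : Lbl (nuO nu N) := by
  rintro (_ | l) (_ | l') h e
  · rfl
  · exact absurd e (hN l').ne
  · exact absurd e (hN l).ne'
  · rw [hL l l' h e]

/-- the product of a chart with a line, composed with the blow-up chart -/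
def lift (ψ : W ι → W ι) (w : ι → ℕ) (u : W (Option ι)) : W (Option ι) :=
  fun o => o.elim (u none) (ψ (pr w u))

theorem pr_lift (ψ : W ι → W ι) (w : ι → ℕ) (u : W (Option ι)) :
    pr 0 (lift ψ w u) = ψ (pr w u) := pr_zero _

theorem lIso_lift {nu : ι → ℕ} (hL : Lbl nu) {N : ℕ} (hN : ∀ l, nu l < N) (w : ι → ℕ)
    {q' : W (Option ι)} (hq : q' none ≠ 0) {ψ : OpenPartialHomeomorph (W ι) (W ι)}
    (h : IsChg (fgt nu (pr w q')) ψ) (hs : pr w q' ∈ ψ.source) :
    LIso (nuO nu N) (nuO (fgt nu (pr w q')) N) (lift ψ w) q' := by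
  have h1 : ∀ᶠ u in 𝓝 q', pr w u ∈ ψ.source :=
    (an_pr w q').continuousAt (ψ.open_source.mem_nhds hs)
  have h2 : ∀ᶠ u : W (Option ι) in 𝓝 q', u none ≠ 0 :=
    (an_crd none q').continuousAt.eventually_ne hq
  have h3 : AnalyticAt ℂ (lift ψ w) q' := by
    refine analyticAt_pi_iff.2 ?_
    rintro (_ | l)
    · exact an_crd none q'
    · exact (an_crd l _).fun_comp ((h.an _ hs).fun_comp (an_pr w q'))
  refine ⟨h3, det_ne_zero (Ψ := fun v o => o.elim (v none)
    fun l => ψ.symm (pr 0 v) l / v none ^ w l) h3 ?_ ?_, ?_, ?_, ?_⟩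
  · refine analyticAt_pi_iff.2 ?_
    rintro (_ | l)
    · exact an_crd none _
    · refine AnalyticAt.fun_div ((an_crd l _).fun_comp (AnalyticAt.fun_comp_of_eq
        (h.an' _ (ψ.map_source hs)) (an_pr 0 _) (pr_lift _ _ _))) ((an_crd none _).pow _) ?_
      exact pow_ne_zero _ hq
  · filter_upwards [h1, h2] with u e1 e2
    funext o
    rcases o with _ | l
    · rfl
    · change ψ.symm (pr 0 (lift ψ w u)) l / u none ^ w l = u (some l)
      rw [pr_lift, ψ.left_inv e1, pr, mul_div_cancel_left₀ _ (pow_ne_zero _ e2)]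
  · rintro (_ | l) (_ | l₁) h0 e
    · exact ⟨fun _ => 1, analyticAt_const, one_ne_zero,
        Eventually.of_forall fun u => (one_mul _).symm⟩
    · exact absurd e ((fgt_le l₁).trans_lt (hN l₁)).ne
    · exact absurd e (hN l).ne'
    · obtain rfl : l₁ = l := hL.fgt_eq h0 e
      refine ⟨fun u => u none ^ w l₁, (an_crd none _).pow _, pow_ne_zero _ hq, ?_⟩
      filter_upwards [h1] with u e1
      exact h.div _ e1 l₁ fun e2 => h0 (e.symm.trans e2)
  · rintro (_ | l) _ h0
    · exact ⟨none, rfl⟩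
    · exact ⟨some l, fgt_eq (by rw [pr, h0, mul_zero])⟩
  · rintro (_ | l) h0 _
    · exact ⟨none, rfl⟩
    · exact ⟨some l, (fgt_ne h0).2.symm⟩

theorem der_zero {E : Type} [NormedAddCommGroup E] [NormedSpace ℂ E] (D : ℕ → E → E)
    {β : ℕ → ℕ} (f : E → ℂ) (n : ℕ) (h : ∀ j < n, β j = 0) : der D β n f = f := by
  induction n with
  | zero => rfl
  | succ n ih =>
    rw [der, h n (Nat.lt_succ_self n), ih fun j hj => h j (Nat.lt_succ_of_lt hj)]
    rfl

/-- the certificate of a coordinate subspace -/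
def crdCert {c : ℕ} (m : ℕ → ι) (hm : ∀ i < c, ∀ i' < c, m i = m i' → i = i') :
    Cert (fun _ : ι => 0) univ fun (a : Fin c) (u : W ι) => u (m a) where
  k := c
  m := m
  ω := fun _ => 1
  D := fun i _ => Pi.single (m i) 1
  isOpen := isOpen_univ
  anF := fun _ u _ => an_crd _ u
  inj := hm
  pos := fun _ _ => one_pos
  sorted := fun _ _ _ _ => le_rfl
  anD := fun _ _ => analyticOnNhd_const
  one := fun _ _ _ _ => Pi.single_eq_same _ _
  low := fun i hi j hj _ _ => Pi.single_eq_of_ne (fun e => hj.ne (hm j (hj.trans hi) i hi e)) _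
  tan := fun _ _ _ h => absurd rfl h
  wit := fun i hi => by
    refine ⟨⟨i, hi⟩, fun _ => 0, [], by simp, by simp [mark], fun u _ _ => ?_⟩
    rw [der_zero _ _ _ fun _ _ => rfl]
    refine ⟨?_, fun _ => rfl⟩
    have h1 := (ContinuousLinearMap.proj (R := ℂ) (φ := fun _ : ι => ℂ) (m i)).fderiv (x := u)
    change fderiv ℂ (ContinuousLinearMap.proj (R := ℂ) (φ := fun _ : ι => ℂ) (m i)) u _ ≠ 0
    rw [h1]
    simp
  fin := fun a β h u _ hu => by
    rw [der_zero _ _ _ fun j hj => ?_]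
    · exact hu a a.2
    · have h1 : (β j : ℚ) * 1 ≤ ∑ j ∈ Finset.range c, (β j : ℚ) * 1 :=
        Finset.single_le_sum (f := fun j => (β j : ℚ) * 1) (fun _ _ => by positivity)
          (Finset.mem_range.2 hj)
      rw [mark] at h
      have h2 : (β j : ℚ) < 1 := by linarith
      exact Nat.lt_one_iff.1 (by exact_mod_cast h2)

theorem exists_T {c : ℕ} (ℓ : Fin c → (W ι →L[ℂ] ℂ)) (hℓ : LinearIndependent ℂ ℓ) :
    ∃ (m : Fin c → ι) (T : W ι →L[ℂ] W ι), Function.Injective m ∧ T.det ≠ 0 ∧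
      ∀ i v, T v (m i) = ℓ i v := by
  let π : ι → (W ι →L[ℂ] ℂ) := fun l => ContinuousLinearMap.proj l
  have h1 : ∀ φ : W ι →L[ℂ] ℂ, φ = ∑ l, φ (Pi.single l 1) • π l := by
    intro φ
    ext v
    conv_lhs => rw [pi_eq_sum_univ' v]
    simp [π, mul_comm]
  have h2 : LinearIndependent ℂ π := by
    refine Fintype.linearIndependent_iff.2 fun g hg l => ?_
    have := congrArg (fun φ : W ι →L[ℂ] ℂ => φ (Pi.single l 1)) hg
    simpa [π, Pi.single_apply] using this
  have h3 : Module.finrank ℂ (W ι →L[ℂ] ℂ) = Fintype.card ι := by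
    rw [← (LinearMap.toContinuousLinearMap (𝕜 := ℂ) (E := W ι) (F' := ℂ)).finrank_eq]
    simp
  have h4 := hℓ.fintype_card_le_finrank
  rw [h3] at h4
  obtain ⟨m⟩ := Function.Embedding.nonempty_of_card_le h4
  have h5 := h2.comp m m.injective
  obtain ⟨g, hg⟩ := Submodule.exists_linearEquiv_restrict_eq
    (h5.linearCombinationEquiv.symm ≪≫ₗ hℓ.linearCombinationEquiv)
  refine ⟨m, ContinuousLinearMap.pi fun l => g (π l), m.injective, ?_, fun i v => ?_⟩
  · rw [ContinuousLinearMap.det, Ne, LinearMap.det_eq_zero_iff_ker_ne_bot, not_not,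
      LinearMap.ker_eq_bot']
    intro v hv
    funext l
    have h6 : ∀ l, g (π l) v = 0 := fun l => congrFun hv l
    have h7 := congrArg (fun φ => g φ v) (h1 (g.symm (π l)))
    simpa [h6, π, map_sum] using h7
  · have h6 := hg (h5.linearCombinationEquiv (Finsupp.single i 1))
    rw [LinearEquiv.trans_apply, LinearEquiv.symm_apply_apply] at h6
    simp only [LinearIndependent.linearCombinationEquiv_apply_coe,
      Finsupp.linearCombination_single, one_smul, Function.comp_apply] at h6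
    rw [h6]
    rfl

end NzH

open NzH

theorem stNz (hU : StU) (hA : StA) (hE : StE) (hT : StT) (hI : StInv) : StNz := by
  intro ι _ _ nu hL N hN κ _ F ℓ w q' hq hF F' hF' τ
  have h2 : ∀ᶠ u : W (Option ι) in 𝓝 q', u none ≠ 0 :=
    (an_crd none q').continuousAt.eventually_ne hq
  have hz : ∀ a, F' a q' = 0 → F a (pr w q') = 0 := fun a h => by
    rw [← (hF' a).self_of_nhds, h, mul_zero]
  suffices h : (∀ a, F a (pr w q') = 0) →
      ∃ τ₀, HasTy (nuO nu N) F' q' τ₀ ∧ HasTy nu F (pr w q') τ₀ by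
    constructor
    · intro h1
      obtain ⟨τ₀, h3, h4⟩ := h fun a => hz a (h1.zero a)
      exact h3.unique h1 ▸ h4
    · intro h1
      obtain ⟨τ₀, h3, h4⟩ := h h1.zero
      exact h4.unique h1 ▸ h3
  intro h0
  cases isEmpty_or_nonempty ι with
  | inl _ =>
    have h3 : ∀ a u, F a u = 0 := fun a u => by rw [Subsingleton.elim u (pr w q'), h0]
    refine ⟨_, hasTy_top fun a => ?_, hasTy_top fun a => Eventually.of_forall (h3 a)⟩
    filter_upwards [hF' a, h2] with u e1 e2
    exact (mul_eq_zero.1 (e1.trans (h3 a _))).resolve_left (pow_ne_zero _ e2)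
  | inr _ =>
    have hL' := hL.fgt (pr w q')
    obtain ⟨ψ, h3, h4, -, C, h5⟩ := stE' hE ι _ hL' κ F _ (fun l h => (fgt_ne h).1) hF h0
      univ univ_mem
    refine ⟨C.ty, ?_, (hasTy_forget hI hL hF _).1 (hasTy_of_chg hU hA hI hL' hF h3 h4 C h5)⟩
    have h6 : ∀ a, AnalyticOnNhd ℂ (fun u => F a (ψ.symm (pr 0 u))) (pr 0 ⁻¹' ψ.target) :=
      fun a u hu => (C.anF a _ hu).fun_comp (an_pr 0 u)
    obtain ⟨C', e1, e2, e3⟩ := hT ι _ _ κ _ C 0 0 ⟨by simp, by simp⟩ N (pr 0 ⁻¹' ψ.target)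
      (ψ.open_target.preimage (continuous_iff_continuousAt.2 fun u => (an_pr 0 u).continuousAt))
      (fun _ h => h) _ h6 (fun a u _ => by rw [pow_zero, one_mul])
    have hO := lbl_nuO hL' fun l => (fgt_le l).trans_lt (hN l)
    have h7 : lift ψ w q' ∈ pr 0 ⁻¹' ψ.target := by
      rw [mem_preimage, pr_lift]
      exact ψ.map_source h4
    have h8 := hasTy_of_cert hU hA hO C' h7 (fun i hi => by
      rw [e3]
      exact h5 i (e1 ▸ hi))
    have h9 : C'.ty = C.ty := by
      rw [Cert.ty, e1, e2, e3]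
      rfl
    refine (hI _ _ _ (lbl_nuO hL hN) hO _ q' (lIso_lift hL hN w hq h3 h4) κ κ F' _
      (fun a => ?_) (fun a => h6 a _ h7) ?_ _).1 (h9 ▸ h8)
    · refine (((hF a).fun_comp (an_pr w q')).fun_div ((an_crd none q').pow ℓ)
        (pow_ne_zero _ hq)).congr ?_
      filter_upwards [hF' a, h2] with u e4 e5
      rw [← e4]
      exact mul_div_cancel_left₀ _ (pow_ne_zero _ e5)
    · refine cmp_of_mul (e := fun u => ‖u none ^ ℓ‖) (norm_pos_iff.2 (pow_ne_zero ℓ hq))
        ((an_crd none q').pow ℓ).continuousAt.norm (nrm_nonneg F') ?_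
      filter_upwards [eventually_all.2 hF',
        (an_pr w q').continuousAt (ψ.open_source.mem_nhds h4)] with u e4 e5
      simp only [nrm, pr_lift, ψ.left_inv e5, Finset.mul_sum, ← norm_mul, e4]

theorem stReg (hU : StU) (hA : StA) (hI : StInv) : StReg := by
  intro ι _ _ κ _ F q hF c h hh h0 hl hC
  have hL : Lbl fun _ : ι => 0 := fun _ _ e => absurd rfl e
  rcases Nat.eq_zero_or_pos c with rfl | hc
  · obtain ⟨C, -, h1⟩ := hC
    refine hasTy_top fun a => h1.mono fun u hu => norm_le_zero_iff.1 ?_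
    have h2 : ‖F a u‖ ≤ nrm F u :=
      Finset.single_le_sum (f := fun a => ‖F a u‖) (fun _ _ => norm_nonneg _) (Finset.mem_univ a)
    simpa [nrm] using h2.trans hu.1
  obtain ⟨m, T, h1, h2, h3⟩ := exists_T _ hl
  let m' : ℕ → ι := fun i => if e : i < c then m ⟨i, e⟩ else m ⟨0, hc⟩
  have e1 : ∀ i : Fin c, m' i = m i := fun i => dif_pos i.2
  have hm : ∀ i < c, ∀ i' < c, m' i = m' i' → i = i' := fun i hi i' hi' e =>
    congrArg Fin.val (h1 ((e1 ⟨i, hi⟩).symm.trans (e.trans (e1 ⟨i', hi'⟩))))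
  let Φ : W ι → W ι := fun u =>
    T u + ∑ i, (h i u - fderiv ℂ (h i) q u) • (Pi.single (m i) 1 : W ι)
  have e2 : ∀ u (i : Fin c), Φ u (m' i) = h i u := fun u i => by
    simp [Φ, e1, h3, Pi.single_apply, h1.eq_iff]
  have e3 : AnalyticAt ℂ Φ q := (T.analyticAt q).fun_add (Finset.analyticAt_fun_sum _ fun i _ =>
    ((hh i).fun_sub ((fderiv ℂ (h i) q).analyticAt q)).fun_smul analyticAt_const)
  have e4 : HasFDerivAt Φ T q := by
    have := T.hasFDerivAt.fun_add (HasFDerivAt.fun_sum (u := Finset.univ) fun i _ =>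
      ((hh i).differentiableAt.hasFDerivAt.fun_sub
        (fderiv ℂ (h i) q).hasFDerivAt).smul_const (Pi.single (m i) 1 : W ι))
    simpa [Φ] using this
  refine (hI ι _ _ hL hL Φ q ⟨e3, by rw [e4.fderiv]; exact h2, fun _ _ e => absurd rfl e,
    fun _ e => absurd rfl e, fun _ e => absurd rfl e⟩ κ (Fin c) F _ hF (fun a => an_crd _ _)
    ?_ _).1 (hasTy_of_cert hU hA hL (crdCert m' hm) (mem_univ _)
      fun i hi => (e2 q ⟨i, hi⟩).trans (h0 _))
  simp only [nrm, e2]
  exact cmp_symm hC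

end Vale.Agent.P277Z.Hir
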