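import Vale.Agent.P277Z.Hir.Slice
import Vale.Agent.P277Z.Hir.BSk
import Vale.Agent.P277Z.Hir.E
import Vale.Agent.P277Z.Hir.Nz

/-!
# P277Z, resolution: the weighted algorithm on atlases
-/

open Filter Topology Set Function

noncomputable section

namespace Vale.Agent.P277Z.Hir.Gl

open L (Le IsCo Ass sl)

variable {ι X : Type} [Fintype ι] [DecidableEq ι]

set_option linter.unusedSectionVars false

/-- steps whose centres lie in the zero set of the family -/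
inductive StepP [TopologicalSpace X] (β : Base X) : At ι X → At ι X → Prop
  | ref {A A' : At ι X} : Ref A A' → StepP β A A'
  | bl {A : At ι X} (W : Wt β A) : W.d ≠ 0 → StepP β A W.bl

/-- finitely many such steps -/
def StepsP [TopologicalSpace X] (β : Base X) : At ι X → At ι X → Prop :=
  Relation.ReflTransGen fun A A' => A.Ok β ∧ StepP β A A'

theorem StepsP.steps [TopologicalSpace X] {β : Base X} {A A' : At ι X} (h : StepsP β A A') :
    Steps β A A' := by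
  induction h with
  | refl => exact .refl
  | tail _ h ih =>
    refine ih.tail ⟨h.1, ?_⟩
    rcases h.2 with h | W
    · exact .ref h
    · exact .bl W

/-- steps with new labels `≥ N₀` whose centres lie in the zero set of the family -/
inductive StepQ [TopologicalSpace X] (β : Base X) (N₀ : ℕ) : At ι X → At ι X → Prop
  | ref {A A' : At ι X} : Ref A A' → StepQ β N₀ A A'
  | bl {A : At ι X} (W : Wt β A) : W.d ≠ 0 → N₀ ≤ W.N → StepQ β N₀ A W.bl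

/-- finitely many such steps -/
def StepsQ [TopologicalSpace X] (β : Base X) (N₀ : ℕ) : At ι X → At ι X → Prop :=
  Relation.ReflTransGen fun A A' => A.Ok β ∧ StepQ β N₀ A A'

theorem StepsQ.stepsP [TopologicalSpace X] {β : Base X} {N₀ : ℕ} {A A' : At ι X}
    (h : StepsQ β N₀ A A') : StepsP β A A' := by
  induction h with
  | refl => exact .refl
  | tail _ h ih =>
    refine ih.tail ⟨h.1, ?_⟩
    rcases h.2 with h1 | ⟨W, h1, _⟩
    · exact .ref h1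
    · exact .bl W h1

namespace RH

theorem s_eq {C : Ch ι X} (hL : Lbl C.lab) {l : ι} {j : ℕ} (hj : j ≠ 0) (hl : C.lab l = j)
    (z : ι → ℂ) : C.s j z = z l := by
  rw [Ch.s, Finset.prod_eq_single_of_mem l (by simp [hl])]
  intro l' h1 h2
  exact absurd (hL l l' (hl ▸ hj) ((Finset.mem_filter.1 h1).2.trans hl.symm)) h2

theorem s_one {C : Ch ι X} {j : ℕ} (hl : ∀ l, C.lab l ≠ j) (z : ι → ℂ) : C.s j z = 1 :=
  Finset.prod_eq_one fun l h => absurd (Finset.mem_filter.1 h).2 (hl l)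

variable {C C' : Ch ι X} {u u' : ι → ℂ} {Φ Ψ : (ι → ℂ) → ι → ℂ}

theorem lIso (hL : Lbl C.lab) (hL' : Lbl C'.lab) (h : Arr C u C' u' Φ Ψ) :
    LIso C.lab C'.lab Φ u := by
  refine ⟨h.an, NzH.det_ne_zero h.an (h.val ▸ h.an') h.left, fun l l₁ h0 h1 => ?_,
    fun l h0 h1 => ?_, fun l h0 h1 => ?_⟩
  · obtain ⟨e, e1, e2, e3⟩ := h.div _ h0
    refine ⟨e, e1, e2, e3.mono fun z hz => ?_⟩
    simpa only [s_eq hL' h0 h1, s_eq hL h0 rfl] using hz
  · by_contra h2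
    obtain ⟨e, -, -, e3⟩ := h.div _ h0
    have := e3.self_of_nhds
    simp only [s_one (C := C') fun l₁ h3 => h2 ⟨l₁, h3⟩, s_eq hL h0 rfl, h1, mul_zero] at this
    exact one_ne_zero this
  · by_contra h2
    obtain ⟨e, -, e2, e3⟩ := h.div _ h0
    have := e3.self_of_nhds
    simp only [s_one (C := C) fun l₁ h3 => h2 ⟨l₁, h3⟩, s_eq hL' h0 rfl, h1, mul_one] at this
    exact e2 this.symm

theorem back (hL : Lbl C.lab) (hL' : Lbl C'.lab) (h : Arr C u C' u' Φ Ψ)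
    (hF : ∀ k, AnalyticAt ℂ (C.F k) u) (J : Cen C'.lab u') (hJ : J.Adm C'.F) :
    ∃ J' : Cen C.lab u, J'.Adm C.F ∧ J'.ty = J.ty := by
  obtain ⟨c, -, hc⟩ := h.cmp
  exact CH.back stC stI hL hL' (lIso hL hL' h) h.val hF (hc.mono fun z hz => hz.2) J hJ

theorem fwd (hL : Lbl C.lab) (hL' : Lbl C'.lab) (h : Arr C u C' u' Φ Ψ)
    (hF : ∀ k, AnalyticAt ℂ (C'.F k) u') (J : Cen C.lab u) (hJ : J.Adm C.F) :
    ∃ J' : Cen C'.lab u', J'.Adm C'.F ∧ J'.ty = J.ty := by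
  obtain ⟨c, -, hc⟩ := h.cmp
  obtain ⟨Ψ', a1, a2, a3⟩ := CH.exists_inv (lIso hL hL' h)
  rw [h.val] at a1 a2 a3
  refine CH.back stC stI hL' hL a1 a2 hF (C := c) ?_ J hJ
  have h1 : Tendsto Ψ' (𝓝 u') (𝓝 u) := a2 ▸ a1.an.continuousAt.tendsto
  filter_upwards [h1.eventually hc, a3] with v b1 b2
  rw [b2] at b1
  exact b1.1

/-- a piece of a chart in new coordinates -/
def piece (C : Ch ι X) (u : ι → ℂ) (ψ : OpenPartialHomeomorph (ι → ℂ) (ι → ℂ)) : Ch ι X where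
  U := ψ.target
  B := ψ.target ∩ ψ.symm ⁻¹' C.B
  π := fun z => C.π (ψ.symm z)
  lab := fgt C.lab u
  m := C.m
  F := fun k z => C.F k (ψ.symm z)

theorem piece_arr (hL : Lbl C.lab) {ψ : OpenPartialHomeomorph (ι → ℂ) (ι → ℂ)}
    (h : IsChg (fgt C.lab u) ψ) (hs : ∀ z ∈ ψ.source, ∀ l, u l ≠ 0 → z l ≠ 0) {z : ι → ℂ}
    (hz : z ∈ ψ.target) : Arr (piece C u ψ) z C (ψ.symm z) ψ.symm ψ := by
  have h1 := ψ.open_target.mem_nhds hz
  have h2 := ψ.map_target hz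
  refine ⟨h.an' z hz, h.an _ h2, rfl, ?_, ?_, ?_, .of_forall fun _ _ => rfl, fun j hj => ?_,
    1, one_pos, .of_forall fun v => ⟨(one_mul _).ge, (one_mul _).ge⟩⟩
  · filter_upwards [h1] with v hv using ψ.right_inv hv
  · filter_upwards [ψ.open_source.mem_nhds h2] with v hv using ψ.left_inv hv
  · filter_upwards [h1] with v hv using ⟨fun a => ⟨hv, a⟩, fun a => a.2⟩
  · by_cases h3 : ∃ l, C.lab l = j
    · obtain ⟨l, hl⟩ := h3
      by_cases h4 : u l = 0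
      · have h5 : (piece C u ψ).lab l = j := (fgt_eq h4).trans hl
        refine ⟨fun _ => 1, analyticAt_const, one_ne_zero, ?_⟩
        filter_upwards [h1] with v hv
        rw [s_eq hL hj hl, s_eq (C := piece C u ψ) (hL.fgt u) hj h5, one_mul,
          ← h.div _ (ψ.map_target hv) l (fun e => hj (h5.symm.trans e)), ψ.right_inv hv]
      · refine ⟨fun v => ψ.symm v l, analyticAt_pi_iff.1 (h.an' z hz) l, hs _ h2 l h4,
          .of_forall fun v => ?_⟩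
        have h5 : ∀ l', (piece C u ψ).lab l' ≠ j := fun l' e => by
          have e' : fgt C.lab u l' = C.lab l := e.trans hl.symm
          have h6 := hL.fgt_eq (hl ▸ hj) e'
          exact h4 (h6 ▸ (fgt_ne (e' ▸ hl ▸ hj)).1)
        simp only [s_eq hL hj hl, s_one h5, mul_one]
    · refine ⟨fun _ => 1, analyticAt_const, one_ne_zero, .of_forall fun v => ?_⟩
      have h5 : ∀ l', (piece C u ψ).lab l' ≠ j := fun l' e => by
        have e' : fgt C.lab u l' = j := e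
        exact h3 ⟨l', (fgt_ne (e' ▸ hj)).2.symm.trans e'⟩
      simp only [s_one fun l e => h3 ⟨l, e⟩, s_one h5, mul_one]

variable [TopologicalSpace X] {β : Base X}

/-- refinements from local changes of coordinates -/
theorem exists_ref {A : At ι X} (hA : A.Ok β) (P : Ch ι X → Prop)
    (h : ∀ a, ∀ u ∈ A.K a, ∃ ψ : OpenPartialHomeomorph (ι → ℂ) (ι → ℂ),
      IsChg (fgt (A.C a).lab u) ψ ∧ u ∈ ψ.source ∧ ψ.source ⊆ (A.C a).U ∧
      (∀ z ∈ ψ.source, ∀ l, u l ≠ 0 → z l ≠ 0) ∧ P (piece (A.C a) u ψ)) :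
    ∃ A' : At ι X, Ref A A' ∧ ∀ a', P (A'.C a') := by
  have : Nonempty (OpenPartialHomeomorph (ι → ℂ) (ι → ℂ)) := ⟨.refl _⟩
  choose! ψ h1 h2 h3 h4 h5 using h
  have h6 : ∀ a, ∀ u ∈ A.K a, ∃ K' : Set (ι → ℂ), IsCompact K' ∧ K' ⊆ (ψ a u).source ∧
      K' ∈ 𝓝 u := fun a u hu => by
    obtain ⟨K', k1, k2, k3⟩ := local_compact_nhds ((ψ a u).open_source.mem_nhds (h2 a u hu))
    exact ⟨K', k3, k2, k1⟩
  choose! K' k1 k2 k3 using h6
  have h7 : ∀ a, ∃ t : Finset (ι → ℂ), (∀ u ∈ t, u ∈ A.K a) ∧ A.K a ⊆ ⋃ u ∈ t, K' a u :=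
    fun a => (hA.cpt a).elim_nhds_subcover (K' a) (k3 a)
  choose t t1 t2 using h7
  refine ⟨⟨Σ a, t a, fun p => piece (A.C p.1) p.2 (ψ p.1 p.2),
    fun p => ψ p.1 p.2 '' (A.K p.1 ∩ K' p.1 p.2)⟩, ⟨fun p => (ψ p.1 p.2).open_target,
    fun p => inter_subset_left, fun p => Lbl.fgt (hA.ch p.1).lbl _, fun p k z hz => ?_,
    fun p => ?_, fun p => ?_, fun p => ?_, fun a u hu => ?_⟩, fun p => h5 _ _ (t1 _ _ p.2.2)⟩
  · have hu := t1 _ _ p.2.2
    exact ((hA.ch p.1).anF k _ (h3 _ _ hu ((ψ p.1 p.2).map_target hz))).comp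
      ((h1 _ _ hu).an' z hz)
  · have hu := t1 _ _ p.2.2
    exact ((hA.cpt p.1).inter (k1 _ _ hu)).image_of_continuousOn
      ((ψ p.1 p.2).continuousOn.mono (inter_subset_right.trans (k2 _ _ hu)))
  · rintro _ ⟨v, hv, rfl⟩
    have h8 := k2 _ _ (t1 _ _ p.2.2) hv.2
    refine ⟨(ψ p.1 p.2).map_source h8, ?_⟩
    rw [mem_preimage, (ψ p.1 p.2).left_inv h8]
    exact hA.sub _ hv.1
  · have hu := t1 _ _ p.2.2
    exact ⟨p.1, (ψ p.1 p.2).symm, fun z hz => ⟨h3 _ _ hu ((ψ p.1 p.2).map_target hz), _,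
      piece_arr (hA.ch p.1).lbl (h1 _ _ hu) (h4 _ _ hu) hz⟩⟩
  · obtain ⟨v, hv, h8⟩ := mem_iUnion₂.1 (t2 a hu)
    have h9 := k2 _ _ (t1 _ _ hv) h8
    refine ⟨⟨a, v, hv⟩, ψ a v u, ⟨u, ⟨hu, h8⟩, rfl⟩, (ψ a v).symm, ψ a v, ?_⟩
    have := piece_arr (hA.ch a).lbl (h1 _ _ (t1 _ _ hv)) (h4 _ _ (t1 _ _ hv))
      ((ψ a v).map_source h9)
    rwa [(ψ a v).left_inv h9] at this

/-- charts without zeros and charts with a certificate -/
def Kind (p : Prop) (S : Set Ty) (C : Ch ι X) : Prop :=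
  (p ∧ ∀ z ∈ C.U, ∃ k, C.F k z ≠ 0) ∨ ∃ c : Cert C.lab C.U C.F, c.ty ∈ S ∧ ∃ z ∈ C.B, z ∈ c.Z

theorem nb (u : ι → ℂ) : ∀ᶠ z in 𝓝 u, ∀ l, u l ≠ 0 → z l ≠ 0 := by
  refine eventually_all.2 fun l => ?_
  by_cases h : u l = 0
  · exact .of_forall fun _ e => absurd h e
  · exact ((continuous_apply l).continuousAt.eventually_ne h).mono fun _ e _ => e

theorem exists_kind [Nonempty ι] {A : At ι X} (hA : A.Ok β) {S : Set Ty} {p : Prop}
    (hp : ∀ a, ∀ u ∈ A.K a, ∀ k, (A.C a).F k u ≠ 0 → p)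
    (hS : ∀ a, ∀ u ∈ A.K a, (A.C a).TyIn S u) :
    ∃ A' : At ι X, Ref A A' ∧ ∀ a', Kind p S (A'.C a') := by
  refine exists_ref hA _ fun a u hu => ?_
  have hB := hA.sub a hu
  have hU := (hA.ch a).sub hB
  have hL : Lbl (A.C a).lab := (hA.ch a).lbl
  have h1 := ((hA.ch a).isOpen.eventually_mem hU).and (nb u)
  by_cases h0 : ∀ k, (A.C a).F k u = 0
  · obtain ⟨ψ, p1, p2, p3, c, p4⟩ := stE ι (fgt (A.C a).lab u) (hL.fgt u) _ (A.C a).F u
      (fun l h => (fgt_ne h).1) (fun k => (hA.ch a).anF k u hU) h0 _ h1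
    have p5 : ∀ z ∈ ψ.source, ∀ l, u l ≠ 0 → z l ≠ 0 := fun z hz => (p3 hz).2
    refine ⟨ψ, p1, p2, fun z hz => (p3 hz).1, p5, Or.inr ⟨c, ?_, ψ u, ⟨ψ.map_source p2, ?_⟩, p4⟩⟩
    · obtain ⟨-, -, J, j1, j2, -⟩ := stA ι _ (hL.fgt u) _ _ _ c _ (ψ.map_source p2) p4
      have h2 := piece_arr hL p1 p5 (ψ.map_source p2)
      rw [ψ.left_inv p2] at h2
      obtain ⟨J', j3, j4⟩ := fwd (C := piece (A.C a) u ψ) (hL.fgt u) hL h2
        (fun k => (hA.ch a).anF k u hU) J j1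
      exact j2 ▸ j4 ▸ hS a u hu J' j3
    · rwa [mem_preimage, ψ.left_inv p2]
  · obtain ⟨k, hk⟩ := not_forall.1 h0
    obtain ⟨V, v1, v2, v3⟩ := eventually_nhds_iff.1
      (h1.and (((hA.ch a).anF k u hU).continuousAt.eventually_ne hk))
    refine ⟨OpenPartialHomeomorph.ofSet V v2, ⟨fun z _ => analyticAt_id, fun z _ => analyticAt_id,
      fun _ _ _ _ => rfl⟩, v3, fun z hz => (v1 z hz).1.1, fun z hz => (v1 z hz).1.2,
      Or.inl ⟨hp a u hu k hk, fun z hz => ⟨k, (v1 z hz).2⟩⟩⟩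

theorem lb_eq {k k' : ℕ} {ω ω' : ℕ → ℚ} {lb lb' : ℕ → ℕ} (h : mkTy k ω lb = mkTy k' ω' lb') :
    ∀ i < k, lb i = lb' i := by
  intro i hi
  have h1 : (if i < k then ent (ω i) (lb i) else ⊤) = if i < k' then ent (ω' i) (lb' i) else ⊤ :=
    congrFun (toLex.injective h) i
  rw [if_pos hi, if_pos ((LFH.ty_eq h).1 ▸ hi)] at h1
  exact congrArg Prod.snd (toLex.injective (WithTop.coe_injective h1))

theorem exists_mult (k : ℕ) (ω : ℕ → ℚ) (h : ∀ i < k, 0 < ω i) :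
    ∃ (ℓ : ℕ) (wt : ℕ → ℕ), ℓ ≠ 0 ∧ ∀ i < k, (wt i : ℚ) = ℓ * ω i := by
  refine ⟨∏ i ∈ Finset.range k, (ω i).den, fun i => ⌊((∏ i ∈ Finset.range k, (ω i).den : ℕ) : ℚ) *
    ω i⌋₊, Finset.prod_ne_zero_iff.2 fun i _ => (ω i).den_nz, fun i hi => ?_⟩
  obtain ⟨n, hn⟩ := Finset.dvd_prod_of_mem (fun i => (ω i).den) (Finset.mem_range.2 hi)
  have h1 : ((∏ i ∈ Finset.range k, (ω i).den : ℕ) : ℚ) * ω i = ((n * (ω i).num.toNat : ℕ) : ℚ) := by
    have h2 : (((ω i).num.toNat : ℕ) : ℚ) = (ω i).num := by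
      have := Int.toNat_of_nonneg (Rat.num_nonneg.2 (h i hi).le)
      exact_mod_cast congrArg (Int.cast : ℤ → ℚ) this
    rw [hn, Nat.cast_mul, Nat.cast_mul, h2, ← Rat.mul_den_eq_num]
    ring
  simp only [h1, Nat.floor_natCast]

theorem gam {nu : ι → ℕ} {U : Set (W ι)} {κ : Type} {F : κ → W ι → ℂ} (c : Cert nu U F) :
    c.ty ∈ Gam (Fintype.card ι) := by
  obtain ⟨k, ω, lb, h1, h2⟩ := c.ty_mem
  refine ⟨k, ω, lb, h1.trans ?_, h2⟩
  have := Fintype.card_le_of_injective (fun i : Fin c.k => c.m i) fun i j e =>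
    Fin.ext (c.inj i i.2 j j.2 e)
  rwa [Fintype.card_fin] at this

/-- the integral weights -/
def wtc {nu : ι → ℕ} {U : Set (W ι)} {κ : Type} {F : κ → W ι → ℂ} (c : Cert nu U F) (wt : ℕ → ℕ)
    (l : ι) : ℕ := ∑ i ∈ (Finset.range c.k).filter (fun i => c.m i = l), wt i

theorem wtc_wt {nu : ι → ℕ} {U : Set (W ι)} {κ : Type} {F : κ → W ι → ℂ} (c : Cert nu U F)
    {wt : ℕ → ℕ} {ℓ : ℕ} (h : ∀ i < c.k, (wt i : ℚ) = ℓ * c.ω i) : c.Wt ℓ (wtc c wt) := by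
  refine ⟨fun i hi => ?_, fun l hl => Finset.sum_eq_zero fun i hi => ?_⟩
  · rw [wtc, Finset.sum_eq_single_of_mem i (by simp [hi]), h i hi]
    intro j hj hji
    obtain ⟨h1, h2⟩ := Finset.mem_filter.1 hj
    exact absurd (c.inj j (Finset.mem_range.1 h1) i hi h2) hji
  · obtain ⟨h1, h2⟩ := Finset.mem_filter.1 hi
    exact absurd h2 (hl i (Finset.mem_range.1 h1))

theorem wtc_sum {nu : ι → ℕ} {U : Set (W ι)} {κ : Type} {F : κ → W ι → ℂ} (c : Cert nu U F)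
    (wt : ℕ → ℕ) (j : ℕ) : ∑ l ∈ Finset.univ.filter (fun l => nu l = j), wtc c wt l =
      ∑ i ∈ (Finset.range c.k).filter (fun i => nu (c.m i) = j), wt i := by
  simp only [wtc, Finset.sum_filter]
  have h1 : ∀ l, (if nu l = j then ∑ i ∈ Finset.range c.k, if c.m i = l then wt i else 0 else 0) =
      ∑ i ∈ Finset.range c.k, if c.m i = l then (if nu (c.m i) = j then wt i else 0) else 0 := by
    intro l
    split_ifs with h
    · refine Finset.sum_congr rfl fun i _ => ?_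
      by_cases e : c.m i = l <;> simp [e, h]
    · refine (Finset.sum_eq_zero fun i _ => ?_).symm
      by_cases e : c.m i = l <;> simp [e, h]
  simp only [h1]
  rw [Finset.sum_comm]
  simp

theorem adm_congr {nu : ι → ℕ} {q : W ι} {κ : Type} {F G : κ → W ι → ℂ} {J : Cen nu q}
    (hJ : J.Adm G) (h : ∀ a, G a =ᶠ[𝓝 q] F a) : J.Adm F := fun a => (hJ a).congr (h a)

theorem not_adm {nu : ι → ℕ} {q : W ι} {κ : Type} {F : κ → W ι → ℂ} {J : Cen nu q}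
    (hJ : J.Adm F) (a : κ) : F a q = 0 :=
  (hJ a).eq_zero (fun i hi _ => J.van i hi) one_pos

/-- the blow-up of the maximal centre -/
theorem exists_wt {A : At ι X} (hA : A.Ok β) {T : Set Ty} (hoff : A.Off β fun C u => C.TyIn T u)
    (o : ∀ a, Option (Cert (A.C a).lab (A.C a).U (A.C a).F))
    (ho : ∀ a, o a = none → ∀ z ∈ (A.C a).U, ∃ k, (A.C a).F k z ≠ 0) {τ : Ty} (hτ : τ ∉ T)
    (hmax : ∀ a c, o a = some c → c.ty ≤ τ) {a₀ : A.κ} {c₀ : Cert _ _ _} (h₀ : c₀.ty = τ)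
    {z₀ : ι → ℂ} (hz₀ : z₀ ∈ (A.C a₀).B) (e₀ : o a₀ = some c₀) (N₀ : ℕ) :
    ∃ W : Wt β A, W.d ≠ 0 ∧ N₀ ≤ W.N ∧ ∀ p, ∀ z ∈ (W.bl.C p).U, (W.bl.C p).TyIn {σ | σ < τ} z := by
  have _ := e₀
  have hL : ∀ a, Lbl (A.C a).lab := fun a => (hA.ch a).lbl
  have hov : ∀ a (c : Cert (A.C a).lab (A.C a).U (A.C a).F), c.ty = τ → ∀ u ∈ (A.C a).B,
      u ∈ c.Z → (A.C a).π u ∈ β.Z := by
    intro a c hc u hu hZ
    by_contra h
    obtain ⟨-, -, J, j1, j2, -⟩ := stA ι _ (hL a) _ _ _ c _ ((hA.ch a).sub hu) hZ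
    exact hτ (hc ▸ j2 ▸ hoff a u hu h J j1)
  have hk : 0 < c₀.k := by
    by_contra h
    obtain ⟨z, z1, z2⟩ := closure_nonempty_iff.1 ⟨z₀, (hA.ch a₀).dense z₀ hz₀⟩
    exact z2 (hov a₀ c₀ h₀ z z1 fun i hi => absurd hi (by omega))
  obtain ⟨ℓ, wt, hℓ, hwt⟩ := exists_mult c₀.k c₀.ω c₀.pos
  have hty : ∀ a (c : Cert (A.C a).lab (A.C a).U (A.C a).F), c.ty = τ → c.k = c₀.k ∧
      (∀ i < c.k, c.ω i = c₀.ω i) ∧ ∀ i < c.k, (A.C a).lab (c.m i) = (A.C a₀).lab (c₀.m i) :=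
    fun a c hc => ⟨(LFH.ty_eq (hc.trans h₀.symm)).1, (LFH.ty_eq (hc.trans h₀.symm)).2,
      lb_eq (hc.trans h₀.symm)⟩
  have hWt : ∀ a (c : Cert (A.C a).lab (A.C a).U (A.C a).F), c.ty = τ → c.Wt ℓ (wtc c wt) :=
    fun a c hc => wtc_wt c fun i hi => by
      rw [(hty a c hc).2.1 i hi]
      exact hwt i ((hty a c hc).1 ▸ hi)
  have hw : ∀ a, ∃ w : ι → ℕ, (w ≠ 0 → ∃ c, o a = some c ∧ c.ty = τ ∧ w = wtc c wt) ∧
      ∀ c, o a = some c → c.ty = τ → w ≠ 0 := by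
    intro a
    by_cases h : ∃ c, o a = some c ∧ c.ty = τ
    · obtain ⟨c, h1, h2⟩ := h
      refine ⟨wtc c wt, fun _ => ⟨c, h1, h2, rfl⟩, fun _ _ _ e => ?_⟩
      exact c.wt_ne (hWt a c h2) hℓ (j := 0) ((hty a c h2).1 ▸ hk) (congrFun e _)
    · exact ⟨0, fun e => absurd rfl e, fun c h1 h2 => absurd ⟨c, h1, h2⟩ h⟩
  choose w hw1 hw2 using hw
  have hG : ∀ a (s : Option ι) (k : Fin (A.C a).m), ∃ G : (ι → ℂ) → ℂ, Use (w a) s →
      AnalyticOnNhd ℂ G (σo (w a) s ⁻¹' (A.C a).U) ∧ ∀ z, σo (w a) s z ∈ (A.C a).U →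
        (A.C a).F k (σo (w a) s z) = so s z ^ ℓ * G z := by
    intro a s k
    rcases s with _ | i
    · exact ⟨(A.C a).F k, fun _ => ⟨(hA.ch a).anF k, fun z _ => by simp [σo, so]⟩⟩
    · by_cases h : w a i = 0
      · exact ⟨0, fun e => absurd h e⟩
      · obtain ⟨c, -, h2, h3⟩ := hw1 a fun e => h (congrFun e i)
        obtain ⟨G, g⟩ := divS (hL a) c (h3 ▸ hWt a c h2) hℓ h k
        exact ⟨G, fun _ => g⟩
  choose G hG using hG
  obtain ⟨N, hN⟩ := (Set.finite_range fun p : A.κ × ι => (A.C p.1).lab p.2).bddAbove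
  have hN' : ∀ a l, (A.C a).lab l ≠ N + N₀ + 1 := fun a l e => by
    have := hN ⟨(a, l), rfl⟩
    simp only at this
    omega
  refine ⟨⟨w, ℓ, N + N₀ + 1, fun j => ∑ i ∈ (Finset.range c₀.k).filter
    (fun i => (A.C a₀).lab (c₀.m i) = j), wt i, G, (N + N₀).succ_ne_zero, hN', fun a h j _ => ?_,
    fun a s h k => (hG a s k h).1, fun a s h k => (hG a s k h).2, fun a u hu h => ?_,
    fun a b u hu h u' Φ Ψ hu' har => ?_⟩, hℓ, by simp only; omega, ?_⟩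
  · obtain ⟨c, -, h2, h3⟩ := hw1 a h
    rw [h3, wtc_sum, ← (hty a c h2).1]
    refine Finset.sum_congr (Finset.filter_congr fun i hi => ?_) fun _ _ => rfl
    rw [(hty a c h2).2.2 i (Finset.mem_range.1 hi)]
  · obtain ⟨c, -, h2, h3⟩ := hw1 a h.1
    exact hov a c h2 u hu ((c.mem_Z (h3 ▸ hWt a c h2) hℓ).2 h.2)
  · obtain ⟨c, -, h2, h3⟩ := hw1 a h.1
    have hW : c.Wt ℓ (w a) := h3 ▸ hWt a c h2
    have hU := (hA.ch a).sub hu
    obtain ⟨-, -, J, j1, j2, -⟩ := stA ι _ (hL a) _ _ _ c _ hU ((c.mem_Z hW hℓ).2 h.2)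
    obtain ⟨J', j3, j4⟩ := fwd (hL a) (hL b) har (fun k => (hA.ch b).anF k u' hu') J j1
    rcases e : o b with _ | c'
    · obtain ⟨k, hk⟩ := ho b e u' hu'
      exact absurd (not_adm j3 k) hk
    obtain ⟨d1, d2⟩ := stU ι _ (hL b) _ _ _ c' u' hu' J' j3
    have j5 : J'.ty = τ := j4.trans (j2.trans h2)
    have h4 : c'.ty = τ := le_antisymm (hmax b c' e) (j5 ▸ d1)
    have h5 := hw2 b c' e h4
    obtain ⟨c'', e', -, h6⟩ := hw1 b h5
    obtain rfl : c' = c'' := Option.some.inj (e.symm.trans e')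
    have hW' : c'.Wt ℓ (w b) := h6 ▸ hWt b c' h4
    have hZ := (d2 (j5.trans h4.symm)).1
    refine ⟨⟨h5, (c'.mem_Z hW' hℓ).1 hZ⟩, fun l => ?_⟩
    by_cases h7 : w b l = 0
    · exact L.Le.of_cont (analyticAt_pi_iff.1 har.an l).continuousAt (by simp [h7])
    · obtain ⟨i, hi, rfl⟩ := c'.exists_of_wt hW' h7
      have h8 := (LFH.back stU stA stC stI (hL a) (hL b) c c' (h4.trans h2.symm) hU
        (har.val ▸ hu') (lIso (hL a) (hL b) har) har.cmp (har.val ▸ hZ)).2 i hi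
      rw [hW'.1 i hi]
      exact c.le_of_fil hW hℓ h8
  · rintro ⟨⟨a, s⟩, hs⟩ z hz J hJ
    have hz' : σo (w a) s z ∈ (A.C a).U := hz
    rcases s with _ | i
    · have h1 : J.Adm (A.C a).F := adm_congr hJ fun k => by
        filter_upwards [(hA.ch a).isOpen.mem_nhds hz'] with v hv
        have := (hG a none k hs).2 v hv
        simp only [σo, so, id, one_pow, one_mul] at this
        exact this.symm
      rcases e : o a with _ | c
      · obtain ⟨k, hk⟩ := ho a e z hz'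
        exact absurd (not_adm h1 k) hk
      · refine lt_of_le_of_lt (stU ι _ (hL a) _ _ _ c z hz' J h1).1
          (lt_of_le_of_ne (hmax a c e) fun h => hw2 a c e h hs)
    · obtain ⟨c, -, h2, h3⟩ := hw1 a fun e => hs (congrFun e i)
      have := dropS (hL a) (hN' a) c (h3 ▸ hWt a c h2) hs hz' (G := G a (some i))
        (fun k => (hG a _ k hs).1 z hz') (fun k => by
          filter_upwards [(SH.an_sl (w a) i z).continuousAt.eventually
            ((hA.ch a).isOpen.mem_nhds hz')] with v hv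
          exact (hG a _ k hs).2 v hv) J.weak hJ
      exact h2 ▸ this

/-- one round of the algorithm -/
theorem round [Nonempty ι] (hRef : StRef) (hBl : StBl) (N₀ : ℕ) {A : At ι X} (hA : A.Ok β) {T : Set Ty}
    (hT : IsLowerSet T) (hoff : ∀ A', StepsQ β N₀ A A' → A'.Ok β → A'.Off β fun C u => C.TyIn T u)
    {S : Set Ty} (hS : ∀ a, ∀ u ∈ A.K a, (A.C a).TyIn S u) :
    ∃ A', StepsQ β N₀ A A' ∧ A'.Ok β ∧ ((∀ a, ∀ u ∈ (A'.C a).U, (A'.C a).TyIn T u) ∨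
      ∃ τ ∈ S, τ ∈ Gam (Fintype.card ι) ∧ ∀ a, ∀ u ∈ (A'.C a).U, (A'.C a).TyIn {σ | σ < τ} u) := by
  obtain ⟨A₁, hr, hK⟩ := exists_kind hA (p := True) (fun _ _ _ _ _ => trivial) hS
  have h1 := hRef ι X β A A₁ hA hr
  have s1 : StepsQ β N₀ A A₁ := .single ⟨hA, .ref hr⟩
  have h2 : ∀ a, ∃ o : Option (Cert (A₁.C a).lab (A₁.C a).U (A₁.C a).F),
      (o = none → ∀ z ∈ (A₁.C a).U, ∃ k, (A₁.C a).F k z ≠ 0) ∧
      ∀ c, o = some c → c.ty ∈ S ∧ ∃ z ∈ (A₁.C a).B, z ∈ c.Z := by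
    intro a
    rcases hK a with h | ⟨c, h⟩
    · exact ⟨none, fun _ => h.2, fun _ e => by cases e⟩
    · exact ⟨some c, fun e => (by cases e), fun _ e => by cases e; exact h⟩
  choose o o1 o2 using h2
  by_cases h3 : ∀ a c, o a = some c → c.ty ∈ T
  · refine ⟨A₁, s1, h1, Or.inl fun a u hu J hJ => ?_⟩
    rcases e : o a with _ | c
    · obtain ⟨k, hk⟩ := o1 a e u hu
      exact absurd (not_adm hJ k) hk
    · exact hT (stU ι _ (h1.ch a).lbl _ _ _ c u hu J hJ).1 (h3 a c e)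
  push Not at h3
  obtain ⟨a₁, c₁, e₁, t₁⟩ := h3
  have hfin : {τ | ∃ a c, o a = some c ∧ c.ty = τ}.Finite := by
    refine (Set.finite_range fun a => (o a).elim c₁.ty fun c => c.ty).subset ?_
    rintro _ ⟨a, c, e, rfl⟩
    exact ⟨a, by simp only [e, Option.elim]⟩
  obtain ⟨τ, ⟨a₀, c₀, e₀, h₀⟩, hmax⟩ := Set.exists_max_image _ id hfin ⟨_, a₁, c₁, e₁, rfl⟩
  have hmax' : ∀ a c, o a = some c → c.ty ≤ τ := fun a c e => hmax _ ⟨a, c, e, rfl⟩
  obtain ⟨s₀, z₀, hz₀, -⟩ := o2 a₀ c₀ e₀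
  obtain ⟨W, hd, hN, hW⟩ := exists_wt h1 (hoff A₁ s1 h1) o o1 (fun h => t₁ (hT (hmax' a₁ c₁ e₁) h)) hmax'
    h₀ hz₀ e₀ N₀
  exact ⟨W.bl, s1.tail ⟨h1, (.bl W hd hN)⟩, hBl ι X β A₁ W h1, Or.inr ⟨τ, h₀ ▸ s₀, h₀ ▸ gam c₀, hW⟩⟩

end RH

open RH

variable [TopologicalSpace X] {β : Base X}

/-- the weighted algorithm: all types are brought into the lower set `T` -/
theorem resolveQ [Nonempty ι] (hRef : StRef) (hBl : StBl) (N₀ : ℕ) {A : At ι X} (hA : A.Ok β) {T : Set Ty}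
    (hT : IsLowerSet T) (hoff : ∀ A', StepsQ β N₀ A A' → A'.Ok β → A'.Off β fun C u => C.TyIn T u) :
    ∃ A', StepsQ β N₀ A A' ∧ A'.Ok β ∧ ∀ a, ∀ u ∈ (A'.C a).U, (A'.C a).TyIn T u := by
  have key : ∀ τ ∈ Gam (Fintype.card ι), ∀ A₁ : At ι X, StepsQ β N₀ A A₁ → A₁.Ok β →
      (∀ a, ∀ u ∈ (A₁.C a).U, (A₁.C a).TyIn {σ | σ < τ} u) →
      ∃ A', StepsQ β N₀ A A' ∧ A'.Ok β ∧ ∀ a, ∀ u ∈ (A'.C a).U, (A'.C a).TyIn T u := by
    intro τ hτ
    refine Set.WellFoundedOn.induction (stW (Fintype.card ι)) hτ (P := fun τ => ∀ A₁ : At ι X,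
      StepsQ β N₀ A A₁ → A₁.Ok β → (∀ a, ∀ u ∈ (A₁.C a).U, (A₁.C a).TyIn {σ | σ < τ} u) →
      ∃ A', StepsQ β N₀ A A' ∧ A'.Ok β ∧ ∀ a, ∀ u ∈ (A'.C a).U, (A'.C a).TyIn T u) ?_
    intro τ _ ih A₁ s1 h1 h2
    obtain ⟨A₂, s2, h3, h | ⟨σ, h4, h5, h6⟩⟩ := round hRef hBl N₀ h1 hT
      (fun A' s h => hoff A' (s1.trans s) h) fun a u hu => h2 a u ((h1.ch a).sub (h1.sub a hu))
    · exact ⟨A₂, s1.trans s2, h3, h⟩
    · exact ih σ h5 h4 A₂ (s1.trans s2) h3 h6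
  obtain ⟨A₂, s2, h3, h | ⟨σ, -, h5, h6⟩⟩ := round hRef hBl N₀ hA hT hoff (S := univ)
    fun _ _ _ _ _ => mem_univ _
  · exact ⟨A₂, s2, h3, h⟩
  · exact key σ h5 A₂ s2 h3 h6

theorem resolve [Nonempty ι] (hRef : StRef) (hBl : StBl) {A : At ι X} (hA : A.Ok β) {T : Set Ty}
    (hT : IsLowerSet T) (hoff : ∀ A', StepsP β A A' → A'.Ok β → A'.Off β fun C u => C.TyIn T u) :
    ∃ A', StepsP β A A' ∧ A'.Ok β ∧ ∀ a, ∀ u ∈ (A'.C a).U, (A'.C a).TyIn T u := by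
  obtain ⟨A', h1, h2⟩ := resolveQ hRef hBl 0 hA hT fun A' s => hoff A' s.stepsP
  exact ⟨A', h1.stepsP, h2⟩

theorem Ch.TyIn.exists_ne {C : Ch ι X} (hC : C.Ok β) {u : ι → ℂ} (hu : u ∈ C.U)
    (h : C.TyIn ∅ u) : ∃ k, C.F k u ≠ 0 := by
  by_contra h0
  push Not at h0
  obtain ⟨τ, ⟨J, hJ, -⟩, -⟩ := exists_hasTy stU stA stE (stInv stC stI) (nu := C.lab) hC.lbl
    (fun k => hC.anF k u hu) h0
  exact h J hJ

/-- principalization -/
theorem resolve_unit [Nonempty ι] (hRef : StRef) (hBl : StBl) (hI : StInvs) {A : At ι X}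
    (hA : A.Ok β) (hoff : A.Off β fun C u => ∃ k, C.F k u ≠ 0) :
    ∃ A', StepsP β A A' ∧ A'.Ok β ∧ ∀ a, ∀ u ∈ (A'.C a).U, ∃ k, (A'.C a).F k u ≠ 0 := by
  obtain ⟨A', h1, h2, h3⟩ := resolve hRef hBl hA (T := ∅) isLowerSet_empty fun A' s _ a u hu hZ J hJ => by
    obtain ⟨k, hk⟩ := (hI ι X β A A' s.steps).2.2.2.2 hoff a u hu hZ
    exact hk (not_adm hJ k)
  exact ⟨A', h1, h2, fun a u hu => (h3 a u hu).exists_ne (h2.ch a) hu⟩

/-- principalization, with large new labels -/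
theorem resolve_unitQ [Nonempty ι] (hRef : StRef) (hBl : StBl) (hI : StInvs) (N₀ : ℕ) {A : At ι X}
    (hA : A.Ok β) (hoff : A.Off β fun C u => ∃ k, C.F k u ≠ 0) :
    ∃ A', StepsQ β N₀ A A' ∧ A'.Ok β ∧ ∀ a, ∀ u ∈ (A'.C a).U, ∃ k, (A'.C a).F k u ≠ 0 := by
  obtain ⟨A', h1, h2, h3⟩ := resolveQ hRef hBl N₀ hA (T := ∅) isLowerSet_empty
    fun A' s _ a u hu hZ J hJ => by
      obtain ⟨k, hk⟩ := (hI ι X β A A' s.stepsP.steps).2.2.2.2 hoff a u hu hZ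
      exact hk (not_adm hJ k)
  exact ⟨A', h1, h2, fun a u hu => (h3 a u hu).exists_ne (h2.ch a) hu⟩

theorem Ch.Sm.hasTy {C : Ch ι X} (hC : C.Ok β) {u : ι → ℂ} (hu : u ∈ C.B) (hZ : C.π u ∉ β.Z)
    {c : ℕ} (h : C.Sm c u) : HasTy C.lab C.F u (tyc c) := by
  obtain ⟨y, S, hy, hS, hc, hB⟩ := h
  have hF := fun k => hC.anF k u (hC.sub hu)
  have h0 : fgt C.lab u = fun _ => 0 := funext fun l => by
    by_contra e
    exact hZ (hC.unt u hu ⟨l, (fgt_ne e).2 ▸ e, (fgt_ne e).1⟩)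
  rw [← hasTy_forget (stInv stC stI) hC.lbl hF, h0]
  subst hS
  let e := S.equivFin.symm
  have hd : ∀ l, fderiv ℂ (fun z => y z l) u =
      (ContinuousLinearMap.proj (R := ℂ) (φ := fun _ : ι => ℂ) l).comp (fderiv ℂ y u) := fun l =>
    ((ContinuousLinearMap.proj (R := ℂ) (φ := fun _ : ι => ℂ) l).hasFDerivAt.comp u
      hy.1.differentiableAt.hasFDerivAt).fderiv
  refine stReg stU stA (stInv stC stI) ι _ C.F u hF S.card (fun i z => y z (e i))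
    (fun i => analyticAt_pi_iff.1 hy.1 _) (fun i => hB.self_of_nhds.1 hu _ (e i).2) ?_ ?_
  · refine Fintype.linearIndependent_iff.2 fun g hg i => ?_
    obtain ⟨v, hv⟩ := hy.2.2 (Pi.single (e i : ι) 1)
    have h1 := congrArg (fun T : (ι → ℂ) →L[ℂ] ℂ => T v) hg
    simp only [hd, ContinuousLinearMap.sum_apply, ContinuousLinearMap.smul_apply,
      ContinuousLinearMap.comp_apply, hv, ContinuousLinearMap.proj_apply, smul_eq_mul,
      ContinuousLinearMap.zero_apply] at h1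
    rw [Finset.sum_eq_single i] at h1
    · simpa using h1
    · intro j _ hj
      rw [Pi.single_eq_of_ne fun h => hj (e.injective (Subtype.ext h)), mul_zero]
    · exact fun h => absurd (Finset.mem_univ _) h
  · have h2 : (nrm fun i z => y z (e i)) = fun z => ∑ l ∈ S, ‖y z l‖ := funext fun z => by
      rw [nrm, ← Finset.sum_coe_sort S fun l => ‖y z l‖]
      exact Equiv.sum_comp e fun l => ‖y z l‖
    rw [h2]
    exact hc

theorem flat_of_cert {ι' : Type} [Fintype ι'] {c : ℕ} (hc : Fintype.card ι' + c = Fintype.card ι)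
    {C : Ch ι X} (hC : C.Ok β) (hZ : ∀ z ∈ C.U, z ∉ C.E → (z ∈ C.B ↔ ∀ k, C.F k z = 0))
    (hS : ∀ u ∈ C.B, C.π u ∉ β.Z → C.Sm c u) (T : Cert C.lab C.U C.F) (hT : T.ty ≤ tyc c)
    {z₀ : ι → ℂ} (h₀ : z₀ ∈ C.B) : ∃ e : ι' → ι, C.Flat e := by
  have h1 : ∀ u ∈ C.B, C.π u ∉ β.Z → T.ty = tyc c ∧ u ∈ T.Z := fun u hu h => by
    obtain ⟨J, j1, j2⟩ := ((hS u hu h).hasTy hC hu h).1
    obtain ⟨d1, d2⟩ := stU ι _ hC.lbl _ _ _ T u (hC.sub hu) J j1
    have e : T.ty = tyc c := le_antisymm hT (j2 ▸ d1)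
    exact ⟨e, (d2 (j2.trans e.symm)).1⟩
  obtain ⟨z, z1, z2⟩ := closure_nonempty_iff.1 ⟨z₀, hC.dense z₀ h₀⟩
  have h2 := (h1 z z1 z2).1
  have hk : T.k = c := (LFH.ty_eq h2).1
  have hl : ∀ i < T.k, C.lab (T.m i) = 0 := lb_eq h2
  let S : Finset ι := (Finset.range T.k).image T.m
  have hS' : ∀ l, l ∈ S ↔ ∃ i < T.k, T.m i = l := fun l => by simp [S]
  have h3 : S.card = c := by
    rw [Finset.card_image_of_injOn fun i hi j hj =>
      T.inj i (Finset.mem_range.1 hi) j (Finset.mem_range.1 hj), Finset.card_range, hk]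
  have h4 : Fintype.card ι' = Fintype.card {l // l ∉ S} := by
    rw [Fintype.card_subtype_compl, Fintype.card_coe]
    omega
  let e := Fintype.equivOfCardEq h4
  have h5 : ∀ l, l ∉ range (fun j => (e j : ι)) ↔ l ∈ S := fun l => by
    refine ⟨fun h => by_contra fun h' => h ⟨e.symm ⟨l, h'⟩, by simp⟩, ?_⟩
    rintro h ⟨j, rfl⟩
    exact (e j).2 h
  have h6 : ∀ u : ι → ℂ, (∀ l, l ∉ range (fun j => (e j : ι)) → u l = 0) ↔ u ∈ T.Z := fun u => by
    simp only [h5, hS']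
    exact ⟨fun h i hi => h _ ⟨i, hi, rfl⟩, fun h l ⟨i, hi, e⟩ => e ▸ h i hi⟩
  refine ⟨fun j => e j, Subtype.val_injective.comp e.injective, fun u hu => ?_, fun l h => ?_⟩
  · rw [h6]
    constructor
    · intro h
      have h7 : IsClosed T.Z := by
        simp only [Cert.Z, setOf_forall]
        exact isClosed_iInter fun i => isClosed_iInter fun _ =>
          isClosed_eq (continuous_apply _) continuous_const
      exact h7.closure_subset (closure_mono (fun v hv => (h1 v hv.1 hv.2).2) (hC.dense u h))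
    · intro h
      refine hC.closed u hu ?_
      let γ : ℂ → ι → ℂ := fun s l => if C.lab l ≠ 0 then u l + s else u l
      have h7 : Continuous γ := continuous_pi fun l => by
        by_cases e : C.lab l ≠ 0
        · simp only [γ, if_pos e]
          fun_prop
        · simp only [γ, if_neg e]
          fun_prop
      have h8 : Tendsto γ (𝓝[≠] 0) (𝓝 u) := by
        have := h7.tendsto 0
        rw [show γ 0 = u from funext fun l => by simp [γ]] at this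
        exact this.mono_left nhdsWithin_le_nhds
      refine mem_closure_of_tendsto h8 ?_
      filter_upwards [h8.eventually (hC.isOpen.mem_nhds hu), h8.eventually (nb u),
        self_mem_nhdsWithin] with s s1 s2 s3
      refine (hZ _ s1 ?_).2 (stA ι _ hC.lbl _ _ _ T _ s1 fun i hi => ?_).2.1
      · rintro ⟨l, l1, l2⟩
        by_cases e : u l = 0
        · simp only [γ, if_pos l1, e, zero_add] at l2
          exact s3 l2
        · exact s2 l e l2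
      · simp only [γ, hl i hi, ne_eq, not_true_eq_false, if_false]
        exact h i hi
  · by_contra h'
    obtain ⟨i, hi, rfl⟩ := (hS' l).1 ((h5 l).1 h')
    exact h (hl i hi)

/-- embedded resolution -/
theorem resolve_flat [Nonempty ι] (hRef : StRef) (hBl : StBl) (hI : StInvs) {ι' : Type}
    [Fintype ι'] {c : ℕ} (hc : Fintype.card ι' + c = Fintype.card ι) {A : At ι X} (hA : A.Ok β)
    (hZ : A.ZB) (hoff : A.Off β fun C u => C.Sm c u) :
    ∃ (A' : At ι X) (e : A'.κ → ι' → ι), StepsP β A A' ∧ A'.Ok β ∧ ∀ a, (A'.C a).Flat (e a) := by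
  obtain ⟨A₁, s1, h1, h2⟩ := resolve hRef hBl hA (T := Iic (tyc c)) (isLowerSet_Iic _)
    fun A' s h a u hu h0 J hJ =>
      (((hI ι X β A A' s.steps).2.2.2.1 c hoff a u hu h0).hasTy (h.ch a) hu h0).2 J hJ
  have z1 := (hI ι X β A A₁ s1.steps).1 hZ
  obtain ⟨A₂, hr, hK⟩ := exists_kind h1 (p := False) (S := Iic (tyc c)) (fun a u hu k hk => by
    have hB := h1.sub a hu
    have h3 := ((h1.ch a).anF k u ((h1.ch a).sub hB)).continuousAt.eventually_ne hk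
    obtain ⟨v, v1, v2⟩ := (mem_closure_iff_frequently.1 ((h1.ch a).dense u hB)).and_eventually h3
      |>.exists
    exact v2 ((z1 a v ((h1.ch a).sub v1.1) fun e => v1.2 ((h1.ch a).unt v v1.1 e)).1 v1.1 k))
    fun a u hu => h2 a u ((h1.ch a).sub (h1.sub a hu))
  have s2 : StepsP β A A₂ := s1.tail ⟨h1, .ref hr⟩
  have h3 := hRef ι X β A₁ A₂ h1 hr
  have h4 : ∀ a, ∃ e : ι' → ι, (A₂.C a).Flat e := fun a => by
    rcases hK a with h | ⟨T, t1, z, t2, -⟩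
    · exact h.1.elim
    · exact flat_of_cert hc (h3.ch a) ((hI ι X β A A₂ s2.steps).1 hZ a)
        ((hI ι X β A A₂ s2.steps).2.2.2.1 c hoff a) T t1 t2
  choose e he using h4
  exact ⟨A₂, e, s2, h3, he⟩

theorem Steps.off_tyIn (hS : StSig) (hRef : StRef) (hBl : StBl) {A A' : At ι X} (s : Steps β A A')
    {T : Set Ty} (h : A.Off β fun C u => C.TyIn T u) : A'.Off β fun C u => C.TyIn T u := by
  induction s with
  | refl => exact h
  | @tail A₁ A₂ _ s ih =>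
    obtain ⟨h1, s⟩ := s
    intro a z hz hZ J hJ
    cases s with
    | ref r =>
      obtain ⟨b, f, h2⟩ := r.arr a
      obtain ⟨h3, g, h4⟩ := h2 z (r.sub a hz)
      obtain ⟨J', j1, j2⟩ := fwd (r.lbl a) (h1.ch b).lbl h4 (fun k => (h1.ch b).anF k _ h3) J hJ
      have _ := hRef
      exact j2 ▸ ih b _ (h4.val ▸ h4.mem.self_of_nhds.2 hz)
        (by rwa [show (A₁.C b).π (f z) = _ from h4.pi.self_of_nhds hz]) J' j1
    | bl W =>
      have h2 := hBl _ _ β _ W h1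
      have h5 : so a.1.2 z ≠ 0 := by
        obtain ⟨⟨a, _ | i⟩, hp⟩ := a
        · exact one_ne_zero
        · exact fun h0 => hZ ((h2.ch _).unt z hz ⟨i, by
            show update (A₁.C a).lab i W.N i ≠ 0
            rw [update_self]
            exact W.pos, h0⟩)
      obtain ⟨g, h4⟩ := hS _ _ β _ W h1 a z hz.1 h5
      obtain ⟨J', j1, j2⟩ := fwd (h2.ch a).lbl (h1.ch _).lbl h4
        (fun k => (h1.ch _).anF k _ hz.1) J hJ
      exact j2 ▸ ih _ _ (h4.mem.self_of_nhds.2 hz) hZ J' j1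

end Vale.Agent.P277Z.Hir.Gl
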