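import Vale.Agent.P277Z.Hir.Fg
import Vale.Agent.P277Z.Hir.DRoot
import Vale.Agent.P277Z.Hir.DRootA
import Vale.Agent.P277Z.Hir.Round
import Vale.Agent.P277Z.Hir.BBl
import Vale.Agent.P277Z.Hir.BInv
import Mathlib.RingTheory.RootsOfUnity.Complex

/-!
# P277, resolution with a given boundary: sequences of steps after forgetting the old labels
-/

open Filter Topology Set Function

noncomputable section

namespace Vale.Agent.P277Z.Hir.Gl

open L (Le IsCo Ass sl)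

set_option linter.unusedSectionVars false

variable {ι X : Type} [Fintype ι] [DecidableEq ι] [TopologicalSpace X] {β β₀ : Base X}
  {A A' : At ι X} {q : ℕ} {V : X → Set X} {ζ : X → Fin q → X → ℂ} {mo : Fin q → ℕ → ℕ}

theorem Ch.Ok.inj {C : Ch ι X} (h : C.Ok β) {u : ι → ℂ} (hu : u ∈ C.B) (hZ : C.π u ∉ β.Z) :
    C.Inj β u := by
  obtain ⟨ε, hε, h1⟩ := h.faith u hu
  have h2 : ∀ l, C.lab l ≠ 0 → ∀ᶠ p : (ι → ℂ) × (ι → ℂ) in 𝓝 (u, u),
      ‖p.2 l - p.1 l‖ < ε * ‖p.1 l‖ := fun l hl => by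
    have h3 : u l ≠ 0 := fun e => hZ (h.unt u hu ⟨l, hl, e⟩)
    refine ContinuousAt.eventually_lt (by fun_prop) (by fun_prop) ?_
    simpa using mul_pos hε (norm_pos_iff.2 h3)
  filter_upwards [h1, eventually_all.2 fun l => eventually_imp_distrib_left.2 (h2 l)]
    with p p1 p2 a1 a2 a3 a4 using p1 a1 a2 a3 a4 fun l hl => (p2 l hl).le

theorem At.Ok.withF (hA : A.Ok β) (hF : A.Full) {m : A.κ → ℕ} {F : ∀ a, Fin (m a) → (ι → ℂ) → ℂ}
    (h1 : ∀ a k, AnalyticOnNhd ℂ (F a k) (A.C a).U) {Γ : Type} {XO : Γ → Set X} {nm : Γ → X → ℝ}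
    (hc : ∀ x, ∃ γ, x ∈ XO γ) (hT : (A.withF m F).Tot XO nm 0) : (A.withF m F).Ok β := by
  have h2 : ∀ a, ∀ u ∈ (A.C a).B, ∀ γ, (A.C a).π u ∈ XO γ →
      Cmp (𝓝 u) (fun z => nm γ ((A.C a).π z)) ((A.withF m F).C a).nF := fun a u hu γ hγ => by
    have := hT a u hu γ hγ
    simp only [Ch.mon, Pi.zero_apply, Real.rpow_zero, Finset.prod_const_one, one_mul] at this
    exact this.mono (nhdsWithin_eq_nhds.2 (show (A.C a).B ∈ 𝓝 u from
      hF a ▸ (hA.ch a).isOpen.mem_nhds (hF a ▸ hu))).ge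
  refine ⟨fun a => { hA.ch a with anF := h1 a }, hA.cpt, hA.sub, fun a b u hu u' hu' => ?_, hA.cov⟩
  obtain ⟨n, Φ, Ψ, k1, k2⟩ := hA.prp a b u hu u' hu'
  refine ⟨n, Φ, Ψ, fun k => { k1 k with cmp := ?_ }, k2⟩
  obtain ⟨γ, hγ⟩ := hc ((A.C a).π u)
  refine (((h2 b u' hu' γ (((k1 k).pi_eq hu).symm ▸ hγ)).comp (k1 k).tendsto).symm.congr
    EventuallyEq.rfl ?_).trans (h2 a u hu γ hγ)
  filter_upwards [(k1 k).pi, (hA.ch a).isOpen.mem_nhds ((hA.ch a).sub hu)] with z z1 z2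
  rw [z1 (hF a ▸ z2)]

theorem Wt.zero (W : Wt β A) (hd : W.d ≠ 0) {a : A.κ} {u : ι → ℂ} (hu : u ∈ (A.C a).U)
    (hZ : u ∈ Zc (W.w a)) (k : Fin (A.C a).m) : (A.C a).F k u = 0 := by
  obtain ⟨i, hi⟩ := ne_iff.1 hZ.1
  have h0 := hZ.2 i hi
  have h1 : sl (W.w a) i u = u := by
    funext l
    by_cases e : W.w a l = 0
    · have : l ≠ i := fun e' => hi (e' ▸ e)
      simp [sl, e, this]
    · simp [sl, e, h0, hZ.2 l e, show W.w a i ≠ 0 from hi]
  have h2 := W.eqG a (some i) hi k u (h1.symm ▸ hu :)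
  simpa [σo, so, h1, h0, hd] using h2

theorem StepsQ.fg (s : StepsQ β (q + 1) A A') {Γ : Type} {XO : Γ → Set X} {nm : Γ → X → ℝ}
    {ex : ℕ → ℝ} (hc : ∀ x, ∃ γ, x ∈ XO γ) (hZ : ∀ γ, ∀ x ∈ XO γ, nm γ x ≤ 0 → x ∈ β₀.Z)
    (hF : A.Full) (h0 : (A.fg q).Ok β₀) (hex : ∀ j, 0 ≤ ex j) (hT : (A.fg q).Tot XO nm ex)
    (hO : A.Old V ζ mo) :
    Steps β₀ (A.fg q) (A'.fg q) ∧ ∃ mo' : Fin q → ℕ → ℕ, A'.Old V ζ mo' := by
  induction s with
  | refl => exact ⟨.refl, mo, hO⟩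
  | @tail A₁ A₂ _ s ih =>
    obtain ⟨t, mo', o⟩ := ih
    obtain ⟨ok, s⟩ := s
    have f1 : A₁.Full := (stInvs stSig _ _ _ _ _ t).2.1 hF
    cases s with
    | ref r =>
      exact ⟨t.tail ⟨t.ok h0, .ref (r.fg q)⟩, mo',
        o.ref r ((stInvs stSig _ _ _ _ _ (.single ⟨ok, .ref r⟩)).2.1 f1)⟩
    | bl W hd hN =>
      obtain ⟨ex', -, hT'⟩ := stTot _ _ _ _ _ _ _ _ _ t hex hT
      have hov : ∀ a, ∀ u ∈ (A₁.C a).B, u ∈ Zc (W.w a) → (A₁.C a).π u ∈ β₀.Z := fun a u hu hc' => by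
        obtain ⟨γ, hγ⟩ := hc ((A₁.C a).π u)
        obtain ⟨c, -, h1⟩ := hT' a u hu γ hγ
        have h2 := (h1.self_of_nhdsWithin hu).1
        have h3 : ((A₁.fg q).C a).nF u = 0 :=
          (Ch.nF_eq_zero _).2 (W.zero hd ((ok.ch a).sub hu) hc')
        simp only [h3, mul_zero] at h2
        exact hZ γ _ hγ h2
      exact ⟨t.tail ⟨t.ok h0, W.fg_bl ok f1 hN hov ▸ .bl _⟩, o.bl W hN⟩

section root
variable {N ρ : ℕ}

theorem Ch.fg_if (C : Ch ι X) (hN : q < N) {α : Type} (l : ι) (a b : α) :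
    (if (C.fg q).lab l = N then a else b) = if C.lab l = N then a else b :=
  if_congr ((C.fg_lab q (by omega) l).trans (and_iff_right hN)) rfl rfl

theorem At.root_fg (A : At ι X) (hN : q < N) (ρ : ℕ) : (A.fg q).root N ρ = (A.root N ρ).fg q := by
  have h1 : ∀ C : Ch ι X, (C.fg q).rt N ρ = C.rt N ρ := fun C =>
    funext fun z => funext fun l => C.fg_if hN l _ _
  have h2 : ∀ C : Ch ι X, (C.fg q).qm N ρ = C.qm N ρ := fun C =>
    funext fun z => funext fun l => C.fg_if hN l _ _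
  simp only [At.root, At.fg, Ch.root, h1, h2]
  rfl

theorem Ch.Sym.fg {C : Ch ι X} (h : C.Sym N ρ) (hN : q < N) : (C.fg q).Sym N ρ := fun η hη z hz => by
  rw [show (C.fg q).rot N η z = C.rot N η z from funext fun l => C.fg_if hN l _ _]
  exact h η hη z hz

theorem Ch.mn_qm (C : Ch ι X) (hN : q < N) (ρ : ℕ) (mo : ℕ → ℕ) (z : ι → ℂ) : C.mn q mo z =
    C.s N z ^ (mo N % ρ) * (C.root N ρ).mn q (update mo N (mo N / ρ)) (C.qm N ρ z) := by
  show _ = _ * ∏ i ∈ Finset.univ.filter (fun i => q < C.lab i),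
    C.qm N ρ z i ^ update mo N (mo N / ρ) (C.lab i)
  rw [Ch.s, ← Finset.prod_pow, Ch.mn, Finset.prod_filter, Finset.prod_filter, Finset.prod_filter,
    ← Finset.prod_mul_distrib]
  refine Finset.prod_congr rfl fun l _ => ?_
  by_cases e : C.lab l = N
  · simp only [Ch.qm, e, hN, if_true, update_self]
    rw [← pow_mul, ← pow_add, Nat.mod_add_div]
  · simp [Ch.qm, e]

theorem At.Old.root (hD : StDesc) (h : A.Old V ζ mo) (hA : A.Orb β) (hN : q < N) (hρ : ρ ≠ 0)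
    (hS : ∀ a, (A.C a).Sym N ρ) :
    (A.root N ρ).Old V ζ fun l => update (mo l) N (mo l N / ρ) := by
  intro (a : A.κ) v hv x l hx
  have h0 : N ≠ 0 := by omega
  obtain ⟨-, r1, r2, r3, r4, r5⟩ :=
    stRootA _ _ β _ N ρ (hA.1.ch a) (hA.2.1 a) (hA.2.2 a) h0 hρ (hS a)
  obtain ⟨e, e1, e2, e3⟩ := h a _ hv x l hx
  have hu : (A.C a).rt N ρ v ∈ (A.C a).U := hv
  rw [← r1 v]
  generalize (A.C a).rt N ρ v = u at *
  have hU := (hA.1.ch a).isOpen.mem_nhds hu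
  set t := fun z => ((A.C a).root N ρ).s (l + 1) z *
    ((A.C a).root N ρ).mn q (update (mo l) N (mo l N / ρ)) z with ht
  have e4 : ∀ᶠ z in 𝓝 u, ζ x l ((A.C a).π z) =
      e z * (A.C a).s N z ^ (mo l N % ρ) * t ((A.C a).qm N ρ z) := e3.mono fun z hz => by
    beta_reduce at hz
    rw [hz, ht, (A.C a).mn_qm hN ρ]
    simp only [RootH.s_qm, if_neg (show (l : ℕ) + 1 ≠ N by omega)]
    ring
  have e5 : AnalyticAt ℂ (fun z => e z * (A.C a).s N z ^ (mo l N % ρ)) u :=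
    e1.mul (((A.C a).s_an N u).pow _)
  obtain ⟨H, H1, H2, H3⟩ : ∃ H, AnalyticAt ℂ H ((A.C a).qm N ρ u) ∧
      e u * (A.C a).s N u ^ (mo l N % ρ) ≠ 0 ∧
      ∀ᶠ z in 𝓝 u, e z * (A.C a).s N z ^ (mo l N % ρ) = H ((A.C a).qm N ρ z) := by
    by_cases hs : (A.C a).s N u = 0
    · have k1 : ∀ η : ℂˣ, η ^ ρ = 1 → ∀ᶠ z in 𝓝 u, e ((A.C a).rot N η z) *
          (A.C a).s N ((A.C a).rot N η z) ^ (mo l N % ρ) = e z * (A.C a).s N z ^ (mo l N % ρ) := by
        intro η hη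
        have k := (r5 u hu hs η hη).1
        have hη' : (η : ℂ) ^ ρ = 1 := congrArg Units.val hη
        refine RootH.cancel (t := fun z => t ((A.C a).qm N ρ z))
          (e5.comp_of_eq k.an k.val :) e5 (fun w hw => ?_) ?_
        · have k2 : ∀ l, (A.C a).qm N ρ w l ≠ 0 := fun l => by
            unfold Ch.qm
            split_ifs
            exacts [pow_ne_zero _ (hw l), hw l]
          exact mul_ne_zero (Finset.prod_ne_zero_iff.2 fun l _ => k2 l)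
            (Finset.prod_ne_zero_iff.2 fun l _ => pow_ne_zero _ (k2 l))
        · filter_upwards [e4, k.tendsto.eventually e4, hU] with z z1 z2 z3
          rw [← z1, ← RootH.qm_rot hη' z, ← z2, (hS a η hη' z z3).2]
      obtain ⟨H, H1, H2⟩ := RootH.desc hD (hA.1.ch a) h0 hρ hs e5 k1
      refine ⟨H, H1, ?_, H2⟩
      have p := Complex.isPrimitiveRoot_exp ρ hρ
      set η := (p.isUnit hρ).unit
      have hη : η ^ ρ = 1 := Units.ext p.pow_eq_one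
      obtain ⟨k, -, k'⟩ := r5 u hu hs η hη
      obtain ⟨f, f1, f2, f3⟩ := k' N h0
      have k2 := (RootH.cancel (f := fun z => e ((A.C a).rot N η z) * f z ^ (mo l N % ρ)) (g := e)
        (t := fun z => (A.C a).s N z ^ (mo l N % ρ))
        ((AnalyticAt.comp (k.val.symm ▸ e1) k.an).mul (f1.pow _)) e1
        (fun w hw => pow_ne_zero _ (Finset.prod_ne_zero_iff.2 fun l _ => hw l)) (by
          filter_upwards [k1 η hη, f3] with z z1 z2
          rw [← z1, z2]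
          ring)).self_of_nhds
      rw [k.val, f2, update_self] at k2
      have k3 := p.dvd_of_pow_eq_one _ (mul_left_cancel₀ e2 (k2.trans (mul_one _).symm))
      rw [Nat.eq_zero_of_dvd_of_lt k3 (Nat.mod_lt _ (by omega)), pow_zero, mul_one]
      exact e2
    · obtain ⟨g, k⟩ := r4 u hu hs
      refine ⟨fun w => e (g w) * (A.C a).s N (g w) ^ (mo l N % ρ),
        (e5.comp_of_eq k.an' k.val' :), mul_ne_zero e2 (pow_ne_zero _ hs), ?_⟩
      filter_upwards [k.left] with z hz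
      rw [hz]
  refine ⟨H, H1, H3.self_of_nhds ▸ H2, ?_⟩
  rw [← r2]
  refine eventually_map.2 ?_
  filter_upwards [e4, H3, hU] with z z1 z2 z3
  exact (congrArg _ (r3 z z3).2).trans (z1.trans (congrArg (· * _) z2))

end root

theorem StepsD.fg (hD : StDesc) (hR : StRoot) (hZ : β₀.Z ⊆ β.Z) (s : StepsD β (q + 1) A A')
    (h0 : (A.fg q).Orb β₀) (hO : A.Old V ζ mo) : StepsD β₀ (q + 1) (A.fg q) (A'.fg q) ∧
      (A'.fg q).Orb β₀ ∧ ∃ mo' : Fin q → ℕ → ℕ, A'.Old V ζ mo' := by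
  have key : ∀ {B B' : At ι X}, B.Orb β₀ → Step β₀ B B' → B'.Orb β₀ := fun h s =>
    have t : Steps β₀ _ _ := .single ⟨h.1, s⟩
    ⟨t.ok h.1, (stInvs stSig _ _ _ _ _ t).2.1 h.2.1, (stInvs stSig _ _ _ _ _ t).2.2.1 h.2.2⟩
  induction s with
  | refl => exact ⟨.refl, h0, mo, hO⟩
  | @tail A₁ A₂ _ s ih =>
    obtain ⟨t, b, mo', o⟩ := ih
    obtain ⟨ok, s⟩ := s
    cases s with
    | ref r =>
      have b' := key b (.ref (r.fg q))
      exact ⟨t.tail ⟨b, .ref (r.fg q)⟩, b', mo', o.ref r b'.2.1⟩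
    | bl W hN hI =>
      have h1 : ∀ a, ∀ u ∈ (A₁.C a).B, u ∈ Zc (W.w a) → ¬ ((A₁.fg q).C a).Inj β₀ u :=
        fun a u hu hc e => hI a u hu hc (e.mono fun p k a1 a2 a3 => k a1 a2 fun e' => a3 (hZ e'))
      have hov : ∀ a, ∀ u ∈ (A₁.C a).B, u ∈ Zc (W.w a) → (A₁.C a).π u ∈ β₀.Z := fun a u hu hc =>
        by_contra fun e => h1 a u hu hc ((b.1.ch a).inj hu e)
      rw [← W.fg_bl ok.1 ok.2.1 hN hov]
      exact ⟨t.tail ⟨b, .bl _ hN h1⟩, key b (.bl _), o.bl W hN⟩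
    | root N ρ hN hN0 hρ hS =>
      rw [← A₁.root_fg hN]
      exact ⟨t.tail ⟨b, .root N ρ hN hN0 hρ fun a => (hS a).fg hN⟩,
        hR _ _ _ _ N ρ b hN0 (by omega) fun a => (hS a).fg hN, _,
        o.root hD ok hN (by omega) hS⟩

theorem At.Free.fg (h : A.Free β) (hA : A.Ok β) (hF : A.Full) (h0 : (A.fg q).Ok β₀) :
    (A.fg q).Free β₀ := fun a u hu => by
  obtain ⟨n, Φ, Ψ, h1, h2⟩ := h0.prp a a u hu u hu
  have h3 : ∀ k, Φ k =ᶠ[𝓝 u] id := fun k => by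
    refine eq_of_off (hA.ch a) (hF a) ((hA.ch a).sub hu)
      ((h1 k).an.eventually_analyticAt.mono fun _ e => e.continuousAt)
      (.of_forall fun _ => continuousAt_id) ?_
    filter_upwards [(tendsto_id.prodMk_nhds (h1 k).tendsto).eventually (h a u hu), (h1 k).mem,
      (h1 k).pi] with z z1 z2 z3 z4 z5 using z1 z4 (z2.2 z4) z5 (z3 z4)
  filter_upwards [h2, (continuous_fst.tendsto (u, u)).eventually (eventually_all.2 h3)]
    with p p1 p2 a1 a2 a3 a4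
  obtain ⟨k, hk⟩ := p1 a1 a2 a3 a4
  exact hk.symm.trans (p2 k)

end Vale.Agent.P277Z.Hir.Gl
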