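import Vale.Agent.P277Z.Hir.OutL

/-!
# P277, resolution with a given boundary: forgetting the old labels
-/

open Filter Topology Set Function

noncomputable section

namespace Vale.Agent.P277Z.Hir

open L (Ass)

namespace Gl

variable {ι X : Type} [Fintype ι] [DecidableEq ι]

/-- the chart without the labels `≤ q` -/
def Ch.fg (C : Ch ι X) (q : ℕ) : Ch ι X :=
  { C with lab := fun l => if C.lab l ≤ q then 0 else C.lab l }

/-- the atlas without the labels `≤ q` -/
def At.fg (A : At ι X) (q : ℕ) : At ι X := { A with C := fun a => (A.C a).fg q }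

/-- the monomial in the coordinates with labels `> q` -/
def Ch.mn (C : Ch ι X) (q : ℕ) (mo : ℕ → ℕ) (z : ι → ℂ) : ℂ :=
  ∏ i ∈ Finset.univ.filter (fun i => q < C.lab i), z i ^ mo (C.lab i)

/-- the total transforms of the functions `ζ x l`, given on `V x` -/
def At.Old (A : At ι X) {q : ℕ} (V : X → Set X) (ζ : X → Fin q → X → ℂ) (mo : Fin q → ℕ → ℕ) :
    Prop :=
  ∀ a, ∀ u ∈ (A.C a).U, ∀ x (l : Fin q), (A.C a).π u ∈ V x →
    Ass (fun z => ζ x l ((A.C a).π z)) (fun z => (A.C a).s (l + 1) z * (A.C a).mn q (mo l) z) u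

end Gl

open Gl

theorem Bdy.closed {S : Base} {n q : ℕ} (B : Bdy S n q) (l : Fin q) : IsClosed (B.D l) := by
  refine isClosed_iff_nhds.2 fun x hx => by_contra fun h => ?_
  have h1 := (B.model x).isOpen.mem_nhds (B.mem x)
  rcases e : B.lab x l with _ | i
  · obtain ⟨y, y1, y2⟩ := hx _ h1
    obtain ⟨i, hi, -⟩ := (B.snc x l y y1).1 y2
    rw [e] at hi
    cases hi
  · have h2 : B.φ x x i ≠ 0 := fun h0 => h ((B.snc x l x (B.mem x)).2 ⟨i, e, h0⟩)
    have h3 : ContinuousAt (fun y => B.φ x y i) x :=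
      S.cont _ _ (((B.model x).hol x (B.mem x) _).2 ⟨fun z => z i,
        (ContinuousLinearMap.proj (R := ℂ) (φ := fun _ : Fin n => ℂ) i).analyticAt _,
        EventuallyEq.rfl⟩)
    obtain ⟨y, y1, y2⟩ := hx _ (inter_mem h1 (h3.eventually_ne h2))
    obtain ⟨i', hi, h4⟩ := (B.snc x l y y1.1).1 y2
    rw [e] at hi
    cases hi
    exact y1.2 h4

/-- the base of the atlases with the old labels -/
def Bdy.gl {S : Base} {n q : ℕ} (B : Bdy S n q) (O : Set S.X) (hO : IsOpen O) : Gl.Base S.X :=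
  ⟨S.Hol, O, S.Bad ∪ ⋃ l, B.D l, hO, S.closed.union (isClosed_iUnion_of_finite B.closed)⟩

/-- **STARTL**: the first atlas, with the labels `l + 1` for the divisors `D l` -/
def StStartL : Prop :=
  ∀ (S : Base) (n : ℕ) (K : Set S.X) (q : ℕ) (B : Bdy S n q), Dense S.Badᶜ → IsCompact K →
    ∃ (O : Set S.X) (hO : IsOpen O) (A : At (Fin n) S.X), K ⊆ O ∧ A.Ok (B.gl O hO) ∧ A.Full ∧
      (A.fg q).Ok (S.gl O hO) ∧ (∀ a, ((A.fg q).C a).Init (S.gl O hO)) ∧ A.Old B.V B.ζ 0

end Vale.Agent.P277Z.Hir
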