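import Vale.Agent.P277Z.Hir.Loc
import Vale.Agent.P281.H511.Gen.Local

/-!
# P277Z, resolution: basic rules for the filtration `Fil`
-/

open Filter Topology Set Function

noncomputable section

namespace Vale.Agent.P277Z.Hir

section gen
variable {E : Type} [NormedAddCommGroup E] [NormedSpace ℂ E]
variable {k k' : ℕ} {y y' : ℕ → E → ℂ} {ω ω' : ℕ → ℚ} {q : E} {c c' : ℚ} {f g : E → ℂ}

theorem an_vf {D : E → E} (hD : AnalyticAt ℂ D q) (hf : AnalyticAt ℂ f q) :
    AnalyticAt ℂ (vf D f) q :=
  (ContinuousLinearMap.id ℂ (E →L[ℂ] ℂ)).analyticAt_bilinear (fderiv ℂ f q, D q) |>.comp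
    (f := fun z => (fderiv ℂ f z, D z)) (hf.fderiv.prod hD)

theorem an_vf_iter {D : E → E} (hD : AnalyticAt ℂ D q) (hf : AnalyticAt ℂ f q) (n : ℕ) :
    AnalyticAt ℂ ((vf D)^[n] f) q := by
  induction n with
  | zero => exact hf
  | succ n ih => rw [iterate_succ_apply']; exact an_vf hD ih

theorem an_der {D : ℕ → E → E} (β : ℕ → ℕ) {n : ℕ} (hD : ∀ j < n, AnalyticAt ℂ (D j) q)
    (hf : AnalyticAt ℂ f q) : AnalyticAt ℂ (der D β n f) q := by
  induction n with
  | zero => exact hf
  | succ n ih => exact an_vf_iter (hD n n.lt_succ_self) (ih fun j hj => hD j (by omega)) _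

theorem an_foldr {L : List (E → E)} (hL : ∀ δ ∈ L, AnalyticAt ℂ δ q) (hf : AnalyticAt ℂ f q) :
    AnalyticAt ℂ (L.foldr vf f) q := by
  induction L with
  | nil => exact hf
  | cons δ L ih =>
    exact an_vf (hL δ List.mem_cons_self) (ih fun δ' h => hL δ' (List.mem_cons_of_mem _ h))

theorem vf_congr {D : E → E} (h : f =ᶠ[𝓝 q] g) : vf D f =ᶠ[𝓝 q] vf D g := by
  filter_upwards [h.eventuallyEq_nhds] with u hu
  simp only [vf, hu.fderiv_eq]

theorem vf_add {D : E → E} (hf : AnalyticAt ℂ f q) (hg : AnalyticAt ℂ g q) :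
    vf D (fun u => f u + g u) =ᶠ[𝓝 q] fun u => vf D f u + vf D g u := by
  filter_upwards [hf.eventually_analyticAt, hg.eventually_analyticAt] with u h1 h2
  simp only [vf, fderiv_fun_add h1.differentiableAt h2.differentiableAt,
    ContinuousLinearMap.add_apply]

theorem vf_mul {D : E → E} (hf : AnalyticAt ℂ f q) (hg : AnalyticAt ℂ g q) :
    vf D (fun u => f u * g u) =ᶠ[𝓝 q] fun u => f u * vf D g u + vf D f u * g u := by
  filter_upwards [hf.eventually_analyticAt, hg.eventually_analyticAt] with u h1 h2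
  simp only [vf, fderiv_fun_mul h1.differentiableAt h2.differentiableAt,
    ContinuousLinearMap.add_apply, ContinuousLinearMap.smul_apply, smul_eq_mul]
  ring

namespace Fil

theorem an (hy : ∀ i < k, AnalyticAt ℂ (y i) q) (h : Fil k y ω q c f) : AnalyticAt ℂ f q := by
  induction h with
  | base _ h => exact h
  | zero => exact analyticAt_const
  | mul i hi _ ih => exact (hy i hi).mul ih
  | add _ _ h1 h2 => exact h1.add h2
  | mono _ _ ih => exact ih
  | congr he _ ih => exact ih.congr he

theorem cmul (hg : AnalyticAt ℂ g q) (h : Fil k y ω q c f) :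
    Fil k y ω q c fun u => g u * f u := by
  induction h with
  | base hc h => exact .base hc (hg.mul h)
  | zero => simpa using Fil.zero
  | mul i hi _ ih => exact .congr (Eventually.of_forall fun u => by ring) (.mul i hi ih)
  | add _ _ h1 h2 => exact .congr (Eventually.of_forall fun u => by ring) (.add h1 h2)
  | mono hc _ ih => exact .mono hc ih
  | congr he _ ih => exact .congr (by filter_upwards [he] with u hu; rw [hu]) ih

theorem mul' (h : Fil k y ω q c f) (h' : Fil k y ω q c' g) :
    Fil k y ω q (c + c') fun u => f u * g u := by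
  induction h with
  | base hc h => exact .mono (by linarith) (h'.cmul h)
  | zero => simpa using Fil.zero
  | mul i hi _ ih =>
    exact .mono (by linarith) (.congr (Eventually.of_forall fun u => by ring) (.mul i hi ih))
  | add _ _ h1 h2 => exact .congr (Eventually.of_forall fun u => by ring) (.add h1 h2)
  | mono hc _ ih => exact .mono (by linarith) ih
  | congr he _ ih => exact .congr (by filter_upwards [he] with u hu; rw [hu]) ih

theorem gen {i : ℕ} (hi : i < k) (hc : c ≤ ω i) : Fil k y ω q c (y i) := by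
  have := Fil.mul (y := y) (ω := ω) (q := q) i hi (.base le_rfl (analyticAt_const (v := 1)))
  exact .mono (by linarith) (.congr (Eventually.of_forall fun u => by simp) this)

theorem neg (h : Fil k y ω q c f) : Fil k y ω q c fun u => - f u :=
  .congr (Eventually.of_forall fun u => by simp) (h.cmul (analyticAt_const (v := -1)))

theorem sub (h : Fil k y ω q c f) (h' : Fil k y ω q c g) : Fil k y ω q c fun u => f u - g u :=
  .congr (Eventually.of_forall fun u => by simp [sub_eq_add_neg]) (h.add h'.neg)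

theorem sum {κ : Type*} (s : Finset κ) {F : κ → E → ℂ} (h : ∀ a ∈ s, Fil k y ω q c (F a)) :
    Fil k y ω q c fun u => ∑ a ∈ s, F a u := by
  classical
  induction s using Finset.induction_on with
  | empty => simpa using Fil.zero
  | insert a s ha ih =>
    simp only [Finset.sum_insert ha]
    exact (h a (Finset.mem_insert_self _ _)).add
      (ih fun b hb => h b (Finset.mem_insert_of_mem hb))

theorem pow (h : Fil k y ω q c f) (n : ℕ) : Fil k y ω q (n * c) fun u => f u ^ n := by
  induction n with
  | zero => exact .base (by simp) (by simpa using analyticAt_const)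
  | succ n ih =>
    refine .mono (le_of_eq (by push_cast; ring))
      (.congr (Eventually.of_forall fun u => ?_) (ih.mul' h))
    simp only [pow_succ]

/-- comparison of two filtrations -/
theorem le_of (hy : ∀ i < k, Fil k' y' ω' q (ω i) (y i)) (h : Fil k y ω q c f) :
    Fil k' y' ω' q c f := by
  induction h with
  | base hc h => exact .base hc h
  | zero => exact .zero
  | mul i hi _ ih => exact .mono (by linarith) ((hy i hi).mul' ih)
  | add _ _ h1 h2 => exact .add h1 h2
  | mono hc _ ih => exact .mono hc ih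
  | congr he _ ih => exact .congr he ih

theorem eq_zero (hq : ∀ i < k, 0 < ω i → y i q = 0) (h : Fil k y ω q c f) (hc : 0 < c) :
    f q = 0 := by
  induction h with
  | base h _ => exact absurd hc (not_lt.2 h)
  | zero => rfl
  | mul i hi _ ih =>
    by_cases h : 0 < ω i
    · simp [hq i hi h]
    · simp [ih (by linarith [not_lt.1 h])]
  | add _ _ h1 h2 => simp [h1 hc, h2 hc]
  | mono h _ ih => exact ih (hc.trans_le h)
  | congr he _ ih => rw [← he.self_of_nhds]; exact ih hc

theorem fderiv_eq_zero (hy : ∀ i < k, AnalyticAt ℂ (y i) q) (hq : ∀ i < k, y i q = 0)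
    (h : Fil k y ω q c f) (hc : 0 < c) (hω : ∀ i < k, ω i < c) : fderiv ℂ f q = 0 := by
  induction h with
  | base h _ => exact absurd hc (not_lt.2 h)
  | zero => simp
  | mul i hi h _ =>
    have h0 := h.eq_zero (fun j hj _ => hq j hj) (by linarith [hω i hi])
    rw [fderiv_fun_mul (hy i hi).differentiableAt (h.an hy).differentiableAt, h0, hq i hi]
    ext v
    simp
  | add h1 h2 i1 i2 =>
    rw [fderiv_fun_add (h1.an hy).differentiableAt (h2.an hy).differentiableAt, i1 hc hω,
      i2 hc hω, add_zero]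
  | mono h _ ih => exact ih (hc.trans_le h) fun i hi => (hω i hi).trans_le h
  | congr he _ ih => rw [← he.fderiv_eq]; exact ih hc hω

/-- vector fields lower the weight by a bounded amount -/
theorem vf' {D : E → E} {θ : ℚ} (hθ : 0 ≤ θ) (hD : AnalyticAt ℂ D q)
    (hy : ∀ i < k, AnalyticAt ℂ (y i) q) (hD' : ∀ i < k, Fil k y ω q (ω i - θ) (vf D (y i)))
    (h : Fil k y ω q c f) : Fil k y ω q (c - θ) (vf D f) := by
  induction h with
  | base hc h => exact .base (by linarith) (an_vf hD h)
  | zero => exact .congr (Eventually.of_forall fun u => by simp [vf]) .zero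
  | mul i hi h ih =>
    refine .congr (vf_mul (hy i hi) (h.an hy)).symm (.add ?_ ?_)
    · exact .mono (by linarith) (.mul i hi ih)
    · exact .mono (by linarith) ((hD' i hi).mul' h)
  | add h1 h2 i1 i2 => exact .congr (vf_add (h1.an hy) (h2.an hy)).symm (.add i1 i2)
  | mono hc _ ih => exact .mono (by linarith) ih
  | congr he _ ih => exact .congr (vf_congr he) ih

theorem vf {D : E → E} {θ : ℚ} (hθ : 0 ≤ θ) (hD : AnalyticAt ℂ D q)
    (hy : ∀ i < k, AnalyticAt ℂ (y i) q)
    (hD' : ∀ i < k, θ < ω i → vf D (y i) =ᶠ[𝓝 q] fun _ => 0) (h : Fil k y ω q c f) :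
    Fil k y ω q (c - θ) (vf D f) := by
  refine h.vf' hθ hD hy fun i hi => ?_
  by_cases h1 : θ < ω i
  · exact .congr (hD' i hi h1).symm .zero
  · exact .base (by linarith [not_lt.1 h1]) (an_vf hD (hy i hi))

theorem vf_iter {D : E → E} {θ : ℚ} (hθ : 0 ≤ θ) (hD : AnalyticAt ℂ D q)
    (hy : ∀ i < k, AnalyticAt ℂ (y i) q)
    (hD' : ∀ i < k, θ < ω i → Hir.vf D (y i) =ᶠ[𝓝 q] fun _ => 0) (h : Fil k y ω q c f) (n : ℕ) :
    Fil k y ω q (c - n * θ) ((Hir.vf D)^[n] f) := by
  induction n with
  | zero => simpa using h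
  | succ n ih =>
    rw [iterate_succ_apply']
    exact .mono (le_of_eq (by push_cast; ring)) (ih.vf hθ hD hy hD')

theorem foldr {L : List (E → E)} {θ : ℚ} (hθ : 0 ≤ θ) (hy : ∀ i < k, AnalyticAt ℂ (y i) q)
    (hL : ∀ δ ∈ L, AnalyticAt ℂ δ q ∧ ∀ i < k, θ < ω i → Hir.vf δ (y i) =ᶠ[𝓝 q] fun _ => 0)
    (h : Fil k y ω q c f) : Fil k y ω q (c - L.length * θ) (L.foldr Hir.vf f) := by
  induction L with
  | nil => simpa using h
  | cons δ L ih =>
    have h1 := hL δ List.mem_cons_self
    refine .mono (le_of_eq ?_)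
      ((ih fun δ' h => hL δ' (List.mem_cons_of_mem _ h)).vf hθ h1.1 hy h1.2)
    rw [List.length_cons]
    push_cast
    ring

/-- the condition persists at nearby points -/
theorem eventually (h : Fil k y ω q c f) : ∀ᶠ q' in 𝓝 q, Fil k y ω q' c f := by
  induction h with
  | base hc h => filter_upwards [h.eventually_analyticAt] with q' h using .base hc h
  | zero => exact Eventually.of_forall fun _ => .zero
  | mul i hi _ ih => filter_upwards [ih] with q' h using .mul i hi h
  | add _ _ h1 h2 => filter_upwards [h1, h2] with q' h1 h2 using .add h1 h2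
  | mono hc _ ih => filter_upwards [ih] with q' h using .mono hc h
  | congr he _ ih => filter_upwards [ih, he.eventuallyEq_nhds] with q' h he using .congr he h

/-- splitting off the generators of weight at least `θ` -/
theorem split (hy : ∀ i < k, AnalyticAt ℂ (y i) q) (θ : ℚ) (h : Fil k y ω q c f) :
    ∃ (t : ℕ → E → ℂ) (e : E → ℂ), (∀ j, AnalyticAt ℂ (t j) q) ∧
      Fil k y (fun j => if θ ≤ ω j then 0 else ω j) q c e ∧
      f =ᶠ[𝓝 q] fun u => ∑ j ∈ (Finset.range k).filter (fun j => θ ≤ ω j), t j u * y j u + e u := by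
  induction h with
  | @base c f hc h =>
    exact ⟨fun _ _ => 0, f, fun _ => analyticAt_const, .base hc h,
      Eventually.of_forall fun u => by simp⟩
  | zero =>
    exact ⟨fun _ _ => 0, fun _ => 0, fun _ => analyticAt_const, .zero,
      Eventually.of_forall fun u => by simp⟩
  | @mul c f i hi h ih =>
    by_cases h1 : θ ≤ ω i
    · refine ⟨fun j => if j = i then f else fun _ => 0, fun _ => 0, fun j => ?_, .zero,
        Eventually.of_forall fun u => ?_⟩
      · by_cases hj : j = i
        · simpa only [if_pos hj] using h.an hy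
        · simpa only [if_neg hj] using analyticAt_const
      · simp only [add_zero]
        rw [Finset.sum_eq_single i]
        · simp [mul_comm]
        · intro j _ hj
          simp [hj]
        · intro h2
          exact (h2 (Finset.mem_filter.2 ⟨Finset.mem_range.2 hi, h1⟩)).elim
    · obtain ⟨t, e, ht, he, hf⟩ := ih
      refine ⟨fun j u => y i u * t j u, fun u => y i u * e u, fun j => (hy i hi).mul (ht j), ?_, ?_⟩
      · have := Fil.mul i hi he
        simpa only [if_neg h1] using this
      · filter_upwards [hf] with u hu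
        rw [hu, mul_add, Finset.mul_sum]
        simp only [mul_assoc]
  | add _ _ i1 i2 =>
    obtain ⟨t, e, ht, he, hf⟩ := i1
    obtain ⟨t', e', ht', he', hf'⟩ := i2
    refine ⟨fun j u => t j u + t' j u, fun u => e u + e' u, fun j => (ht j).add (ht' j),
      .add he he', ?_⟩
    filter_upwards [hf, hf'] with u hu hu'
    rw [hu, hu']
    simp only [add_mul, Finset.sum_add_distrib]
    ring
  | mono hc _ ih =>
    obtain ⟨t, e, ht, he, hf⟩ := ih
    exact ⟨t, e, ht, .mono hc he, hf⟩
  | congr he' _ ih =>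
    obtain ⟨t, e, ht, he, hf⟩ := ih
    exact ⟨t, e, ht, he, he'.symm.trans hf⟩

/-- the exchange lemma -/
theorem exch (hy : ∀ i < k, AnalyticAt ℂ (y i) q) (hq : ∀ i < k, y i q = 0) (hc : 0 < c)
    (h : Fil k y ω q c f) {v : E} (hv : fderiv ℂ f q v ≠ 0) :
    ∃ j < k, c ≤ ω j ∧ fderiv ℂ (y j) q v ≠ 0 ∧ Fil k (update y j f) ω q c (y j) := by
  obtain ⟨t, e, ht, he, hf⟩ := h.split hy c
  set s := (Finset.range k).filter (fun j => c ≤ ω j) with hs
  have hsm : ∀ j ∈ s, j < k ∧ c ≤ ω j := fun j hj => by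
    simpa [hs] using hj
  have he0 : fderiv ℂ e q = 0 := he.fderiv_eq_zero hy hq hc fun i _ => by
    split_ifs with h1
    · exact hc
    · exact not_le.1 h1
  have hd : fderiv ℂ f q v = ∑ j ∈ s, t j q * fderiv ℂ (y j) q v := by
    have h1 : ∀ j ∈ s, HasFDerivAt (fun u => t j u * y j u) (t j q • fderiv ℂ (y j) q) q := by
      intro j hj
      have := (ht j).differentiableAt.hasFDerivAt.fun_mul
        (hy j (hsm j hj).1).differentiableAt.hasFDerivAt
      rw [hq j (hsm j hj).1] at this
      refine this.congr_fderiv ?_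
      ext v
      simp
    have h2 := (HasFDerivAt.fun_sum h1).fun_add (he.an hy).differentiableAt.hasFDerivAt
    rw [hf.fderiv_eq, h2.fderiv, he0, add_zero]
    simp
  rw [hd] at hv
  obtain ⟨j, hj, hu⟩ := Finset.exists_ne_zero_of_sum_ne_zero hv
  obtain ⟨hjk, hjc⟩ := hsm j hj
  refine ⟨j, hjk, hjc, right_ne_zero_of_mul hu, ?_⟩
  have hyi : ∀ i < k, i ≠ j → ∀ d, d ≤ ω i → Fil k (update y j f) ω q d (y i) :=
    fun i hi hij d hd => by
      have := Fil.gen (y := update y j f) (q := q) hi hd
      rwa [update_of_ne hij] at this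
  have h1 : Fil k (update y j f) ω q c f := by
    have := Fil.gen (y := update y j f) (q := q) hjk hjc
    rwa [update_self] at this
  have h2 : Fil k (update y j f) ω q c e := by
    refine he.le_of fun i hi => ?_
    split_ifs with h3
    · exact .base le_rfl (hy i hi)
    · exact hyi i hi (fun e => h3 (e ▸ hjc)) _ le_rfl
  have h3 : Fil k (update y j f) ω q c fun u => ∑ i ∈ s.erase j, t i u * y i u :=
    Fil.sum _ fun i hi => (hyi i (hsm i (Finset.mem_of_mem_erase hi)).1
      (Finset.ne_of_mem_erase hi) _ (hsm i (Finset.mem_of_mem_erase hi)).2).cmul (ht i)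
  have ht0 : t j q ≠ 0 := left_ne_zero_of_mul hu
  refine .congr ?_ (((h1.sub h2).sub h3).cmul ((ht j).inv ht0))
  filter_upwards [hf, (ht j).continuousAt.eventually_ne ht0] with u hu h4
  rw [hu, ← Finset.add_sum_erase _ _ hj]
  simp only [Pi.inv_apply]
  field_simp
  ring

end Fil

end gen

variable {ι : Type} [Fintype ι] [DecidableEq ι]

theorem an_crd (l : ι) (q : W ι) : AnalyticAt ℂ (fun u : W ι => u l) q :=
  (ContinuousLinearMap.proj (R := ℂ) (φ := fun _ : ι => ℂ) l).analyticAt q

theorem fderiv_crd (l : ι) (q v : W ι) : fderiv ℂ (fun u : W ι => u l) q v = v l := by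
  have := (ContinuousLinearMap.proj (R := ℂ) (φ := fun _ : ι => ℂ) l).fderiv (x := q)
  exact congrArg (fun T : W ι →L[ℂ] ℂ => T v) this

theorem vf_crd (D : W ι → W ι) (l : ι) (u : W ι) : vf D (fun u : W ι => u l) u = D u l :=
  fderiv_crd l u _

/-- the projection which kills the coordinates in `S` -/
def kill (S : Finset ι) : W ι →L[ℂ] W ι :=
  ContinuousLinearMap.pi fun l => if l ∈ S then 0 else ContinuousLinearMap.proj l

theorem kill_apply (S : Finset ι) (v : W ι) (l : ι) : kill S v l = if l ∈ S then 0 else v l := by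
  by_cases h : l ∈ S <;> simp [kill, h]

theorem norm_kill_le (S : Finset ι) : ‖kill S‖ ≤ 1 := by
  refine ContinuousLinearMap.opNorm_le_bound _ zero_le_one fun v => ?_
  rw [one_mul]
  refine (pi_norm_le_iff_of_nonneg (norm_nonneg _)).2 fun l => ?_
  rw [kill_apply]
  split_ifs
  · simp
  · exact norm_le_pi_norm v l

/-- Hadamard division for a coordinate subspace -/
theorem exists_hadamard (S : Finset ι) {q : W ι} (hq : ∀ l ∈ S, q l = 0) {f : W ι → ℂ}
    (hf : AnalyticAt ℂ f q) : ∃ h : ι → W ι → ℂ, (∀ l, AnalyticAt ℂ (h l) q) ∧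
      f =ᶠ[𝓝 q] fun u => f (kill S u) + ∑ l ∈ S, h l u * u l := by
  obtain ⟨Q, hQ, he⟩ := Vale.Agent.P281.H511.Gen.exists_division (kill S) (norm_kill_le S) hf
  refine ⟨fun l v => Q v (Pi.single l 1), fun l => ?_, ?_⟩
  · exact ((ContinuousLinearMap.apply ℂ ℂ (Pi.single l 1 : W ι)).analyticAt _).comp hQ
  · filter_upwards [he] with v hv
    have e0 : q + kill S (v - q) = kill S v := by
      funext l
      by_cases hl : l ∈ S
      · simp [kill_apply, hl, hq l hl]
      · simp [kill_apply, hl]
    have e1 : v - kill S v = ∑ l ∈ S, v l • (Pi.single l 1 : W ι) := by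
      funext m
      rw [Finset.sum_apply]
      by_cases hm : m ∈ S
      · rw [Finset.sum_eq_single m]
        · simp [kill_apply, hm]
        · intro l _ hl
          simp [Pi.single_eq_of_ne (Ne.symm hl)]
        · exact fun h => (h hm).elim
      · rw [Finset.sum_eq_zero]
        · simp [kill_apply, hm]
        · intro l hl
          have : m ≠ l := fun e => hm (e ▸ hl)
          simp [Pi.single_eq_of_ne this]
    rw [e0, e1, map_sum] at hv
    simp only [map_smul, smul_eq_mul] at hv
    rw [← sub_eq_iff_eq_add', hv]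
    exact Finset.sum_congr rfl fun l _ => mul_comm _ _

theorem tendsto_kill (S : Finset ι) {q : W ι} (hq : ∀ l ∈ S, q l = 0) :
    Tendsto (kill S) (𝓝 q) (𝓝 q) := by
  have h1 : kill S q = q := by
    funext l
    rw [kill_apply]
    split_ifs with h
    · exact (hq l h).symm
    · rfl
  have := (kill S).continuous.tendsto q
  rwa [h1] at this

/-- a function which vanishes on a coordinate subspace is in its ideal -/
theorem exists_of_vanish (S : Finset ι) {q : W ι} (hq : ∀ l ∈ S, q l = 0) {f : W ι → ℂ}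
    (hf : AnalyticAt ℂ f q) (h0 : ∀ᶠ u in 𝓝 q, (∀ l ∈ S, u l = 0) → f u = 0) :
    ∃ h : ι → W ι → ℂ, (∀ l, AnalyticAt ℂ (h l) q) ∧ f =ᶠ[𝓝 q] fun u => ∑ l ∈ S, h l u * u l := by
  obtain ⟨h, h1, h2⟩ := exists_hadamard S hq hf
  refine ⟨h, h1, ?_⟩
  filter_upwards [h2, (tendsto_kill S hq).eventually h0] with u hu h3
  rw [hu, h3 fun l hl => by rw [kill_apply, if_pos hl], zero_add]

/-- the same, in terms of a filtration which contains the coordinates -/
theorem Fil.of_vanish {k n : ℕ} {y : ℕ → W ι → ℂ} {ω : ℕ → ℚ} {q : W ι} {c : ℚ} {f : W ι → ℂ}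
    (m : ℕ → ι) (hq : ∀ j < n, q (m j) = 0) (hm : ∀ j < n, Fil k y ω q c fun u => u (m j))
    (hf : AnalyticAt ℂ f q) (h0 : ∀ᶠ u in 𝓝 q, (∀ j < n, u (m j) = 0) → f u = 0) :
    Fil k y ω q c f := by
  obtain ⟨h, h1, h2⟩ := exists_of_vanish ((Finset.range n).image m) (q := q) (by
    intro l hl
    obtain ⟨j, hj, rfl⟩ := Finset.mem_image.1 hl
    exact hq j (Finset.mem_range.1 hj)) hf (by
    filter_upwards [h0] with u hu h3
    exact hu fun j hj => h3 _ (Finset.mem_image_of_mem _ (Finset.mem_range.2 hj)))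
  refine .congr h2.symm (Fil.sum _ fun l hl => ?_)
  obtain ⟨j, hj, rfl⟩ := Finset.mem_image.1 hl
  exact (hm j (Finset.mem_range.1 hj)).cmul (h1 _)

end Vale.Agent.P277Z.Hir
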