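import Vale.Agent.P277Z.Hir.IA

/-!
# P277Z, resolution: admissibility and integral closure (`stI`), division after the blow-up (`stL`)
-/

open Filter Topology Set Metric Asymptotics

noncomputable section

namespace Vale.Agent.P277Z.Hir

namespace IH

variable {E E' : Type} [NormedAddCommGroup E] [NormedSpace ℂ E] [NormedAddCommGroup E']
  [NormedSpace ℂ E']

/-- pull back of the filtration -/
theorem fil_comp {k : ℕ} {y : ℕ → E → ℂ} {y' : ℕ → E' → ℂ} {ω : ℕ → ℚ} {q : E'} {Φ : E' → E}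
    (hΦ : AnalyticAt ℂ Φ q) (hy : ∀ i < k, ∀ᶠ u in 𝓝 q, y i (Φ u) = y' i u) {c : ℚ} {f : E → ℂ}
    (h : Fil k y ω (Φ q) c f) : Fil k y' ω q c fun u => f (Φ u) := by
  induction h with
  | base hc hf => exact .base hc (hf.comp hΦ)
  | zero => exact .zero
  | mul i hi _ ih =>
    exact .congr ((hy i hi).mono fun u hu => by simp only [hu]) (.mul i hi ih)
  | add _ _ ih ih' => exact ih.add ih'
  | mono hc _ ih => exact ih.mono hc
  | congr hfg _ ih => exact ih.congr (hΦ.continuousAt.tendsto.eventually hfg)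

theorem exists_dual {k : ℕ} (l : ℕ → E →L[ℂ] ℂ)
    (h : ∀ c : ℕ → ℂ, (∀ v, ∑ i ∈ Finset.range k, c i * l i v = 0) → ∀ i < k, c i = 0) :
    ∃ e : ℕ → E, ∀ i < k, ∀ j < k, l i (e j) = if i = j then 1 else 0 := by
  let T : E →ₗ[ℂ] (Fin k → ℂ) := LinearMap.pi fun i => (l i : E →ₗ[ℂ] ℂ)
  have hT : LinearMap.range T = ⊤ := by
    by_contra hne
    obtain ⟨φ, hφ0, hφ⟩ := Submodule.exists_le_ker_of_lt_top _ (lt_top_iff_ne_top.2 hne)
    refine hφ0 (LinearMap.pi_ext' fun i => LinearMap.ext_ring ?_)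
    have h1 := h (fun j => if hj : j < k then φ (Pi.single ⟨j, hj⟩ 1) else 0) (fun v => by
      have h2 : φ (T v) = 0 := hφ ⟨v, rfl⟩
      rw [LinearMap.pi_apply_eq_sum_univ] at h2
      rw [← h2, Finset.sum_range]
      refine Finset.sum_congr rfl fun j _ => ?_
      rw [dif_pos j.2, smul_eq_mul, mul_comm]
      congr 2
      funext j'
      simp [Pi.single_apply, eq_comm]) i i.2
    rw [dif_pos i.2] at h1
    exact h1
  choose e he using fun j : ℕ => LinearMap.range_eq_top.1 hT fun i => if (i : ℕ) = j then 1 else 0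
  exact ⟨e, fun i hi j _ => congrFun (he j) ⟨i, hi⟩⟩

/-- **The growth criterion** for functions with independent differentials. -/
theorem fil_of_gr' [FiniteDimensional ℂ E] {k : ℕ} {y : ℕ → E → ℂ} {ω : ℕ → ℚ} {q : E} (hω : ∀ i < k, 0 < ω i)
    (an : ∀ i < k, AnalyticAt ℂ (y i) q) (van : ∀ i < k, y i q = 0)
    (h : ∀ c : ℕ → ℂ, (∀ v, ∑ i ∈ Finset.range k, c i * fderiv ℂ (y i) q v = 0) → ∀ i < k, c i = 0)
    {c : ℚ} {f : E → ℂ} (hf : AnalyticAt ℂ f q) (H : Gr k y ω q c f) : Fil k y ω q c f := by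
  have := FiniteDimensional.complete ℂ E
  obtain ⟨e, he⟩ := exists_dual (fun i => fderiv ℂ (y i) q) h
  let Φ : E → E := fun u => (u - q) + ∑ i ∈ Finset.range k, (y i u - fderiv ℂ (y i) q (u - q)) • e i
  have hq : Φ q = 0 := by
    simp only [Φ, sub_self, map_zero, zero_add, sub_zero]
    exact Finset.sum_eq_zero fun i hi => by rw [van i (Finset.mem_range.1 hi), zero_smul]
  have hy : ∀ j < k, ∀ u, fderiv ℂ (y j) q (Φ u) = y j u := fun j hj u => by
    simp only [Φ, map_add, map_sum, map_smul, smul_eq_mul]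
    rw [Finset.sum_eq_single j (fun i hi hij => by
      rw [he j hj i (Finset.mem_range.1 hi), if_neg hij.symm, mul_zero])
      (fun h => absurd (Finset.mem_range.2 hj) h), he j hj j hj, if_pos rfl, mul_one, add_sub_cancel]
  have h0 : AnalyticAt ℂ (fun u : E => u - q) q := analyticAt_id.sub analyticAt_const
  have hΦ : AnalyticAt ℂ Φ q := h0.add (Finset.analyticAt_fun_sum _ fun i hi =>
    ((an i (Finset.mem_range.1 hi)).sub (((fderiv ℂ (y i) q).analyticAt _).comp h0)).smul
      analyticAt_const)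
  have hd : HasFDerivAt Φ (ContinuousLinearEquiv.refl ℂ E : E →L[ℂ] E) q := by
    have h1 : HasFDerivAt (fun u : E => u - q) (ContinuousLinearMap.id ℂ E) q :=
      (hasFDerivAt_id q).sub_const q
    have h2 := h1.add (HasFDerivAt.fun_sum (u := Finset.range k) fun i hi =>
      ((an i (Finset.mem_range.1 hi)).differentiableAt.hasFDerivAt.sub
        ((fderiv ℂ (y i) q).hasFDerivAt.comp q h1)).smul_const (e i))
    refine HasFDerivAt.congr_fderiv h2 ?_
    ext v
    simp
  have hs : HasStrictFDerivAt Φ (ContinuousLinearEquiv.refl ℂ E : E →L[ℂ] E) q :=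
    hd.fderiv ▸ hΦ.hasStrictFDerivAt
  let R := hs.toOpenPartialHomeomorph Φ
  have hΨ : AnalyticAt ℂ R.symm (Φ q) :=
    R.analyticAt_symm' hs.mem_toOpenPartialHomeomorph_source hΦ hd.fderiv
  have hΨq : R.symm (Φ q) = q := hs.localInverse_apply_image
  have h1 : Fil k (fun i => fderiv ℂ (y i) q) ω (Φ q) c fun v => f (R.symm v) :=
    fil_of_gr he (fun i _ => by rw [hq, map_zero]) hω
      ((hΨq.symm ▸ hf : AnalyticAt ℂ f (R.symm (Φ q))).comp hΨ)
      (H.comp hs.localInverse_tendsto (hs.eventually_right_inverse.mono fun v hv i hi => by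
        rw [← hy i hi]
        exact (congrArg (fun x => ‖fderiv ℂ (y i) q x‖) hv).le))
  exact (fil_comp hΦ (fun i hi => Eventually.of_forall (hy i hi)) h1).congr
    (hs.eventually_left_inverse.mono fun u hu => congrArg f hu)

end IH

open IH

variable {ι : Type} [Fintype ι] [DecidableEq ι]

/-- the differentials of the functions of a centre are independent -/
theorem Cen.indep' {nu : ι → ℕ} {q : W ι} (J : Cen nu q) (c : ℕ → ℂ)
    (h : ∀ v, ∑ i ∈ Finset.range J.k, c i * fderiv ℂ (J.y i) q v = 0) : ∀ i < J.k, c i = 0 := by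
  have hd : ∀ i < J.k, ∀ l, J.lab i = some l → ∀ v, fderiv ℂ (J.y i) q v = v l := fun i hi l hl v => by
    rw [(J.div i hi l hl).2]
    exact DFunLike.congr_fun (ContinuousLinearMap.proj (R := ℂ) (φ := fun _ : ι => ℂ) l).fderiv v
  have h1 := J.indep (fun i => if J.lab i = none then c i else 0)
    (fun l => ∑ i ∈ Finset.range J.k, if J.lab i = some l then c i else 0)
    (fun i hi => if_neg hi) (fun l hl => by
      obtain ⟨i, hi, h2⟩ := Finset.exists_ne_zero_of_sum_ne_zero hl
      have h3 : J.lab i = some l := by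
        by_contra h3
        exact h2 (if_neg h3)
      have h4 := J.div i (Finset.mem_range.1 hi) l h3
      exact ⟨h4.1, (congrFun h4.2 q).symm.trans (J.van i (Finset.mem_range.1 hi))⟩) fun v => by
      refine Eq.trans ?_ (h v)
      simp only [Finset.sum_mul]
      rw [Finset.sum_comm, ← Finset.sum_add_distrib]
      refine Finset.sum_congr rfl fun i hi => ?_
      rcases h2 : J.lab i with _ | l
      · simp
      · simp [hd i (Finset.mem_range.1 hi) l h2]
  intro i hi
  rcases h2 : J.lab i with _ | l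
  · simpa [h2] using h1 i hi
  · have h3 := h (Pi.single l 1)
    rw [Finset.sum_eq_single i (fun j hj hji => ?_) (fun h => absurd (Finset.mem_range.2 hi) h),
      hd i hi l h2, Pi.single_eq_same, mul_one] at h3
    · exact h3
    · rcases h4 : J.lab j with _ | l'
      · have h5 := h1 j (Finset.mem_range.1 hj)
        rw [if_pos h4] at h5
        rw [h5, zero_mul]
      · rw [hd j (Finset.mem_range.1 hj) l' h4, Pi.single_eq_of_ne, mul_zero]
        rintro rfl
        exact hji (J.inj j (Finset.mem_range.1 hj) i hi _ h4 h2)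

/-- For a centre the filtration is given by the growth. -/
theorem Cen.fil_iff {nu : ι → ℕ} {q : W ι} (J : Cen nu q) {c : ℚ} {f : W ι → ℂ}
    (hf : AnalyticAt ℂ f q) : Fil J.k J.y J.ω q c f ↔ Gr J.k J.y J.ω q c f :=
  ⟨gr_of_fil, fil_of_gr' J.pos J.an J.van J.indep' hf⟩

theorem stI : StI := by
  intro ι _ _ nu q J κ _ F hF f hf C hC
  refine (J.fil_iff hf).2 (IsBigO.trans (IsBigO.of_bound C ((box_fst.eventually hC).mono
    fun z hz => hz.trans ?_)) (IsBigO.sum fun a (_ : a ∈ Finset.univ) => (gr_of_fil (hF a)).norm_left))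
  rw [Finset.sum_apply, Real.norm_of_nonneg (Finset.sum_nonneg fun _ _ => norm_nonneg _)]
  rfl

omit [DecidableEq ι] in
theorem analyticAt_pr (w : ι → ℕ) (u : W (Option ι)) : AnalyticAt ℂ (pr w) u :=
  analyticAt_pi_iff.2 fun l => ((analyticAt_pi_iff.1 analyticAt_id none).pow _).mul
    (analyticAt_pi_iff.1 analyticAt_id (some l))

theorem stL : StL := by
  intro ι ρ _ _ _ k m ω _ hω ℓ w hw c n hn G t q' _ hG hF
  have hp : ∀ z, AnalyticAt ℂ (fun z : W ρ × W (Option ι) => (z.1, pr w z.2)) z := fun z =>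
    analyticAt_fst.prod (AnalyticAt.comp (g := pr w) (analyticAt_pr w _) analyticAt_snd)
  have hG' : AnalyticAt ℂ (fun z : W ρ × W (Option ι) => G (z.1, pr w z.2)) (t, q') :=
    AnalyticAt.comp (g := G) hG (hp _)
  let l : W ρ × W (Option ι) →L[ℂ] ℂ :=
    (ContinuousLinearMap.proj none).comp (ContinuousLinearMap.snd ℂ _ _)
  rcases eq_or_ne (q' none) 0 with h0 | h0
  swap
  · refine ⟨fun z => (l z ^ n)⁻¹ * G (z.1, pr w z.2),
      (((l.analyticAt _).pow n).inv (pow_ne_zero n h0)).mul hG', ?_⟩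
    filter_upwards [l.continuous.continuousAt.eventually_ne h0] with z hz
    exact (mul_inv_cancel_left₀ (pow_ne_zero n hz) _).symm
  rcases Nat.eq_zero_or_pos n with rfl | hn0
  · exact ⟨_, hG', Eventually.of_forall fun z => by rw [pow_zero, one_mul]⟩
  have hl : 0 < ℓ := Nat.pos_of_ne_zero fun h => by
    rw [h, Nat.cast_zero, zero_mul] at hn
    exact absurd (Nat.cast_nonpos.1 hn) hn0.ne'
  refine div_pow (l := l) (e := (0, Pi.single none 1)) (by simp [l]) h0 n hG' ?_
  filter_upwards [(hp _).continuousAt.eventually hF] with z hz hz0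
  have hz1 : z.2 none = 0 := hz0
  have h1 := hz fun i hi => by
    have h2 : w (m i) ≠ 0 := fun h => by
      have h3 := hw i hi
      rw [h, Nat.cast_zero] at h3
      exact (mul_pos (Nat.cast_pos.2 hl) (hω i hi)).ne h3
    simp only [pr, hz1, zero_pow h2, zero_mul]
  have hγ : Tendsto (fun s : ℂ => pr w (z.2 + s • Pi.single none 1)) (𝓝[≠] 0) (𝓝 (pr w z.2)) := by
    have h2 : Tendsto (fun s : ℂ => z.2 + s • (Pi.single none 1 : W (Option ι))) (𝓝 0)
        (𝓝 (z.2 + (0 : ℂ) • Pi.single none 1)) := (tendsto_id.smul_const _).const_add _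
    rw [zero_smul, add_zero] at h2
    exact ((analyticAt_pr w _).continuousAt.tendsto.comp h2).mono_left nhdsWithin_le_nhds
  have hρ : ∀ᶠ s : ℂ in 𝓝[≠] 0, 0 < ‖s‖ ∧ ‖s‖ ≤ 1 := by
    filter_upwards [self_mem_nhdsWithin, mem_nhdsWithin_of_mem_nhds (closedBall_mem_nhds 0 one_pos)]
      with s hs hs'
    exact ⟨norm_pos_iff.2 hs, mem_closedBall_zero_iff.1 hs'⟩
  have h2 := isBigO hγ hρ (Nat.cast_nonneg (α := ℝ) ℓ) (fun i hi => IsBigO.of_bound ‖z.2 (some (m i))‖
    (Eventually.of_forall fun s => by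
      have h3 : (ℓ : ℝ) * ω i = (w (m i) : ℕ) := by exact_mod_cast (hw i hi).symm
      simp [crd, pr, hz1, h3, mul_comm])) h1
  refine (h2.congr_left fun s => by simp).trans (IsBigO.of_bound' (hρ.mono fun s hs => ?_))
  rw [Real.norm_of_nonneg (Real.rpow_nonneg hs.1.le _), norm_pow, ← Real.rpow_natCast]
  exact Real.rpow_le_rpow_of_exponent_ge hs.1 hs.2 (by exact_mod_cast hn)

end Vale.Agent.P277Z.Hir
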