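import Mathlib

/-!
# P277Z, block HIR-L: weighted centres in a local ring, the uniqueness theorem

* `FI y w c`: the ideal spanned by the monomials in `y` of weight at least `c` (`w = 1 / a`);
* `Der F x w i g c`: the marked elements obtained from the family `F` by derivations;
* `Cert.unique`: a certificate bounds the type of every admissible centre.
-/

open IsLocalRing

noncomputable section

namespace P277Z.Hir.LA

variable {k R : Type*} [CommRing k] [CommRing R] [Algebra k R] {ι : Type*}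

/-- the ideal spanned by the monomials of weight at least `c` -/
def FI (y : ι → R) (w : ι → ℝ) (c : ℝ) : Ideal R :=
  Ideal.span {x | ∃ α : Multiset ι, c ≤ (α.map w).sum ∧ x = (α.map y).prod}

namespace FI

variable {y : ι → R} {w : ι → ℝ} {c c' : ℝ} {a b : R}

theorem mon (α : Multiset ι) (h : c ≤ (α.map w).sum) : (α.map y).prod ∈ FI y w c :=
  Ideal.subset_span ⟨α, h, rfl⟩

theorem mono (h : c' ≤ c) : FI y w c ≤ FI y w c' :=
  Ideal.span_mono fun _ ⟨α, h1, h2⟩ => ⟨α, h.trans h1, h2⟩

theorem of_nonpos (h : c ≤ 0) (a : R) : a ∈ FI y w c := by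
  have := mon (y := y) (w := w) 0 (by simpa using h)
  rw [Multiset.map_zero, Multiset.prod_zero] at this
  exact (Ideal.eq_top_iff_one _).2 this ▸ Submodule.mem_top

theorem gen (j : ι) (h : c ≤ w j) : y j ∈ FI y w c := by
  simpa using mon (y := y) (w := w) {j} (by simpa using h)

theorem mul (ha : a ∈ FI y w c) (hb : b ∈ FI y w c') : a * b ∈ FI y w (c + c') := by
  have := Ideal.mul_mem_mul ha hb
  rw [FI, FI, Ideal.span_mul_span'] at this
  refine Ideal.span_mono ?_ this
  rintro _ ⟨_, ⟨α, h1, rfl⟩, _, ⟨β, h2, rfl⟩, rfl⟩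
  exact ⟨α + β, by simpa using add_le_add h1 h2, by simp⟩

theorem pow (ha : a ∈ FI y w c) (n : ℕ) : a ^ n ∈ FI y w (n * c) := by
  induction n with
  | zero => exact of_nonpos (by simp) _
  | succ n ih =>
    rw [pow_succ, Nat.cast_succ, add_mul, one_mul]
    exact mul ih ha

/-- comparison of two filtrations along a ring map -/
theorem map_le {κ S : Type*} [CommRing S] (φ : R →+* S) {y' : κ → S} {w' : κ → ℝ}
    (h : ∀ j, φ (y j) ∈ FI y' w' (w j)) (ha : a ∈ FI y w c) : φ a ∈ FI y' w' c := by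
  refine (Ideal.span_le (I := (FI y' w' c).comap φ)).2 ?_ ha
  rintro _ ⟨α, h1, rfl⟩
  refine mono h1 ?_
  clear h1
  show φ _ ∈ _
  induction α using Multiset.induction_on with
  | empty => exact of_nonpos (by simp) _
  | cons j α ih =>
    simp only [Multiset.map_cons, Multiset.sum_cons, Multiset.prod_cons, map_mul]
    exact mul (h j) ih

theorem le_of {κ : Type*} {y' : κ → R} {w' : κ → ℝ} (h : ∀ j, y j ∈ FI y' w' (w j)) (c : ℝ) :
    FI y w c ≤ FI y' w' c := fun _ ha => map_le (RingHom.id R) h ha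

theorem mono_w {w' : ι → ℝ} (h : ∀ j, w j ≤ w' j) (c : ℝ) : FI y w c ≤ FI y w' c :=
  le_of (fun j => gen j (h j)) c

theorem exists_pos {α : Multiset ι} (h : 0 < (α.map w).sum) : ∃ j ∈ α, 0 < w j := by
  by_contra h3
  push Not at h3
  refine h.not_ge ?_
  simpa using Multiset.sum_map_le_sum_map w (fun _ => 0) h3

theorem le_ideal (M : Ideal R) (h : ∀ j, 0 < w j → y j ∈ M) (hc : 0 < c) : FI y w c ≤ M := by
  refine Ideal.span_le.2 ?_
  rintro _ ⟨α, h1, rfl⟩
  obtain ⟨j, hj, h3⟩ := exists_pos (hc.trans_le h1)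
  exact Ideal.mem_of_dvd _ (Multiset.dvd_prod (Multiset.mem_map_of_mem y hj)) (h j h3)

/-- derivations lower the weight by a bounded amount -/
theorem der (D : Derivation k R R) {θ : ℝ} (hθ : 0 ≤ θ) (h : ∀ j, D (y j) ∈ FI y w (w j - θ))
    (ha : a ∈ FI y w c) : D a ∈ FI y w (c - θ) := by
  induction ha using Submodule.span_induction with
  | zero => simp
  | add a b _ _ ha hb => rw [map_add]; exact add_mem ha hb
  | smul r a h1 ha =>
    rw [smul_eq_mul, D.leibniz, smul_eq_mul, smul_eq_mul]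
    exact add_mem (Ideal.mul_mem_left _ _ ha)
      (Ideal.mul_mem_right _ _ (mono (sub_le_self c hθ) h1))
  | mem x hx =>
    obtain ⟨α, h1, rfl⟩ := hx
    refine mono (sub_le_sub_right h1 θ) ?_
    clear h1
    induction α using Multiset.induction_on with
    | empty => simp
    | cons j α ih =>
      simp only [Multiset.map_cons, Multiset.sum_cons, Multiset.prod_cons, D.leibniz, smul_eq_mul]
      exact add_mem (mono (by linarith) (mul (gen j le_rfl) ih))
        (mono (by linarith) (mul (mon α le_rfl) (h j)))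

theorem split (M : Ideal R) (h : ∀ j, 0 < w j → y j ∈ M) (hc : 0 < c) :
    FI y w c ≤ Ideal.span (y '' {j | c ≤ w j}) ⊔
      (M * M ⊓ FI y (fun j => if c ≤ w j then 0 else w j) c) := by
  refine Ideal.span_le.2 ?_
  rintro _ ⟨α, h1, rfl⟩
  by_cases h2 : ∃ j ∈ α, c ≤ w j
  · obtain ⟨j, hj, h2⟩ := h2
    exact Ideal.mem_sup_left (Ideal.mem_of_dvd _ (Multiset.dvd_prod (Multiset.mem_map_of_mem y hj))
      (Ideal.subset_span ⟨j, h2, rfl⟩))
  · push Not at h2
    refine Ideal.mem_sup_right ⟨?_, mon α (h1.trans_eq ?_)⟩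
    · obtain ⟨j, hj, h3⟩ := exists_pos (hc.trans_le h1)
      obtain ⟨β, rfl⟩ := Multiset.exists_cons_of_mem hj
      rw [Multiset.map_cons, Multiset.sum_cons] at h1
      rw [Multiset.map_cons, Multiset.prod_cons]
      exact Ideal.mul_mem_mul (h j h3) (le_ideal M h (c := c - w j) (sub_pos.2 (h2 j hj))
        (mon β (by linarith)))
    · exact congrArg _ (Multiset.map_congr rfl fun j hj => (if_neg (h2 j hj).not_ge).symm)

theorem comp_equiv {κ : Type*} (σ : κ ≃ ι) (c : ℝ) : FI (y ∘ σ) (w ∘ σ) c = FI y w c :=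
  le_antisymm (le_of (fun j => gen (σ j) le_rfl) c) (le_of (fun j => by
    have := gen (y := y ∘ σ) (w := w ∘ σ) (σ.symm j) le_rfl
    simpa using this) c)

end FI

theorem der_sq (D : Derivation k R R) (M : Ideal R) {a : R} (ha : a ∈ M * M) : D a ∈ M := by
  refine Submodule.mul_induction_on ha (fun a ha b hb => ?_) fun a b ha hb => ?_
  · rw [D.leibniz, smul_eq_mul, smul_eq_mul]
    exact add_mem (M.mul_mem_right _ ha) (M.mul_mem_right _ hb)
  · rw [map_add]
    exact add_mem ha hb

/-- the exchange lemma -/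
theorem FI.exch [IsLocalRing R] [DecidableEq ι] {y : ι → R} {w : ι → ℝ} {c : ℝ} {a : R}
    (D : Derivation k R R) (h : ∀ j, 0 < w j → y j ∈ maximalIdeal R) (hc : 0 < c)
    (ha : a ∈ FI y w c) (hD : IsUnit (D a)) :
    ∃ j, c ≤ w j ∧ IsUnit (D (y j)) ∧ y j ∈ FI (Function.update y j a) w c := by
  obtain ⟨b, hb, e, ⟨he, he'⟩, rfl⟩ := Submodule.mem_sup.1 (FI.split _ h hc ha)
  obtain ⟨t, ht, rfl⟩ := (Finsupp.mem_span_image_iff_linearCombination R).1 hb
  rw [Finsupp.mem_supported] at ht
  rw [Finsupp.linearCombination_apply, Finsupp.sum] at hD ⊢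
  obtain ⟨j, hj, hu⟩ : ∃ j ∈ t.support, IsUnit (t j * D (y j)) := by
    by_contra h1
    push Not at h1
    refine (mem_maximalIdeal _).1 ?_ hD
    rw [map_add, map_sum]
    refine add_mem (sum_mem fun j hj => ?_) (der_sq D _ he)
    rw [smul_eq_mul, D.leibniz, smul_eq_mul, smul_eq_mul]
    exact add_mem ((mem_maximalIdeal _).2 (h1 j hj))
      (Ideal.mul_mem_right _ _ (h j (hc.trans_le (ht hj))))
  refine ⟨j, ht hj, isUnit_of_mul_isUnit_right hu, ?_⟩
  generalize ha' : ∑ i ∈ t.support, t i • y i + e = a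
  have hy : ∀ i, i ≠ j → ∀ d, d ≤ w i → y i ∈ FI (Function.update y j a) w d := fun i hi d hd => by
    have := FI.gen (y := Function.update y j a) i hd
    rwa [Function.update_of_ne hi] at this
  have h1 : a ∈ FI (Function.update y j a) w c := by
    have := FI.gen (y := Function.update y j a) j (ht hj)
    rwa [Function.update_self] at this
  have h2 : e ∈ FI (Function.update y j a) w c := by
    refine FI.le_of (fun i => ?_) c he'
    split_ifs with hi
    · exact FI.of_nonpos le_rfl _
    · exact hy i (fun e => hi (e ▸ ht hj)) _ le_rfl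
  have h3 : ∑ i ∈ t.support.erase j, t i • y i ∈ FI (Function.update y j a) w c :=
    sum_mem fun i hi => Ideal.mul_mem_left _ _
      (hy i (Finset.ne_of_mem_erase hi) _ (ht (Finset.mem_of_mem_erase hi)))
  rw [← Ideal.unit_mul_mem_iff_mem _ (isUnit_of_mul_isUnit_left hu)]
  rw [← Finset.add_sum_erase _ _ hj] at ha'
  have := sub_mem (sub_mem h1 h2) h3
  rwa [show a - e - _ = t j * y j by rw [← ha', smul_eq_mul]; ring] at this

variable (k) in
/-- the marked elements obtained from `F` by derivations; at level `i` the derivations kill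
`x j` for `j < i` and lower the mark by `w i` -/
inductive Der (F : Set (R × ℝ)) (x : ℕ → R) (w : ℕ → ℝ) : ℕ → R → ℝ → Prop
  | base {f d} : (f, d) ∈ F → Der F x w 0 f d
  | step {i f d} (δ : Derivation k R R) : (∀ j < i, δ (x j) = 0) → Der F x w i f d →
      Der F x w i (δ f) (d - w i)
  | succ {i f d} : Der F x w i f d → Der F x w (i + 1) f d

theorem Der.mem {F : Set (R × ℝ)} {x y : ℕ → R} {w v : ℕ → ℝ} (hF : ∀ f ∈ F, f.1 ∈ FI y v f.2)
    (hv : Antitone v) (h0 : ∀ j, 0 ≤ v j) {i : ℕ} {g : R} {c : ℝ} (h : Der k F x w i g c)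
    (hy : ∀ j < i, y j = x j) (hw : ∀ j ≤ i, v j ≤ w j) : g ∈ FI y v c := by
  induction h with
  | @base f d h => exact hF (f, d) h
  | succ _ ih => exact ih (fun j hj => hy j (by omega)) fun j hj => hw j (by omega)
  | @step i f d δ hδ _ ih =>
    refine FI.der δ ((h0 i).trans (hw i le_rfl)) (fun j => ?_) (ih hy hw)
    rcases lt_or_ge j i with hj | hj
    · rw [hy j hj, hδ j hj]
      exact zero_mem _
    · exact FI.of_nonpos (sub_nonpos.2 ((hv hj).trans (hw i le_rfl))) _

variable [IsLocalRing R] {Λ : Type*}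

/-- centres through the closed point which are compatible with the functions `s` -/
structure Ok (s : Λ → R) (y : ℕ → R) (v : ℕ → ℝ) (dv : ℕ → Option Λ) : Prop where
  anti : Antitone v
  nonneg : ∀ j, 0 ≤ v j
  mem : ∀ j, 0 < v j → y j ∈ maximalIdeal R
  div : ∀ j l, 0 < v j → dv j = some l → y j = s l
  sorted : ∀ i j, i ≤ j → 0 < v j → v i = v j → dv j = none → dv i = none

variable (k) in
/-- certificates, read in the local ring of a point -/
structure Cert (s : Λ → R) (F : Set (R × ℝ)) (x : ℕ → R) (w : ℕ → ℝ) (dv : ℕ → Option Λ)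
    (n : ℕ) : Prop where
  anti : Antitone w
  pos : ∀ i < n, 0 < w i
  zero : ∀ i, n ≤ i → w i = 0
  wit : ∀ i < n, (∀ j < i, x j ∈ maximalIdeal R) → ∃ (D : Derivation k R R) (g : R),
    Der k F x w i g (w i) ∧ (∀ j < i, D (x j) = 0) ∧ IsUnit (D g) ∧
    (∀ l, dv i ≠ some l → s l ∈ maximalIdeal R → D (s l) ∈ maximalIdeal R) ∧
    (dv i = none → g - x i ∈ Ideal.span (x '' {j | j < i})) ∧ ∀ l, dv i = some l → x i = s l

/-- the type `(v, dv)` is smaller than the type `(w, dw)` -/
def Lt (v : ℕ → ℝ) (dv : ℕ → Option Λ) (w : ℕ → ℝ) (dw : ℕ → Option Λ) : Prop :=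
  ∃ i, (∀ j < i, v j = w j ∧ (dv j).isSome = (dw j).isSome) ∧
    (w i < v i ∨ (w i = v i ∧ 0 < w i ∧ dv i = none ∧ dw i ≠ none))

theorem Cert.aux {s : Λ → R} {F : Set (R × ℝ)} {x y : ℕ → R} {w v : ℕ → ℝ} {dw dv : ℕ → Option Λ}
    {n : ℕ} (hC : Cert k s F x w dw n) (hJ : Ok s y v dv) (hF : ∀ f ∈ F, f.1 ∈ FI y v f.2)
    (hn : ¬ Lt v dv w dw) : ∀ i ≤ n, ∃ (y' : ℕ → R) (dv' : ℕ → Option Λ), Ok s y' v dv' ∧
      (∀ j, (dv' j).isSome = (dv j).isSome) ∧ (∀ c, FI y' v c = FI y v c) ∧
      ∀ j < i, y' j = x j ∧ v j = w j ∧ (dv j).isSome = (dw j).isSome := by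
  intro i
  induction i with
  | zero => exact fun _ => ⟨y, dv, hJ, fun _ => rfl, fun _ => rfl, fun j hj => by omega⟩
  | succ i ih =>
    intro hi
    obtain ⟨y', dv', hJ', e1, e2, e3⟩ := ih (by omega)
    have hw := hC.pos i hi
    have hn' := fun h => hn ⟨i, fun j hj => (e3 j hj).2, h⟩
    have hv : v i ≤ w i := le_of_not_gt fun h => hn' (Or.inl h)
    obtain ⟨D, g, hg, hD, hu, hs, hf, hd⟩ := hC.wit i hi fun j hj => (e3 j hj).1 ▸
      hJ'.mem j ((e3 j hj).2.1 ▸ hC.pos j (by omega))
    have hg' : g ∈ FI y' v (w i) := hg.mem (fun f hf => (e2 _).symm ▸ hF f hf) hJ.anti hJ.nonneg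
      (fun j hj => (e3 j hj).1) fun j hj => hj.eq_or_lt.elim (fun e => e ▸ hv)
        fun h => (e3 j h).2.1.le
    -- the exchange
    have key : ∃ j, w i ≤ v j ∧ IsUnit (D (y' j)) ∧ y' j ∈ FI (Function.update y' j (x i)) v (w i) ∧
        x i ∈ FI y' v (w i) ∧ (dv' j).isSome = (dw i).isSome ∧
        (dv' i).isSome = (dw i).isSome ∧ ∀ l, dv' j = some l → x i = s l := by
      have hij : ∀ j, IsUnit (D (y' j)) → i ≤ j := fun j hj => le_of_not_gt fun h => by
        rw [(e3 j h).1, hD j h] at hj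
        exact not_isUnit_zero hj
      have hl : ∀ j l, w i ≤ v j → IsUnit (D (y' j)) → dv' j = some l → dw i = some l :=
        fun j l h1 h2 h3 => by
        by_contra h4
        have h5 := hJ'.div j l (hw.trans_le h1) h3
        exact (mem_maximalIdeal _).1 (hs l h4 (h5 ▸ hJ'.mem j (hw.trans_le h1))) (h5 ▸ h2)
      rcases hdw : dw i with _ | l
      · have h1 : Ideal.span (x '' {j | j < i}) ≤ FI y' v (w i) := Ideal.span_le.2 (by
          rintro _ ⟨j, hj, rfl⟩
          rw [← (e3 j hj).1]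
          exact FI.gen j ((e3 j hj).2.1 ▸ hC.anti (le_of_lt hj)))
        have hx : x i ∈ FI y' v (w i) := by simpa using sub_mem hg' (h1 (hf hdw))
        have h2 : D (g - x i) ∈ maximalIdeal R := by
          have h3 := hf hdw
          generalize g - x i = a at h3
          induction h3 using Submodule.span_induction with
          | zero => simp
          | add a b _ _ ha hb => rw [map_add]; exact add_mem ha hb
          | smul r a h1' ha =>
            rw [smul_eq_mul, D.leibniz, smul_eq_mul, smul_eq_mul]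
            exact add_mem (Ideal.mul_mem_left _ _ ha)
              (Ideal.mul_mem_right _ _ (FI.le_ideal _ hJ'.mem hw (h1 h1')))
          | mem a ha =>
            obtain ⟨j, hj, rfl⟩ := ha
            rw [hD j hj]
            exact zero_mem _
        have hu' : IsUnit (D (x i)) := by
          by_contra h3
          refine (mem_maximalIdeal _).1 ?_ hu
          simpa using add_mem h2 ((mem_maximalIdeal _).2 h3)
        obtain ⟨j, h3, h4, h5⟩ := FI.exch D hJ'.mem hw hx hu'
        have h6 : dv' j = none := by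
          rcases h6 : dv' j with _ | l
          · rfl
          · have := hl j l h3 h4 h6
            rw [hdw] at this
            cases this
        have h7 := hJ'.sorted i j (hij j h4) (hw.trans_le h3)
          (le_antisymm (hv.trans h3) (hJ.anti (hij j h4))) h6
        exact ⟨j, h3, h4, h5, hx, by rw [h6], by rw [h7], fun l h => by rw [h6] at h; cases h⟩
      · obtain ⟨j, h3, h4, -⟩ := FI.exch D hJ'.mem hw hg' hu
        have h5 : w i = v i := le_antisymm (h3.trans (hJ.anti (hij j h4))) hv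
        have h6 : dv' i ≠ none := fun h => hn' (Or.inr ⟨h5, hw, by
          have := e1 i
          rw [h] at this
          simpa using this.symm, by simp [hdw]⟩)
        obtain ⟨l', h7⟩ := Option.ne_none_iff_exists'.1 fun h => h6 (hJ'.sorted i j (hij j h4)
          (hw.trans_le h3) (le_antisymm (hv.trans h3) (hJ.anti (hij j h4))) h)
        obtain rfl : l = l' := Option.some.inj (hdw.symm.trans (hl j l' h3 h4 h7))
        have h8 : y' j = x i := (hJ'.div j l (hw.trans_le h3) h7).trans (hd l hdw).symm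
        refine ⟨j, h3, h4, ?_, h8 ▸ FI.gen j h3, by rw [h7],
          by simpa [Option.isSome_iff_ne_none] using h6, fun l' h => ?_⟩
        · rw [← h8, Function.update_eq_self]
          exact FI.gen j h3
        · rw [hd l hdw, Option.some.inj (h7.symm.trans h)]
    obtain ⟨j, h1, h2, h3, h4, h5, h6, h7⟩ := key
    have hij : i ≤ j := le_of_not_gt fun h => by
      rw [(e3 j h).1, hD j h] at h2
      exact not_isUnit_zero h2
    have hvi : v i = w i := le_antisymm hv (h1.trans (hJ.anti hij))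
    have hvj : v j = w i := le_antisymm ((hJ.anti hij).trans hv) h1
    let σ := Equiv.swap i j
    have hσ : ∀ m, v (σ m) = v m := fun m => Equiv.apply_swap_eq_self (hvi.trans hvj.symm) m
    have hσ' : ∀ m, (dv' (σ m)).isSome = (dv' m).isSome := fun m =>
      Equiv.apply_swap_eq_self (v := fun m => (dv' m).isSome) (h6.trans h5.symm) m
    have hno : ∀ m, dv' (σ m) = none ↔ dv' m = none := fun m => by
      rw [← Option.not_isSome_iff_eq_none, ← Option.not_isSome_iff_eq_none, hσ']
    refine ⟨Function.update y' j (x i) ∘ σ, dv' ∘ σ, ⟨hJ.anti, hJ.nonneg, fun m hm => ?_,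
      fun m l hm hl => ?_, fun a b hab h0 h8 h9 => ?_⟩, fun m => (hσ' m).trans (e1 m), fun c => ?_,
      fun m hm => ?_⟩
    · rw [Function.comp_apply, Function.update_apply]
      split_ifs
      · exact FI.le_ideal _ hJ'.mem hw h4
      · exact hJ'.mem _ (by rwa [hσ])
    · rw [Function.comp_apply, Function.update_apply]
      split_ifs with h
      · exact h7 l (h ▸ hl)
      · exact hJ'.div _ l (by rwa [hσ]) hl
    · exact (hno a).2 (hJ'.sorted a b hab h0 h8 ((hno b).1 h9))
    · rw [← e2, ← FI.comp_equiv (y := Function.update y' j (x i) ∘ σ) σ.symm,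
        show v ∘ σ.symm = v from funext hσ, Function.comp_assoc, σ.self_comp_symm,
        Function.comp_id]
      refine le_antisymm (FI.le_of (fun m => ?_) c) (FI.le_of (fun m => ?_) c)
      · rw [Function.update_apply]
        split_ifs with h
        · rwa [h, hvj]
        · exact FI.gen m le_rfl
      · by_cases h : m = j
        · rwa [h, hvj]
        · have := FI.gen (y := Function.update y' j (x i)) (w := v) m le_rfl
          rwa [Function.update_of_ne h] at this
    · rcases (Nat.lt_succ_iff.1 hm).eq_or_lt with rfl | hm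
      · exact ⟨by simp [σ], hvi, (e1 m).symm.trans h6⟩
      · refine ⟨?_, (e3 m hm).2⟩
        rw [Function.comp_apply, Equiv.swap_apply_of_ne_of_ne (by omega) (by omega),
          Function.update_of_ne (by omega), (e3 m hm).1]

/-- the uniqueness theorem -/
theorem Cert.unique {s : Λ → R} {F : Set (R × ℝ)} {x y : ℕ → R} {w v : ℕ → ℝ}
    {dw dv : ℕ → Option Λ} {n : ℕ} (hC : Cert k s F x w dw n) (hJ : Ok s y v dv)
    (hF : ∀ f ∈ F, f.1 ∈ FI y v f.2) : Lt v dv w dw ∨ (v = w ∧
      (∀ j < n, (dv j).isSome = (dw j).isSome ∧ x j ∈ maximalIdeal R) ∧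
      ∀ c, FI y v c = FI x w c) := by
  refine or_iff_not_imp_left.2 fun hn => ?_
  obtain ⟨y', dv', hJ', -, e2, e3⟩ := hC.aux hJ hF hn n le_rfl
  have h0 : v n ≤ 0 := le_of_not_gt fun h =>
    hn ⟨n, fun j hj => (e3 j hj).2, Or.inl (by rwa [hC.zero n le_rfl])⟩
  obtain rfl : v = w := funext fun j => (lt_or_ge j n).elim (fun h => (e3 j h).2.1) fun h => by
    rw [hC.zero j h]
    exact le_antisymm ((hJ.anti h).trans h0) (hJ.nonneg j)
  refine ⟨rfl, fun j hj => ⟨(e3 j hj).2.2, (e3 j hj).1 ▸ hJ'.mem j (hC.pos j hj)⟩, fun c => ?_⟩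
  rw [← e2]
  refine le_antisymm (FI.le_of (fun j => ?_) c) (FI.le_of (fun j => ?_) c) <;>
    rcases lt_or_ge j n with h | h
  · exact (e3 j h).1 ▸ FI.gen j le_rfl
  · exact FI.of_nonpos (hC.zero j h).le _
  · exact (e3 j h).1 ▸ FI.gen j le_rfl
  · exact FI.of_nonpos (hC.zero j h).le _

end P277Z.Hir.LA
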