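import Vale.Agent.P277Z.Hir.MSk
import Vale.Agent.P277Z.Hir.BArr
import Vale.Agent.P277Z.Hir.FilB
import Vale.Agent.P277Z.Hir.LB
import Mathlib.Analysis.Analytic.IsolatedZeros

/-!
# P277, resolution: the regular points of the start, and the integrality of the exponents
-/

open Filter Topology Set Function

noncomputable section

namespace Vale.Agent.P277Z.Hir

open L (IsCo)

namespace MSmH

variable {ι : Type} [Fintype ι] [DecidableEq ι] {n c : ℕ}

/-- a retract is a coordinate subspace -/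
theorem exists_co (hc : Fintype.card ι = n + c) {B : Set (ι → ℂ)} {u : ι → ℂ}
    {j : (Fin n → ℂ) → ι → ℂ} {G : (ι → ℂ) → Fin n → ℂ} (hG : AnalyticAt ℂ G u)
    (hj : AnalyticAt ℂ j (G u)) (ha : ∀ᶠ z in 𝓝 u, z ∈ B → j (G z) = z) (hu : u ∈ B)
    (hb : ∀ᶠ w in 𝓝 (G u), j w ∈ B ∧ G (j w) = w) :
    ∃ (y : (ι → ℂ) → ι → ℂ) (S : Finset ι), IsCo y u ∧ S.card = c ∧
      ∀ᶠ z in 𝓝 u, (z ∈ B ↔ ∀ l ∈ S, y z l = 0) := by
  have hju : j (G u) = u := ha.self_of_nhds hu
  set DG := fderiv ℂ G u with hDG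
  set Dj := fderiv ℂ j (G u) with hDj
  have hG' : HasFDerivAt G DG u := hG.differentiableAt.hasFDerivAt
  have hj' : HasFDerivAt j Dj (G u) := hj.differentiableAt.hasFDerivAt
  have hid : DG.comp Dj = ContinuousLinearMap.id ℂ _ := by
    have h1 : HasFDerivAt (G ∘ j) (DG.comp Dj) (G u) := HasFDerivAt.comp _ (hju.symm ▸ hG') hj'
    have h2 : (G ∘ j) =ᶠ[𝓝 (G u)] id := hb.mono fun w hw => hw.2
    exact (h1.congr_of_eventuallyEq h2.symm).unique (hasFDerivAt_id _)
  have hsurj : Surjective DG := fun w => ⟨Dj w, congrArg (fun T : _ →L[ℂ] _ => T w) hid⟩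
  have hk : Module.finrank ℂ (LinearMap.ker DG.toLinearMap) = Module.finrank ℂ (Fin c → ℂ) := by
    have h1 := LinearMap.finrank_range_add_finrank_ker DG.toLinearMap
    rw [LinearMap.range_eq_top.2 hsurj, finrank_top, Module.finrank_fintype_fun_eq_card,
      Module.finrank_fintype_fun_eq_card, Fintype.card_fin, hc] at h1
    rw [Module.finrank_fintype_fun_eq_card, Fintype.card_fin]
    omega
  obtain ⟨e0⟩ := FiniteDimensional.nonempty_linearEquiv_of_finrank_eq hk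
  obtain ⟨A0, hA0⟩ := LinearMap.exists_extend e0.toLinearMap
  let A : (ι → ℂ) →L[ℂ] (Fin c → ℂ) := LinearMap.toContinuousLinearMap A0
  have hA : ∀ v, DG v = 0 → A v = 0 → v = 0 := by
    intro v h1 h2
    have h3 : e0 ⟨v, h1⟩ = 0 := by
      rw [← h2]
      exact (congrArg (fun T : _ →ₗ[ℂ] _ => T ⟨v, h1⟩) hA0).symm
    exact congrArg Subtype.val (e0.map_eq_zero_iff.1 h3)
  let e : Fin n ⊕ Fin c ≃ ι := Fintype.equivOfCardEq (by simp [hc])
  let L0 : ((Fin n → ℂ) × (Fin c → ℂ)) ≃ₗ[ℂ] (ι → ℂ) :=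
    (LinearEquiv.sumArrowLequivProdArrow (Fin n) (Fin c) ℂ ℂ).symm.trans
      (LinearEquiv.funCongrLeft ℂ ℂ e.symm)
  let L : ((Fin n → ℂ) × (Fin c → ℂ)) →L[ℂ] (ι → ℂ) := LinearMap.toContinuousLinearMap L0.toLinearMap
  have hL : ∀ a b i, L (a, b) (e (Sum.inr i)) = b i := by
    intro a b i
    simp [L, L0]
  have hLi : Injective L := L0.injective
  let Y : (ι → ℂ) → (Fin n → ℂ) × (Fin c → ℂ) := fun z => (G z, A (z - j (G z)))
  have hYa : AnalyticAt ℂ Y u :=
    hG.prod ((A.analyticAt _).comp (analyticAt_id.sub (hj.comp hG)))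
  have hY' : HasFDerivAt Y (DG.prod (A.comp (ContinuousLinearMap.id ℂ _ - Dj.comp DG))) u :=
    hG'.prodMk (A.hasFDerivAt.comp _ ((hasFDerivAt_id u).sub (hj'.comp _ hG')))
  have hy' := L.hasFDerivAt.comp u hY'
  have hco : IsCo (L ∘ Y) u := by
    refine ⟨(L.analyticAt _).comp hYa, ?_⟩
    rw [hy'.fderiv]
    have h5 : Injective (L.comp (DG.prod (A.comp (ContinuousLinearMap.id ℂ _ - Dj.comp DG)))) := by
      refine (injective_iff_map_eq_zero _).2 fun v hv => ?_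
      have h6 : (DG.prod (A.comp (ContinuousLinearMap.id ℂ _ - Dj.comp DG))) v = 0 :=
        hLi (hv.trans (map_zero L).symm)
      have h7 : DG v = 0 := congrArg Prod.fst h6
      have h8 : A (v - Dj (DG v)) = 0 := congrArg Prod.snd h6
      rw [h7, map_zero, sub_zero] at h8
      exact hA v h7 h8
    exact ⟨h5, LinearMap.injective_iff_surjective.1
      (show Injective (L.comp (DG.prod (A.comp
        (ContinuousLinearMap.id ℂ _ - Dj.comp DG)))).toLinearMap from h5)⟩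
  refine ⟨L ∘ Y, Finset.univ.map (Embedding.inr.trans e.toEmbedding), hco, by simp, ?_⟩
  obtain ⟨x, -, -, hx, -⟩ := hco.exists_inv
  have ht : Tendsto (fun z => j (G z)) (𝓝 u) (𝓝 u) := by
    have := (hj.comp hG).continuousAt.tendsto
    rwa [Function.comp_apply, hju] at this
  filter_upwards [ha, hx, ht.eventually hx, hG.continuousAt.eventually hb] with z h1 h2 h3 h4
  have hS : (∀ l ∈ Finset.univ.map (Embedding.inr.trans e.toEmbedding), (L ∘ Y) z l = 0) ↔
      A (z - j (G z)) = 0 := by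
    constructor
    · intro h
      funext i
      exact (hL _ _ i).symm.trans (h _ (Finset.mem_map.2 ⟨i, Finset.mem_univ _, rfl⟩))
    · intro h l hl
      obtain ⟨i, -, rfl⟩ := Finset.mem_map.1 hl
      exact (hL _ _ i).trans (congrFun h i)
  rw [hS]
  constructor
  · intro hz
    rw [h1 hz, sub_self, map_zero]
  · intro h
    have h5 : Y (j (G z)) = Y z := by
      simp only [Y, h4.2, h, sub_self, map_zero]
    have h6 : j (G z) = z := h3.symm.trans ((congrArg (fun p => x (L p)) h5).trans h2)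
    exact h6 ▸ h4.1

theorem bdd_fin {κ T : Type} [Fintype κ] {l : Filter T} {f : κ → T → ℝ} {g : T → ℝ}
    (hg : ∀ z, 0 ≤ g z) (h : ∀ k, ∃ c : ℝ, ∀ᶠ z in l, f k z ≤ c * g z) :
    ∃ c : ℝ, 0 < c ∧ ∀ᶠ z in l, ∑ k, f k z ≤ c * g z := by
  choose c hc using h
  refine ⟨∑ k, |c k| + 1, by positivity, ?_⟩
  filter_upwards [eventually_all.2 hc] with z hz
  calc ∑ k, f k z ≤ ∑ k, |c k| * g z := Finset.sum_le_sum fun k _ =>
        (hz k).trans (mul_le_mul_of_nonneg_right (le_abs_self _) (hg z))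
    _ = (∑ k, |c k|) * g z := (Finset.sum_mul _ _ _).symm
    _ ≤ _ := mul_le_mul_of_nonneg_right (by linarith) (hg z)

theorem cmp_of {T : Type} {l : Filter T} {f g : T → ℝ} (hf : ∀ z, 0 ≤ f z) (hg : ∀ z, 0 ≤ g z)
    (h : ∃ c : ℝ, 0 < c ∧ ∀ᶠ z in l, f z ≤ c * g z) (h' : ∃ c : ℝ, 0 < c ∧ ∀ᶠ z in l, g z ≤ c * f z) :
    Gl.Cmp l f g := by
  obtain ⟨c, hc, h⟩ := h
  obtain ⟨c', hc', h'⟩ := h'
  refine ⟨c + c', by positivity, (h.and h').mono fun z hz => ⟨?_, ?_⟩⟩
  · exact hz.1.trans (mul_le_mul_of_nonneg_right (by linarith) (hg z))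
  · exact hz.2.trans (mul_le_mul_of_nonneg_right (by linarith) (hf z))

/-- a function which vanishes on the subspace is bounded by the equations -/
theorem le_of_vanish {y : (ι → ℂ) → ι → ℂ} {u : ι → ℂ} (hy : IsCo y u) {S : Finset ι}
    (hu : ∀ l ∈ S, y u l = 0) {f : (ι → ℂ) → ℂ} (hf : AnalyticAt ℂ f u)
    (h0 : ∀ᶠ z in 𝓝 u, (∀ l ∈ S, y z l = 0) → f z = 0) :
    ∃ c : ℝ, ∀ᶠ z in 𝓝 u, ‖f z‖ ≤ c * ∑ l ∈ S, ‖y z l‖ := by
  obtain ⟨x, hx, hxu, h1, h2⟩ := hy.exists_inv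
  have ht : Tendsto x (𝓝 (y u)) (𝓝 u) := by
    have := hx.1.continuousAt.tendsto
    rwa [hxu] at this
  have hfx : AnalyticAt ℂ (fun w => f (x w)) (y u) := AnalyticAt.comp (hxu.symm ▸ hf) hx.1
  obtain ⟨h, hh, he⟩ := exists_of_vanish S hu hfx (by
    filter_upwards [h2, ht.eventually h0] with w hw h3 h4
    exact h3 (by rwa [hw]))
  have hb : ∀ l, ∀ᶠ w in 𝓝 (y u), ‖h l w‖ ≤ ‖h l (y u)‖ + 1 := fun l =>
    ((hh l).continuousAt.norm.eventually_lt continuousAt_const (lt_add_one _)).mono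
      fun _ hw => hw.le
  refine ⟨∑ l, (‖h l (y u)‖ + 1), ?_⟩
  filter_upwards [h1, hy.1.continuousAt.eventually he,
    hy.1.continuousAt.eventually (eventually_all.2 hb)] with z hz h3 h4
  rw [hz] at h3
  rw [h3, Finset.mul_sum]
  refine (norm_sum_le _ _).trans (Finset.sum_le_sum fun l _ => ?_)
  rw [norm_mul]
  refine mul_le_mul_of_nonneg_right ((h4 l).trans ?_) (norm_nonneg _)
  exact Finset.single_le_sum (f := fun l => ‖h l (y u)‖ + 1) (fun _ _ => by positivity)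
    (Finset.mem_univ l)

theorem exp_le {a b C : ℝ} (h : ∀ᶠ t in 𝓝[≠] (0 : ℂ), ‖t‖ ^ a ≤ C * ‖t‖ ^ b) : b ≤ a := by
  by_contra hab
  have hd : 0 < b - a := by linarith
  have h1 : Tendsto (fun t : ℂ => C * ‖t‖ ^ (b - a)) (𝓝 0) (𝓝 (C * ‖(0 : ℂ)‖ ^ (b - a))) :=
    (continuousAt_const.mul (continuous_norm.continuousAt.rpow_const (Or.inr hd.le))).tendsto
  rw [norm_zero, Real.zero_rpow hd.ne', mul_zero] at h1
  have h2 : ∀ᶠ t in 𝓝[≠] (0 : ℂ), C * ‖t‖ ^ (b - a) < 1 :=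
    nhdsWithin_le_nhds (h1.eventually_lt_const one_pos)
  obtain ⟨t, h3, h4, h5⟩ := (h.and (h2.and self_mem_nhdsWithin)).exists
  have ht : 0 < ‖t‖ := norm_pos_iff.2 h5
  rw [Real.rpow_sub ht, ← mul_div_assoc, div_lt_one (Real.rpow_pos_of_pos ht a)] at h4
  linarith

/-- one variable -/
theorem int_one {m : ℕ} {g : Fin m → ℂ → ℂ} (hg : ∀ k, AnalyticAt ℂ (g k) 0) {a : ℝ}
    (h : Gl.Cmp (𝓝 0) (fun t => ∑ k, ‖g k t‖) fun t => ‖t‖ ^ a) : ((⌈a⌉₊ : ℕ) : ℝ) = a := by
  obtain ⟨C, hC, h⟩ := h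
  refine le_antisymm ?_ (Nat.le_ceil a)
  have key : ∀ k, ∃ c : ℝ, ∀ᶠ t in 𝓝 (0 : ℂ), ‖g k t‖ ≤ c * ‖t‖ ^ ((⌈a⌉₊ : ℕ) : ℝ) := by
    intro k
    by_cases h0 : ∀ᶠ t in 𝓝 (0 : ℂ), g k t = 0
    · exact ⟨0, h0.mono fun t ht => by simp [ht]⟩
    obtain ⟨N, q, hq, hq0, he⟩ := (hg k).exists_eventuallyEq_pow_smul_nonzero_iff.2 h0
    have hq1 : 0 < ‖q 0‖ := norm_pos_iff.2 hq0
    have l1 : ∀ᶠ t in 𝓝 (0 : ℂ), ‖q 0‖ / 2 < ‖q t‖ :=
      continuousAt_const.eventually_lt hq.continuousAt.norm (by linarith)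
    have l2 : ∀ᶠ t in 𝓝 (0 : ℂ), ‖q t‖ < ‖q 0‖ + 1 :=
      hq.continuousAt.norm.eventually_lt continuousAt_const (lt_add_one _)
    have hN : a ≤ N := by
      refine exp_le (C := C * (2 / ‖q 0‖)) (nhdsWithin_le_nhds ?_)
      filter_upwards [h, he, l1] with t h1 h2 h3
      have h4 : ‖g k t‖ ≤ C * ‖t‖ ^ a :=
        (Finset.single_le_sum (f := fun k => ‖g k t‖) (fun _ _ => norm_nonneg _)
          (Finset.mem_univ k)).trans h1.1
      rw [h2, sub_zero, norm_smul, norm_pow] at h4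
      show ‖t‖ ^ (N : ℝ) ≤ _
      rw [Real.rpow_natCast]
      have h5 : ‖t‖ ^ N * (‖q 0‖ / 2) ≤ C * ‖t‖ ^ a :=
        (mul_le_mul_of_nonneg_left h3.le (by positivity)).trans h4
      calc ‖t‖ ^ N = ‖t‖ ^ N * (‖q 0‖ / 2) * (2 / ‖q 0‖) := by field_simp
        _ ≤ C * ‖t‖ ^ a * (2 / ‖q 0‖) := mul_le_mul_of_nonneg_right h5 (by positivity)
        _ = _ := by ring
    have l3 : ∀ᶠ t in 𝓝 (0 : ℂ), ‖t‖ < 1 :=
      continuous_norm.continuousAt.eventually_lt continuousAt_const (by simp)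
    refine ⟨‖q 0‖ + 1, ?_⟩
    filter_upwards [he, l2, l3] with t h2 h3 h4
    rw [h2, sub_zero, norm_smul, norm_pow, Real.rpow_natCast, mul_comm]
    exact mul_le_mul h3.le (pow_le_pow_of_le_one (norm_nonneg _) h4.le (Nat.ceil_le.2 hN))
      (by positivity) (by positivity)
  obtain ⟨c, -, hc⟩ := bdd_fin (fun t => by positivity) key
  refine exp_le (C := C * c) (nhdsWithin_le_nhds ?_)
  filter_upwards [h, hc] with t h1 h2
  rw [mul_assoc]
  exact h1.2.trans (mul_le_mul_of_nonneg_left h2 hC.le)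

end MSmH

open MSmH

theorem stSm : StSm := by
  intro S n c O hO ι _ _ C hc hok hin u hu hreg
  obtain ⟨V, Ω, h, φ, hV, hM⟩ := hreg
  have hπ : Tendsto C.π (𝓝[C.B] u) (𝓝 (C.π u)) := hok.cont u hu
  choose g hg1 hg2 using hin.crd u hu
  choose j hj1 hj2 using fun l => (hM.hol _ hV (g l)).1 (hg1 l)
  have hφ : ∀ i, S.Hol (fun x => φ x i) (C.π u) := fun i =>
    (hM.hol _ hV _).2 ⟨fun w => w i, an_crd i _, EventuallyEq.rfl⟩
  choose G hG1 hG2 using fun i => hok.hol u hu _ (hφ i)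
  have hGφ : ∀ᶠ z in 𝓝[C.B] u, (fun i => G i z) = φ (C.π z) := by
    rw [eventually_nhdsWithin_iff]
    filter_upwards [eventually_all.2 hG2] with z hz hB
    exact funext fun i => (hz i hB).symm
  have hjφ : ∀ᶠ z in 𝓝[C.B] u, (fun l => j l (φ (C.π z))) = z := by
    filter_upwards [hπ.eventually (eventually_all.2 hj2),
      nhdsWithin_le_nhds (eventually_all.2 hg2), self_mem_nhdsWithin] with z h1 h2 hB
    exact funext fun l => (h1 l).symm.trans (h2 l hB)
  have hGu : (fun i => G i u) = φ (C.π u) := hGφ.self_of_nhdsWithin hu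
  have hopn : 𝓝 (φ (C.π u)) ≤ map φ (𝓝 (C.π u)) := by
    have h1 : IsOpenEmbedding (V.domRestrict φ) := by
      refine ⟨hM.emb, ?_⟩
      have : range (V.domRestrict φ) = Ω := by
        rw [range_domRestrict, hM.image]
        simp
      rw [this]
      exact hM.isOpen'
    have h2 := h1.map_nhds_eq ⟨C.π u, hV⟩
    refine h2.ge.trans ?_
    rw [show V.domRestrict φ = φ ∘ Subtype.val from rfl, ← map_map]
    exact map_mono (continuous_subtype_val.tendsto _)
  obtain ⟨y, T, hy, hT, hB⟩ := exists_co (B := C.B) (u := u) (j := fun w l => j l w)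
    (G := fun z i => G i z) hc (analyticAt_pi_iff.2 hG1)
    (by rw [hGu]; exact analyticAt_pi_iff.2 hj1)
    (by
      rw [← eventually_nhdsWithin_iff]
      filter_upwards [hGφ, hjφ] with z h1 h2
      rw [h1, h2]) hu
    (by
      rw [hGu]
      refine hopn.trans (map_mono (hin.opn u hu)) ?_
      rw [map_map]
      refine eventually_map.2 ?_
      filter_upwards [hGφ, hjφ, self_mem_nhdsWithin] with z h1 h2 hB
      rw [Function.comp_apply, h2]
      exact ⟨hB, h1⟩)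
  refine ⟨y, T, hy, hT, cmp_of C.nF_nonneg (fun z => by positivity) ?_ ?_, hB⟩
  · refine bdd_fin (fun z => by positivity) fun k =>
      le_of_vanish hy (hB.self_of_nhds.1 hu) (hok.anF k u (hok.sub hu)) ?_
    filter_upwards [hB, hok.isOpen.mem_nhds (hok.sub hu)] with z h1 h2 h3
    exact (hin.zero z h2).1 (h1.2 h3) k
  · obtain ⟨c', h1, h2⟩ := bdd_fin (κ := T) (l := 𝓝 u) (f := fun l z => ‖y z l‖) C.nF_nonneg
      fun l => hin.gen u hu (fun z => y z l) (analyticAt_pi_iff.1 hy.1 l)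
        (hB.mono fun z hz hB => hz.1 hB l l.2)
    refine ⟨c', h1, h2.mono fun z hz => ?_⟩
    rwa [Finset.sum_coe_sort T fun l => ‖y z l‖] at hz

theorem stInt : StInt := by
  intro n m f u T ex hf hex h
  have h' : Gl.Cmp (𝓝 u) (fun z => ∑ k, ‖f k z‖) (fun z => ∏ l ∈ T, ‖z l‖ ^ ex l) := h
  have key : ∀ l ∈ T, u l = 0 → ((⌈ex l⌉₊ : ℕ) : ℝ) = ex l := by
    intro l hl hul
    let γ : ℂ → Fin n → ℂ := fun s i => if i = l then 0 else u i + s
    have hγ : Tendsto γ (𝓝 0) (𝓝 u) := by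
      refine tendsto_pi_nhds.2 fun i => ?_
      by_cases hi : i = l
      · simp only [γ, if_pos hi]
        rw [hi, hul]
        exact tendsto_const_nhds
      · simp only [γ, if_neg hi]
        simpa using (tendsto_const_nhds (x := u i)).add (tendsto_id (x := 𝓝 (0 : ℂ)))
    have hne : ∀ i, ∀ᶠ s in 𝓝[≠] (0 : ℂ), u i + s ≠ 0 := by
      intro i
      by_cases hi : u i = 0
      · filter_upwards [self_mem_nhdsWithin] with s hs
        rwa [hi, zero_add]
      · refine nhdsWithin_le_nhds ((continuousAt_const.add continuousAt_id).eventually_ne ?_)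
        simpa using hi
    obtain ⟨s, ⟨h1, h2⟩, h3⟩ := (((hγ.eventually (h'.ev.and
      (eventually_all.2 fun k => (hf k).eventually_analyticAt))).filter_mono
        nhdsWithin_le_nhds).and (eventually_all.2 hne)).exists
    have h0 : update (γ s) l 0 = γ s := update_eq_self_iff.2 (by simp [γ])
    have han : AnalyticAt ℂ (fun t : ℂ => update (γ s) l t) 0 := by
      refine analyticAt_pi_iff.2 fun i => ?_
      by_cases hi : i = l
      · subst hi
        simp only [update_self]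
        exact analyticAt_id
      · simpa [update_of_ne hi] using analyticAt_const
    have ht : Tendsto (fun t : ℂ => update (γ s) l t) (𝓝 0) (𝓝 (γ s)) := by
      have := han.continuousAt.tendsto
      rwa [h0] at this
    have hP : 0 < ∏ i ∈ T.erase l, ‖γ s i‖ ^ ex i := Finset.prod_pos fun i hi =>
      Real.rpow_pos_of_pos (norm_pos_iff.2 (by
        simp only [γ, if_neg (Finset.ne_of_mem_erase hi)]
        exact h3 i)) _
    refine int_one (g := fun k t => f k (update (γ s) l t))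
      (fun k => AnalyticAt.comp (h0.symm ▸ h2 k) han) ((h1.comp ht).trans ?_)
    have h4 := (Gl.Cmp.refl (𝓝 (0 : ℂ)) fun t => ‖t‖ ^ ex l).mul
      (Gl.Cmp.of_pos (u := (0 : ℂ)) continuousAt_const continuousAt_const hP one_pos)
      (fun _ => by positivity) (fun _ => by positivity) (fun _ => hP.le) fun _ => zero_le_one
    refine h4.congr (Eventually.of_forall fun t => ?_) (Eventually.of_forall fun t => mul_one _)
    show ‖t‖ ^ ex l * ∏ i ∈ T.erase l, ‖γ s i‖ ^ ex i = ∏ i ∈ T, _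
    rw [← Finset.mul_prod_erase T _ hl, update_self]
    congr 1
    exact Finset.prod_congr rfl fun i hi => by rw [update_of_ne (Finset.ne_of_mem_erase hi)]
  refine ⟨fun l => if l ∈ T ∧ u l = 0 then ⌈ex l⌉₊ else 0, fun l hl => ?_, ?_⟩
  · by_contra hT
    exact hl (if_neg fun h => hT h.1)
  refine h'.trans ?_
  have hc : ContinuousAt (fun z : Fin n → ℂ => ∏ l ∈ T.filter (fun l => ¬ u l = 0), ‖z l‖ ^ ex l) u :=
    tendsto_finsetProd _ fun l _ =>
      ((continuous_apply l).continuousAt.norm.rpow_const (Or.inr (hex l))).tendsto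
  have hP : 0 < ∏ l ∈ T.filter (fun l => ¬ u l = 0), ‖u l‖ ^ ex l := Finset.prod_pos fun i hi =>
    Real.rpow_pos_of_pos (norm_pos_iff.2 (Finset.mem_filter.1 hi).2) _
  have h4 := (Gl.Cmp.refl (𝓝 u) fun z => ∏ l ∈ T.filter (fun l => u l = 0), ‖z l‖ ^ ex l).mul
    (Gl.Cmp.of_pos hc continuousAt_const hP one_pos)
    (fun _ => by positivity) (fun _ => by positivity) (fun _ => by positivity) fun _ => zero_le_one
  refine h4.congr (Eventually.of_forall fun z => Finset.prod_filter_mul_prod_filter_not _ _ _)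
    (Eventually.of_forall fun z => ?_)
  show (∏ l ∈ T.filter (fun l => u l = 0), ‖z l‖ ^ ex l) * 1 = ‖∏ l, z l ^ (if l ∈ T ∧ u l = 0 then ⌈ex l⌉₊ else 0)‖
  rw [mul_one, norm_prod, Finset.prod_filter, ← Finset.prod_subset (Finset.subset_univ T)]
  · refine Finset.prod_congr rfl fun l hl => ?_
    by_cases hu : u l = 0
    · rw [if_pos hu, if_pos ⟨hl, hu⟩, norm_pow, ← Real.rpow_natCast, key l hl hu]
    · rw [if_neg hu, if_neg fun h => hu h.2, pow_zero, norm_one]
  · intro l _ hl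
    rw [if_neg fun h => hl h.1, pow_zero, norm_one]

end Vale.Agent.P277Z.Hir
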