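import Vale.Agent.P277Z.Hir.MainL
import Vale.Agent.P277Z.Hir.DAll
import Vale.Agent.P277Z.Hir.DTot
import Vale.Agent.P277Z.Hir.MSm
import Vale.Agent.P277Z.Pos.Root
import Vale.Agent.P277Z.Pos.Out
import Vale.Agent.P277Z.Pos.Cmp
import Vale.Agent.P277Z.Pos.Rem
import Vale.Agent.P277Z.Pos.Bl

/-!
# P277, resolution with a given boundary: the remaining hypotheses
-/

namespace Vale.Agent.P277Z.Hir

open Gl Vale.Agent.P277Z.Pos

theorem stMainL_of' (hI : PINIT) (hR : PREF) : StMainL :=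
  stMainL_of stStartL hI hR pbl (pout (all cmp) rem) stDestack stTotD
    (fun _ _ _ _ _ _ _ _ _ _ s h => h.stepsD hR pbl stBl stRootA s) stDesc
    (stRoot stRootA (stRootC stRootA stDesc) stDesc) stInt

end Vale.Agent.P277Z.Hir
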