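import Mathlib

/-!
# P277, resolution, local part: growth filtrations, weighted centres, certificates
-/

open Filter Topology Set Function

noncomputable section

namespace Vale.Agent.P277Z.Hir.L

variable {ι : Type} [Fintype ι] [DecidableEq ι]

/-- The function `f` has weighted order at least `b` at `q` for the functions `y · i` with weights
`w i` (indices of weight zero are ignored). -/
def Le (y : (ι → ℂ) → ι → ℂ) (w : ι → ℚ) (f : (ι → ℂ) → ℂ) (b : ℚ) (q : ι → ℂ) : Prop :=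
  ∃ C : ℝ, ∀ᶠ z in 𝓝 q, ∀ t : ℝ, 0 < t → t ≤ 1 →
    (∀ i, w i ≠ 0 → ‖y z i‖ ≤ t ^ (w i : ℝ)) → ‖f z‖ ≤ C * t ^ (b : ℝ)

/-- The map `y` is a system of local coordinates at `q`. -/
def IsCo (y : (ι → ℂ) → ι → ℂ) (q : ι → ℂ) : Prop :=
  AnalyticAt ℂ y q ∧ Bijective (fderiv ℂ y q)

/-- `f` is a unit times `g` near `q`. -/
def Ass (f g : (ι → ℂ) → ℂ) (q : ι → ℂ) : Prop :=
  ∃ u : (ι → ℂ) → ℂ, AnalyticAt ℂ u q ∧ u q ≠ 0 ∧ f =ᶠ[𝓝 q] fun z => u z * g z

/-- A weighted centre through `q`: coordinates `y`, weights `w`, flags `dv`; a flagged coordinate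
is a unit times one of the standard coordinates `z σ` with `D σ`. -/
structure IsCtr (D : ι → Bool) (y : (ι → ℂ) → ι → ℂ) (w : ι → ℚ) (dv : ι → Bool) (q : ι → ℂ) :
    Prop where
  co : IsCo y q
  nonneg : ∀ j, 0 ≤ w j
  zero : ∀ j, w j ≠ 0 → y q j = 0
  flag : ∀ j, w j ≠ 0 → dv j = true → ∃ σ, D σ = true ∧ Ass (fun z => y z j) (fun z => z σ) q

/-- Marked functions. -/
abbrev Fam (ι : Type) : Type := Set (((ι → ℂ) → ℂ) × ℚ)

/-- All members are analytic at `q`. -/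
def Fam.An (F : Fam ι) (q : ι → ℂ) : Prop := ∀ p ∈ F, AnalyticAt ℂ p.1 q

/-- The centre is admissible for the marked family. -/
def Adm (y : (ι → ℂ) → ι → ℂ) (w : ι → ℚ) (F : Fam ι) (q : ι → ℂ) : Prop :=
  ∀ p ∈ F, Le y w p.1 p.2 q

/-- Keys and types. -/
abbrev Key : Type := ℚ ×ₗ Bool

abbrev Ty : Type := Lex (Key →₀ ℕ)

/-- The key of weight `c` and flag `b`. -/
def key (c : ℚ) (b : Bool) : Key := toLex (c⁻¹, b)

/-- The type of a centre; the maximal centre is the one with the smallest type. -/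
def ty (w : ι → ℚ) (dv : ι → Bool) : Ty :=
  toLex (∑ j ∈ Finset.univ.filter (fun j => w j ≠ 0), Finsupp.single (key (w j) (dv j)) 1)

/-- Derivative along the coordinate `i`. -/
def pd (i : ι) (f : (ι → ℂ) → ℂ) : (ι → ℂ) → ℂ := fun z => fderiv ℂ f z (Pi.single i 1)

/-- Restriction to the hyperplane `z i = 0`, as a function of all variables. -/
def res (i : ι) (f : (ι → ℂ) → ℂ) : (ι → ℂ) → ℂ := fun z => f (update z i 0)

/-- `g` is obtained from `f` by `e` vector fields analytic at `q` which kill the coordinates in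
`S`. -/
inductive Der (S : Set ι) (q : ι → ℂ) (f : (ι → ℂ) → ℂ) : ℕ → ((ι → ℂ) → ℂ) → Prop
  | base : Der S q f 0 f
  | step {e : ℕ} {g : (ι → ℂ) → ℂ} (X : (ι → ℂ) → ι → ℂ) (g' : (ι → ℂ) → ℂ) :
      Der S q f e g → AnalyticAt ℂ X q → (∀ j ∈ S, ∀ᶠ z in 𝓝 q, X z j = 0) →
      (g' =ᶠ[𝓝 q] fun z => fderiv ℂ g z (X z)) → Der S q f (e + 1) g'

/-- The coefficient family on the hyperplane `z i = 0`. -/
def next (F : Fam ι) (i : ι) (c : ℚ) : Fam ι :=
  {p | ∃ f d, ∃ j : ℕ, (f, d) ∈ F ∧ j * c < d ∧ p = (res i ((pd i)^[j] f), d - j * c)}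

/-- The witness for the coordinate `i` of weight `c`. -/
def Wit (D : ι → Bool) (q : ι → ℂ) (S : Set ι) (F : Fam ι) (i : ι) (c : ℚ) : Prop :=
  ∃ f d g, ∃ e : ℕ, (f, d) ∈ F ∧ d = (e + 1) * c ∧ Der S q f e g ∧
    (D i = true → pd i g q ≠ 0) ∧ (D i = false → g =ᶠ[𝓝 q] fun z => z i)

/-- Certificate at `q` that the standard coordinates with weights `v` form the maximal centre. -/
inductive Cert (D : ι → Bool) (q : ι → ℂ) : Set ι → (ι → ℚ) → Fam ι → Prop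
  | nil (S : Set ι) (F : Fam ι) : (∀ p ∈ F, p.1 =ᶠ[𝓝 q] 0) → Cert D q S 0 F
  | cons (S : Set ι) (v : ι → ℚ) (F : Fam ι) (i : ι) : (∀ m, 0 ≤ v m) → (∀ m ∈ S, v m = 0) →
      0 < v i → (∀ m, v m ≠ 0 → key (v i) (D i) ≤ key (v m) (D m)) → Wit D q S F i (v i) →
      (q i = 0 → Cert D q (insert i S) (update v i 0) (next F i (v i))) → Cert D q S v F

/-- Types which can occur for families with markings in `Δ`. -/
inductive Reach : Set ℚ → Ty → Prop
  | nil (Δ : Set ℚ) : Reach Δ 0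
  | cons (Δ : Set ℚ) (c : ℚ) (b : Bool) (e : ℕ) (τ : Ty) : 0 < c → (e + 1) * c ∈ Δ →
      (∀ k, ofLex τ k ≠ 0 → key c b ≤ k) →
      Reach {x | ∃ d ∈ Δ, ∃ j : ℕ, j * c < d ∧ x = d - j * c} τ →
      Reach Δ (toLex (Finsupp.single (key c b) 1) + τ)

/-- The cobordant blow-up map: the coordinate `none` is the equation of the new divisor. -/
def bl (ω : ι → ℕ) (u : Option ι → ℂ) : ι → ℂ := fun i => u none ^ ω i * u (some i)

/-- `f'` is the weak transform of `f` with exponent `n` near `q'`. -/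
def Lift (ω : ι → ℕ) (n : ℕ) (f : (ι → ℂ) → ℂ) (f' : (Option ι → ℂ) → ℂ) (q' : Option ι → ℂ) :
    Prop :=
  AnalyticAt ℂ f' q' ∧ (fun u => f (bl ω u)) =ᶠ[𝓝 q'] fun u => u none ^ n * f' u

/-- `F'` is the family of weak transforms of `F` (weights `ω = l v`). -/
structure LiftF (ω : ι → ℕ) (l : ℕ) (F : Fam ι) (F' : Fam (Option ι)) (q' : Option ι → ℂ) :
    Prop where
  up : ∀ p ∈ F, ∃ f', (f', p.2) ∈ F' ∧ ∃ n : ℕ, (n : ℚ) = l * p.2 ∧ Lift ω n p.1 f' q'
  down : ∀ p' ∈ F', ∃ f, (f, p'.2) ∈ F ∧ ∃ n : ℕ, (n : ℚ) = l * p'.2 ∧ Lift ω n f p'.1 q'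

/-- The slice chart `i` of the weighted blow-up: the coordinate `i` is the equation of the new
divisor. -/
def sl (ω : ι → ℕ) (i : ι) (z : ι → ℂ) : ι → ℂ :=
  fun m => if m = i then z i ^ ω i else z i ^ ω m * z m

/-- `f'` is the weak transform of `f` with exponent `n` near the point `z` of the slice `i`. -/
def LiftS (ω : ι → ℕ) (i : ι) (n : ℕ) (f f' : (ι → ℂ) → ℂ) (z : ι → ℂ) : Prop :=
  AnalyticAt ℂ f' z ∧ (fun u => f (sl ω i u)) =ᶠ[𝓝 z] fun u => u i ^ n * f' u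

end Vale.Agent.P277Z.Hir.L
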