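import Vale.Agent.P277Z.Hir.Loc
import Mathlib.Analysis.Normed.Module.FiniteDimension

/-! P277Z, weighted blow-ups: local isomorphisms lift to the blow-ups of the maximal centres. -/

set_option linter.unusedSectionVars false

open Filter Topology Set

noncomputable section

namespace Vale.Agent.P277Z.Hir

namespace LFH

theorem ty_eq {k k' : ℕ} {ω ω' : ℕ → ℚ} {lb lb' : ℕ → ℕ} (h : mkTy k ω lb = mkTy k' ω' lb') :
    k = k' ∧ ∀ i < k, ω i = ω' i := by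
  have h1 : ∀ i, (if i < k then ent (ω i) (lb i) else ⊤) =
      if i < k' then ent (ω' i) (lb' i) else ⊤ := congrFun (toLex.injective h)
  have h2 : k = k' := by
    refine eq_of_forall_lt_iff fun i => ?_
    have := h1 i
    by_cases a : i < k <;> by_cases b : i < k' <;> simp only [a, b] <;> simp [a, b, ent] at this
  subst h2
  refine ⟨rfl, fun i hi => ?_⟩
  have := h1 i
  rw [if_pos hi, if_pos hi] at this
  exact inv_injective (congrArg Prod.fst (toLex.injective (WithTop.coe_injective this)))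

variable {ι ρ : Type} [Fintype ι] [DecidableEq ι] [Fintype ρ] {nu nu₁ : ι → ℕ}

theorem sum_wt {U : Set (W ι)} {κ : Type} {F : κ → W ι → ℂ} (C : Cert nu U F) {ℓ : ℕ}
    {w : ι → ℕ} (h : C.Wt ℓ w) :
    ((∑ l, w l : ℕ) : ℚ) = ∑ i ∈ Finset.range C.k, ℓ * C.ω i := by
  rw [← Finset.sum_subset (Finset.subset_univ ((Finset.range C.k).image C.m)) fun l _ hl =>
    h.2 l fun i hi e => hl (Finset.mem_image.2 ⟨i, Finset.mem_range.2 hi, e⟩),
    Finset.sum_image fun i hi j hj =>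
      C.inj i (Finset.mem_range.1 hi) j (Finset.mem_range.1 hj), Nat.cast_sum]
  exact Finset.sum_congr rfl fun i hi => h.1 i (Finset.mem_range.1 hi)

omit [DecidableEq ι] in
theorem slice (z : W ρ × W ι) : Tendsto (fun u : W ι => (z.1, u)) (𝓝 z.2) (𝓝 z) :=
  (Continuous.prodMk_right z.1).continuousAt

omit [DecidableEq ι] in
theorem an_slice {E : Type} [NormedAddCommGroup E] [NormedSpace ℂ E] {f : W ρ × W ι → E}
    {z : W ρ × W ι} (h : AnalyticAt ℂ f z) : AnalyticAt ℂ (fun u => f (z.1, u)) z.2 :=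
  h.comp_of_eq (analyticAt_const.prod analyticAt_id) rfl

omit [DecidableEq ι] in
theorem liso {Φ : W ρ × W ι → W ι} {t : W ρ} {q : W ι} (h : PIso nu nu₁ Φ t q) :
    ∀ᶠ z in 𝓝 (t, q), LIso nu nu₁ (fun u => Φ (z.1, u)) z.2 := by
  have e : ∀ z : W ρ × W ι, AnalyticAt ℂ Φ z → fderiv ℂ (fun u => Φ (z.1, u)) z.2 =
      (fderiv ℂ Φ z).comp (.inr ℂ _ _) := fun z hz =>
    (hz.differentiableAt.hasFDerivAt.comp z.2 (hasFDerivAt_prodMk_right z.1 z.2)).fderiv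
  have h1 : ContinuousAt (fun z => ((fderiv ℂ Φ z).comp (.inr ℂ _ _)).det) (t, q) :=
    ContinuousLinearMap.continuous_det.continuousAt.comp
      (h.an.fderiv.continuousAt.clm_comp continuousAt_const)
  have h2 : ∀ l l₁, ∀ᶠ z in 𝓝 (t, q), nu l ≠ 0 → nu₁ l₁ = nu l → ∃ e : W ι → ℂ,
      AnalyticAt ℂ e z.2 ∧ e z.2 ≠ 0 ∧ ∀ᶠ u in 𝓝 z.2, Φ (z.1, u) l₁ = e u * u l := fun l l₁ => by
    by_cases a : nu l ≠ 0 ∧ nu₁ l₁ = nu l
    · obtain ⟨f, f1, f2, f3⟩ := h.div l l₁ a.1 a.2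
      filter_upwards [f1.eventually_analyticAt, f1.continuousAt.eventually_ne f2,
        f3.eventually_nhds] with z b1 b2 b3 _ _
      exact ⟨_, an_slice b1, b2, (slice z).eventually b3⟩
    · exact .of_forall fun z b1 b2 => absurd ⟨b1, b2⟩ a
  have h3 : ∀ l, ∀ᶠ z in 𝓝 (t, q), z.2 l = 0 → q l = 0 := fun l => by
    by_cases a : q l = 0
    · exact .of_forall fun _ _ => a
    · exact ((continuousAt_pi.1 (continuousAt_snd (p := (t, q))) l).eventually_ne a).mono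
        fun z b c => absurd c b
  have h4 : ∀ l, ∀ᶠ z in 𝓝 (t, q), Φ z l = 0 → Φ (t, q) l = 0 := fun l => by
    by_cases a : Φ (t, q) l = 0
    · exact .of_forall fun _ _ => a
    · exact ((continuousAt_pi.1 h.an.continuousAt l).eventually_ne a).mono fun z b c => absurd c b
  filter_upwards [h.an.eventually_analyticAt, h1.eventually_ne (e _ h.an ▸ h.det),
    eventually_all.2 fun l => eventually_all.2 (h2 l), eventually_all.2 h3, eventually_all.2 h4]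
    with z a1 a2 a3 a4 a5
  exact ⟨an_slice a1, e z a1 ▸ a2, a3, fun l b c => h.mt l b (a4 l c),
    fun l b c => h.mt' l b (a5 l c)⟩

omit [Fintype ι] [DecidableEq ι] in
theorem le_nrm {κ : Type} [Fintype κ] (F : κ → W ι → ℂ) (a : κ) (u : W ι) :
    ‖F a u‖ ≤ ∑ b, ‖F b u‖ :=
  Finset.single_le_sum (f := fun b => ‖F b u‖) (fun _ _ => norm_nonneg _) (Finset.mem_univ a)

/-- the pull back of the maximal centre is the maximal centre -/
theorem back (hU : StU) (hA : StA) (hC : StC) (hI : StI) (h0 : Lbl nu) (h1 : Lbl nu₁)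
    {U U₁ : Set (W ι)} {κ κ₁ : Type} [Fintype κ] [Fintype κ₁] {F : κ → W ι → ℂ}
    {F₁ : κ₁ → W ι → ℂ} (C : Cert nu U F) (C₁ : Cert nu₁ U₁ F₁) (hty : C₁.ty = C.ty)
    {Φ : W ι → W ι} {q : W ι} (hq : q ∈ U) (hq₁ : Φ q ∈ U₁) (hΦ : LIso nu nu₁ Φ q)
    (hc : Cmp (𝓝 q) (fun u => nrm F₁ (Φ u)) (nrm F)) (hZ : Φ q ∈ C₁.Z) :
    q ∈ C.Z ∧ ∀ i < C₁.k, Fil C.k (crd C.m) C.ω q (C₁.ω i) fun u => Φ u (C₁.m i) := by
  obtain ⟨-, -, J, a1, a2, a3, a4, a5⟩ := hA ι nu₁ h1 U₁ κ₁ F₁ C₁ _ hq₁ hZ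
  obtain ⟨J', b1, b2⟩ := hC ι nu nu₁ h0 h1 Φ q hΦ J
  obtain ⟨c, -, hc⟩ := hc
  have b3 : J'.Adm F := fun a => hI ι nu q J' κ₁ (fun a u => F₁ a (Φ u))
    (fun a => b2 _ _ (a1 a)) (F a) (C.anF a q hq) c
    (hc.mono fun u hu => (le_nrm F a u).trans hu.2)
  obtain ⟨d1, d2⟩ := (hU ι nu h0 U κ F C q hq J' b3).2 (b1.trans (a2.trans hty))
  refine ⟨d1, fun i hi => (d2 _ _).1 (b2 _ (fun u => u (C₁.m i)) ?_)⟩
  rw [a3, a4, a5]
  have := Fil.mul (y := crd C₁.m) (ω := C₁.ω) i hi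
    (Fil.base (q := Φ q) (f := fun _ => 1) le_rfl analyticAt_const)
  rw [zero_add] at this
  exact this.congr (.of_forall fun u => mul_one _)

omit [DecidableEq ι] in
theorem an_pr (w : ι → ℕ) (u : W (Option ι)) : AnalyticAt ℂ (pr w) u :=
  analyticAt_pi_iff.2 fun l => ((analyticAt_pi_iff.1 analyticAt_id none).pow _).mul
    (analyticAt_pi_iff.1 analyticAt_id (some l))

end LFH

open LFH in
theorem stLF (hU : StU) (hA : StA) (hC : StC) (hI : StI) (hL : StL) (hInv : StInv) : StLF := by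
  intro ι ρ _ _ _ nu nu₁ h0 h1 U U₁ κ κ₁ _ _ F F₁ C C₁ hty ℓ w w₁ hw hw₁ Φ t q' hq hZ hq₁ hΦ hc
  obtain ⟨c, c0, hc⟩ := hc
  have key : ∀ᶠ z in 𝓝 (t, pr w q'), (z.2 ∈ C.Z → Φ z ∈ C₁.Z) ∧ (Φ z ∈ C₁.Z → z.2 ∈ C.Z ∧
      ∀ i < C₁.k, Fil C.k (crd C.m) C.ω z.2 (C₁.ω i) fun u => Φ (z.1, u) (C₁.m i)) := by
    filter_upwards [liso hΦ, hc.eventually_nhds,
      continuous_snd.continuousAt.eventually (C.isOpen.mem_nhds hq),
      hΦ.an.continuousAt.eventually (C₁.isOpen.mem_nhds hq₁)] with z a1 a2 a3 a4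
    have a5 : Cmp (𝓝 z.2) (fun u => nrm F₁ (Φ (z.1, u))) (nrm F) :=
      ⟨c, c0, (slice z).eventually a2⟩
    refine ⟨fun h => ?_, back hU hA hC hI h0 h1 C C₁ hty a3 a4 a1 a5⟩
    obtain ⟨-, -, J, b1, b2, -⟩ := hA ι nu h0 U κ F C _ a3 h
    obtain ⟨⟨J₁, b3, b4⟩, -⟩ := (hInv ι nu nu₁ h0 h1 _ _ a1 κ κ₁ F F₁ (fun a => C.anF a _ a3)
      (fun a => C₁.anF a _ a4) a5 C.ty).2
      ⟨⟨J, b1, b2⟩, fun J' b => (hU ι nu h0 U κ F C _ a3 J' b).1⟩
    exact ((hU ι nu₁ h1 U₁ κ₁ F₁ C₁ _ a4 J₁ b3).2 (b4.trans hty.symm)).1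
  refine ⟨key.mono fun z h => ⟨h.1, fun a => (h.2 a).1⟩, ?_, ?_⟩
  · obtain ⟨e1, e2⟩ := ty_eq hty
    refine Nat.cast_injective (R := ℚ) ?_
    rw [sum_wt C hw, sum_wt C₁ hw₁, ← e1]
    exact Finset.sum_congr rfl fun i hi => by rw [e2 i (Finset.mem_range.1 hi)]
  · have h : ∀ l, ∃ G : W ρ × W (Option ι) → ℂ, AnalyticAt ℂ G (t, q') ∧
        ∀ᶠ z in 𝓝 (t, q'), Φ (z.1, pr w z.2) l = z.2 none ^ w₁ l * G z := fun l => by
      by_cases a : ∃ i < C₁.k, C₁.m i = l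
      · obtain ⟨i, hi, rfl⟩ := a
        exact hL ι ρ C.k C.m C.ω C.inj C.pos ℓ w hw.1 (C₁.ω i) _ (hw₁.1 i hi).le
          (fun z => Φ z (C₁.m i)) t q' hZ (analyticAt_pi_iff.1 hΦ.an _)
          (key.mono fun z h b => (h.2 (h.1 b)).2 i hi)
      · refine ⟨fun z => Φ (z.1, pr w z.2) l, (analyticAt_pi_iff.1 hΦ.an l).comp_of_eq
          (analyticAt_fst.prod ((an_pr w q').comp_of_eq analyticAt_snd rfl)) rfl,
          .of_forall fun z => ?_⟩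
        rw [hw₁.2 l fun i hi e => a ⟨i, hi, e⟩, pow_zero, one_mul]
    choose G g1 g2 using h
    exact ⟨fun z l => G l z, analyticAt_pi_iff.2 g1, eventually_all.2 g2⟩

end Vale.Agent.P277Z.Hir
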