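import Vale.Agent.P277Z.Hir.LDefs

/-!
# P277, resolution, local part: the statements
-/

open Filter Topology Set Function

noncomputable section

namespace Vale.Agent.P277Z.Hir.L

/-- Maximality and uniqueness of the certified centre. -/
def StU : Prop :=
  ∀ (ι : Type) [Fintype ι] [DecidableEq ι] (D : ι → Bool) (q : ι → ℂ) (S : Set ι) (v : ι → ℚ)
    (F : Fam ι), Cert D q S v F → F.An q →
    ∀ (y : (ι → ℂ) → ι → ℂ) (w : ι → ℚ) (dv : ι → Bool), IsCtr D y w dv q → Adm y w F q →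
      ty v D ≤ ty w dv ∧ (ty v D = ty w dv →
        (∀ i, v i ≠ 0 → q i = 0) ∧ (∀ i, v i ≠ 0 → Le y w (fun z => z i) (v i) q) ∧
        (∀ j, w j ≠ 0 → Le id v (fun z => y z j) (w j) q))

/-- The certified centre is admissible. -/
def StAdm : Prop :=
  ∀ (ι : Type) [Fintype ι] [DecidableEq ι] (D : ι → Bool) (q : ι → ℂ) (S : Set ι) (v : ι → ℚ)
    (F : Fam ι), Cert D q S v F → F.An q → Adm id v F q

/-- Certificates persist near a point of the centre. -/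
def StOpen : Prop :=
  ∀ (ι : Type) [Fintype ι] [DecidableEq ι] (D : ι → Bool) (p : ι → ℂ) (S : Set ι) (v : ι → ℚ)
    (F : Fam ι), Cert D p S v F → F.Finite → F.An p → (∀ i, v i ≠ 0 → p i = 0) →
    ∀ᶠ q in 𝓝 p, Cert D q S v F

/-- Existence of a certificate after a change of the free coordinates. -/
def StE : Prop :=
  ∀ (ι : Type) [Fintype ι] [DecidableEq ι] (D : ι → Bool) (p : ι → ℂ) (F : Fam ι), F.Finite →
    F.An p → (∀ f ∈ F, 0 < f.2 ∧ f.1 p = 0) → (∀ σ, D σ = true → p σ = 0) →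
    ∃ (ψ : (ι → ℂ) → ι → ℂ) (v : ι → ℚ), IsCo ψ 0 ∧ ψ 0 = p ∧
      (∀ σ, D σ = true → ∀ z, ψ z σ = z σ) ∧
      Cert D 0 ∅ v ((fun f => (f.1 ∘ ψ, f.2)) '' F)

/-- The type of a certified centre is reachable. -/
def StReach : Prop :=
  ∀ (ι : Type) [Fintype ι] [DecidableEq ι] (D : ι → Bool) (q : ι → ℂ) (S : Set ι) (v : ι → ℚ)
    (F : Fam ι) (Δ : Set ℚ), Cert D q S v F → (∀ i, v i ≠ 0 → q i = 0) → (∀ p ∈ F, p.2 ∈ Δ) →
    Reach Δ (ty v D)

/-- No infinite strictly increasing chain of reachable types of bounded length. -/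
def StWF : Prop :=
  ∀ (N : ℕ) (Δ : Set ℚ), Δ.Finite →
    WellFounded fun τ τ' : {τ : Ty // Reach Δ τ ∧ (ofLex τ).degree ≤ N} => τ'.1 < τ.1

/-- Division on the blow-up. -/
def StDiv : Prop :=
  ∀ (ι : Type) [Fintype ι] [DecidableEq ι] (v : ι → ℚ) (ω : ι → ℕ) (l n : ℕ) (b : ℚ)
    (f : (ι → ℂ) → ℂ) (q' : Option ι → ℂ), 0 < l → (∀ i, (ω i : ℚ) = l * v i) →
    (n : ℚ) ≤ l * b → AnalyticAt ℂ f (bl ω q') → Le id v f b (bl ω q') →
    ∃ f', Lift ω n f f' q'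

/-- Certificates lift to the blow-up. -/
def StT : Prop :=
  ∀ (ι : Type) [Fintype ι] [DecidableEq ι] (D : ι → Bool) (b : Bool) (ω : ι → ℕ) (l : ℕ)
    (q' : Option ι → ℂ) (v : ι → ℚ) (F : Fam ι) (F' : Fam (Option ι)),
    (∀ i, (ω i : ℚ) = l * v i) → Cert D (bl ω q') ∅ v F → F.An (bl ω q') → LiftF ω l F F' q' →
    Cert (fun o => o.elim b D) q' ∅ (fun o => o.elim 0 v) F'

/-- Division on a slice chart. -/
def StDivS : Prop :=
  ∀ (ι : Type) [Fintype ι] [DecidableEq ι] (v : ι → ℚ) (ω : ι → ℕ) (l n : ℕ) (b : ℚ) (i : ι)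
    (f : (ι → ℂ) → ℂ) (z : ι → ℂ), 0 < l → (∀ m, (ω m : ℚ) = l * v m) →
    (n : ℚ) ≤ l * b → AnalyticAt ℂ f (sl ω i z) → Le id v f b (sl ω i z) →
    ∃ f', LiftS ω i n f f' z

/-- The type strictly increases on a slice chart of the blow-up of the certified centre. -/
def StDrop : Prop :=
  ∀ (ι : Type) [Fintype ι] [DecidableEq ι] (D : ι → Bool) (ω : ι → ℕ) (l : ℕ) (i : ι)
    (z : ι → ℂ) (v : ι → ℚ) (F F' : Fam ι), (∀ m, (ω m : ℚ) = l * v m) → 0 < ω i →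
    Cert D (sl ω i z) ∅ v F → F.An (sl ω i z) →
    (∀ p ∈ F, ∃ f', (f', p.2) ∈ F' ∧ ∃ n : ℕ, (n : ℚ) = l * p.2 ∧ LiftS ω i n p.1 f' z) →
    ∀ (y : (ι → ℂ) → ι → ℂ) (w : ι → ℚ) (dv : ι → Bool), IsCtr (update D i true) y w dv z →
      Adm y w F' z → ty v D < ty w dv

end Vale.Agent.P277Z.Hir.L
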