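import Vale.Agent.P277Z.Hir.LSpec

/-!
# P277, resolution, local part: reachable types and termination
-/

open Filter Topology Set Function

noncomputable section

namespace Vale.Agent.P277Z.Hir.L

namespace LW

variable {ι : Type} [Fintype ι] [DecidableEq ι]

omit [DecidableEq ι] in
theorem ty_zero (D : ι → Bool) : ty (0 : ι → ℚ) D = 0 := by
  simp [ty]

theorem ty_update (v : ι → ℚ) (D : ι → Bool) (i : ι) (hi : v i ≠ 0) :
    ty v D = toLex (Finsupp.single (key (v i) (D i)) 1) + ty (update v i 0) D := by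
  unfold ty
  rw [← toLex_add]
  congr 1
  have h1 : Finset.univ.filter (fun j => update v i 0 j ≠ 0) =
      (Finset.univ.filter (fun j => v j ≠ 0)).erase i := by
    ext j
    by_cases h : j = i
    · subst h; simp
    · simp [h]
  rw [h1, ← Finset.add_sum_erase _ _ (a := i) (by simpa using hi)]
  congr 1
  refine Finset.sum_congr rfl fun j hj => ?_
  rw [update_of_ne (Finset.ne_of_mem_erase hj)]

omit [DecidableEq ι] in
theorem ty_supp (v : ι → ℚ) (D : ι → Bool) (k : Key) (hk : ofLex (ty v D) k ≠ 0) :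
    ∃ m, v m ≠ 0 ∧ k = key (v m) (D m) := by
  by_contra h
  push Not at h
  apply hk
  unfold ty
  rw [ofLex_toLex, Finsupp.finsetSum_apply]
  refine Finset.sum_eq_zero fun j hj => ?_
  have := h j (by simpa using hj)
  exact Finsupp.single_eq_of_ne this

omit [DecidableEq ι] in
theorem ty_degree (v : ι → ℚ) (D : ι → Bool) : (ofLex (ty v D)).degree ≤ Fintype.card ι := by
  unfold ty
  rw [ofLex_toLex, map_sum]
  simp only [Finsupp.degree_single, Finset.sum_const, smul_eq_mul, mul_one]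
  exact Finset.card_le_univ _

theorem reach_inv {Δ : Set ℚ} {τ : Ty} (h : Reach Δ τ) (h0 : τ ≠ 0) :
    ∃ (c : ℚ) (b : Bool) (e : ℕ) (σ : Ty), 0 < c ∧ (e + 1) * c ∈ Δ ∧
      (∀ k, ofLex σ k ≠ 0 → key c b ≤ k) ∧
      Reach {x | ∃ d ∈ Δ, ∃ j : ℕ, j * c < d ∧ x = d - j * c} σ ∧
      τ = toLex (Finsupp.single (key c b) 1) + σ := by
  cases h with
  | nil => exact absurd rfl h0
  | cons _ c b e σ h1 h2 h3 h4 => exact ⟨c, b, e, σ, h1, h2, h3, h4, rfl⟩

theorem key_anti {k k' : Key} {σ σ' : Ty} (h' : ∀ j, ofLex σ' j ≠ 0 → k' ≤ j)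
    (hlt : toLex (Finsupp.single k 1) + σ < toLex (Finsupp.single k' 1) + σ') : k' ≤ k := by
  by_contra hk
  push Not at hk
  obtain ⟨i, h1, h2⟩ := Finsupp.Lex.lt_iff.mp hlt
  have hz : ∀ j, j < k' → ofLex (toLex (Finsupp.single k' 1) + σ' : Ty) j = 0 := by
    intro j hj
    rw [ofLex_add, ofLex_toLex, Finsupp.add_apply, Finsupp.single_eq_of_ne hj.ne]
    by_contra h
    exact absurd (h' j (by simpa using h)) (not_le.mpr hj)
  rcases lt_or_ge k i with h | h
  · have := h1 k h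
    rw [hz k hk, ofLex_add, ofLex_toLex, Finsupp.add_apply, Finsupp.single_eq_same] at this
    omega
  · rw [hz i (h.trans_lt hk)] at h2
    exact absurd h2 (Nat.not_lt_zero _)

theorem fin_next {Δ : Set ℚ} (hΔ : Δ.Finite) {c : ℚ} (hc : 0 < c) :
    {x | ∃ d ∈ Δ, ∃ j : ℕ, j * c < d ∧ x = d - j * c}.Finite := by
  have : {x | ∃ d ∈ Δ, ∃ j : ℕ, j * c < d ∧ x = d - j * c} ⊆
      ⋃ d ∈ Δ, (fun j : ℕ => d - j * c) '' Set.Iic ⌈d / c⌉₊ := by
    rintro x ⟨d, hd, j, hj, rfl⟩
    refine mem_biUnion hd ⟨j, ?_, rfl⟩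
    have h1 : (j : ℚ) ≤ d / c := by rw [le_div_iff₀ hc]; exact hj.le
    have h2 := h1.trans (Nat.le_ceil _)
    exact_mod_cast h2
  exact (hΔ.biUnion fun d _ => (Set.finite_Iic _).image _).subset this

theorem fin_keys {Δ : Set ℚ} (hΔ : Δ.Finite) (A : ℚ) :
    {c : ℚ | 0 < c ∧ c⁻¹ ≤ A ∧ ∃ e : ℕ, (e + 1) * c ∈ Δ}.Finite := by
  have : {c : ℚ | 0 < c ∧ c⁻¹ ≤ A ∧ ∃ e : ℕ, (e + 1) * c ∈ Δ} ⊆
      ⋃ d ∈ Δ, (fun e : ℕ => d / (e + 1)) '' Set.Iic ⌈d * A⌉₊ := by
    rintro c ⟨hc, hA, e, he⟩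
    refine mem_biUnion he ⟨e, ?_, ?_⟩
    · have h0 : (0 : ℚ) ≤ (e + 1) * c := by positivity
      have h1 : (e + 1 : ℚ) ≤ (e + 1) * c * A := by
        calc (e + 1 : ℚ) = (e + 1) * c * c⁻¹ := by field_simp
          _ ≤ (e + 1) * c * A := mul_le_mul_of_nonneg_left hA h0
      have h2 : (e : ℚ) ≤ ⌈(e + 1) * c * A⌉₊ := by
        have := h1.trans (Nat.le_ceil _)
        linarith
      exact_mod_cast h2
    · show (e + 1) * c / (e + 1) = c
      field_simp
  exact (hΔ.biUnion fun d _ => (Set.finite_Iic _).image _).subset this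

theorem noChain (N : ℕ) : ∀ (Δ : Set ℚ), Δ.Finite → ∀ f : ℕ → Ty,
    (∀ n, Reach Δ (f n) ∧ (ofLex (f n)).degree ≤ N) → (∀ n, f n < f (n + 1)) → False := by
  induction N with
  | zero =>
    intro Δ _ f hf hlt
    have h0 : ∀ n, f n = 0 := fun n => by
      have := (Finsupp.degree_eq_zero_iff _).mp (Nat.le_zero.mp (hf n).2)
      exact this
    have := hlt 0
    rw [h0, h0] at this
    exact lt_irrefl _ this
  | succ N ih =>
    intro Δ hΔ f hf hlt
    have hne : ∀ n, f (n + 1) ≠ 0 := fun n h => by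
      have := hlt n
      rw [h] at this
      exact absurd this (not_lt.mpr bot_le)
    choose c b e σ hc he hs hr hf' using fun n => reach_inv (hf (n + 1)).1 (hne n)
    have hmono : StrictMono f := strictMono_nat_of_lt_succ hlt
    have hk : ∀ n, (c n)⁻¹ ≤ (c 0)⁻¹ := by
      intro n
      rcases Nat.eq_zero_or_pos n with rfl | hn
      · exact le_rfl
      · have h1 : f (0 + 1) < f (n + 1) := hmono (by omega)
        rw [hf' 0, hf' n] at h1
        have h2 := key_anti (hs n) h1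
        unfold key at h2
        rcases Prod.Lex.toLex_le_toLex.mp h2 with h | h
        · exact h.le
        · exact h.1.le
    have hfin := (fin_keys hΔ (c 0)⁻¹).prod (Set.finite_univ (α := Bool))
    have := hfin.to_subtype
    obtain ⟨y, hy⟩ := Finite.exists_infinite_fiber
      (fun n : ℕ => (⟨(c n, b n), ⟨hc n, hk n, e n, he n⟩, trivial⟩ :
        ↥({c' : ℚ | 0 < c' ∧ c'⁻¹ ≤ (c 0)⁻¹ ∧ ∃ e : ℕ, (e + 1) * c' ∈ Δ} ×ˢ (univ : Set Bool))))
    have hinf : {n : ℕ | c n = y.1.1 ∧ b n = y.1.2}.Infinite := by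
      refine (Set.infinite_coe_iff.mp hy).mono fun n hn => ?_
      have : (c n, b n) = y.1 := congrArg Subtype.val hn
      exact ⟨congrArg Prod.fst this, congrArg Prod.snd this⟩
    have hφ := Nat.nth_strictMono hinf
    have hφm := Nat.nth_mem_of_infinite hinf
    set φ := Nat.nth (fun n => c n = y.1.1 ∧ b n = y.1.2) with hφd
    refine ih _ (fin_next hΔ y.2.1.1) (fun n => σ (φ n)) (fun n => ⟨?_, ?_⟩) fun n => ?_
    · have := hr (φ n)
      rwa [(hφm n).1] at this
    · have := (hf (φ n + 1)).2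
      rw [hf' (φ n), ofLex_add, ofLex_toLex, map_add, Finsupp.degree_single] at this
      omega
    · have h1 : f (φ n + 1) < f (φ (n + 1) + 1) :=
        hmono (Nat.succ_lt_succ (hφ (Nat.lt_succ_self n)))
      rw [hf' (φ n), hf' (φ (n + 1)), (hφm n).1, (hφm n).2, (hφm (n + 1)).1,
        (hφm (n + 1)).2] at h1
      exact lt_of_add_lt_add_left h1

end LW

theorem stReach : StReach := by
  intro ι _ _ D q S v F Δ h
  induction h generalizing Δ with
  | nil S F _ =>
    intro _ _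
    rw [LW.ty_zero]
    exact Reach.nil Δ
  | cons S v F i _ _ hi hk hw _ ih =>
    intro hq hF
    obtain ⟨f, d, g, e, hf, hd, -⟩ := hw
    rw [LW.ty_update v D i hi.ne']
    refine Reach.cons Δ (v i) (D i) e _ hi (hd ▸ hF _ hf) (fun k hk' => ?_)
      (ih (hq i hi.ne') _ (fun m hm => ?_) ?_)
    · obtain ⟨m, hm, rfl⟩ := LW.ty_supp _ _ _ hk'
      have hmi : m ≠ i := by rintro rfl; simp at hm
      rw [update_of_ne hmi] at hm ⊢
      exact hk m hm
    · have hmi : m ≠ i := by rintro rfl; simp at hm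
      rw [update_of_ne hmi] at hm
      exact hq m hm
    · rintro p ⟨f', d', j, h1, h2, rfl⟩
      exact ⟨d', hF _ h1, j, h2, rfl⟩

theorem stWF : StWF := by
  intro N Δ hΔ
  rw [wellFounded_iff_isEmpty_descending_chain]
  refine ⟨fun f => ?_⟩
  exact LW.noChain N Δ hΔ (fun n => (f.1 n).1) (fun n => (f.1 n).2) f.2

end Vale.Agent.P277Z.Hir.L
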