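import Vale.Agent.P277Z.Hir.MSk
import Vale.Agent.P277Z.Hir.BArr
import Vale.Agent.P277Z.Hir.BRes

/-!
# P277, resolution: the charts of the start and the arrows between them
-/

open Filter Topology Set Function

set_option linter.unusedSectionVars false

noncomputable section

namespace Vale.Agent.P277Z.Hir.MStartH

open Gl Gl.ResA

variable {S : Base} {ι : Type} [Fintype ι] [DecidableEq ι]

/-- the properties of the charts of the start -/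
structure Pre (S : Base) (C : Ch ι S.X) : Prop where
  isOpen : IsOpen C.U
  sub : C.B ⊆ C.U
  anF : ∀ a, AnalyticOnNhd ℂ (C.F a) C.U
  cont : ContinuousOn C.π C.B
  hol : ∀ u ∈ C.B, ∀ f, S.Hol f (C.π u) →
    ∃ g, AnalyticAt ℂ g u ∧ ∀ᶠ z in 𝓝 u, z ∈ C.B → f (C.π z) = g z
  lab : ∀ l, C.lab l = 0
  inj : InjOn C.π C.B
  opn : ∀ u ∈ C.B, 𝓝 (C.π u) ≤ map C.π (𝓝[C.B] u)
  crd : ∀ u ∈ C.B, ∀ l, ∃ g, S.Hol g (C.π u) ∧ ∀ᶠ z in 𝓝 u, z ∈ C.B → g (C.π z) = z l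
  zero : ∀ z ∈ C.U, z ∈ C.B ↔ ∀ k, C.F k z = 0
  gen : ∀ u ∈ C.B, ∀ f : (ι → ℂ) → ℂ, AnalyticAt ℂ f u → (∀ᶠ z in 𝓝 u, z ∈ C.B → f z = 0) →
    ∃ c : ℝ, ∀ᶠ z in 𝓝 u, ‖f z‖ ≤ c * C.nF z

variable {C C' : Ch ι S.X} {u u' : ι → ℂ}

theorem Pre.init (h : Pre S C) (O : Set S.X) (hO : IsOpen O) : C.Init (S.gl O hO) :=
  ⟨h.lab, h.inj, h.opn, h.crd, h.zero, h.gen⟩

theorem Pre.push (h : Pre S C) (hu : u ∈ C.B) {P : (ι → ℂ) → Prop}
    (hP : ∀ᶠ z in 𝓝 u, z ∈ C.B → P z) : ∀ᶠ y in 𝓝 (C.π u), ∃ z ∈ C.B, P z ∧ C.π z = y := by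
  have h1 : {z | z ∈ C.B ∧ P z} ∈ 𝓝[C.B] u := by
    filter_upwards [nhdsWithin_le_nhds hP, self_mem_nhdsWithin] with z h1 h2 using ⟨h2, h1 h2⟩
  filter_upwards [h.opn u hu (image_mem_map h1)] with y ⟨z, hz, e⟩ using ⟨z, hz.1, hz.2, e⟩

theorem Pre.pull (h : Pre S C) (hu : u ∈ C.B) {P : S.X → Prop} (hP : ∀ᶠ y in 𝓝 (C.π u), P y) :
    ∀ᶠ z in 𝓝 u, z ∈ C.B → P (C.π z) :=
  eventually_nhdsWithin_iff.1 ((h.cont u hu).eventually hP)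

theorem Pre.ok (h : Pre S C) (hd : Dense S.Badᶜ) (O : Set S.X) (hO : IsOpen O) :
    C.Ok (S.gl O hO) where
  isOpen := h.isOpen
  sub := h.sub
  closed u hu hc := (h.zero u hu).2 fun k =>
    ContinuousWithinAt.eq_const_of_mem_closure (h.anF k u hu).continuousAt.continuousWithinAt hc
      fun z hz => (h.zero z (h.sub hz)).1 hz k
  lbl l _ hl := absurd (h.lab l) hl
  anF := h.anF
  cont := h.cont
  hol := h.hol
  opn u hu _ := h.opn u hu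
  iso u hu _ f g hg hf := by
    choose γ h1 h2 using h.crd u hu
    have h3 := eventually_all.2 (fun l => h2 l)
    have h4 : (fun l => γ l (C.π u)) = u := funext fun l => h3.self_of_nhds l hu
    refine S.comp _ ι (fun y l => γ l y) g f h1 (h4.symm ▸ hg) ?_
    have h5 : ∀ᶠ z in 𝓝 u, z ∈ C.B → f (C.π z) = g fun l => γ l (C.π z) := by
      filter_upwards [h3, hf] with z e1 e2 hz
      rw [e2 hz, funext fun l => e1 l hz]
    filter_upwards [h.push hu h5] with y ⟨z, _, e1, e2⟩ using e2 ▸ e1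
  unt u _ hE := absurd (h.lab hE.choose) hE.choose_spec.1
  dense u hu := by
    refine mem_closure_iff_nhds.2 fun W hW => ?_
    have h1 := h.push hu (P := fun z => z ∈ W) (mem_of_superset hW fun _ hz _ => hz)
    obtain ⟨y, hy, z, hz, e1, e2⟩ := hd.inter_nhds_nonempty h1
    exact ⟨z, e1, hz, e2 ▸ hy⟩
  faith u _ := ⟨1, one_pos, .of_forall fun p h1 h2 _ e _ => h.inj h2 h1 e⟩

/-- extension of the identification to the ambient space -/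
theorem Pre.ext (h : Pre S C) (h' : Pre S C') (hu : u ∈ C.B) (hu' : u' ∈ C'.B)
    (e : C'.π u' = C.π u) : ∃ G : (ι → ℂ) → ι → ℂ, AnalyticAt ℂ G u ∧
      ∀ᶠ z in 𝓝 u, z ∈ C.B → G z ∈ C'.B ∧ C'.π (G z) = C.π z := by
  choose γ h1 h2 using h'.crd u' hu'
  choose G h3 h4 using fun l => h.hol u hu (γ l) (e ▸ h1 l)
  refine ⟨fun z l => G l z, analyticAt_pi_iff.2 h3, ?_⟩
  have h5 := h'.push hu' (P := fun z => ∀ l, γ l (C'.π z) = z l)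
    ((eventually_all.2 h2).mono fun z hz hz' l => hz l hz')
  rw [e] at h5
  filter_upwards [h.pull hu h5, eventually_all.2 h4] with z e1 e2 hz
  obtain ⟨z', e3, e4, e5⟩ := e1 hz
  have : (fun l => G l z) = z' := funext fun l => by rw [← e2 l hz, ← e5, e4]
  rw [this]
  exact ⟨e3, e5⟩

theorem Pre.bound (h : Pre S C) (h' : Pre S C') (hu : u ∈ C.B) {Φ : (ι → ℂ) → ι → ℂ}
    (hΦ : AnalyticAt ℂ Φ u) (hm : ∀ᶠ z in 𝓝 u, z ∈ C.B → Φ z ∈ C'.B) :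
    ∃ c : ℝ, ∀ᶠ z in 𝓝 u, C'.nF (Φ z) ≤ c * C.nF z := by
  choose c hc using fun k => h.gen u hu (fun z => C'.F k (Φ z))
    ((h'.anF k _ (h'.sub (hm.self_of_nhds hu))).comp hΦ)
    (hm.mono fun z hz hz' => (h'.zero _ (h'.sub (hz hz'))).1 (hz hz') k)
  refine ⟨∑ k, c k, (eventually_all.2 hc).mono fun z hz => ?_⟩
  rw [Finset.sum_mul]
  exact Finset.sum_le_sum fun k _ => hz k

/-- an isomorphism of the ambient spaces which extends the identification is an arrow -/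
theorem Pre.arr (h : Pre S C) (h' : Pre S C') (hu : u ∈ C.B) (hu' : u' ∈ C'.B)
    {Φ Ψ : (ι → ℂ) → ι → ℂ} (hΦ : AnalyticAt ℂ Φ u) (hΨ : AnalyticAt ℂ Ψ u') (e : Φ u = u')
    (h1 : ∀ z, Ψ (Φ z) = z) (h2 : ∀ z, Φ (Ψ z) = z)
    (h3 : ∀ᶠ z in 𝓝 u, z ∈ C.B → Φ z ∈ C'.B ∧ C'.π (Φ z) = C.π z)
    (h4 : ∀ᶠ z in 𝓝 u', z ∈ C'.B → Ψ z ∈ C.B) : Arr C u C' u' Φ Ψ := by
  have ht : Tendsto Φ (𝓝 u) (𝓝 u') := e ▸ hΦ.continuousAt.tendsto
  refine ⟨hΦ, hΨ, e, .of_forall h1, .of_forall h2, ?_, h3.mono fun z hz hz' => (hz hz').2,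
    fun j hj => ?_, ?_⟩
  · filter_upwards [h3, ht.eventually h4] with z e1 e2
    exact ⟨fun hz => h1 z ▸ e2 hz, fun hz => (e1 hz).1⟩
  · rw [C.s_of_not (j := j) fun l hl => hj (hl.symm.trans (h.lab l)),
      C'.s_of_not (j := j) fun l hl => hj (hl.symm.trans (h'.lab l))]
    exact ass_refl _ _
  · obtain ⟨c, hc⟩ := h.bound h' hu hΦ (h3.mono fun z hz hz' => (hz hz').1)
    obtain ⟨c', hc'⟩ := h'.bound h hu' hΨ h4
    refine ⟨max (max c c') 1, lt_max_of_lt_right one_pos, ?_⟩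
    filter_upwards [hc, ht.eventually hc'] with z e1 e2
    rw [h1] at e2
    exact ⟨e1.trans (mul_le_mul_of_nonneg_right (le_max_of_le_left (le_max_left _ _))
      (C.nF_nonneg _)), e2.trans (mul_le_mul_of_nonneg_right
        (le_max_of_le_left (le_max_right _ _)) (C'.nF_nonneg _))⟩

section shear

variable {μ : Type} [Fintype μ] [DecidableEq μ]

/-- the shear -/
def sh (G H : (μ → ℂ) → μ → ℂ) (z : μ ⊕ μ → ℂ) : μ ⊕ μ → ℂ :=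
  Sum.elim (z ∘ Sum.inr + G (z ∘ Sum.inl)) (z ∘ Sum.inl - H (z ∘ Sum.inr + G (z ∘ Sum.inl)))

theorem sh_sh (G H : (μ → ℂ) → μ → ℂ) (z : μ ⊕ μ → ℂ) : sh H G (sh G H z) = z := by
  simp only [sh, Sum.elim_comp_inl, Sum.elim_comp_inr, sub_add_cancel, add_sub_cancel_right,
    Sum.elim_comp_inl_inr]

theorem an_sh {G H : (μ → ℂ) → μ → ℂ} {z : μ ⊕ μ → ℂ} (hG : AnalyticAt ℂ G (z ∘ Sum.inl))
    (hH : AnalyticAt ℂ H (z ∘ Sum.inr + G (z ∘ Sum.inl))) : AnalyticAt ℂ (sh G H) z := by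
  have h1 : AnalyticAt ℂ (fun z : μ ⊕ μ → ℂ => z ∘ Sum.inr + G (z ∘ Sum.inl)) z :=
    (an_pr _ z).add (hG.comp_of_eq (an_pr _ z) rfl)
  have h2 := (an_pr Sum.inl z).sub (hH.comp_of_eq h1 rfl)
  refine analyticAt_pi_iff.2 fun l => ?_
  cases l with
  | inl l => exact analyticAt_pi_iff.1 h1 l
  | inr l => exact analyticAt_pi_iff.1 h2 l

/-- the first half of a map on the first half of the coordinates -/
def hf (G : (μ ⊕ μ → ℂ) → μ ⊕ μ → ℂ) (a : μ → ℂ) : μ → ℂ := G (ext0 Sum.inl a) ∘ Sum.inl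

theorem back {z : μ ⊕ μ → ℂ} (hz : z ∘ Sum.inr = 0) : ext0 Sum.inl (z ∘ Sum.inl) = z :=
  ext0_pr Sum.inl_injective fun l hl => by
    cases l with
    | inl l => exact absurd ⟨l, rfl⟩ hl
    | inr l => exact congrFun hz l

theorem an_hf {G : (μ ⊕ μ → ℂ) → μ ⊕ μ → ℂ} {z : μ ⊕ μ → ℂ} (hz : z ∘ Sum.inr = 0)
    (hG : AnalyticAt ℂ G z) : AnalyticAt ℂ (hf G) (z ∘ Sum.inl) :=
  (an_pr Sum.inl _).comp_of_eq (hG.comp_of_eq (an_ext0 Sum.inl_injective _) (back hz)) rfl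

theorem sh_eq {G H : (μ ⊕ μ → ℂ) → μ ⊕ μ → ℂ} {z : μ ⊕ μ → ℂ} (hz : z ∘ Sum.inr = 0)
    (hz' : G z ∘ Sum.inr = 0) (e : H (G z) = z) : sh (hf G) (hf H) z = G z := by
  simp only [sh, hf, hz, zero_add, back hz, back hz', e, sub_self]
  rw [← hz', Sum.elim_comp_inl_inr]

variable {C C' : Ch (μ ⊕ μ) S.X} {u u' : μ ⊕ μ → ℂ}

theorem sh_mem (h : Pre S C) (hb : ∀ z ∈ C.B, z ∘ Sum.inr = 0)
    (hb' : ∀ z ∈ C'.B, z ∘ Sum.inr = 0) {G H : (μ ⊕ μ → ℂ) → μ ⊕ μ → ℂ}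
    (hG : Tendsto G (𝓝 u) (𝓝 u'))
    (h1 : ∀ᶠ z in 𝓝 u, z ∈ C.B → G z ∈ C'.B ∧ C'.π (G z) = C.π z)
    (h2 : ∀ᶠ z in 𝓝 u', z ∈ C'.B → H z ∈ C.B ∧ C.π (H z) = C'.π z) :
    ∀ᶠ z in 𝓝 u, z ∈ C.B → sh (hf G) (hf H) z = G z := by
  filter_upwards [h1, hG.eventually h2] with z e1 e2 hz
  have e3 := e2 (e1 hz).1
  exact sh_eq (hb z hz) (hb' _ (e1 hz).1) (h.inj e3.1 hz (e3.2.trans (e1 hz).2))

theorem exists_arr (h : Pre S C) (h' : Pre S C') (hb : ∀ z ∈ C.B, z ∘ Sum.inr = 0)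
    (hb' : ∀ z ∈ C'.B, z ∘ Sum.inr = 0) (hu : u ∈ C.B) (hu' : u' ∈ C'.B) (e : C'.π u' = C.π u) :
    ∃ Φ Ψ, Arr C u C' u' Φ Ψ := by
  obtain ⟨G, hG, h1⟩ := h.ext h' hu hu' e
  obtain ⟨H, hH, h2⟩ := h'.ext h hu' hu e.symm
  have eG : G u = u' :=
    h'.inj (h1.self_of_nhds hu).1 hu' ((h1.self_of_nhds hu).2.trans e.symm)
  have eH : H u' = u := h.inj (h2.self_of_nhds hu').1 hu ((h2.self_of_nhds hu').2.trans e)
  have h3 := sh_mem h hb hb' (eG ▸ hG.continuousAt.tendsto) h1 h2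
  have h4 := sh_mem h' hb' hb (eH ▸ hH.continuousAt.tendsto) h2 h1
  refine ⟨sh (hf G) (hf H), sh (hf H) (hf G), h.arr h' hu hu' (an_sh (an_hf (hb u hu) hG) ?_)
    (an_sh (an_hf (hb' u' hu') hH) ?_) ((h3.self_of_nhds hu).trans eG) (sh_sh _ _) (sh_sh _ _)
    ?_ ?_⟩
  · rw [hb u hu, zero_add, hf, back (hb u hu), eG]
    exact an_hf (hb' u' hu') hH
  · rw [hb' u' hu', zero_add, hf, back (hb' u' hu'), eH]
    exact an_hf (hb u hu) hG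
  · filter_upwards [h3, h1] with z e1 e2 hz
    rw [e1 hz]
    exact e2 hz
  · filter_upwards [h4, h2] with z e1 e2 hz
    rw [e1 hz]
    exact (e2 hz).1

theorem prp (h : Pre S C) (h' : Pre S C') (hb : ∀ z ∈ C.B, z ∘ Sum.inr = 0)
    (hb' : ∀ z ∈ C'.B, z ∘ Sum.inr = 0) (hu : u ∈ C.B) (hu' : u' ∈ C'.B) (β : Gl.Base S.X) :
    Prp β C u C' u' := by
  have t1 := (continuous_fst.tendsto (u, u'))
  have t2 := (continuous_snd.tendsto (u, u'))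
  by_cases e : C'.π u' = C.π u
  · obtain ⟨Φ, Ψ, ha⟩ := exists_arr h h' hb hb' hu hu' e
    refine ⟨1, fun _ => Φ, fun _ => Ψ, fun _ => ha, ?_⟩
    filter_upwards [t1.eventually ha.mem, t1.eventually ha.pi] with p e1 e2 h1 h2 _ h3
    exact ⟨0, h'.inj (e1.2 h1) h2 ((e2 h1).trans h3.symm)⟩
  · obtain ⟨W', W, hW', hW, h1, h2, h3⟩ := t2_separation e
    refine ⟨0, Fin.elim0, Fin.elim0, fun k => k.elim0, ?_⟩
    filter_upwards [t1.eventually (h.pull hu (hW.mem_nhds h2)),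
      t2.eventually (h'.pull hu' (hW'.mem_nhds h1))] with p e1 e2 h4 h5 _ h6
    exact absurd (e1 h4) (h6 ▸ disjoint_left.1 h3 (e2 h5))

end shear

end Vale.Agent.P277Z.Hir.MStartH
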