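import Vale.Agent.P277Z.Hir.MSk
import Vale.Agent.P277Z.Hir.Round
import Vale.Agent.P277Z.Hir.BBl
import Vale.Agent.P277Z.Hir.BRef
import Vale.Agent.P277Z.Hir.BInv
import Vale.Agent.P277Z.Hir.BRes
import Vale.Agent.P277Z.Hir.BGlue
import Vale.Agent.P277Z.Hir.DDefs
import Vale.Agent.P277Z.Pos.Defs

/-!
# P277, resolution: the assembly
-/

open Filter Topology Set Function

noncomputable section

set_option linter.unusedSectionVars false

namespace Vale.Agent.P277Z.Hir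

open Gl
open Vale.Agent.P277Z.Pos (Pos PREF PBL PRES PINIT POUT lgs)

/-- **DS**: the stabilisers can be removed -/
def StDs : Prop :=
  ∀ (ι X : Type) [Fintype ι] [DecidableEq ι] [TopologicalSpace X] [T2Space X] (β : Gl.Base X)
    (A : At ι X) (Γ : Type) (XO : Γ → Set X) (nm : Γ → X → ℝ) (ex : ℕ → ℝ), A.Ok β → A.Full →
    A.Unit → (∀ j, 0 ≤ ex j) → A.Tot XO nm ex → Pos β A →
    ∃ (A' : At ι X) (ex' : ℕ → ℝ), A'.Ok β ∧ A'.Full ∧ A'.Unit ∧ A'.Free β ∧ (∀ j, 0 ≤ ex' j) ∧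
      A'.Tot XO nm ex' ∧ Pos β A'

/-- **POSD**: positivity along the removal of the stabilisers -/
def StPosD : Prop :=
  ∀ (ι X : Type) [Fintype ι] [DecidableEq ι] [TopologicalSpace X] [T2Space X] (β : Gl.Base X)
    (N₀ : ℕ) (A A' : At ι X), StepsD β N₀ A A' → Pos β A → Pos β A'

theorem stDs_of (h1 : StDestack) (h2 : StTotD) (h3 : StPosD) : StDs := by
  intro ι X _ _ _ _ β A Γ XO nm ex a1 a2 a3 a4 a5 a6
  obtain ⟨A', s, ⟨b1, b2, b3⟩, b4⟩ := h1 ι X β A 0 ⟨a1, a2, a3⟩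
  obtain ⟨ex', c1, c2⟩ := h2 ι X β A A' 0 Γ XO nm ex s a4 a5
  exact ⟨A', ex', b1, b2, b3, b4, c1, c2, h3 ι X β 0 A A' s a6⟩

namespace MH

variable {ι : Type} [Fintype ι] [DecidableEq ι] {S : Base} {O : Set S.X} {hO : IsOpen O}
  {A : At ι S.X}

theorem exists_core (hA : A.Ok (S.gl O hO)) (hd : Dense S.Badᶜ) {x : S.X} (hx : x ∈ O) :
    ∃ a, ∃ u ∈ A.K a, (A.C a).π u = x := by
  have h1 : IsClosed (⋃ a, (A.C a).π '' A.K a) := isClosed_iUnion_of_finite fun a =>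
    ((hA.cpt a).image_of_continuousOn ((hA.ch a).cont.mono (hA.sub a))).isClosed
  have h2 : x ∈ closure (O ∩ S.Badᶜ) := hd.open_subset_closure_inter hO hx
  have h3 : O ∩ S.Badᶜ ⊆ ⋃ a, (A.C a).π '' A.K a := fun y hy => by
    obtain ⟨a, u, hu, e⟩ := hA.cov y hy.1 hy.2
    exact mem_iUnion.2 ⟨a, u, hu, e⟩
  obtain ⟨a, u, hu, e⟩ := mem_iUnion.1 (h1.closure_subset_iff.2 h3 h2)
  exact ⟨a, u, hu, e⟩

theorem exists_nb {β : Gl.Base S.X} {C : Ch ι S.X} (hC : C.Ok β) {K : Set (ι → ℂ)}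
    (hK : IsCompact K) (hs : K ⊆ C.B) :
    ∃ L, IsCompact L ∧ L ⊆ C.B ∧ ∀ u ∈ K, L ∈ 𝓝[C.B] u := by
  obtain ⟨L, h1, h2, h3⟩ := exists_compact_between hK hC.isOpen (hs.trans hC.sub)
  refine ⟨L ∩ closure C.B, h1.inter_right isClosed_closure, fun u hu => hC.closed u (h3 hu.1) hu.2,
    fun u hu => inter_mem (mem_nhdsWithin_of_mem_nhds (mem_interior_iff_mem_nhds.1 (h2 hu))) ?_⟩
  exact mem_of_superset self_mem_nhdsWithin subset_closure

theorem pos_start (hP : PINIT) (hA : A.Ok (S.gl O hO)) (hd : Dense S.Badᶜ)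
    (hI : ∀ a, (A.C a).Init (S.gl O hO)) : Pos (S.gl O hO) A := by
  choose L h1 h2 h3 using fun a => exists_nb (hA.ch a) (hA.cpt a) (hA.sub a)
  refine hP ι S.X _ A L (fun a => (hI a).lab) (fun a => ⟨h1 a, h2 a⟩) fun x hx => ?_
  obtain ⟨a, u, hu, rfl⟩ := exists_core hA hd hx
  choose g hg hg' using (hI a).crd u (hA.sub a hu)
  refine ⟨a, g, hg, Filter.Eventually.filter_mono ((hI a).opn u (hA.sub a hu)) ?_⟩
  rw [eventually_map]
  have h4 : ∀ᶠ z in 𝓝 u, ∀ l, z ∈ (A.C a).B → g l ((A.C a).π z) = z l := eventually_all.2 hg'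
  filter_upwards [h3 a u hu, mem_nhdsWithin_of_mem_nhds h4.eventually_nhds] with v v1 v2
  refine ⟨v, v1, rfl, ?_⟩
  filter_upwards [mem_nhdsWithin_of_mem_nhds v2, self_mem_nhdsWithin] with z z1 z2 l using z1 l z2

theorem mem_E {ex : ℕ → ℝ} (hU : A.Unit) (hT : A.Tot S.XO S.nm ex) (a : A.κ) {u : ι → ℂ}
    (hu : u ∈ (A.C a).B) (hZ : (A.C a).π u ∈ S.Bad) : u ∈ (A.C a).E := by
  obtain ⟨γ, hγ⟩ := S.cover ((A.C a).π u)
  obtain ⟨c, -, hc⟩ := hT a u hu γ hγ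
  have h1 := (hc.self_of_nhdsWithin hu).2
  have h2 : S.nm γ ((A.C a).π u) = 0 :=
    Finset.sum_eq_zero fun k _ => by rw [(S.zero γ _ hγ).1 hZ k, norm_zero]
  simp only [h2, mul_zero] at h1
  obtain ⟨k, hk⟩ := hU a u hu
  have h3 : 0 < (A.C a).nF u := (norm_pos_iff.2 hk).trans_le
    (Finset.single_le_sum (f := fun k => ‖(A.C a).F k u‖) (fun _ _ => norm_nonneg _)
      (Finset.mem_univ k))
  by_contra h
  have h4 : 0 < (A.C a).mon ex u := Finset.prod_pos fun l hl => Real.rpow_pos_of_pos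
    (norm_pos_iff.2 fun e => h ⟨l, (Finset.mem_filter.1 hl).2, e⟩) _
  exact absurd h1 (not_le.2 (mul_pos h4 h3))

theorem posOut {n : ℕ} {A : At (Fin n) S.X} {ex : ℕ → ℝ} (hP : POUT) (hA : A.Ok (S.gl O hO))
    (hF : A.Full) (hU : A.Unit) (hT : A.Tot S.XO S.nm ex) (h : Pos (S.gl O hO) A) :
    A.PosOut (S.gl O hO) := by
  obtain ⟨c, Ψ, h1, h2⟩ := hP n S.X _ A hA hF (fun a u hu _ => by
    refine ⟨fun z => ∏ l, z l, Finset.analyticAt_fun_prod _ fun l _ =>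
      (ContinuousLinearMap.proj (R := ℂ) (φ := fun _ : Fin n => ℂ) l).analyticAt u, fun e => ?_, ?_⟩
    · have d : Dense (Set.pi univ fun _ : Fin n => ({0}ᶜ : Set ℂ)) :=
        dense_pi univ fun _ _ => dense_compl_singleton 0
      obtain ⟨z, z1, z2⟩ := d.inter_nhds_nonempty e
      exact Finset.prod_ne_zero_iff.2 (fun l _ => z1 l trivial) z2
    · filter_upwards [(hA.ch a).isOpen.mem_nhds hu] with z hz hZ
      obtain ⟨l, -, e⟩ := mem_E hU hT a ((hF a).symm ▸ hz) hZ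
      exact Finset.prod_eq_zero (Finset.mem_univ l) e) h
  refine ⟨c, Ψ, h1, fun a u hu hx => ?_⟩
  obtain ⟨m, g, ε, U, v, a1, a2, a3, a4, -, a6, a7, a8⟩ := h2 a u ((hA.ch a).sub hu) hx
  refine ⟨m, g, ε, U, v, a1, a2, a3, a4, a6, a7, ?_⟩
  filter_upwards [a3.mem_nhds a4] with z hz hZ
  rw [a8 z hz hZ, lgs, Finset.sum_filter]
  simp only [ne_eq, ite_not]

/-- the new family on a full atlas -/
theorem newF (hA : A.Ok (S.gl O hO)) (hF : A.Full) :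
    ∃ (A' : At ι S.X) (m : A'.κ → ℕ) (F : ∀ a, Fin (m a) → (ι → ℂ) → ℂ), Ref A A' ∧
      (A'.withF m F).Ok (S.gl O hO) ∧ (A'.withF m F).Full ∧ (A'.withF m F).Tot S.XO S.nm 0 ∧
      (A'.withF m F).Off (S.gl O hO) fun C u => ∃ k, C.F k u ≠ 0 := by
  refine stNewF ι S.X _ A S.Γ S.XO S.nm hA hF fun a u _ => ?_
  obtain ⟨γ, hγ⟩ := S.cover ((A.C a).π u)
  refine ⟨S.m γ, S.f γ, ?_⟩
  filter_upwards [(S.isOpen γ).mem_nhds hγ] with x hx
  exact ⟨fun k => S.hol γ k x hx, fun h => not_forall.1 fun e => h ((S.zero γ x hx).2 e), ⟨γ, hx⟩,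
    fun γ' h' => S.cpb γ' γ x h' hx⟩

end MH

open MH in
/-- from a full atlas to the output -/
theorem main_tail (hR : PREF) (hB : PBL) (hP : POUT) (hD : StDs) (hO' : StOut) {S : Base} {n : ℕ}
    {K O : Set S.X} {hO : IsOpen O} (hn : 1 ≤ n) (hK : K ⊆ O) {A : At (Fin n) S.X}
    (hA : A.Ok (S.gl O hO)) (hF : A.Full) (h : Pos (S.gl O hO) A) : Nonempty (Out S n K) := by
  have : Nonempty (Fin n) := ⟨⟨0, hn⟩⟩
  obtain ⟨A₁, m, F, r1, a1, a2, a3, a4⟩ := newF hA hF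
  have p1 := (hR _ _ _ _ _ hA r1 h).withF m F
  obtain ⟨A₂, s2, b1, b2⟩ := resolve_unit stRef stBl (stInvs stSig) a1 a4
  obtain ⟨ex, e1, e2⟩ := stTot _ _ _ _ _ _ _ _ _ s2.steps (fun _ => le_rfl) a3
  obtain ⟨A₃, ex', c1, c2, c3, c4, c5, c6, c7⟩ := hD _ _ _ A₂ _ _ _ ex b1
    ((stInvs stSig _ _ _ _ _ s2.steps).2.1 a2) (fun a u hu => b2 a u ((b1.ch a).sub hu)) e1 e2
    (p1.steps hR hB stBl s2.steps)
  exact hO' S n K O hO A₃ ex' hK c1 c2 c3 c5 c6 (posOut hP c1 c2 c3 c6 c7)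
    (stGlue n S.X _ A₃ c1 c2 c4)

open MH in
theorem stMain_of (hS : StStart) (hM : StSm) (hI : PINIT) (hR : PREF) (hB : PBL) (hE : PRES)
    (hP : POUT) (hD : StDs) (hO' : StOut) : StMain := by
  intro S n K hn hX hK
  obtain ⟨ι, _, _, _, c, O, hO, A, h1, h2, h3, h4⟩ := hS S n K hX hK
  obtain ⟨A₁, e, s1, a1, a2⟩ := resolve_flat (ι' := Fin n) (c := c) stRef stBl (stInvs stSig)
    (by rw [Fintype.card_fin, h1]) h3 (fun a z hz _ => (h4 a).zero z hz)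
    fun a u hu hZ => hM S n c O hO ι _ h1 (h3.ch a) (h4 a) u hu (hX.reg _ hZ)
  obtain ⟨b1, b2⟩ := stRes _ _ _ _ A₁ e a1 a2
  exact main_tail hR hB hP hD hO' hn h2 b1 b2
    (hE _ _ _ _ A₁ e a1 a2 ((pos_start hI h3 hX.dense h4).steps hR hB stBl s1.steps))

end Vale.Agent.P277Z.Hir
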