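import Vale.Agent.P277Z.Hir.FgDefs
import Vale.Agent.P277Z.Hir.BArr
import Vale.Agent.P277Z.Hir.AA

/-!
# P277, resolution with a given boundary: the first atlas
-/

open Filter Topology Set Function

noncomputable section

namespace Vale.Agent.P277Z.Hir

open Gl
open L (Ass)

namespace StartLH

variable {S : Base} {n q : ℕ} (B : Bdy S n q)

theorem img (x : S.X) : B.φ x '' B.V x = B.Ω x := by simpa using (B.model x).image

theorem injOn (x : S.X) : InjOn (B.φ x) (B.V x) := fun a ha b hb h =>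
  congrArg Subtype.val ((B.model x).emb.injective (a₁ := ⟨a, ha⟩) (a₂ := ⟨b, hb⟩) h)

theorem exists_e (x : S.X) : ∃ e : OpenPartialHomeomorph S.X (Fin n → ℂ),
    ⇑e = B.φ x ∧ e.source = B.V x ∧ e.target = B.Ω x := by
  have : Nonempty S.X := ⟨x⟩
  refine ⟨OpenPartialHomeomorph.ofContinuousOpenRestrict ((injOn B x).toPartialEquiv _ _)
    (continuousOn_iff_continuous_domRestrict.2 (B.model x).emb.continuous)
    (IsOpenEmbedding.isOpenMap ⟨(B.model x).emb, ?_⟩) (B.model x).isOpen, rfl, rfl, img B x⟩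
  have := (B.model x).isOpen'
  rwa [← img B x, image_eq_range] at this

/-- the charts of the base -/
def ch (x : S.X) : OpenPartialHomeomorph S.X (Fin n → ℂ) := (exists_e B x).choose

theorem ch_coe (x : S.X) : ⇑(ch B x) = B.φ x := (exists_e B x).choose_spec.1

theorem ch_src (x : S.X) : (ch B x).source = B.V x := (exists_e B x).choose_spec.2.1

/-- the charts of the atlas -/
def cht (x : S.X) (nu : Fin n → ℕ) : Ch (Fin n) S.X :=
  ⟨(ch B x).target, (ch B x).target, (ch B x).symm, nu, 0, Fin.elim0⟩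

variable {B} {x x' y : S.X} {u : Fin n → ℂ}

theorem hol_iff (hy : y ∈ (ch B x).source) (f : S.X → ℂ) :
    S.Hol f y ↔ ∃ g, AnalyticAt ℂ g (ch B x y) ∧ f =ᶠ[𝓝 y] g ∘ ch B x := by
  rw [ch_coe]
  exact (B.model x).hol y (ch_src B x ▸ hy) f

theorem hol_crd (hy : y ∈ (ch B x).source) (i : Fin n) : S.Hol (fun y => ch B x y i) y :=
  (hol_iff hy _).2 ⟨fun z => z i,
    (ContinuousLinearMap.proj (R := ℂ) (φ := fun _ : Fin n => ℂ) i).analyticAt _, EventuallyEq.rfl⟩

theorem an_of_hol (hu : u ∈ (ch B x).target) {f : S.X → ℂ} (hf : S.Hol f ((ch B x).symm u)) :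
    AnalyticAt ℂ (fun z => f ((ch B x).symm z)) u := by
  obtain ⟨g, h1, h2⟩ := (hol_iff ((ch B x).map_target hu) f).1 hf
  rw [(ch B x).right_inv hu] at h1
  refine h1.congr ?_
  filter_upwards [((ch B x).continuousAt_symm hu).eventually h2,
    (ch B x).eventually_right_inverse hu] with z h3 h4
  rw [h3, comp_apply, h4]

theorem an_tr (hu : u ∈ (ch B x).target) (h : (ch B x).symm u ∈ (ch B x').source) :
    AnalyticAt ℂ (fun z => ch B x' ((ch B x).symm z)) u :=
  analyticAt_pi_iff.2 fun i => an_of_hol hu (hol_crd h i)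

theorem ev_src (hu : u ∈ (ch B x).target) (h : (ch B x).symm u ∈ (ch B x').source) :
    ∀ᶠ z in 𝓝 u, z ∈ (ch B x).target ∧ (ch B x).symm z ∈ (ch B x').source :=
  Eventually.and ((ch B x).open_target.mem_nhds hu)
    (((ch B x).continuousAt_symm hu).eventually ((ch B x').open_source.mem_nhds h))

theorem opn (hu : u ∈ (ch B x).target) :
    𝓝 ((ch B x).symm u) ≤ map (ch B x).symm (𝓝[(ch B x).target] u) := by
  rw [(ch B x).open_target.nhdsWithin_eq hu, (ch B x).symm.map_nhds_eq hu]

theorem tend (hu : u ∈ (ch B x).target) : Tendsto (ch B x) (𝓝 ((ch B x).symm u)) (𝓝 u) := by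
  have := ((ch B x).continuousAt ((ch B x).map_target hu)).tendsto
  rwa [(ch B x).right_inv hu] at this

theorem cht_ok {O Z : Set S.X} {hO : IsOpen O} {hZ : IsClosed Z} (hd : Dense Zᶜ) {nu : Fin n → ℕ}
    (hl : Lbl nu) (hE : ∀ y ∈ (ch B x).source, ∀ l, nu l ≠ 0 → ch B x y l = 0 → y ∈ Z) :
    (cht B x nu).Ok ⟨S.Hol, O, Z, hO, hZ⟩ := by
  refine ⟨(ch B x).open_target, Subset.rfl, fun u hu _ => hu, hl, fun a => a.elim0,
    (ch B x).continuousOn_symm, fun u hu f hf => ⟨_, an_of_hol hu hf,
      Eventually.of_forall fun _ _ => rfl⟩, fun u hu _ => opn hu, fun u hu _ f g hg h => ?_,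
    fun u hu ⟨l, h1, h2⟩ => hE _ ((ch B x).map_target hu) l h1
      ((congrFun ((ch B x).right_inv hu) l).trans h2), fun u hu => ?_,
    fun u _ => ⟨1, one_pos, Eventually.of_forall fun p h1 h2 _ h3 _ =>
      (ch B x).symm.injOn h2 h1 h3⟩⟩
  · have h1 := (ch B x).map_target hu
    refine (hol_iff h1 f).2 ⟨g, by rwa [(ch B x).right_inv hu], ?_⟩
    filter_upwards [(tend hu).eventually h, (ch B x).open_source.mem_nhds h1] with y h2 h3
    rw [comp_apply, ← h2 ((ch B x).map_source h3)]
    exact congrArg f ((ch B x).left_inv h3).symm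
  · refine mem_closure_iff_frequently.2 ((tend hu).frequently
      (((mem_closure_iff_frequently.1 (hd _)).and_eventually
        ((ch B x).open_source.mem_nhds ((ch B x).map_target hu))).mono fun y hy =>
          ⟨(ch B x).map_source hy.2, fun h => hy.1 ?_⟩))
    rwa [show (cht B x nu).π (ch B x y) = y from (ch B x).left_inv hy.2] at h

theorem cht_prp {β : Gl.Base S.X} {nu nu' : Fin n → ℕ} {u' : Fin n → ℂ}
    (hu : u ∈ (ch B x).target) (hu' : u' ∈ (ch B x').target)
    (hd : (ch B x).symm u ∈ (ch B x').source → ∀ j, j ≠ 0 →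
      Ass (fun z => (cht B x' nu').s j (ch B x' ((ch B x).symm z))) ((cht B x nu).s j) u) :
    Prp β (cht B x nu) u (cht B x' nu') u' := by
  by_cases e : (ch B x').symm u' = (ch B x).symm u
  · have h1 : (ch B x).symm u ∈ (ch B x').source := e ▸ (ch B x').map_target hu'
    have h2 : (ch B x').symm u' ∈ (ch B x).source := e ▸ (ch B x).map_target hu
    refine ⟨1, fun _ z => ch B x' ((ch B x).symm z), fun _ z => ch B x ((ch B x').symm z),
      fun _ => ⟨an_tr hu h1, an_tr hu' h2, (congrArg _ e.symm).trans ((ch B x').right_inv hu'), ?_, ?_, ?_, ?_,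
        hd h1, Gl.Cmp.of_eq (Eventually.of_forall fun z => rfl)⟩,
      Eventually.of_forall fun p _ h3 _ h4 => ⟨0, ?_⟩⟩
    · filter_upwards [ev_src hu h1] with z hz
      rw [(ch B x').left_inv hz.2, (ch B x).right_inv hz.1]
    · filter_upwards [ev_src hu' h2] with z hz
      rw [(ch B x).left_inv hz.2, (ch B x').right_inv hz.1]
    · filter_upwards [ev_src hu h1] with z hz
      exact iff_of_true ((ch B x').map_source hz.2) hz.1
    · filter_upwards [ev_src hu h1] with z hz _
      exact (ch B x').left_inv hz.2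
    · exact (congrArg (ch B x') h4.symm).trans ((ch B x').right_inv h3)
  · refine ⟨0, Fin.elim0, Fin.elim0, fun k => k.elim0, ?_⟩
    have h1 : ContinuousAt (fun p : (Fin n → ℂ) × (Fin n → ℂ) =>
        ((ch B x').symm p.2, (ch B x).symm p.1)) (u, u') :=
      (ContinuousAt.comp (f := Prod.snd) ((ch B x').continuousAt_symm hu') continuousAt_snd).prodMk
        (ContinuousAt.comp (f := Prod.fst) ((ch B x).continuousAt_symm hu) continuousAt_fst)
    filter_upwards [h1.eventually (isClosed_diagonal.isOpen_compl.mem_nhds e)] with p hp _ _ _ h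
    exact (hp h).elim

theorem freq (u : Fin n → ℂ) (i : Fin n) : ∃ᶠ z in 𝓝 u, z i ≠ 0 :=
  mem_closure_iff_frequently.1
    ((dense_compl_singleton (0 : ℂ)).preimage (isOpenMap_eval (X := fun _ : Fin n => ℂ) i) u)

theorem snc (hy : y ∈ (ch B x).source) (l : Fin q) :
    y ∈ B.D l ↔ (B.lab x l).elim 1 (ch B x y) = 0 := by
  rw [B.snc x l y (ch_src B x ▸ hy), ch_coe]
  rcases B.lab x l with _ | i <;> simp

theorem dense_D (l : Fin q) : Dense (B.D l)ᶜ := fun x => by
  have hx : x ∈ (ch B x).source := ch_src B x ▸ B.mem x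
  have h1 : ∃ᶠ z in 𝓝 (ch B x x), (B.lab x l).elim 1 z ≠ 0 := by
    rcases B.lab x l with _ | i
    · exact (Eventually.of_forall fun _ => one_ne_zero).frequently
    · exact freq _ i
  refine mem_closure_iff_frequently.2 (((ch B x).tendsto_symm hx).frequently
    ((h1.and_eventually ((ch B x).open_target.mem_nhds ((ch B x).map_source hx))).mono
      fun z hz h => hz.1 ?_))
  rwa [snc ((ch B x).map_target hz.2), (ch B x).right_inv hz.2] at h

theorem half (hu : u ∈ (ch B x).target) (h : (ch B x).symm u ∈ (ch B x').source) {l : Fin q}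
    {i i' : Fin n} (hi : B.lab x l = some i) (hi' : B.lab x' l = some i') (h0 : u i = 0) :
    ∃ g, AnalyticAt ℂ g u ∧ ∀ᶠ z in 𝓝 u, ch B x' ((ch B x).symm z) i' = z i * g z := by
  refine AH.exists_div i (an_of_hol hu (hol_crd h i')) h0 ?_
  filter_upwards [ev_src hu h] with z hz h1
  have := (snc hz.2 l).1 ((snc ((ch B x).map_target hz.1) l).2
    (by rwa [hi, (ch B x).right_inv hz.1]))
  rwa [hi'] at this

theorem ass (hu : u ∈ (ch B x).target) (h : (ch B x).symm u ∈ (ch B x').source) (l : Fin q) :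
    Ass (fun z => (B.lab x' l).elim 1 (ch B x' ((ch B x).symm z)))
      (fun z => (B.lab x l).elim 1 z) u := by
  have an : ∀ (o : Option (Fin n)) (u : Fin n → ℂ), AnalyticAt ℂ (fun z => o.elim 1 z) u := by
    rintro (_ | i) u
    · exact analyticAt_const
    · exact (ContinuousLinearMap.proj (R := ℂ) (φ := fun _ : Fin n => ℂ) i).analyticAt _
  have e := (snc h l).symm.trans (snc ((ch B x).map_target hu) l)
  rw [(ch B x).right_inv hu] at e
  by_cases h0 : (B.lab x l).elim 1 u = 0
  swap
  · exact ass_of_ne ((an _ _).comp (an_tr hu h)) (an _ _) (fun h1 => h0 (e.1 h1)) h0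
  have h0' := e.2 h0
  rcases hi : B.lab x l with _ | i
  · simp [hi] at h0
  rcases hi' : B.lab x' l with _ | i'
  · simp [hi'] at h0'
  rw [hi] at h0
  rw [hi'] at h0'
  obtain ⟨g, g1, g2⟩ := half hu h hi hi' h0
  obtain ⟨g', g3, g4⟩ := half (x := x') (x' := x) ((ch B x').map_source h)
    (by rw [(ch B x').left_inv h]; exact (ch B x).map_target hu) hi' hi h0'
  refine ⟨g, g1, left_ne_zero_of_mul_eq_one (b := g' (ch B x' ((ch B x).symm u))) ?_,
    g2.mono fun z hz => hz.trans (mul_comm _ _)⟩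
  refine mem_singleton_iff.1 ((isClosed_singleton (x := (1 : ℂ))).mem_of_frequently_of_tendsto
    (f := fun z => g z * g' (ch B x' ((ch B x).symm z))) ?_
    (g1.mul (AnalyticAt.comp (f := fun z => ch B x' ((ch B x).symm z)) g3
      (an_tr hu h))).continuousAt)
  refine ((freq u i).and_eventually (g2.and ((ev_src hu h).and
    ((an_tr hu h).continuousAt.eventually g4)))).mono fun z ⟨h1, h2, h3, h4⟩ => ?_
  rw [(ch B x').left_inv h3.2, (ch B x).right_inv h3.1, h2, mul_assoc] at h4
  exact (mul_left_cancel₀ h1 ((mul_one _).trans h4)).symm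

variable (B) in
open Classical in
/-- the labels -/
def lb (x : S.X) (i : Fin n) : ℕ := if h : ∃ l, B.lab x l = some i then h.choose + 1 else 0

theorem lb_eq {i : Fin n} {l : Fin q} : lb B x i = l + 1 ↔ B.lab x l = some i := by
  unfold lb
  split_ifs with h
  · exact ⟨fun e => (Fin.ext (Nat.succ_injective e) : h.choose = l) ▸ h.choose_spec,
      fun e => by rw [B.inj x _ _ i h.choose_spec e]⟩
  · exact ⟨fun e => e.elim, fun e => h ⟨l, e⟩⟩

theorem lb_ne {i : Fin n} (h : lb B x i ≠ 0) : ∃ l : Fin q, lb B x i = l + 1 := by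
  unfold lb at h ⊢
  split_ifs at h ⊢ with h1
  · exact ⟨_, rfl⟩
  · exact (h rfl).elim

theorem lb_le (i : Fin n) : lb B x i ≤ q := by
  by_cases h : lb B x i = 0
  · omega
  · obtain ⟨l, e⟩ := lb_ne h
    omega

theorem s_lb (l : Fin q) : (cht B x (lb B x)).s (l + 1) = fun z => (B.lab x l).elim 1 z := by
  funext z
  simp only [Ch.s, cht, lb_eq]
  rcases B.lab x l with _ | i
  · simp
  · simp [Finset.filter_eq]

theorem div_lb (hu : u ∈ (ch B x).target) (h : (ch B x).symm u ∈ (ch B x').source) (j : ℕ)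
    (hj : j ≠ 0) : Ass (fun z => (cht B x' (lb B x')).s j (ch B x' ((ch B x).symm z)))
      ((cht B x (lb B x)).s j) u := by
  by_cases e : ∃ l : Fin q, j = l + 1
  · obtain ⟨l, rfl⟩ := e
    rw [s_lb, s_lb]
    exact ass hu h l
  · have : ∀ x, (cht B x (lb B x)).s j = fun _ => 1 := fun x =>
      Ch.s_of_not _ fun i hi => e (hi ▸ lb_ne (B := B) (x := x) (i := i) fun h => hj (hi ▸ h))
    rw [this, this]
    exact ass_refl _ _

end StartLH

open StartLH

theorem stStartL : StStartL := by
  intro S n K q B hd hK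
  choose L h1 h2 h3 using fun x => exists_compact_subset (ch B x).open_source
    (show x ∈ (ch B x).source from ch_src B x ▸ B.mem x)
  obtain ⟨t, -, ht⟩ := hK.elim_nhds_subcover (fun x => interior (L x)) fun x _ =>
    isOpen_interior.mem_nhds (h2 x)
  have hO : IsOpen (⋃ x ∈ t, interior (L x)) := isOpen_biUnion fun _ _ => isOpen_interior
  have key : ∀ (nu : S.X → Fin n → ℕ) (β : Gl.Base S.X), β.O = ⋃ x ∈ t, interior (L x) →
      (∀ x, (cht B x (nu x)).Ok β) → (∀ x x', ∀ u ∈ (ch B x).target,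
        (ch B x).symm u ∈ (ch B x').source → ∀ j, j ≠ 0 →
        Ass (fun z => (cht B x' (nu x')).s j (ch B x' ((ch B x).symm z))) ((cht B x (nu x)).s j) u) →
      At.Ok β { κ := t, C := fun a => cht B a (nu a), K := fun a => ch B a '' L a } :=
    fun nu β e h4 h5 => ⟨fun a => h4 a, fun a => (h1 a).image_of_continuousOn
      ((ch B a).continuousOn.mono (h3 a)), fun a => image_subset_iff.2 fun y hy =>
        (ch B a).map_source (h3 a hy), fun a b u hu u' hu' => cht_prp hu hu' (h5 a b u hu),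
      fun y hy _ => by
        obtain ⟨x, hx, h⟩ := mem_iUnion₂.1 (e ▸ hy)
        exact ⟨⟨x, hx⟩, _, mem_image_of_mem _ (interior_subset h),
          (ch B x).left_inv (h3 x (interior_subset h))⟩⟩
  have z : ∀ x i, (if lb B x i ≤ q then 0 else lb B x i) = 0 := fun x i => if_pos (lb_le i)
  refine ⟨_, hO, { κ := t, C := fun a => cht B a (lb B a), K := fun a => ch B a '' L a }, ht,
    key (lb B) _ rfl (fun x => cht_ok ?_ (fun l l' h e => ?_) fun y hy l h e => ?_)
      fun x x' u hu h => div_lb hu h, fun _ => rfl,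
    key (fun x i => if lb B x i ≤ q then 0 else lb B x i) _ rfl
      (fun x => cht_ok hd (fun l _ h => (h (z x l)).elim) fun _ _ l h => (h (z x l)).elim)
      fun x x' u _ _ j hj => ?_,
    fun a : t => ⟨z a, (ch B a).symm.injOn, fun u hu => opn hu,
      fun u hu l => ⟨_, hol_crd ((ch B a).map_target hu) l, Eventually.of_forall fun z hz =>
        congrFun ((ch B a).right_inv hz) l⟩, fun z hz => iff_of_true hz fun k => k.elim0,
      fun u hu f _ h => ⟨0, ?_⟩⟩, fun (a : t) u hu x l h => ?_⟩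
  · rw [compl_union, compl_iUnion]
    exact hd.inter_of_isOpen_left (dense_iInter_of_isOpen (fun l => (B.closed l).isOpen_compl)
      dense_D) S.closed.isOpen_compl
  · obtain ⟨k, hk⟩ := lb_ne h
    exact Option.some.inj ((lb_eq.1 (e.trans hk)).symm.trans (lb_eq.1 hk))
  · obtain ⟨k, hk⟩ := lb_ne h
    exact Or.inr (mem_iUnion.2 ⟨k, (snc hy k).2 (by rwa [lb_eq.1 hk])⟩)
  · rw [Ch.s_of_not _ fun i hi => hj (hi.symm.trans (z x' i)),
      Ch.s_of_not _ fun i hi => hj (hi.symm.trans (z x i))]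
    exact ass_refl _ _
  · filter_upwards [h, (ch B a).open_target.mem_nhds hu] with z h4 h5
    rw [h4 h5, norm_zero, zero_mul]
  · have := ass hu (x' := x) (ch_src B x ▸ h) l
    rw [← s_lb, ch_coe] at this
    exact ass_congr this EventuallyEq.rfl (Eventually.of_forall fun z => by simp [Ch.mn])

end Vale.Agent.P277Z.Hir
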