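import Vale.Agent.P277Z.Hir.FgD
import Vale.Agent.P277Z.Hir.StartL
import Vale.Agent.P277Z.Hir.Main
import Vale.Agent.P277Z.Hir.MOut

/-!
# P277, resolution with a given boundary: the assembly
-/

open Filter Topology Set Function

noncomputable section

namespace Vale.Agent.P277Z.Hir

open Gl MOutH
open L (Ass)
open Vale.Agent.P277Z.Pos (Pos PREF PBL PINIT POUT)

attribute [local instance] Glue.top Glue.t2 Glue.sc Glue.cs Glue.mf

theorem MOutH.s_lbo {n : ℕ} {X : Type} [TopologicalSpace X] {β : Gl.Base X} {C : Ch (Fin n) X}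
    (hC : C.Ok β) {j : ℕ} (hj : j ≠ 0) (z : Fin n → ℂ) : C.s j z = (lbo C j).elim 1 z := by
  rcases e : lbo C j with _ | i
  · rw [C.s_of_not fun l k => by simp [(lbo_iff hC hj l).2 k] at e]
    rfl
  · obtain rfl := (lbo_iff hC hj i).1 e
    rw [C.s_of_lab hC.lbl hj]
    rfl

variable {S : Base} {n q : ℕ} {K O : Set S.X} {hO : IsOpen O} {A : At (Fin n) S.X} {ex : ℕ → ℝ}
  {B : Bdy S n q} {mo : Fin q → ℕ → ℕ}

theorem Bdy.ζ_zero (B : Bdy S n q) {x x' : S.X} (h : x' ∈ B.V x) (l : Fin q) :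
    B.ζ x l x' = 0 ↔ x' ∈ B.D l := by
  rw [B.snc x l x' h, Bdy.ζ]
  rcases B.lab x l with _ | i <;> simp

theorem outL (h : StInt) (hK : K ⊆ O) (hA : A.Ok (B.gl O hO)) (hF : A.Full)
    (h0 : (A.fg q).Ok (S.gl O hO)) (hU : (A.fg q).Unit) (hex : ∀ j, 0 ≤ ex j)
    (hT : (A.fg q).Tot S.XO S.nm ex) (hP : (A.fg q).PosOut (S.gl O hO)) (hm : A.Old B.V B.ζ mo)
    (g : Glue (S.gl O hO) (A.fg q)) : Nonempty (OutL S n K B) := by
  have hF' : (A.fg q).Full := hF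
  have k0 := fun (y : g.Y) (l : Fin q) => lbo_iff (hA.ch (g.a y)) (Nat.succ_ne_zero l)
  have k1 := fun (y : g.Y) x l (hx : g.π y ∈ B.V x) =>
    hm (g.a y) (ch g y y) (g.tgt y (mem_chart_target _ y)) x l (by rwa [pi_self] at hx)
  have k2 : ∀ (y : g.Y) l, g.π y ∈ B.D l ↔ (A.C (g.a y)).s (l + 1) (ch g y y) *
      (A.C (g.a y)).mn q (mo l) (ch g y y) = 0 := fun y l => by
    rw [← B.ζ_zero (B.mem _), ← not_iff_not]
    refine Iff.trans ?_ (ass_ne (k1 y _ l (B.mem _)))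
    rw [pi_self]
    rfl
  refine ⟨{ outOf h hK h0 hF' hU hex hT hP g with
    old := fun l => {y | (A.C (g.a y)).s (l + 1) (ch g y y) = 0}
    labo := fun y l => lbo (A.C (g.a y)) (l + 1)
    injo := fun y l l' i h1 h2 =>
      Fin.ext (Nat.succ_injective (((k0 y l i).1 h1).symm.trans ((k0 y l' i).1 h2)))
    disj := fun y l k i h1 h2 => ?_
    snco := fun y l p hp => ?_
    subo := fun l y hy => (k2 y l).2 (mul_eq_zero_of_left hy _)
    off := fun l y h1 h2 => (mul_eq_zero.1 ((k2 y l).1 h2)).resolve_right fun e => ?_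
    mo := fun l k => mo l (k + 1)
    tot := fun y x l hx => ?_ }⟩
  · have h3 := ((A.C (g.a y)).fg_lab q (Nat.succ_ne_zero k) i).1
      ((lbo_iff (h0.ch (g.a y)) (Nat.succ_ne_zero k) i).1 h2)
    have h4 := (k0 y l i).1 h1
    omega
  · obtain ⟨Φ, Ψ, a⟩ := g.arr y p p hp (mem_chart_source _ p)
    have a' := a.of_fg hA hF (g.tgt y ((ch g y).map_source hp)) (g.tgt p (mem_chart_target _ p))
    exact ((not_iff_not.1 (a'.s_ne (Nat.succ_ne_zero l))).trans (A.C _).s_eq_zero).trans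
      (exists_congr fun i => and_congr_left' (k0 y l i).symm)
  · obtain ⟨i, h3, h4⟩ := Finset.prod_eq_zero_iff.1 e
    exact h1 ((congrArg (· ∈ S.Bad) (pi_self g y)).mpr ((h0.ch _).unt _ (selfB g hF' y)
      ⟨i, (Ch.fg_ne _ q i).2 (Finset.mem_filter.1 h3).2, eq_zero_of_pow_eq_zero h4⟩))
  · obtain ⟨e, e1, e2, e3⟩ := k1 y x l hx
    refine ⟨e, e1, e2, ?_⟩
    filter_upwards [(tend g y).eventually e3, ev_src g y] with p h1 hp
    refine ((congrArg _ (g.pi y p hp)).trans h1).trans (congrArg (e _ * ·) ?_)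
    refine congrArg₂ (· * ·) (s_lbo (hA.ch _) (Nat.succ_ne_zero l) _) ?_
    have h2 : (A.C (g.a y)).mn q (mo l) (ch g y p) =
        ((A.fg q).C (g.a y)).mn 0 (mo l) (ch g y p) :=
      Finset.prod_congr (Finset.filter_congr fun i _ =>
        (Nat.pos_iff_ne_zero.trans (Ch.fg_ne _ q i)).symm) fun i hi => by
          have := Nat.pos_iff_ne_zero.1 (Finset.mem_filter.1 hi).2
          rw [((Ch.fg_lab _ q this i).1 rfl).2]
    rw [h2, Ch.mn_eq _ _ (J := Finset.univ.image fun k : Fin (rk (A.fg q)) => (k : ℕ) + 1)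
      (by simp) (fun i hi => by simpa using rk_spec _ i hi.ne'),
      Finset.prod_image fun _ _ _ _ e => Fin.ext (Nat.succ_injective e)]
    exact Finset.prod_congr rfl fun k _ => by rw [s_lbo (h0.ch _) (Nat.succ_ne_zero k)]; rfl

theorem stMainL_of (hS : StStartL) (hI : PINIT) (hR : PREF) (hB : PBL) (hP : POUT)
    (h1 : StDestack) (h2 : StTotD) (h3 : StPosD) (h4 : StDesc) (h5 : StRoot) (h6 : StInt) :
    StMainL := by
  intro S n K q B hn hd hK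
  have : Nonempty (Fin n) := ⟨⟨0, hn⟩⟩
  obtain ⟨O, hO, A, a0, a1, a2, a3, a4, a5⟩ := hS S n K q B hd hK
  obtain ⟨A₁, m, F, r, b1, b2, b3, b4⟩ := stNewF _ S.X _ A S.Γ S.XO S.nm a1 a2 fun a u _ => by
    obtain ⟨γ, hγ⟩ := S.cover ((A.C a).π u)
    refine ⟨S.m γ, S.f γ, ?_⟩
    filter_upwards [(S.isOpen γ).mem_nhds hγ] with x hx
    exact ⟨fun k => S.hol γ k x hx, fun h => not_forall.1 fun e => h (.inl ((S.zero γ x hx).2 e)),
      ⟨γ, hx⟩, fun γ' h' => S.cpb γ' γ x h' hx⟩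
  have b5 : ((A₁.fg q).withF m F).Tot S.XO S.nm 0 := fun a u hu γ hγ => by
    simpa only [Ch.mon, Pi.zero_apply, Real.rpow_zero, Finset.prod_const_one] using! b3 a u hu γ hγ
  have b6 : ((A₁.withF m F).fg q).Ok (S.gl O hO) :=
    (stRef _ _ _ _ _ a3 (r.fg q)).withF b2 (fun a => (b1.ch a).anF) S.cover b5
  have b7 : Pos (S.gl O hO) ((A₁.withF m F).fg q) :=
    (hR _ _ _ _ _ a3 (r.fg q) (MH.pos_start hI a3 hd a4)).withF m F
  obtain ⟨A₂, s, c1, c2⟩ := resolve_unitQ stRef stBl (stInvs stSig) (q + 1) b1 b4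
  obtain ⟨t, mo, c3⟩ := s.fg (β₀ := S.gl O hO) (mo := 0) S.cover (fun γ x hx e =>
    (S.zero γ x hx).2 fun k => norm_le_zero_iff.1 ((Finset.single_le_sum
      (f := fun k => ‖S.f γ k x‖) (fun _ _ => norm_nonneg _) (Finset.mem_univ k)).trans e))
    b2 b6 (fun _ => le_rfl) b5 (a5.ref r b2 :)
  obtain ⟨ex, e1, e2⟩ := stTot _ _ _ _ _ _ _ _ _ t (fun _ => le_rfl) b5
  have c4 : A₂.Full := (stInvs stSig _ _ _ _ _ t).2.1 b2
  have c5 : A₂.Unit := fun a u hu => c2 a u ((c1.ch a).sub hu)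
  obtain ⟨A₃, s', d1, d2⟩ := h1 _ _ _ A₂ (q + 1) ⟨c1, c4, c5⟩
  obtain ⟨t', d3, mo', d4⟩ := s'.fg h4 h5 subset_union_left ⟨t.ok b6, c4, c5⟩ c3
  obtain ⟨ex', e3, e4⟩ := h2 _ _ _ _ _ _ _ _ _ _ t' e1 e2
  obtain ⟨g⟩ := stGlue n S.X _ _ d3.1 d3.2.1 (d2.fg d1.1 d1.2.1 d3.1)
  exact outL h6 a0 d1.1 d1.2.1 d3.1 d3.2.2 e3 e4 (MH.posOut hP d3.1 d3.2.1 d3.2.2 e4
    (h3 _ _ _ _ _ _ t' (b7.steps hR hB stBl t))) d4 g

end Vale.Agent.P277Z.Hir
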