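import Vale.Agent.P277Z.Hir.Loc

/-!
# P277Z, local theory: types from certificates, uniqueness, existence
-/

open Filter Topology Set

set_option linter.unusedSectionVars false

noncomputable section

namespace Vale.Agent.P277Z.Hir

variable {ι : Type} [Fintype ι] [DecidableEq ι]

namespace NzH

theorem fil_zero {E : Type} [NormedAddCommGroup E] [NormedSpace ℂ E] {k : ℕ} {y : ℕ → E → ℂ}
    {ω : ℕ → ℚ} {q : E} (hy : ∀ i < k, y i q = 0) {c : ℚ} {f : E → ℂ} (h : Fil k y ω q c f) :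
    0 < c → f q = 0 := by
  induction h with
  | base h _ => exact fun h' => absurd h (not_le.2 h')
  | zero => exact fun _ => rfl
  | mul i hi _ _ => exact fun _ => by simp only [hy i hi, zero_mul]
  | add _ _ h1 h2 => exact fun h => by simp only [h1 h, h2 h, add_zero]
  | mono h _ h1 => exact fun h' => h1 (h'.trans_le h)
  | congr h _ h1 => exact fun h' => h.self_of_nhds.symm.trans (h1 h')

theorem nrm_nonneg {E κ : Type} [Fintype κ] (F : κ → E → ℂ) (u : E) : 0 ≤ nrm F u :=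
  Finset.sum_nonneg fun _ _ => norm_nonneg _

theorem cmp_of_eq {T : Type} {l : Filter T} {f g : T → ℝ} (h : f =ᶠ[l] g) : Cmp l f g :=
  ⟨1, one_pos, h.mono fun z hz => by rw [hz, one_mul]; exact ⟨le_rfl, le_rfl⟩⟩

theorem cmp_symm {T : Type} {l : Filter T} {f g : T → ℝ} (h : Cmp l f g) : Cmp l g f := by
  obtain ⟨C, hC, h⟩ := h
  exact ⟨C, hC, h.mono fun _ hz => hz.symm⟩

theorem cmp_of_mul {T : Type} {l : Filter T} {f g e : T → ℝ} {r : ℝ} (hr : 0 < r)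
    (he : Tendsto e l (𝓝 r)) (hg : ∀ z, 0 ≤ g z) (h : ∀ᶠ z in l, f z = e z * g z) :
    Cmp l f g := by
  have h1 : ∀ᶠ z in l, r / 2 < e z := he.eventually (lt_mem_nhds (by linarith))
  have h2 : ∀ᶠ z in l, e z < 2 * r := he.eventually (gt_mem_nhds (by linarith))
  have h3 : 0 < 2 / r := by positivity
  refine ⟨2 * r + 2 / r, by positivity, ?_⟩
  filter_upwards [h, h1, h2] with z e1 e2 e3
  rw [e1]
  refine ⟨mul_le_mul_of_nonneg_right (by linarith) (hg z), ?_⟩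
  have h4 : 1 ≤ (2 * r + 2 / r) * e z := by
    have h5 : 2 / r * (r / 2) = 1 := by field_simp
    nlinarith
  nlinarith [hg z]

theorem det_ne_zero {Φ Ψ : W ι → W ι} {q : W ι} (hΦ : AnalyticAt ℂ Φ q)
    (hΨ : AnalyticAt ℂ Ψ (Φ q)) (h : ∀ᶠ u in 𝓝 q, Ψ (Φ u) = u) : (fderiv ℂ Φ q).det ≠ 0 := by
  have h1 := hΨ.differentiableAt.hasFDerivAt.comp q hΦ.differentiableAt.hasFDerivAt
  have h2 : HasFDerivAt (Ψ ∘ Φ) (ContinuousLinearMap.id ℂ (W ι)) q :=
    (hasFDerivAt_id q).congr_of_eventuallyEq h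
  have h3 := congrArg ContinuousLinearMap.det (h1.unique h2)
  intro h0
  have h4 := LinearMap.det_comp (fderiv ℂ Ψ (Φ q)).toLinearMap (fderiv ℂ Φ q).toLinearMap
  rw [ContinuousLinearMap.det] at h0
  rw [h0, mul_zero] at h4
  exact zero_ne_one (h4.symm.trans (h3.trans LinearMap.det_id))

/-- existence of certificates for a non empty set of coordinates -/
def StE' : Prop :=
  ∀ (ι : Type) [Fintype ι] [DecidableEq ι] [Nonempty ι] (nu : ι → ℕ) (_ : Lbl nu) (κ : Type)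
    [Fintype κ] (F : κ → W ι → ℂ) (p : W ι) (_ : ∀ l, nu l ≠ 0 → p l = 0)
    (_ : ∀ a, AnalyticAt ℂ (F a) p) (_ : ∀ a, F a p = 0) (N : Set (W ι)) (_ : N ∈ 𝓝 p),
    ∃ ψ : OpenPartialHomeomorph (W ι) (W ι), IsChg nu ψ ∧ p ∈ ψ.source ∧ ψ.source ⊆ N ∧
      ∃ C : Cert nu ψ.target fun a u => F a (ψ.symm u), ψ p ∈ C.Z

theorem stE' (hE : StE) : StE' := fun ι _ _ _ => hE ι

end NzH

open NzH

variable {nu : ι → ℕ} {κ : Type} {F : κ → W ι → ℂ} {q : W ι}

theorem hasTy_of_cert (hU : StU) (hA : StA) (hL : Lbl nu) {U : Set (W ι)} (C : Cert nu U F)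
    (hq : q ∈ U) (hZ : q ∈ C.Z) : HasTy nu F q C.ty := by
  obtain ⟨-, -, J, h1, h2, -⟩ := hA ι nu hL U κ F C q hq hZ
  exact ⟨⟨J, h1, h2⟩, fun J' h => (hU ι nu hL U κ F C q hq J' h).1⟩

theorem HasTy.unique {τ τ' : Ty} (h : HasTy nu F q τ) (h' : HasTy nu F q τ') : τ = τ' := by
  obtain ⟨J, h1, rfl⟩ := h.1
  obtain ⟨J', h2, rfl⟩ := h'.1
  exact le_antisymm (h'.2 J h1) (h.2 J' h2)

theorem HasTy.zero {τ : Ty} (h : HasTy nu F q τ) (a : κ) : F a q = 0 := by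
  obtain ⟨J, h1, -⟩ := h.1
  exact fil_zero J.van (h1 a) one_pos

theorem le_tyc_zero (τ : Ty) : τ ≤ tyc 0 :=
  Pi.toLex_monotone (a := ofLex τ) fun i => by simp

/-- the zero family has the largest type -/
theorem hasTy_top (h : ∀ a, ∀ᶠ u in 𝓝 q, F a u = 0) : HasTy nu F q (tyc 0) := by
  refine ⟨⟨⟨0, fun _ _ => 0, fun _ => 1, fun _ => none, by simp, by simp, by simp, by simp,
    by simp, by simp, by simp⟩, fun a => ?_, ?_⟩, fun J _ => le_tyc_zero _⟩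
  · exact Fil.congr (f := fun _ => 0) ((h a).mono fun _ e => e.symm) Fil.zero
  · simp [Cen.ty, tyc, mkTy]

/-- the labels of the coordinates which vanish at `q` -/
def fgt (nu : ι → ℕ) (q : W ι) : ι → ℕ := fun l => by
  classical exact if q l = 0 then nu l else 0

theorem fgt_eq {l : ι} (h : q l = 0) : fgt nu q l = nu l := if_pos h

theorem fgt_ne {l : ι} (h : fgt nu q l ≠ 0) : q l = 0 ∧ fgt nu q l = nu l := by
  by_cases e : q l = 0
  · exact ⟨e, fgt_eq e⟩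
  · exact absurd (if_neg e) h

theorem fgt_le (l : ι) : fgt nu q l ≤ nu l := by
  by_cases e : fgt nu q l = 0
  · omega
  · exact (fgt_ne e).2.le

theorem Lbl.fgt_eq (hL : Lbl nu) {l l' : ι} (h : nu l ≠ 0) (e : fgt nu q l' = nu l) : l' = l :=
  hL l l' h ((fgt_ne (e ▸ h)).2.symm.trans e)

theorem Lbl.fgt (hL : Lbl nu) (q : W ι) : Lbl (fgt nu q) := fun _ _ h e =>
  hL.fgt_eq ((fgt_ne h).2 ▸ h) (e.trans (fgt_ne h).2)

theorem hasTy_forget [Fintype κ] (hI : StInv) (hL : Lbl nu) (hF : ∀ a, AnalyticAt ℂ (F a) q)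
    (τ : Ty) : HasTy (fgt nu q) F q τ ↔ HasTy nu F q τ := by
  refine hI ι nu (fgt nu q) hL (hL.fgt q) id q ⟨analyticAt_id, ?_, ?_, ?_, ?_⟩ κ κ F F hF hF
    (cmp_of_eq EventuallyEq.rfl) τ
  · exact det_ne_zero (Ψ := id) analyticAt_id analyticAt_id (Eventually.of_forall fun _ => rfl)
  · intro l l₁ h e
    refine ⟨fun _ => 1, analyticAt_const, one_ne_zero, Eventually.of_forall fun u => ?_⟩
    rw [hL.fgt_eq h e, one_mul, id]
  · exact fun l _ h => ⟨l, fgt_eq h⟩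
  · exact fun l h _ => ⟨l, (fgt_ne h).2.symm⟩

theorem IsChg.lIso (hL : Lbl nu) {ψ : OpenPartialHomeomorph (W ι) (W ι)} (h : IsChg nu ψ)
    (hq : q ∈ ψ.source) : LIso nu nu ψ q := by
  have h1 := ψ.open_source.mem_nhds hq
  refine ⟨h.an q hq, det_ne_zero (h.an q hq) (h.an' _ (ψ.map_source hq)) ?_, ?_,
    fun l _ _ => ⟨l, rfl⟩, fun l _ _ => ⟨l, rfl⟩⟩
  · filter_upwards [h1] with u hu using ψ.left_inv hu
  · intro l l₁ h0 e
    refine ⟨fun _ => 1, analyticAt_const, one_ne_zero, ?_⟩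
    filter_upwards [h1] with u hu
    rw [hL l l₁ h0 e, one_mul, h.div u hu l h0]

theorem IsChg.an_comp {ψ : OpenPartialHomeomorph (W ι) (W ι)} (h : IsChg nu ψ)
    (hq : q ∈ ψ.source) {f : W ι → ℂ} (hf : AnalyticAt ℂ f q) :
    AnalyticAt ℂ (fun u => f (ψ.symm u)) (ψ q) :=
  AnalyticAt.fun_comp_of_eq hf (h.an' _ (ψ.map_source hq)) (ψ.left_inv hq)

/-- the type of a certificate in a chart -/
theorem hasTy_of_chg [Fintype κ] (hU : StU) (hA : StA) (hI : StInv) (hL : Lbl nu)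
    (hF : ∀ a, AnalyticAt ℂ (F a) q) {ψ : OpenPartialHomeomorph (W ι) (W ι)} (h : IsChg nu ψ)
    (hq : q ∈ ψ.source) (C : Cert nu ψ.target fun a u => F a (ψ.symm u)) (hZ : ψ q ∈ C.Z) :
    HasTy nu F q C.ty := by
  refine (hI ι nu nu hL hL ψ q (h.lIso hL hq) κ κ F _ hF (fun a => h.an_comp hq (hF a))
    (cmp_of_eq ?_) _).1 (hasTy_of_cert hU hA hL C (ψ.map_source hq) hZ)
  filter_upwards [ψ.open_source.mem_nhds hq] with u hu
  simp only [nrm, ψ.left_inv hu]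

theorem exists_hasTy [Fintype κ] (hU : StU) (hA : StA) (hE : StE) (hI : StInv) (hL : Lbl nu)
    (hF : ∀ a, AnalyticAt ℂ (F a) q) (h0 : ∀ a, F a q = 0) : ∃ τ, HasTy nu F q τ := by
  cases isEmpty_or_nonempty ι with
  | inl _ =>
    exact ⟨_, hasTy_top fun a => Eventually.of_forall fun u => by
      rw [Subsingleton.elim u q, h0]⟩
  | inr _ =>
    obtain ⟨ψ, h1, h2, -, C, h3⟩ := stE' hE ι (fgt nu q) (hL.fgt q) κ F q
      (fun l h => (fgt_ne h).1) hF h0 univ univ_mem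
    exact ⟨_, (hasTy_forget hI hL hF _).1 (hasTy_of_chg hU hA hI (hL.fgt q) hF h1 h2 C h3)⟩

end Vale.Agent.P277Z.Hir
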