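import Vale.Agent.P277Z.Hir.Loc
import Mathlib.Analysis.Calculus.FDeriv.Pow
import Mathlib.Analysis.Calculus.FDeriv.Mul
import Mathlib.Algebra.Order.Archimedean.Basic

/-!
# P277Z, resolution by weighted blow-ups: lifting of certificates, well ordering of the types
-/

open Filter Topology Set

noncomputable section

namespace Vale.Agent.P277Z.Hir

namespace TH

/-! ### well ordering -/

theorem mark_succ (ω : ℕ → ℚ) (β : ℕ → ℕ) (i : ℕ) :
    mark ω β (i + 1) = mark ω β i - β i * ω i := by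
  unfold mark
  rw [Finset.sum_range_succ]
  ring

theorem fin_marks (ω : ℕ → ℚ) (i : ℕ) (h : ∀ j < i, 0 < ω j) :
    {μ : ℚ | 0 < μ ∧ ∃ β, μ = mark ω β i}.Finite := by
  induction i with
  | zero =>
    refine (Set.finite_singleton (1 : ℚ)).subset ?_
    rintro μ ⟨-, β, rfl⟩
    simp [mark]
  | succ i ih =>
    have hi := h i (Nat.lt_succ_self i)
    have h1 := ih fun j hj => h j (Nat.lt_succ_of_lt hj)
    refine (h1.biUnion fun d _ =>
      (Set.finite_Iic ⌈d / ω i⌉₊).image fun j : ℕ => d - j * ω i).subset ?_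
    rintro μ ⟨hμ, β, rfl⟩
    rw [mark_succ] at hμ ⊢
    have h2 : (0 : ℚ) ≤ β i * ω i := by positivity
    refine mem_biUnion (x := mark ω β i) ⟨by linarith, β, rfl⟩ ⟨β i, ?_, rfl⟩
    have h3 : (β i : ℚ) ≤ mark ω β i / ω i := by rw [le_div_iff₀ hi]; linarith
    have h4 := h3.trans (Nat.le_ceil _)
    exact_mod_cast h4

/-- the weight read off an entry -/
def om (x : Ent) : ℚ := ((ofLex (x.untopD (toLex (0, 0)))).1)⁻¹

theorem om_ent (w : ℚ) (n : ℕ) : om (ent w n) = w := by
  simp [om, ent]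

/-- the possible entries at the place `i` -/
def EntS (ω : ℕ → ℚ) (i : ℕ) : Set Ent :=
  {x | x = ⊤ ∨ ((∀ j < i, 0 < ω j) ∧ ∃ (μ : ℚ) (e n : ℕ), (0 < μ ∧ ∃ β, μ = mark ω β i) ∧
    x = ((toLex ((e : ℚ) / μ, n) : ℚ ×ₗ ℕ) : Ent))}

theorem entS_pwo (ω : ℕ → ℚ) (i : ℕ) : (EntS ω i).IsPWO := by
  by_cases h : ∀ j < i, 0 < ω j
  · have h1 : ∀ μ ∈ {μ : ℚ | 0 < μ ∧ ∃ β, μ = mark ω β i},
        ((fun p : ℕ × ℕ => ((toLex ((p.1 : ℚ) / μ, p.2) : ℚ ×ₗ ℕ) : Ent)) '' univ).IsPWO := by
      rintro μ ⟨hμ, -⟩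
      refine Set.IsPWO.image_of_monotone (Set.isPWO_of_wellQuasiOrderedLE _) ?_
      intro p p' hp
      refine WithTop.coe_le_coe.mpr (Prod.Lex.toLex_mono ⟨?_, hp.2⟩)
      exact div_le_div_of_nonneg_right (by exact_mod_cast hp.1) hμ.le
    have h2 := (Finset.isPWO_bUnion (fin_marks ω i h).toFinset).mpr fun μ hμ =>
      h1 μ ((Set.Finite.mem_toFinset _).mp hμ)
    refine ((Set.isPWO_singleton (⊤ : Ent)).union h2).mono ?_
    rintro x (rfl | ⟨-, μ, e, n, hμ, rfl⟩)
    · exact Or.inl rfl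
    · exact Or.inr (mem_iUnion₂.mpr ⟨μ, (Set.Finite.mem_toFinset _).mpr hμ, (e, n), trivial, rfl⟩)
  · refine (Set.isPWO_singleton (⊤ : Ent)).mono ?_
    rintro x (rfl | ⟨h', -⟩)
    · rfl
    · exact absurd h' h

theorem mem_entS {n : ℕ} {τ : Ty} (hτ : τ ∈ Gam n) (i : ℕ) (ω₀ : ℕ → ℚ)
    (h : ∀ j < i, ω₀ j = om (ofLex τ j)) : ofLex τ i ∈ EntS ω₀ i := by
  obtain ⟨k, ω, lb, -, rfl, hk⟩ := hτ
  by_cases hi : i < k
  · right
    have h1 : ∀ j < i, ω₀ j = ω j := fun j hj => by
      rw [h j hj]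
      simp only [mkTy, ofLex_toLex, if_pos (hj.trans hi), om_ent]
    obtain ⟨hp, β, e, he, hβ⟩ := hk i hi
    have he' : (0 : ℚ) < e := by exact_mod_cast he
    refine ⟨fun j hj => h1 j hj ▸ (hk j (hj.trans hi)).1, e * ω i, e, lb i,
      ⟨by positivity, β, ?_⟩, ?_⟩
    · rw [hβ]
      unfold mark
      congr 1
      exact Finset.sum_congr rfl fun j hj => by rw [h1 j (Finset.mem_range.mp hj)]
    · simp only [mkTy, ofLex_toLex, if_pos hi, ent]
      congr 3
      field_simp
  · left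
    simp only [mkTy, ofLex_toLex, if_neg hi]

theorem entry_le {x y : Ty} (hxy : x ≤ y) (i : ℕ) (h : ∀ j < i, ofLex x j = ofLex y j) :
    ofLex x i ≤ ofLex y i := by
  rcases hxy.lt_or_eq with hlt | rfl
  · obtain ⟨i₀, h1, h2⟩ := hlt
    rcases lt_trichotomy i₀ i with h3 | rfl | h3
    · exact absurd (h i₀ h3) (ne_of_lt h2)
    · exact le_of_lt h2
    · exact le_of_eq (h1 i h3)
  · exact le_rfl

theorem subseq (n : ℕ) (f : ℕ → Ty) (hf : ∀ m, f m ∈ Gam n) (ha : StrictAnti f) (i : ℕ) :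
    ∃ φ : ℕ → ℕ, StrictMono φ ∧ ∀ m m', ∀ j < i, ofLex (f (φ m)) j = ofLex (f (φ m')) j := by
  induction i with
  | zero => exact ⟨id, strictMono_id, fun _ _ j hj => absurd hj (Nat.not_lt_zero j)⟩
  | succ i ih =>
    obtain ⟨φ, hφ, h⟩ := ih
    obtain ⟨g, hg⟩ := (entS_pwo (fun j => om (ofLex (f (φ 0)) j)) i).exists_monotone_subseq
      (f := fun m => ofLex (f (φ m)) i)
      fun m => mem_entS (hf (φ m)) i _ fun j hj => by rw [h 0 m j hj]
    have h0 : ∀ m, ofLex (f (φ (g m))) i = ofLex (f (φ (g 0))) i := fun m =>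
      le_antisymm (entry_le (ha.antitone (hφ.monotone (g.monotone (Nat.zero_le m)))) i
        (h _ _)) (hg (Nat.zero_le m))
    refine ⟨φ ∘ g, hφ.comp g.strictMono, fun m m' j hj => ?_⟩
    rcases Nat.lt_succ_iff_lt_or_eq.mp hj with hj | rfl
    · exact h _ _ j hj
    · exact (h0 m).trans (h0 m').symm

/-! ### lifting -/

variable {ι : Type} [Fintype ι] [DecidableEq ι]

/-- the lift of `s ^ n D` -/
def lift (w : ι → ℕ) (n : ℕ) (D : W ι → W ι) (u : W (Option ι)) : W (Option ι) := fun o =>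
  o.elim 0 fun l => if w l ≤ n then u none ^ (n - w l) * D (pr w u) l else 0

omit [DecidableEq ι] in
theorem an_coord (o : Option ι) (u : W (Option ι)) :
    AnalyticAt ℂ (fun u : W (Option ι) => u o) u :=
  (ContinuousLinearMap.proj (R := ℂ) (φ := fun _ : Option ι => ℂ) o).analyticAt u

omit [DecidableEq ι] in
theorem an_pr (w : ι → ℕ) (u : W (Option ι)) : AnalyticAt ℂ (pr w) u :=
  analyticAt_pi_iff.mpr fun l => ((an_coord none u).pow _).mul (an_coord (some l) u)

omit [DecidableEq ι] in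
theorem an_lift (w : ι → ℕ) (n : ℕ) {D : W ι → W ι} {u : W (Option ι)}
    (hD : AnalyticAt ℂ D (pr w u)) : AnalyticAt ℂ (lift w n D) u := by
  refine analyticAt_pi_iff.mpr fun o => ?_
  cases o with
  | none => exact analyticAt_const
  | some l =>
    by_cases h : w l ≤ n
    · simp only [lift, Option.elim, if_pos h]
      exact ((an_coord none u).pow _).mul
        (analyticAt_pi_iff.mp (hD.comp (an_pr w u)) l)
    · simp only [lift, Option.elim, if_neg h]
      exact analyticAt_const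

omit [DecidableEq ι] in
theorem an_vf {E : Type} [NormedAddCommGroup E] [NormedSpace ℂ E] [CompleteSpace E] {D : E → E}
    {f : E → ℂ} {U : Set E} (hD : AnalyticOnNhd ℂ D U) (hf : AnalyticOnNhd ℂ f U) :
    AnalyticOnNhd ℂ (vf D f) U := fun u hu =>
  ((ContinuousLinearMap.apply ℂ ℂ (E := E)).flip.analyticAt_bilinear _).comp₂
    (hf u hu).fderiv (hD u hu)

omit [DecidableEq ι] in
/-- the derivative of `s ^ a * g` along a vector with `ds = 0` -/
theorem fd_pow_mul (a : ℕ) {g : W (Option ι) → ℂ} {u : W (Option ι)}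
    (hg : DifferentiableAt ℂ g u) (v : W (Option ι)) (hv : v none = 0) :
    fderiv ℂ (fun u => u none ^ a * g u) u v = u none ^ a * fderiv ℂ g u v := by
  have h1 : HasFDerivAt (fun u : W (Option ι) => u none)
      (ContinuousLinearMap.proj (R := ℂ) (φ := fun _ : Option ι => ℂ) none) u :=
    (ContinuousLinearMap.proj (R := ℂ) (φ := fun _ : Option ι => ℂ) none).hasFDerivAt
  have h2 := (h1.pow a).mul hg.hasFDerivAt
  have h3 : fderiv ℂ (fun u => u none ^ a * g u) u = _ := h2.fderiv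
  rw [h3]
  simp [hv]

omit [DecidableEq ι] in
theorem fd_pr (w : ι → ℕ) (u v : W (Option ι)) (hv : v none = 0) (l : ι) :
    fderiv ℂ (pr w) u v l = u none ^ w l * v (some l) := by
  have h1 : fderiv ℂ (pr w) u v l = fderiv ℂ (fun u => pr w u l) u v := by
    rw [fderiv_apply (an_pr w u).differentiableAt]
    rfl
  rw [h1]
  have h2 := fd_pow_mul (w l) (an_coord (some l) u).differentiableAt v hv
  have h3 : fderiv ℂ (fun u : W (Option ι) => u (some l)) u v = v (some l) := by
    have := (ContinuousLinearMap.proj (R := ℂ) (φ := fun _ : Option ι => ℂ)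
      (some l)).hasFDerivAt (x := u)
    have h4 : fderiv ℂ (fun u : W (Option ι) => u (some l)) u = _ := this.fderiv
    rw [h4]
    rfl
  rw [h3] at h2
  exact h2

/-- `g'` is `s ^ (b - ℓ)` times the pull back of `g` -/
structure Rel (w : ι → ℕ) (U : Set (W ι)) (U' : Set (W (Option ι))) (ℓ b : ℕ) (g : W ι → ℂ)
    (g' : W (Option ι) → ℂ) : Prop where
  an : AnalyticOnNhd ℂ g U
  an' : AnalyticOnNhd ℂ g' U'
  eq : ∀ u ∈ U', u none ^ ℓ * g' u = u none ^ b * g (pr w u)

variable {w : ι → ℕ} {U : Set (W ι)} {U' : Set (W (Option ι))} {ℓ : ℕ}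

omit [DecidableEq ι] in
theorem Rel.step (hU' : IsOpen U') (hp : ∀ u ∈ U', pr w u ∈ U) {b : ℕ} {g : W ι → ℂ}
    {g' : W (Option ι) → ℂ} (h : Rel w U U' ℓ b g g') (n : ℕ) {D : W ι → W ι}
    (hD : AnalyticOnNhd ℂ D U) (h0 : ∀ u ∈ U, ∀ l, n < w l → D u l = 0) :
    Rel w U U' ℓ (b + n) (vf D g) (vf (lift w n D) g') := by
  refine ⟨an_vf hD h.an, an_vf (fun u hu => an_lift w n (hD _ (hp u hu))) h.an', fun u hu => ?_⟩
  have h1 : (fun u => u none ^ ℓ * g' u) =ᶠ[𝓝 u] fun u => u none ^ b * (g ∘ pr w) u :=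
    (hU'.eventually_mem hu).mono fun x hx => h.eq x hx
  have hv : lift w n D u none = 0 := rfl
  have hg := (h.an _ (hp u hu)).differentiableAt
  have h2 := fd_pow_mul ℓ (h.an' u hu).differentiableAt _ hv
  have h3 := fd_pow_mul b (hg.comp u (an_pr w u).differentiableAt) _ hv
  rw [h1.fderiv_eq, h3, fderiv_comp u hg (an_pr w u).differentiableAt] at h2
  have h4 : fderiv ℂ (pr w) u (lift w n D u) = (u none ^ n) • D (pr w u) := by
    funext l
    rw [fd_pr w u _ hv]
    by_cases hl : w l ≤ n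
    · simp only [lift, Option.elim, if_pos hl, Pi.smul_apply, smul_eq_mul]
      rw [← mul_assoc, ← pow_add, Nat.add_sub_cancel' hl]
    · simp only [lift, Option.elim, if_neg hl, Pi.smul_apply, smul_eq_mul,
        h0 _ (hp u hu) l (not_le.mp hl), mul_zero]
  rw [ContinuousLinearMap.comp_apply, h4, map_smul, smul_eq_mul] at h2
  unfold vf
  rw [← h2, pow_add, mul_assoc]

omit [DecidableEq ι] in
theorem Rel.iter (hU' : IsOpen U') (hp : ∀ u ∈ U', pr w u ∈ U) {b : ℕ} {g : W ι → ℂ}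
    {g' : W (Option ι) → ℂ} (h : Rel w U U' ℓ b g g') (n : ℕ) {D : W ι → W ι}
    (hD : AnalyticOnNhd ℂ D U) (h0 : ∀ u ∈ U, ∀ l, n < w l → D u l = 0) (j : ℕ) :
    Rel w U U' ℓ (b + j * n) ((vf D)^[j] g) ((vf (lift w n D))^[j] g') := by
  induction j with
  | zero => simpa using h
  | succ j ih =>
    rw [Function.iterate_succ_apply', Function.iterate_succ_apply', Nat.succ_mul, ← add_assoc]
    exact ih.step hU' hp n hD h0

omit [DecidableEq ι] in
theorem Rel.foldr (hU' : IsOpen U') (hp : ∀ u ∈ U', pr w u ∈ U) {b : ℕ} {g : W ι → ℂ}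
    {g' : W (Option ι) → ℂ} (h : Rel w U U' ℓ b g g') (n : ℕ) (L : List (W ι → W ι))
    (hL : ∀ D ∈ L, AnalyticOnNhd ℂ D U ∧ ∀ u ∈ U, ∀ l, n < w l → D u l = 0) :
    Rel w U U' ℓ (b + L.length * n) (L.foldr vf g) ((L.map (lift w n)).foldr vf g') := by
  induction L with
  | nil => simpa using h
  | cons D L ih =>
    rw [List.map_cons, List.foldr_cons, List.foldr_cons, List.length_cons, Nat.succ_mul,
      ← add_assoc]
    exact (ih fun D' hD' => hL D' (List.mem_cons_of_mem _ hD')).step hU' hp n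
      (hL D List.mem_cons_self).1 (hL D List.mem_cons_self).2

omit [Fintype ι] in
/-- cancellation of `s ^ ℓ` -/
theorem cancel (hU' : IsOpen U') {φ ψ : W (Option ι) → ℂ} {u : W (Option ι)} (hu : u ∈ U')
    (hφ : ContinuousAt φ u) (hψ : ContinuousAt ψ u)
    (h : ∀ u' ∈ U', (∀ l, u' (some l) = u (some l)) → u' none ^ ℓ * φ u' = u' none ^ ℓ * ψ u') :
    φ u = ψ u := by
  have hc : Continuous fun t : ℂ => Function.update u none t :=
    continuous_const.update none continuous_id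
  have ht : Tendsto (fun t : ℂ => Function.update u none t) (𝓝[≠] (u none)) (𝓝 u) := by
    have := hc.tendsto (u none)
    rw [Function.update_eq_self] at this
    exact this.mono_left nhdsWithin_le_nhds
  have h0 : ∀ᶠ t in 𝓝[≠] (u none), t ≠ 0 := by
    by_cases hz : u none = 0
    · rw [hz]; exact self_mem_nhdsWithin
    · exact nhdsWithin_le_nhds (isOpen_ne.eventually_mem hz)
  refine tendsto_nhds_unique_of_eventuallyEq (hφ.tendsto.comp ht) (hψ.tendsto.comp ht) ?_
  filter_upwards [h0, ht (hU'.mem_nhds hu)] with t ht0 htU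
  have := h (Function.update u none t) htU fun l =>
    Function.update_of_ne (Option.some_ne_none l) _ _
  rw [Function.update_self] at this
  exact mul_left_cancel₀ (pow_ne_zero _ ht0) this

variable {nu : ι → ℕ} {κ : Type} {F : κ → W ι → ℂ}

omit [DecidableEq ι] in
theorem om_anti (C : Cert nu U F) {i j : ℕ} (hij : i ≤ j) (hj : j < C.k) : C.ω j ≤ C.ω i := by
  have h := C.sorted i j hij hj
  unfold ent at h
  have h1 := Prod.Lex.toLex_le_toLex.mp (WithTop.coe_le_coe.mp h)
  have h2 : (C.ω i)⁻¹ ≤ (C.ω j)⁻¹ := h1.elim le_of_lt fun h => h.1.le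
  exact (inv_le_inv₀ (C.pos i (hij.trans_lt hj)) (C.pos j hj)).mp h2

theorem big (C : Cert nu U F) (hw : C.Wt ℓ w) {i : ℕ} (hi : i < C.k) {l : ι}
    (hl : w (C.m i) < w l) : ∃ j < i, l = C.m j := by
  by_contra hcon
  push Not at hcon
  by_cases h : ∀ j < C.k, C.m j ≠ l
  · have := hw.2 l h
    omega
  · push Not at h
    obtain ⟨j, hj, rfl⟩ := h
    have hij : i ≤ j := not_lt.mp fun h => hcon j h rfl
    have h1 : (w (C.m j) : ℚ) ≤ w (C.m i) := by
      rw [hw.1 i hi, hw.1 j hj]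
      exact mul_le_mul_of_nonneg_left (om_anti C hij hj) (Nat.cast_nonneg _)
    have h2 : w (C.m j) ≤ w (C.m i) := by exact_mod_cast h1
    omega

theorem rel_der (C : Cert nu U F) (hw : C.Wt ℓ w) (hU' : IsOpen U') (hp : ∀ u ∈ U', pr w u ∈ U)
    {g : W ι → ℂ} {g' : W (Option ι) → ℂ} (h : Rel w U U' ℓ 0 g g') (β : ℕ → ℕ) (i : ℕ)
    (hi : i ≤ C.k) :
    Rel w U U' ℓ (∑ j ∈ Finset.range i, β j * w (C.m j)) (der C.D β i g)
      (der (fun j => lift w (w (C.m j)) (C.D j)) β i g') := by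
  induction i with
  | zero => simpa [der] using h
  | succ i ih =>
    rw [Finset.sum_range_succ]
    refine (ih (Nat.le_of_succ_le hi)).iter hU' hp _ (C.anD i hi) (fun u hu l hl => ?_) (β i)
    obtain ⟨j, hj, rfl⟩ := big C hw hi hl
    exact C.low i hi j hj u hu

end TH

open TH in
theorem stW : StW := by
  intro n
  refine (Set.isWF_iff_no_descending_seq (s := Gam n)).mpr ?_
  intro f ha hf
  obtain ⟨φ, hφ, h⟩ := subseq n f hf ha n
  have h1 : f (φ 1) = f (φ 0) := by
    apply ofLex.injective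
    funext j
    by_cases hj : j < n
    · exact h 1 0 j hj
    · obtain ⟨k, ω, lb, hk, he, -⟩ := hf (φ 1)
      obtain ⟨k', ω', lb', hk', he', -⟩ := hf (φ 0)
      have h2 : ¬ j < k := by omega
      have h3 : ¬ j < k' := by omega
      rw [he, he']
      simp only [mkTy, ofLex_toLex, if_neg h2, if_neg h3]
  exact absurd h1 (ne_of_lt (ha (hφ Nat.zero_lt_one)))

theorem Cert.ty_mem {ι : Type} [Fintype ι] [DecidableEq ι] {nu : ι → ℕ} {U : Set (W ι)} {κ : Type}
    {F : κ → W ι → ℂ} (C : Cert nu U F) : C.ty ∈ Gam C.k := by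
  refine ⟨C.k, C.ω, _, le_rfl, rfl, fun i hi => ⟨C.pos i hi, ?_⟩⟩
  obtain ⟨a, β, L, -, h, -⟩ := C.wit i hi
  exact ⟨β, L.length + 1, by omega, by rw [← h]; push_cast; ring⟩

open TH in
theorem stT : StT := by
  intro ι _ _ nu U κ F C ℓ w hw N U' hU' hp F' hF' hFF
  have hR : ∀ a, Rel w U U' ℓ 0 (F a) (F' a) := fun a =>
    ⟨C.anF a, hF' a, fun u hu => by rw [hFF a u hu, pow_zero, one_mul]⟩
  have hz : ∀ (u : W (Option ι)) (l : ι), u (some l) = 0 → pr w u l = 0 := fun u l h => by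
    simp only [pr, h, mul_zero]
  refine ⟨{ k := C.k
            m := fun i => some (C.m i)
            ω := C.ω
            D := fun j => lift w (w (C.m j)) (C.D j)
            isOpen := hU'
            anF := hF'
            inj := fun i hi i' hi' h => C.inj i hi i' hi' (Option.some_injective _ h)
            pos := C.pos
            sorted := C.sorted
            anD := fun i hi u hu => an_lift w _ (C.anD i hi _ (hp u hu))
            one := fun i hi u hu => ?_
            low := fun i hi j hj u hu => ?_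
            tan := fun i hi l hl hne u hu => ?_
            wit := fun i hi => ?_
            fin := fun a β hβ u hu h0 => ?_ }, rfl, rfl, rfl⟩
  · simp only [lift, Option.elim, le_refl, if_true, Nat.sub_self, pow_zero, one_mul]
    exact C.one i hi _ (hp u hu)
  · simp only [lift, Option.elim, C.low i hi j hj _ (hp u hu), mul_zero, ite_self]
  · cases l with
    | none => rfl
    | some l =>
      simp only [lift, Option.elim,
        C.tan i hi l hl (fun h => hne (congrArg some h)) _ (hp u hu), mul_zero, ite_self]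
  · obtain ⟨a, β, L, hL, hm, hg⟩ := C.wit i hi
    have hL' : ∀ D ∈ L, AnalyticOnNhd ℂ D U ∧ ∀ u ∈ U, ∀ l, w (C.m i) < w l → D u l = 0 := by
      intro D hD
      refine ⟨(hL D hD).1, fun u hu l hl => ?_⟩
      obtain ⟨j, hj, rfl⟩ := big C hw hi hl
      exact (hL D hD).2 j hj u hu
    have h1 := (rel_der C hw hU' hp (hR a) β i hi.le).foldr hU' hp (w (C.m i)) L hL'
    have h2 := h1.step hU' hp (w (C.m i)) (C.anD i hi) fun u hu l hl => by
      obtain ⟨j, hj, rfl⟩ := big C hw hi hl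
      exact C.low i hi j hj u hu
    have hs : ∑ j ∈ Finset.range i, β j * w (C.m j) + L.length * w (C.m i) + w (C.m i) = ℓ := by
      have h3 : ((∑ j ∈ Finset.range i, β j * w (C.m j) : ℕ) : ℚ) =
          ℓ * ∑ j ∈ Finset.range i, (β j : ℚ) * C.ω j := by
        push_cast
        rw [Finset.mul_sum]
        refine Finset.sum_congr rfl fun j hj => ?_
        rw [hw.1 j ((Finset.mem_range.mp hj).trans hi)]
        ring
      have h4 : ((∑ j ∈ Finset.range i, β j * w (C.m j) + L.length * w (C.m i) + w (C.m i) : ℕ) :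
          ℚ) = ℓ := by
        rw [Nat.cast_add, Nat.cast_add, h3, Nat.cast_mul, hw.1 i hi]
        unfold mark at hm
        linear_combination (ℓ : ℚ) * hm
      exact_mod_cast h4
    refine ⟨a, β, L.map (lift w (w (C.m i))), fun δ hδ => ?_, by rw [List.length_map]; exact hm,
      fun u hu h0 => ⟨?_, fun hn => ?_⟩⟩
    · obtain ⟨D, hD, rfl⟩ := List.mem_map.mp hδ
      refine ⟨fun u hu => an_lift w _ ((hL D hD).1 _ (hp u hu)), fun j hj u hu => ?_⟩
      simp only [lift, Option.elim, (hL D hD).2 j hj _ (hp u hu), mul_zero, ite_self]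
    · rw [hs] at h2
      rw [cancel (ℓ := ℓ) hU' hu (h2.an' u hu).continuousAt
        ((h2.an _ (hp u hu)).comp (an_pr w u)).continuousAt fun u' hu' _ => h2.eq u' hu']
      exact (hg _ (hp u hu) fun j hj => hz u _ (h0 j hj)).1
    · refine cancel (ℓ := ℓ) hU' hu (h1.an' u hu).continuousAt
        (an_coord (some (C.m i)) u).continuousAt fun u' hu' he => ?_
      rw [h1.eq u' hu', (hg _ (hp u' hu') fun j hj => hz u' _ ((he _).trans (h0 j hj))).2 hn]
      conv_rhs => rw [← hs, pow_add, mul_assoc]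
      rfl
  · have h1 := rel_der C hw hU' hp (hR a) β C.k le_rfl
    refine cancel (ℓ := ℓ) (ψ := fun _ => 0) hU' hu (h1.an' u hu).continuousAt
      continuousAt_const fun u' hu' he => ?_
    rw [h1.eq u' hu', C.fin a β hβ _ (hp u' hu') fun j hj => hz u' _ ((he _).trans (h0 j hj)),
      mul_zero, mul_zero]

end Vale.Agent.P277Z.Hir
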