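import Vale.Agent.P277Z.Hir.U
import Vale.Agent.P277Z.Hir.A
import Vale.Agent.P277Z.Hir.T
import Vale.Agent.P277Z.Hir.I
import Vale.Agent.P277Z.Hir.C
import Vale.Agent.P277Z.Hir.LF
import Vale.Agent.P277Z.Hir.LB

/-!
# P277Z, resolution: slice charts of the weighted blow-up
-/

open Filter Topology Set Function

noncomputable section

namespace Vale.Agent.P277Z.Hir

/-- pull back of weak centres -/
theorem WCen.pull {ι ι' : Type} [Fintype ι] [DecidableEq ι] [Fintype ι'] [DecidableEq ι']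
    {nu : ι → ℕ} {nu' : ι' → ℕ} {r : W ι' → W ι} {q' : W ι'} {q : W ι} (hr : AnalyticAt ℂ r q')
    (hq : r q' = q) (J : WCen nu q)
    (hμ : ∀ l, nu l ≠ 0 → q l = 0 → ∃ l', nu' l' = nu l ∧ q' l' = 0 ∧
      ∃ e : W ι' → ℂ, AnalyticAt ℂ e q' ∧ ∀ᶠ u in 𝓝 q', r u l = e u * u l') :
    ∃ J' : WCen nu' q', J'.ty = J.ty ∧
      ∀ c f, Fil J.k J.y J.ω q c f → Fil J'.k J'.y J'.ω q' c fun u => f (r u) := by
  subst hq
  have a0 : ∀ i, ∃ o : Option ι', i < J.k → (J.lab i = none → o = none) ∧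
      ∀ l, J.lab i = some l → ∃ l', o = some l' ∧ nu' l' = nu l ∧ q' l' = 0 ∧
        ∃ e : W ι' → ℂ, AnalyticAt ℂ e q' ∧ ∀ᶠ u in 𝓝 q', r u l = e u * u l' := by
    intro i
    by_cases hi : i < J.k
    · rcases hl : J.lab i with _ | l
      · exact ⟨none, fun _ => ⟨fun _ => rfl, fun l h => by cases h⟩⟩
      · obtain ⟨b1, b2⟩ := J.div i hi l hl
        have b3 := J.van i hi
        rw [b2] at b3
        obtain ⟨l', h⟩ := hμ l b1 b3
        exact ⟨some l', fun _ => ⟨fun h => (by cases h), fun l₁ h1 => ⟨l', rfl, by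
          cases h1; exact h⟩⟩⟩
    · exact ⟨none, fun h => absurd h hi⟩
  choose μ hμ' using a0
  have a2 : ∀ i < J.k, (μ i).elim 0 nu' = (J.lab i).elim 0 nu := fun i hi => by
    rcases hl : J.lab i with _ | l
    · rw [(hμ' i hi).1 hl]
      rfl
    · obtain ⟨l', h1, h2, -⟩ := (hμ' i hi).2 l hl
      rw [h1]
      exact h2
  refine ⟨⟨J.k, fun i => (μ i).elim (fun u => J.y i (r u)) fun l u => u l, J.ω, μ, J.pos,
    fun i hi => ?_, fun i hi => ?_, fun i hi l hl => ?_, fun i i' h2 h3 => ?_⟩,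
    CH.mkTy_congr _ a2, fun c f => CH.fil_pull hr fun i hi => ?_⟩
  · rcases μ i with _ | l
    · exact (J.an i hi).comp hr
    · exact an_crd l q'
  · rcases hl : J.lab i with _ | l
    · rw [(hμ' i hi).1 hl]
      exact J.van i hi
    · obtain ⟨l', h1, -, h3, -⟩ := (hμ' i hi).2 l hl
      rw [h1]
      exact h3
  · refine ⟨?_, by rw [hl]; rfl⟩
    rcases hl' : J.lab i with _ | l₁
    · rw [(hμ' i hi).1 hl'] at hl
      cases hl
    · obtain ⟨l', h1, h2, -⟩ := (hμ' i hi).2 l₁ hl'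
      rw [h1] at hl
      cases hl
      rw [h2]
      exact (J.div i hi l₁ hl').1
  · rw [a2 i (by omega), a2 i' h3]
    exact J.sorted i i' h2 h3
  · rcases hl : J.lab i with _ | l
    · refine ⟨fun _ => 1, analyticAt_const, .of_forall fun u => ?_⟩
      simp only [(hμ' i hi).1 hl, Option.elim, one_mul]
    · obtain ⟨l', h1, -, -, e, h4, h5⟩ := (hμ' i hi).2 l hl
      refine ⟨e, h4, h5.mono fun u hu => ?_⟩
      simp only [h1, Option.elim, (J.div i hi l hl).2, hu]

variable {ι : Type} [Fintype ι] [DecidableEq ι]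

open L (sl)

set_option linter.unusedSectionVars false

namespace SH

/-- the embedding of the slice -/
def emb (i : ι) (z : W ι) : W (Option ι) := fun o => o.elim (z i) fun l => if l = i then 1 else z l

/-- the root -/
def rt (w : ι → ℕ) (i : ι) (u : W (Option ι)) : ℂ := u (some i) ^ ((w i : ℂ)⁻¹)

/-- the retraction onto the slice -/
def re (w : ι → ℕ) (i : ι) (u : W (Option ι)) : W ι :=
  fun l => if l = i then rt w i u * u none else (rt w i u ^ w l)⁻¹ * u (some l)

theorem pr_em (w : ι → ℕ) (i : ι) (z : W ι) : pr w (emb i z) = sl w i z := by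
  funext l
  by_cases h : l = i <;> simp [pr, emb, sl, h]

theorem rt_em (w : ι → ℕ) (i : ι) (z : W ι) : rt w i (emb i z) = 1 := by simp [rt, emb]

theorem re_em (w : ι → ℕ) (i : ι) (z : W ι) : re w i (emb i z) = z := by
  funext l
  by_cases h : l = i
  · simp [re, rt_em, h, emb]
  · simp [re, rt_em, h, emb]

theorem an_em (i : ι) (z : W ι) : AnalyticAt ℂ (emb i) z := by
  refine analyticAt_pi_iff.2 fun o => ?_
  rcases o with _ | l
  · exact an_crd i z
  · by_cases h : l = i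
    · simpa [emb, h] using analyticAt_const
    · simpa [emb, h] using an_crd l z

theorem an_rt (w : ι → ℕ) (i : ι) (z : W ι) : AnalyticAt ℂ (rt w i) (emb i z) :=
  (an_crd (some i) _).cpow analyticAt_const (by simp [emb])

theorem an_re (w : ι → ℕ) (i : ι) (z : W ι) : AnalyticAt ℂ (re w i) (emb i z) := by
  refine analyticAt_pi_iff.2 fun l => ?_
  by_cases h : l = i
  · simp only [re, h, if_true]
    exact (an_rt w i z).mul (an_crd none _)
  · simp only [re, h, if_false]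
    exact (((an_rt w i z).pow (w l)).inv (by simp [rt_em])).mul (an_crd (some l) _)

theorem sl_re {w : ι → ℕ} {i : ι} (hi : w i ≠ 0) {u : W (Option ι)} (hu : rt w i u ≠ 0) :
    sl w i (re w i u) = pr w u := by
  have h1 : rt w i u ^ w i = u (some i) := Complex.cpow_nat_inv_pow _ hi
  funext l
  by_cases h : l = i
  · simp only [sl, re, pr, h, if_true, mul_pow, h1]
    ring
  · simp only [sl, re, pr, h, if_true, if_false, mul_pow]
    field_simp

theorem an_sl (w : ι → ℕ) (i : ι) (z : W ι) : AnalyticAt ℂ (sl w i) z := by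
  have : sl w i = fun z => pr w (emb i z) := funext fun z => (pr_em w i z).symm
  rw [this]
  exact (LFH.an_pr w _).comp (an_em i z)

theorem neBot (i : ι) (z : W ι) : (𝓝[{u : W ι | u i ≠ 0}] z).NeBot := by
  rw [← mem_closure_iff_nhdsWithin_neBot]
  have h : Tendsto (fun s : ℂ => update z i s) (𝓝[≠] (z i)) (𝓝 z) := by
    have h1 : Continuous fun s : ℂ => update z i s := continuous_const.update i continuous_id
    have h2 := h1.tendsto (z i)
    rw [update_eq_self] at h2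
    exact h2.mono_left nhdsWithin_le_nhds
  by_cases h0 : z i = 0
  · refine mem_closure_of_tendsto h ?_
    filter_upwards [self_mem_nhdsWithin] with s hs
    simpa [h0] using hs
  · exact subset_closure h0

/-- local quotients by a power of a coordinate glue -/
theorem glue {U : Set (W ι)} (i : ι) (n : ℕ) {f : W ι → ℂ}
    (h : ∀ z ∈ U, ∃ g, AnalyticAt ℂ g z ∧ ∀ᶠ u in 𝓝 z, f u = u i ^ n * g u) :
    ∃ g : W ι → ℂ, AnalyticOnNhd ℂ g U ∧ ∀ z ∈ U, f z = z i ^ n * g z := by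
  let G : W ι → ℂ := fun z => limUnder (𝓝[{u : W ι | u i ≠ 0}] z) fun u => f u / u i ^ n
  have key : ∀ z g, AnalyticAt ℂ g z → (∀ᶠ u in 𝓝 z, f u = u i ^ n * g u) → G z = g z := by
    intro z g hg he
    have := neBot i z
    refine Tendsto.limUnder_eq ?_
    refine (hg.continuousAt.tendsto.mono_left nhdsWithin_le_nhds).congr' ?_
    filter_upwards [self_mem_nhdsWithin, he.filter_mono nhdsWithin_le_nhds] with u h1 h2
    have h3 : u i ^ n ≠ 0 := pow_ne_zero _ h1
    rw [h2]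
    field_simp
  refine ⟨G, fun z hz => ?_, fun z hz => ?_⟩
  · obtain ⟨g, hg, he⟩ := h z hz
    refine hg.congr ?_
    filter_upwards [hg.eventually_analyticAt, he.eventually_nhds] with u h1 h2
    exact (key u g h1 h2).symm
  · obtain ⟨g, hg, he⟩ := h z hz
    rw [key z g hg he]
    exact he.self_of_nhds

end SH

open SH

variable {nu : ι → ℕ} {U : Set (W ι)} {κ : Type} {F : κ → W ι → ℂ}

theorem Cert.exists_of_wt (C : Cert nu U F) {ℓ : ℕ} {w : ι → ℕ} (hw : C.Wt ℓ w) {l : ι}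
    (hl : w l ≠ 0) : ∃ j < C.k, C.m j = l := by
  by_contra h
  exact hl (hw.2 l fun j hj e => h ⟨j, hj, e⟩)

theorem Cert.wt_ne (C : Cert nu U F) {ℓ : ℕ} {w : ι → ℕ} (hw : C.Wt ℓ w) (hℓ : ℓ ≠ 0) {j : ℕ}
    (hj : j < C.k) : w (C.m j) ≠ 0 := by
  intro h
  have h1 := hw.1 j hj
  rw [h] at h1
  have h2 : (0 : ℚ) < ℓ * C.ω j := mul_pos (by positivity) (C.pos j hj)
  rw [← h1] at h2
  simp at h2

theorem Cert.mem_Z (C : Cert nu U F) {ℓ : ℕ} {w : ι → ℕ} (hw : C.Wt ℓ w) (hℓ : ℓ ≠ 0) {u : W ι} :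
    u ∈ C.Z ↔ ∀ l, w l ≠ 0 → u l = 0 := by
  refine ⟨fun h l hl => ?_, fun h j hj => h _ (C.wt_ne hw hℓ hj)⟩
  obtain ⟨j, hj, rfl⟩ := C.exists_of_wt hw hl
  exact h j hj

/-- the type drops on a slice chart -/
theorem dropS [Finite κ] (hL : Lbl nu) {N : ℕ} (hN : ∀ l, nu l ≠ N) (C : Cert nu U F) {ℓ : ℕ}
    {w : ι → ℕ} (hw : C.Wt ℓ w) {i : ι} (hi : w i ≠ 0) {z : W ι} (hz : sl w i z ∈ U)
    {G : κ → W ι → ℂ} (hG : ∀ a, AnalyticAt ℂ (G a) z)
    (hGe : ∀ a, ∀ᶠ u in 𝓝 z, F a (sl w i u) = u i ^ ℓ * G a u)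
    (J : WCen (update nu i N) z) (hJ : J.Adm G) : J.ty < C.ty := by
  have _ := hL
  let F' : κ → W (Option ι) → ℂ := fun a u => rt w i u ^ ℓ * G a (re w i u)
  have hre : Tendsto (re w i) (𝓝 (emb i z)) (𝓝 z) := by
    have := (an_re w i z).continuousAt.tendsto
    rwa [re_em] at this
  have hrt : ∀ᶠ u in 𝓝 (emb i z), rt w i u ≠ 0 :=
    (an_rt w i z).continuousAt.eventually_ne (by simp [rt_em])
  have hF' : ∀ a, AnalyticAt ℂ (F' a) (emb i z) := fun a =>
    ((an_rt w i z).pow ℓ).mul ((hG a).comp_of_eq (an_re w i z) (re_em w i z))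
  have h1 : ∀ᶠ u in 𝓝 (emb i z), pr w u ∈ U ∧ ∀ a, AnalyticAt ℂ (F' a) u ∧
      u none ^ ℓ * F' a u = F a (pr w u) := by
    refine Eventually.and ?_ (eventually_all.2 fun a => (hF' a).eventually_analyticAt.and ?_)
    · exact (LFH.an_pr w _).continuousAt.eventually
        (C.isOpen.mem_nhds (by rwa [pr_em]))
    · filter_upwards [hre.eventually (hGe a), hrt] with u h2 h3
      rw [← sl_re hi h3, h2]
      simp only [F', re, if_true, mul_pow]
      ring
  obtain ⟨U', h2, h3, h4⟩ := eventually_nhds_iff.1 h1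
  obtain ⟨C', c1, c2, c3⟩ := stT ι nu U κ F C ℓ w hw N U' h3 (fun u hu => (h2 u hu).1) F'
    (fun a u hu => ((h2 u hu).2 a).1) fun a u hu => ((h2 u hu).2 a).2
  have hty : C'.ty = C.ty := by
    simp only [Cert.ty, c1, c2, c3]
    rfl
  obtain ⟨J', b1, b2⟩ := WCen.pull (nu' := nuO nu N) (an_re w i z) (re_em w i z) J (by
    intro l hl h0
    by_cases h : l = i
    · subst h
      exact ⟨none, by simp [nuO], h0, rt w l, an_rt w l z, .of_forall fun u => by simp [re]⟩
    · refine ⟨some l, by simp [nuO, update_of_ne h], by simpa [emb, h] using h0,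
        fun u => (rt w i u ^ w l)⁻¹, ((an_rt w i z).pow (w l)).inv (by simp [rt_em]),
        .of_forall fun u => by simp [re, h]⟩)
  have b3 : J'.Adm F' := fun a => (b2 _ _ (hJ a)).cmul ((an_rt w i z).pow ℓ)
  obtain ⟨d1, d2⟩ := weakU C' h4 J' b3
  rw [b1, hty] at d1 d2
  refine lt_of_le_of_ne d1 fun e => ?_
  obtain ⟨j, hj, e1⟩ := C.exists_of_wt hw hi
  have := (d2 e).1 j (by omega)
  rw [c3] at this
  simp [emb, e1] at this

/-- growth of the elements of the filtration, for integral weights -/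
theorem Cert.le_of_fil (C : Cert nu U F) {ℓ : ℕ} {w : ι → ℕ} (hw : C.Wt ℓ w) (hℓ : ℓ ≠ 0)
    {q : W ι} {c : ℚ} {f : W ι → ℂ} (h : Fil C.k (crd C.m) C.ω q c f) :
    L.Le id (fun l => (w l : ℚ)) f (ℓ * c) q := by
  induction h with
  | base hc h =>
    exact L.Le.of_cont h.continuousAt (mul_nonpos_of_nonneg_of_nonpos (by positivity) hc)
  | zero => exact L.Le.zero
  | mul i hi _ ih =>
    have h1 : L.Le id (fun l => (w l : ℚ)) (crd C.m i) (w (C.m i)) q :=
      L.Le.coord (y := id) (w := fun l => (w l : ℚ)) (i := C.m i)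
        (by exact_mod_cast C.wt_ne hw hℓ hi)
    refine (h1.mul ih).mono (le_of_eq ?_)
    rw [hw.1 i hi]
    ring
  | add _ _ h1 h2 => exact h1.add h2
  | mono hc _ ih => exact ih.mono (mul_le_mul_of_nonneg_left hc (by positivity))
  | congr he _ ih => exact ih.congr he

/-- the weak transforms on a slice chart -/
theorem divS (hL : Lbl nu) (C : Cert nu U F) {ℓ : ℕ} {w : ι → ℕ} (hw : C.Wt ℓ w) (hℓ : ℓ ≠ 0)
    {i : ι} (hi : w i ≠ 0) (a : κ) : ∃ G : W ι → ℂ, AnalyticOnNhd ℂ G (sl w i ⁻¹' U) ∧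
      ∀ z, sl w i z ∈ U → F a (sl w i z) = z i ^ ℓ * G z := by
  refine glue (U := sl w i ⁻¹' U) i ℓ fun z hz => ?_
  have h1 : AnalyticAt ℂ (fun u => F a (sl w i u)) z := (C.anF a _ hz).comp (an_sl w i z)
  by_cases h0 : z i = 0
  · have hZ : sl w i z ∈ C.Z := (C.mem_Z hw hℓ).2 fun l hl => by
      by_cases h : l = i <;> simp [sl, h, h0, hl, hi]
    obtain ⟨G', g1, g2⟩ := stL ι Empty C.k C.m C.ω C.inj C.pos ℓ w hw.1 1 ℓ (by simp)
      (fun p => F a p.2) 0 (emb i z) (by rw [pr_em]; exact hZ)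
      (by rw [pr_em]; exact (C.anF a _ hz).comp_of_eq analyticAt_snd rfl) (by
        rw [pr_em]
        filter_upwards [continuousAt_snd.eventually (C.isOpen.mem_nhds hz)] with p hp h2
        exact (stA ι nu hL U κ F C _ hp h2).1 a)
    have h3 : AnalyticAt ℂ (fun u : W ι => ((0 : W Empty), emb i u)) z :=
      analyticAt_const.prod (an_em i z)
    refine ⟨fun u => G' (0, emb i u), g1.comp_of_eq h3 rfl, ?_⟩
    filter_upwards [h3.continuousAt.eventually g2] with u hu
    rw [← pr_em]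
    exact hu
  · refine ⟨fun u => (u i ^ ℓ)⁻¹ * F a (sl w i u),
      (((an_crd i z).pow ℓ).inv (pow_ne_zero _ h0)).mul h1, ?_⟩
    filter_upwards [(an_crd i z).continuousAt.eventually_ne h0] with u hu
    field_simp

end Vale.Agent.P277Z.Hir
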