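import Vale.Agent.P277Z.Hir.FilB

/-!
# P277Z, resolution: maximality and uniqueness of the certified centre
-/

open Filter Topology Set Function

noncomputable section

namespace Vale.Agent.P277Z.Hir

/-- a centre without the independence conditions -/
structure WCen {ι : Type} [Fintype ι] (nu : ι → ℕ) (q : W ι) where
  k : ℕ
  y : ℕ → W ι → ℂ
  ω : ℕ → ℚ
  lab : ℕ → Option ι
  pos : ∀ i < k, 0 < ω i
  an : ∀ i < k, AnalyticAt ℂ (y i) q
  van : ∀ i < k, y i q = 0
  div : ∀ i < k, ∀ l, lab i = some l → nu l ≠ 0 ∧ y i = fun u => u l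
  sorted : ∀ i i', i ≤ i' → i' < k →
    ent (ω i) ((lab i).elim 0 nu) ≤ ent (ω i') ((lab i').elim 0 nu)

/-- the type -/
def WCen.ty {ι : Type} [Fintype ι] {nu : ι → ℕ} {q : W ι} (J : WCen nu q) : Ty :=
  mkTy J.k J.ω fun i => (J.lab i).elim 0 nu

/-- admissibility -/
def WCen.Adm {ι : Type} [Fintype ι] {nu : ι → ℕ} {q : W ι} (J : WCen nu q) {κ : Type}
    (F : κ → W ι → ℂ) : Prop :=
  ∀ a, Fil J.k J.y J.ω q 1 (F a)

/-- the underlying weak centre -/
def Cen.weak {ι : Type} [Fintype ι] {nu : ι → ℕ} {q : W ι} (J : Cen nu q) : WCen nu q :=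
  ⟨J.k, J.y, J.ω, J.lab, J.pos, J.an, J.van, J.div, J.sorted⟩

namespace UH

theorem ent_le {w w' : ℚ} {n n' : ℕ} (hw : 0 < w) (hw' : 0 < w') :
    ent w n ≤ ent w' n' ↔ w' < w ∨ (w = w' ∧ n ≤ n') := by
  rw [ent, ent, WithTop.coe_le_coe, Prod.Lex.toLex_le_toLex]
  simp only [inv_lt_inv₀ hw hw', inv_inj]

theorem lt_of {a b : ℕ → Ent} (i : ℕ) (h : ∀ j < i, a j = b j) (hi : a i < b i) :
    (toLex a : Ty) < toLex b := ⟨i, h, hi⟩

variable {ι : Type} [Fintype ι] [DecidableEq ι] {nu : ι → ℕ} {U : Set (W ι)} {κ : Type}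
  {F : κ → W ι → ℂ} {q : W ι}

/-- a modification of the centre `J` with the same filtration, which agrees with the certified
centre up to the index `i` -/
structure Good (C : Cert nu U F) (J : WCen nu q) (i : ℕ) (y : ℕ → W ι → ℂ) (lab : ℕ → Option ι) :
    Prop where
  an : ∀ j < J.k, AnalyticAt ℂ (y j) q
  van : ∀ j < J.k, y j q = 0
  div : ∀ j < J.k, ∀ l, lab j = some l → y j = fun u => u l
  lb : ∀ j < J.k, (lab j).elim 0 nu = (J.lab j).elim 0 nu
  nz : ∀ j < J.k, ∀ l, lab j = some l → nu l ≠ 0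
  fil : ∀ c f, Fil J.k y J.ω q c f ↔ Fil J.k J.y J.ω q c f
  le : i ≤ J.k
  eq : ∀ j < i, y j = crd C.m j ∧ J.ω j = C.ω j ∧ (J.lab j).elim 0 nu = nu (C.m j)

theorem anti (J : WCen nu q) {i j : ℕ} (hij : i ≤ j) (hj : j < J.k) : J.ω j ≤ J.ω i := by
  rcases (ent_le (J.pos i (by omega)) (J.pos j hj)).1 (J.sorted i j hij hj) with h | h
  · exact h.le
  · exact h.1.ge

theorem anti' (C : Cert nu U F) {i j : ℕ} (hij : i ≤ j) (hj : j < C.k) : C.ω j ≤ C.ω i := by
  rcases (ent_le (C.pos i (by omega)) (C.pos j hj)).1 (C.sorted i j hij hj) with h | h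
  · exact h.le
  · exact h.1.ge

theorem kills {C : Cert nu U F} (hq : q ∈ U) {J : WCen nu q} {i : ℕ} {y : ℕ → W ι → ℂ}
    {lab : ℕ → Option ι} (G : Good C J i y lab) {n : ℕ} (hn : n ≤ i) {θ : ℚ}
    (hθ : n < J.k → J.ω n ≤ θ) {δ : W ι → W ι} (hδ : ∀ j < n, ∀ u ∈ U, δ u (C.m j) = 0) :
    ∀ j < J.k, θ < J.ω j → vf δ (y j) =ᶠ[𝓝 q] fun _ => 0 := by
  intro j hj h
  have hjn : j < n := by
    by_contra h1
    have h2 := not_lt.1 h1
    exact absurd h (not_lt.2 ((anti J h2 hj).trans (hθ (by omega))))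
  rw [(G.eq j (by omega)).1]
  filter_upwards [C.isOpen.mem_nhds hq] with u hu
  exact (vf_crd δ _ u).trans (hδ j hjn u hu)

theorem fil_der {C : Cert nu U F} (hq : q ∈ U) {J : WCen nu q} (hJ : J.Adm F) {i : ℕ}
    (hi : i ≤ C.k) {y : ℕ → W ι → ℂ} {lab : ℕ → Option ι} (G : Good C J i y lab) (a : κ)
    (β : ℕ → ℕ) : ∀ n ≤ i, Fil J.k y J.ω q (mark C.ω β n) (der C.D β n (F a)) := by
  intro n
  induction n with
  | zero => exact fun _ => by simpa [mark, der] using (G.fil _ _).2 (hJ a)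
  | succ n ih =>
    intro hn
    have h1 := (ih (by omega)).vf_iter (C.pos n (by omega)).le (C.anD n (by omega) q hq) G.an
      (kills hq G (n := n) (by omega) (fun _ => (G.eq n (by omega)).2.1.le)
        (C.low n (by omega))) (β n)
    refine .mono (le_of_eq ?_) h1
    simp only [mark, Finset.sum_range_succ]
    ring

theorem step {C : Cert nu U F} (hq : q ∈ U) {J : WCen nu q} (hJ : J.Adm F) (hn : ¬ J.ty < C.ty)
    {i : ℕ} (hi : i < C.k) {y : ℕ → W ι → ℂ} {lab : ℕ → Option ι} (G : Good C J i y lab) :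
    ∃ y' lab', Good C J (i + 1) y' lab' := by
  have hw := C.pos i hi
  have hent : i < J.k → ent (C.ω i) (nu (C.m i)) ≤ ent (J.ω i) ((J.lab i).elim 0 nu) := by
    intro hik
    by_contra h
    refine hn (lt_of i (fun j hj => ?_) ?_)
    · have := G.eq j hj
      rw [if_pos (by have := G.le; omega), if_pos (by omega), this.2.1]
      exact congrArg _ this.2.2
    · rw [if_pos hik, if_pos hi]
      exact not_le.1 h
  have hv : i < J.k → J.ω i ≤ C.ω i := fun hik => by
    rcases (ent_le hw (J.pos i hik)).1 (hent hik) with h | h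
    · exact h.le
    · exact h.1.ge
  have hq0 : ∀ j < i, q (C.m j) = 0 := fun j hj => by
    have := G.van j (by have := G.le; omega)
    rwa [(G.eq j hj).1] at this
  obtain ⟨a, β, L, hL, hm, hwit⟩ := C.wit i hi
  set g := L.foldr vf (der C.D β i (F a)) with hg
  have hg1 : Fil J.k y J.ω q (C.ω i) g := by
    refine .mono (le_of_eq ?_) ((fil_der hq hJ hi.le G a β i le_rfl).foldr hw.le G.an
      fun δ hδ => ⟨(hL δ hδ).1 q hq, kills hq G le_rfl hv (hL δ hδ).2⟩)
    rw [← hm]
    ring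
  have hlow : ∀ j < i, Fil J.k y J.ω q (C.ω i) fun u => u (C.m j) := fun j hj => by
    have := Fil.gen (y := y) (ω := J.ω) (q := q) (c := C.ω i) (i := j) (k := J.k)
      (by have := G.le; omega) (by rw [(G.eq j hj).2.1]; exact anti' C hj.le hi)
    rwa [(G.eq j hj).1] at this
  have hij : ∀ j, fderiv ℂ (y j) q (C.D i q) ≠ 0 → i ≤ j := fun j hj => by
    by_contra h
    have h := not_le.1 h
    rw [(G.eq j h).1] at hj
    exact hj ((fderiv_crd _ q _).trans (C.low i hi j h q hq))
  have hl : ∀ j < J.k, ∀ l, fderiv ℂ (y j) q (C.D i q) ≠ 0 → lab j = some l → l = C.m i :=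
    fun j hj l h1 h2 => by
      by_contra h3
      rw [G.div j hj l h2] at h1
      exact h1 ((fderiv_crd _ q _).trans (C.tan i hi l (G.nz j hj l h2) h3 q hq))
  -- weights and labels at `i` and at any candidate `j`
  have hc : ∀ j < J.k, C.ω i ≤ J.ω j → fderiv ℂ (y j) q (C.D i q) ≠ 0 →
      J.ω i = C.ω i ∧ J.ω j = C.ω i ∧ (J.lab i).elim 0 nu = nu (C.m i) ∧
        (J.lab j).elim 0 nu = nu (C.m i) := by
    intro j hj h1 h2
    have h3 := hij j h2
    have hik : i < J.k := by omega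
    have e1 : J.ω i = C.ω i := le_antisymm (hv hik) (h1.trans (anti J h3 hj))
    have e2 : J.ω j = C.ω i := le_antisymm ((anti J h3 hj).trans (hv hik)) h1
    have h4 : nu (C.m i) ≤ (J.lab i).elim 0 nu := by
      rcases (ent_le hw (J.pos i hik)).1 (hent hik) with h | h
      · exact absurd h (by rw [e1]; exact lt_irrefl _)
      · exact h.2
    have h5 : (J.lab i).elim 0 nu ≤ (J.lab j).elim 0 nu := by
      rcases (ent_le (J.pos i hik) (J.pos j hj)).1 (J.sorted i j h3 hj) with h | h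
      · exact absurd h (by rw [e1, e2]; exact lt_irrefl _)
      · exact h.2
    have h6 : (J.lab j).elim 0 nu ≤ nu (C.m i) := by
      rw [← G.lb j hj]
      rcases h7 : lab j with _ | l
      · simp
      · rw [hl j hj l h2 h7]
        simp
    exact ⟨e1, e2, by omega, by omega⟩
  have key : ∃ j < J.k, C.ω i ≤ J.ω j ∧ fderiv ℂ (y j) q (C.D i q) ≠ 0 ∧
      Fil J.k (update y j (crd C.m i)) J.ω q (C.ω i) (y j) ∧
      Fil J.k y J.ω q (C.ω i) (crd C.m i) := by
    by_cases h0 : nu (C.m i) = 0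
    · have h1 : Fil J.k y J.ω q (C.ω i) fun u => g u - u (C.m i) := by
        refine Fil.of_vanish C.m hq0 hlow ((hg1.an G.an).sub (an_crd _ q)) ?_
        filter_upwards [C.isOpen.mem_nhds hq] with u hu h2
        rw [(hwit u hu h2).2 h0, sub_self]
      have hx : Fil J.k y J.ω q (C.ω i) (crd C.m i) :=
        .congr (Eventually.of_forall fun u => by simp [crd]) (hg1.sub h1)
      obtain ⟨j, hj, h3, h4, h5⟩ := hx.exch G.an G.van hw (v := C.D i q) (by
        rw [show fderiv ℂ (crd C.m i) q (C.D i q) = 1 from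
          (fderiv_crd _ q _).trans (C.one i hi q hq)]
        exact one_ne_zero)
      exact ⟨j, hj, h3, h4, h5, hx⟩
    · obtain ⟨j, hj, h3, h4, -⟩ := hg1.exch G.an G.van hw (v := C.D i q) (hwit q hq hq0).1
      have h5 := (hc j hj h3 h4).2.2.2
      rw [← G.lb j hj] at h5
      have h6 : y j = crd C.m i := by
        rcases h7 : lab j with _ | l
        · rw [h7] at h5
          exact absurd h5.symm h0
        · rw [G.div j hj l h7, hl j hj l h4 h7]
          rfl
      refine ⟨j, hj, h3, h4, ?_, h6 ▸ Fil.gen hj h3⟩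
      rw [← h6, update_eq_self]
      exact Fil.gen hj h3
  obtain ⟨j, hj, h1, h2, h3, h4⟩ := key
  obtain ⟨e1, e2, e3, e4⟩ := hc j hj h1 h2
  have h5 := hij j h2
  have hik : i < J.k := by omega
  let σ := Equiv.swap i j
  have hσk : ∀ m < J.k, σ m < J.k := fun m hm => by
    simp only [σ, Equiv.swap_apply_def]
    split_ifs <;> omega
  have hσ : ∀ m, J.ω (σ m) = J.ω m := fun m => Equiv.apply_swap_eq_self (e1.trans e2.symm) m
  have hσ' : ∀ m, (J.lab (σ m)).elim 0 nu = (J.lab m).elim 0 nu := fun m =>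
    Equiv.apply_swap_eq_self (v := fun m => (J.lab m).elim 0 nu) (e3.trans e4.symm) m
  refine ⟨update y j (crd C.m i) ∘ σ, lab ∘ σ, fun m hm => ?_, fun m hm => ?_,
    fun m hm l h => ?_, fun m hm => (G.lb _ (hσk m hm)).trans (hσ' m),
    fun m hm l h => G.nz _ (hσk m hm) l h, fun c f => ?_, hik, fun m hm => ?_⟩
  · rw [comp_apply, update_apply]
    split_ifs
    · exact an_crd _ q
    · exact G.an _ (hσk m hm)
  · rw [comp_apply, update_apply]
    split_ifs
    · exact h4.eq_zero (fun j hj _ => G.van j hj) hw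
    · exact G.van _ (hσk m hm)
  · rw [comp_apply, update_apply]
    split_ifs with h6
    · rw [comp_apply, h6] at h
      rw [hl j hj l h2 h]
      rfl
    · exact G.div _ (hσk m hm) l h
  · rw [← G.fil]
    constructor
    · refine Fil.le_of fun m hm => ?_
      rw [comp_apply, update_apply]
      split_ifs with h6
      · rwa [← hσ, h6, e2]
      · exact Fil.gen (hσk m hm) (hσ m).ge
    · intro h
      have h7 : Fil J.k (update y j (crd C.m i)) J.ω q c f := by
        refine h.le_of fun m hm => ?_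
        by_cases h6 : m = j
        · rwa [h6, e2]
        · have := Fil.gen (y := update y j (crd C.m i)) (ω := J.ω) (q := q) hm le_rfl
          rwa [update_of_ne h6] at this
      refine h7.le_of fun m hm => ?_
      have := Fil.gen (y := update y j (crd C.m i) ∘ σ) (ω := J.ω) (q := q) (hσk m hm) (hσ m).ge
      rwa [comp_apply, show σ (σ m) = m from Equiv.swap_apply_self _ _ _] at this
  · rcases (Nat.lt_succ_iff.1 hm).eq_or_lt with rfl | hm
    · exact ⟨by simp [σ], e1, e3⟩
    · refine ⟨?_, (G.eq m hm).2⟩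
      rw [comp_apply, Equiv.swap_apply_of_ne_of_ne (by omega) (by omega),
        update_of_ne (by omega), (G.eq m hm).1]

theorem good {C : Cert nu U F} (hq : q ∈ U) {J : WCen nu q} (hJ : J.Adm F) (hn : ¬ J.ty < C.ty) :
    ∀ i ≤ C.k, ∃ y lab, Good C J i y lab := by
  intro i
  induction i with
  | zero =>
    exact fun _ => ⟨J.y, J.lab, J.an, J.van, fun j hj l h => (J.div j hj l h).2, fun _ _ => rfl,
      fun j hj l h => (J.div j hj l h).1, fun _ _ => Iff.rfl, Nat.zero_le _,
      fun j hj => by omega⟩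
  | succ i ih =>
    intro hi
    obtain ⟨y, lab, G⟩ := ih (by omega)
    exact step hq hJ hn hi G

end UH

open UH in
/-- maximality and uniqueness among weak centres -/
theorem weakU {ι : Type} [Fintype ι] [DecidableEq ι] {nu : ι → ℕ} {U : Set (W ι)} {κ : Type}
    {F : κ → W ι → ℂ} (C : Cert nu U F) {q : W ι} (hq : q ∈ U) (J : WCen nu q) (hJ : J.Adm F) :
    J.ty ≤ C.ty ∧ (J.ty = C.ty → q ∈ C.Z ∧
      ∀ c f, Fil J.k J.y J.ω q c f ↔ Fil C.k (crd C.m) C.ω q c f) := by
  by_cases hn : J.ty < C.ty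
  · exact ⟨hn.le, fun h => absurd h hn.ne⟩
  obtain ⟨y, lab, G⟩ := good hq hJ hn C.k le_rfl
  have hpre : ∀ j < C.k, (if j < J.k then ent (J.ω j) ((J.lab j).elim 0 nu) else ⊤) =
      if j < C.k then ent (C.ω j) (nu (C.m j)) else ⊤ := fun j hj => by
    have := G.eq j hj
    rw [if_pos (by have := G.le; omega), if_pos hj, this.2.1, this.2.2]
  have hk : J.k = C.k := by
    refine le_antisymm (not_lt.1 fun h => hn (lt_of C.k hpre ?_)) G.le
    rw [if_pos h, if_neg (lt_irrefl _)]
    exact WithTop.coe_lt_top _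
  have hty : J.ty = C.ty := by
    refine congrArg toLex (funext fun j => ?_)
    by_cases hj : j < C.k
    · exact hpre j hj
    · rw [if_neg hj, if_neg (by omega)]
  refine ⟨hty.le, fun _ => ⟨fun j hj => ?_, fun c f => ?_⟩⟩
  · have := G.van j (by omega)
    rwa [(G.eq j hj).1] at this
  · rw [← G.fil]
    constructor
    · refine Fil.le_of fun j hj => ?_
      rw [(G.eq j (by omega)).1, (G.eq j (by omega)).2.1]
      exact Fil.gen (by omega) le_rfl
    · refine Fil.le_of fun j hj => ?_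
      rw [← (G.eq j hj).1, ← (G.eq j hj).2.1]
      exact Fil.gen (by omega) le_rfl

theorem stU : StU := fun _ _ _ _ _ _ _ _ C _ hq J hJ => weakU C hq J.weak hJ

end Vale.Agent.P277Z.Hir
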